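import Vale.Agent.P205.Full.Start.Phases

/-!
# P205 full, START A7: the start map from the last spiral and one stage

`StageProp` is applied with `ε = η` to the data of `SpiralProp`, and the bounds are moved to the
fixed frame: `A` is a power of `η⁻¹` fixed before the order of the stage.
-/

open scoped Manifold ContDiff RealInnerProductSpace Topology
open Bundle Filter

noncomputable section

namespace Vale.Agent.P205.Full.Start

section

variable {M : Type} [TopologicalSpace M] [ChartedSpace R2 M] [IsManifold (𝓡 2) ∞ M]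
variable {N P : ℕ} {g : Metric M} {V : Frame M N} {F F' : M → R4} {ℓ H σ : M → ℝ}
variable {L K : ℕ} {B δ η : ℝ}

namespace SpiralData

theorem ℓ_pos (h : SpiralData g V F ℓ H σ L K B δ η) (hη : 0 < η) (x : M) : 0 < ℓ x :=
  (pow_pos hη L).trans_le (h.ℓ_ge x)

theorem H_pos (h : SpiralData g V F ℓ H σ L K B δ η) (hη : 0 < η) (x : M) : 0 < H x :=
  (pow_pos hη L).trans_le (h.H_ge x)

theorem sqrt_σ_le (h : SpiralData g V F ℓ H σ L K B δ η) (hη : 0 < η) (x : M) :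
    Real.sqrt (σ x) ≤ η * Real.sqrt η * H x := by
  refine (Real.sqrt_le_sqrt (h.σ_le x)).trans (le_of_eq ?_)
  rw [show η ^ 3 * H x ^ 2 = (η * Real.sqrt η * H x) ^ 2 by
    rw [mul_pow, mul_pow, Real.sq_sqrt hη.le]; ring]
  exact Real.sqrt_sq (by have := h.H_pos hη x; positivity)

theorem sqrt_σ_div (h : SpiralData g V F ℓ H σ L K B δ η) (hη : 0 < η) (hη1 : η ≤ 1) (x : M) :
    Real.sqrt (σ x) / (η * H x) ≤ Real.sqrt η ∧ Real.sqrt (σ x) ≤ η * B := by
  have hH := h.H_pos hη x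
  refine ⟨?_, (h.sqrt_σ_le hη x).trans ?_⟩
  · rw [div_le_iff₀ (mul_pos hη hH)]
    exact (h.sqrt_σ_le hη x).trans (le_of_eq (by ring))
  · calc η * Real.sqrt η * H x ≤ η * 1 * H x := by
          gcongr
          exact Real.sqrt_le_one.2 hη1
      _ ≤ η * B := by rw [mul_one]; exact mul_le_mul_of_nonneg_left (h.le_H x) hη.le

end SpiralData

/-- The data of one stage from the data of the spiral and phases. -/
theorem stageData_of {K₀ : ℕ} {B₂ : ℝ} {Y χ : Fin P → M → ℝ} (hV : FrameSmooth V) (hη : 0 < η)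
    (h : SpiralData g V F ℓ H σ L K B δ η) (hK : K₀ ≤ K) (hB : B ≤ B₂)
    (hlow : ∀ x v, g.inner x v v ≤ B₂ * ∑ i, g.inner x (V i x) v ^ 2)
    (hup : ∀ x v, ∑ i, g.inner x (V i x) v ^ 2 ≤ B₂ * g.inner x v v)
    (hg : ∀ i k, Bd (scaled ℓ V) K₀ B₂ (fun x => ℓ x ^ 2) (gV g (scaled ℓ V) i k))
    (hY : ∀ p, ContMDiff (𝓡 2) 𝓘(ℝ, ℝ) ∞ (Y p)) (hχ : ∀ p, ContMDiff (𝓡 2) 𝓘(ℝ, ℝ) ∞ (χ p))
    (hbχ : ∀ p, Bd (scaled ℓ V) K₀ B₂ (fun _ => 1) (χ p))
    (hbY : ∀ p i, BdOn (scaled ℓ V) (tsupport (χ p)) K₀ B₂ (fun _ => 1) (D (scaled ℓ V) i (Y p)))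
    (hrich : ∀ x (u : TangentSpace (𝓡 2) x), g.inner x u u = 1 →
      ∃ p, χ p x = 1 ∧ ∀ v : TangentSpace (𝓡 2) x,
        |ℓ x * dR (Y p) x v - g.inner x u v| ≤ 1 / 100 * Real.sqrt (g.inner x v v)) :
    StageData g (scaled ℓ V) F ℓ H σ Y χ K₀ B₂ δ := by
  have hℓ := h.ℓ_pos hη
  have hH := h.H_pos hη
  have hℓH : ∀ x, 0 ≤ ℓ x * H x := fun x => (mul_pos (hℓ x) (hH x)).le
  have hsq : ∀ x v, ∑ i, g.inner x (scaled ℓ V i x) v ^ 2 =
      ℓ x ^ 2 * ∑ i, g.inner x (V i x) v ^ 2 := fun x v => by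
    rw [Finset.mul_sum]
    refine Finset.sum_congr rfl fun i _ => ?_
    simp only [scaled, map_smul, smul_apply, smul_eq_mul]
    ring
  exact
  { smooth_V := frameSmooth_scaled hV h.smooth_ℓ
    smooth_F := h.smooth_F
    smooth_ℓ := h.smooth_ℓ
    smooth_H := h.smooth_H
    smooth_σ := h.smooth_σ
    smooth_Y := hY
    smooth_χ := hχ
    pos_ℓ := hℓ
    pos_H := hH
    le_H := fun x => (h.le_H x).trans hB
    pos_σ := h.pos_σ
    bd_ℓ := (h.bd_ℓ.mono_order hK).mono_const hB fun x _ => (hℓ x).le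
    bd_H := (h.bd_H.mono_order hK).mono_const hB fun x _ => (hH x).le
    bd_σ := (h.bd_σ.mono_order hK).mono_const hB fun x _ => (h.pos_σ x).le
    frame_lower := fun x v => by
      rw [hsq, mul_left_comm]
      exact mul_le_mul_of_nonneg_left (hlow x v) (sq_nonneg _)
    frame_upper := fun x v => by
      rw [hsq, mul_left_comm B₂]
      exact mul_le_mul_of_nonneg_left (hup x v) (sq_nonneg _)
    bd_g := hg
    bd_dF := fun i => ((h.bd_dF i).mono_order hK).mono_const hB fun x _ => (hℓ x).le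
    bd_sff := fun i k => ((h.bd_sff i k).mono_order hK).mono_const hB fun x _ => hℓH x
    sff_lower := fun x => (h.sff_lower x).trans
      (mul_le_mul_of_nonneg_right hB (Finset.sum_nonneg fun i _ =>
        Finset.sum_nonneg fun k _ => norm_nonneg _))
    bd_res := fun i k => (h.bd_res i k).mono_order hK
    bd_χ := hbχ
    bd_dY := hbY
    rich := hrich }

/-- Coordinates against the differential of an almost isometric map. -/
theorem coef_le_dV4 {r Cm : ℝ} {x : M} {F' : M → R4} (hCm : 0 ≤ Cm)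
    (hres : ∀ i k, |gV g V i k x - pullV F' V i k x| ≤ r) (hr : 2 * r * Cm ^ 2 ≤ 1)
    (hcoef : ∀ v, ∃ a : Fin N → ℝ, v = ∑ i, a i • V i x ∧
      ∑ i, |a i| ≤ Cm * Real.sqrt (g.inner x v v)) (v : TangentSpace (𝓡 2) x) :
    ∃ a : Fin N → ℝ, v = ∑ i, a i • V i x ∧ ∑ i, |a i| ≤ 2 * Cm * ‖dV4 F' x v‖ := by
  obtain ⟨a, ha, hab⟩ := hcoef v
  refine ⟨a, ha, hab.trans ?_⟩
  have hq : g.inner x v v - ‖dV4 F' x v‖ ^ 2 =
      ∑ i, ∑ k, a i * a k * (gV g V i k x - pullV F' V i k x) := by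
    have h1 : g.inner x v v = ∑ i, ∑ k, a i * a k * gV g V i k x := by
      rw [ha]
      simp only [map_sum, map_smul, sum_apply, smul_apply, smul_eq_mul, Finset.mul_sum, gV]
      rw [Finset.sum_comm]
      exact Finset.sum_congr rfl fun i _ => Finset.sum_congr rfl fun k _ => by ring
    have h2 : ‖dV4 F' x v‖ ^ 2 = ∑ i, ∑ k, a i * a k * pullV F' V i k x := by
      rw [← real_inner_self_eq_norm_sq, ha, dV4_sum]
      simp only [sum_inner, inner_sum, real_inner_smul_left, real_inner_smul_right, pullV,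
        mul_assoc]
      exact Finset.sum_congr rfl fun i _ => Finset.sum_congr rfl fun k _ => by
        rw [real_inner_comm (D V k F' x)]
    rw [h1, h2, ← Finset.sum_sub_distrib]
    exact Finset.sum_congr rfl fun i _ => by
      rw [← Finset.sum_sub_distrib]; exact Finset.sum_congr rfl fun k _ => by ring
  have hle : g.inner x v v - ‖dV4 F' x v‖ ^ 2 ≤ r * (∑ i, |a i|) ^ 2 := by
    rw [hq, sq, Finset.sum_mul_sum, Finset.mul_sum]
    refine Finset.sum_le_sum fun i _ => ?_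
    rw [Finset.mul_sum]
    refine Finset.sum_le_sum fun k _ => ?_
    refine (le_abs_self _).trans ?_
    rw [abs_mul, abs_mul, mul_comm r]
    exact mul_le_mul_of_nonneg_left (hres i k) (by positivity)
  have hnn := metric_nonneg g x v
  have h3 : (∑ i, |a i|) ^ 2 ≤ Cm ^ 2 * g.inner x v v := by
    refine (pow_le_pow_left₀ (Finset.sum_nonneg fun i _ => abs_nonneg _) hab 2).trans (le_of_eq ?_)
    rw [mul_pow, Real.sq_sqrt hnn]
  have hg2 : g.inner x v v ≤ (2 * ‖dV4 F' x v‖) ^ 2 := by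
    rcases isEmpty_or_nonempty (Fin N) with hN | ⟨⟨i₀⟩⟩
    · rw [ha]; simp
    · have hr0 : 0 ≤ r := (abs_nonneg _).trans (hres i₀ i₀)
      nlinarith [mul_le_mul_of_nonneg_left h3 hr0, mul_le_mul_of_nonneg_right hr hnn,
        sq_nonneg ‖dV4 F' x v‖]
  calc Cm * Real.sqrt (g.inner x v v) ≤ Cm * (2 * ‖dV4 F' x v‖) := by
        refine mul_le_mul_of_nonneg_left ?_ hCm
        rw [← Real.sqrt_sq (by positivity : (0 : ℝ) ≤ 2 * ‖dV4 F' x v‖)]
        exact Real.sqrt_le_sqrt hg2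
    _ = 2 * Cm * ‖dV4 F' x v‖ := by ring

namespace SpiralData

/-- The bound may be enlarged. -/
theorem mono_B {B₁ : ℝ} (h : SpiralData g V F ℓ H σ L K B δ η) (hη : 0 < η) (hB : B ≤ B₁) :
    SpiralData g V F ℓ H σ L K B₁ δ η :=
  { h with
    le_H := fun x => (h.le_H x).trans hB
    sup_F := fun x => (h.sup_F x).trans hB
    bd_ℓ := h.bd_ℓ.mono_const hB fun x _ => (h.ℓ_pos hη x).le
    bd_H := h.bd_H.mono_const hB fun x _ => (h.H_pos hη x).le
    bd_σ := h.bd_σ.mono_const hB fun x _ => (h.pos_σ x).le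
    bd_dF := fun i => (h.bd_dF i).mono_const hB fun x _ => (h.ℓ_pos hη x).le
    bd_sff := fun i k => (h.bd_sff i k).mono_const hB fun x _ =>
      (mul_pos (h.ℓ_pos hη x) (h.H_pos hη x)).le
    sff_lower := fun x => (h.sff_lower x).trans (mul_le_mul_of_nonneg_right hB
      (Finset.sum_nonneg fun i _ => Finset.sum_nonneg fun k _ => norm_nonneg _)) }

theorem inv_ℓ_pow_le (h : SpiralData g V F ℓ H σ L K B δ η) (hη : 0 < η) (hη1 : η ≤ 1) (x : M)
    {n j : ℕ} (hn : n ≤ j) : (ℓ x)⁻¹ ^ n ≤ η⁻¹ ^ (L * j) := by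
  calc (ℓ x)⁻¹ ^ n ≤ (η⁻¹ ^ L) ^ n := by
        refine pow_le_pow_left₀ (inv_nonneg.2 (h.ℓ_pos hη x).le) ?_ n
        rw [inv_pow]
        exact inv_anti₀ (pow_pos hη L) (h.ℓ_ge x)
    _ ≤ η⁻¹ ^ (L * j) := by
        rw [← pow_mul]
        exact pow_le_pow_right₀ ((one_le_inv₀ hη).2 hη1) (Nat.mul_le_mul_left L hn)

end SpiralData

end

/-- Derivatives of the map before the stage, in the fixed frame. -/
theorem exists_D_F_le (N K : ℕ) (B : ℝ) :
    ∃ C : ℝ, 0 ≤ C ∧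
      ∀ (M : Type) [TopologicalSpace M] [ChartedSpace R2 M] [IsManifold (𝓡 2) ∞ M]
        (g : Metric M) (V : Frame M N) (F : M → R4) (ℓ H σ : M → ℝ) (L : ℕ) (δ η : ℝ),
        FrameSmooth V → 0 < η → SpiralData g V F ℓ H σ L K B δ η →
        ∀ (i : Fin N) (w : List (Fin N)), w.length ≤ K → ∀ x,
          ‖DW V w (D V i F) x‖ ≤ C * (ℓ x)⁻¹ ^ w.length := by
  obtain ⟨Ci, hCi1, hCi⟩ := exists_bdOn_inv N K B
  obtain ⟨Cx, hCx1, hCx⟩ := exists_fixed_of_scaled N K B R4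
  refine ⟨Cx * (2 ^ K * Ci * |B|), by positivity,
    fun M _ _ _ g V F ℓ H σ L δ η hV hη h i w hw x => ?_⟩
  have hW := frameSmooth_scaled hV h.smooth_ℓ
  have hp := h.ℓ_pos hη
  have hinv := hCi M (scaled ℓ V) Set.univ ℓ hW (fun y _ => h.smooth_ℓ y) (fun y _ => hp y) h.bd_ℓ
  have h1 : Bd (scaled ℓ V) K (2 ^ K * Ci * B) (fun _ => 1) (D V i F) := by
    refine ((BdOn.smul hW (fun y _ => (h.smooth_ℓ y).inv₀ (hp y).ne')
      (fun y _ => contMDiff_D hW i h.smooth_F y) hinv (h.bd_dF i)).mono_bound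
        fun y _ => le_of_eq ?_).congr fun y _ => Eventually.of_forall fun z => ?_
    · rw [inv_mul_cancel₀ (hp y).ne']
    · show (ℓ z)⁻¹ • D (scaled ℓ V) i F z = D V i F z
      rw [D_scaled, smul_smul, inv_mul_cancel₀ (hp z).ne', one_smul]
  have h2 := hCx M V ℓ (D V i F) (fun _ => 1) (2 ^ K * Ci * |B|) hV h.smooth_ℓ hp h.bd_ℓ
    (contMDiff_D hV i h.smooth_F) (by positivity) (fun _ => zero_le_one)
    (h1.mono_const (mul_le_mul_of_nonneg_left (le_abs_self B) (by positivity))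
      fun _ _ => zero_le_one) w hw x
  rwa [mul_one] at h2

/-- The correction of one stage, in the fixed frame. -/
theorem exists_corr_le (N n : ℕ) (B : ℝ) :
    ∃ C : ℝ, 1 ≤ C ∧
      ∀ (M : Type) [TopologicalSpace M] [ChartedSpace R2 M] [IsManifold (𝓡 2) ∞ M]
        (g : Metric M) (V : Frame M N) (F F' : M → R4) (ℓ H σ : M → ℝ) (L K : ℕ) (δ η Cs : ℝ),
        FrameSmooth V → 0 < η → η ≤ 1 → n ≤ K → SpiralData g V F ℓ H σ L K B δ η →
        ContMDiff (𝓡 2) 𝓘(ℝ, R4) ∞ F' → 0 ≤ Cs →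
        (∀ w : List (Fin N), w.length ≤ n → ∀ x,
          ‖DW (scaled ℓ V) w (fun y => F' y - F y) x‖ ≤
            Cs * (1 / η) ^ w.length * (η * ℓ x * Real.sqrt (σ x))) →
        ∀ w : List (Fin N), w.length ≤ n → ∀ x,
          ‖DW V w (fun y => F' y - F y) x‖ ≤
            C * Cs * η⁻¹ ^ n * ((ℓ x)⁻¹ ^ w.length * (η * ℓ x * Real.sqrt (σ x))) := by
  obtain ⟨Cx, hCx1, hCx⟩ := exists_fixed_of_scaled N n B R4
  refine ⟨Cx, hCx1, fun M _ _ _ g V F F' ℓ H σ L K δ η Cs hV hη hη1 hn h hF' hCs hb w hw x => ?_⟩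
  have hp := h.ℓ_pos hη
  have hμ : ∀ y, 0 ≤ η * ℓ y * Real.sqrt (σ y) := fun y =>
    mul_nonneg (mul_nonneg hη.le (hp y).le) (Real.sqrt_nonneg _)
  have h1 : Bd (scaled ℓ V) n (Cs * η⁻¹ ^ n) (fun y => η * ℓ y * Real.sqrt (σ y))
      (fun y => F' y - F y) := fun w hw y _ => (hb w hw y).trans <| by
    rw [one_div]
    exact mul_le_mul_of_nonneg_right (mul_le_mul_of_nonneg_left
      (pow_le_pow_right₀ ((one_le_inv₀ hη).2 hη1) hw) hCs) (hμ y)
  refine (hCx M V ℓ _ _ _ hV h.smooth_ℓ hp (h.bd_ℓ.mono_order hn) (hF'.sub h.smooth_F)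
    (by positivity) hμ h1 w hw x).trans_eq (by ring)

/-- All derivatives of the map after the stage. -/
theorem exists_map_le (N j L K : ℕ) (B Cs : ℝ) (hjK : j ≤ K) :
    ∃ C : ℝ, 0 ≤ C ∧
      ∀ (M : Type) [TopologicalSpace M] [ChartedSpace R2 M] [IsManifold (𝓡 2) ∞ M]
        (g : Metric M) (V : Frame M N) (F F' : M → R4) (ℓ H σ : M → ℝ) (δ η : ℝ),
        FrameSmooth V → 0 < η → η ≤ 1 → SpiralData g V F ℓ H σ L K B δ η →
        ContMDiff (𝓡 2) 𝓘(ℝ, R4) ∞ F' →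
        (∀ w : List (Fin N), w.length ≤ j → ∀ x,
          ‖DW (scaled ℓ V) w (fun y => F' y - F y) x‖ ≤
            Cs * (1 / η) ^ w.length * (η * ℓ x * Real.sqrt (σ x))) →
        ∀ w : List (Fin N), w.length ≤ j → ∀ x, ‖DW V w F' x‖ ≤ C * η⁻¹ ^ ((L + 1) * j) := by
  obtain ⟨CF, hCF0, hCF⟩ := exists_D_F_le N K B
  obtain ⟨Cc, hCc1, hCc⟩ := exists_corr_le N j B
  refine ⟨|B| + CF + Cc * |Cs| * |B|, by positivity,
    fun M _ _ _ g V F F' ℓ H σ δ η hV hη hη1 h hF' hΔ w hw x => ?_⟩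
  have hu : 1 ≤ η⁻¹ := (one_le_inv₀ hη).2 hη1
  have hu0 : 0 ≤ η⁻¹ := zero_le_one.trans hu
  have hp := h.ℓ_pos hη
  have hΔ' : ∀ w : List (Fin N), w.length ≤ j → ∀ x,
      ‖DW (scaled ℓ V) w (fun y => F' y - F y) x‖ ≤
        |Cs| * (1 / η) ^ w.length * (η * ℓ x * Real.sqrt (σ x)) := fun w hw x =>
    (hΔ w hw x).trans (mul_le_mul_of_nonneg_right
      (mul_le_mul_of_nonneg_right (le_abs_self Cs) (by positivity))
      (mul_nonneg (mul_nonneg hη.le (hp x).le) (Real.sqrt_nonneg _)))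
  have hc := hCc M g V F F' ℓ H σ L K δ η |Cs| hV hη hη1 hjK h hF' (abs_nonneg _) hΔ' w hw x
  have hμ : η * ℓ x * Real.sqrt (σ x) ≤ |B| := by
    calc η * ℓ x * Real.sqrt (σ x) ≤ 1 * 1 * Real.sqrt (σ x) :=
          mul_le_mul_of_nonneg_right (mul_le_mul hη1 (h.ℓ_le x) (hp x).le zero_le_one)
            (Real.sqrt_nonneg _)
      _ ≤ η * B := by rw [one_mul, one_mul]; exact (h.sqrt_σ_div hη hη1 x).2
      _ ≤ 1 * |B| := mul_le_mul hη1 (le_abs_self B)
          ((Real.sqrt_nonneg _).trans ((h.sqrt_σ_div hη hη1 x).2) |>.trans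
            (le_of_eq (mul_comm _ _)) |> fun h' => nonneg_of_mul_nonneg_left h' hη) zero_le_one
      _ = |B| := one_mul _
  have hu2 : η⁻¹ ^ j * η⁻¹ ^ (L * j) = η⁻¹ ^ ((L + 1) * j) := by
    rw [← pow_add]; congr 1; ring
  have hc2 : ‖DW V w (fun y => F' y - F y) x‖ ≤ Cc * |Cs| * |B| * η⁻¹ ^ ((L + 1) * j) := by
    refine hc.trans ?_
    calc Cc * |Cs| * η⁻¹ ^ j * ((ℓ x)⁻¹ ^ w.length * (η * ℓ x * Real.sqrt (σ x)))
        ≤ Cc * |Cs| * η⁻¹ ^ j * (η⁻¹ ^ (L * j) * |B|) := by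
          have h1 := h.inv_ℓ_pow_le hη hη1 x hw
          have h2 : 0 ≤ η * ℓ x * Real.sqrt (σ x) :=
            mul_nonneg (mul_nonneg hη.le (hp x).le) (Real.sqrt_nonneg _)
          gcongr
      _ = Cc * |Cs| * |B| * η⁻¹ ^ ((L + 1) * j) := by rw [← hu2]; ring
  have hF : ‖DW V w F x‖ ≤ (|B| + CF) * η⁻¹ ^ ((L + 1) * j) := by
    rcases List.eq_nil_or_concat' w with rfl | ⟨w', i, rfl⟩
    · rw [DW_nil]
      exact ((h.sup_F x).trans ((le_abs_self B).trans (le_add_of_nonneg_right hCF0))).trans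
        (le_mul_of_one_le_right (by positivity) (one_le_pow₀ hu))
    · rw [List.length_append, List.length_singleton] at hw
      rw [DW_snoc]
      refine (hCF M g V F ℓ H σ L δ η hV hη h i w' (by omega) x).trans ?_
      refine mul_le_mul (le_add_of_nonneg_left (abs_nonneg B))
        ((h.inv_ℓ_pow_le hη hη1 x (by omega : w'.length ≤ j)).trans
          (pow_le_pow_right₀ hu (Nat.mul_le_mul_right j (Nat.le_succ L))))
        (pow_nonneg (inv_nonneg.2 (hp x).le) _) (by positivity)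
  have e : DW V w F' x = DW V w (fun y => F' y - F y) x + DW V w F x := by
    rw [DW_sub hV w (hF' x) (h.smooth_F x)]; abel
  rw [e]
  refine (norm_add_le _ _).trans ((add_le_add hc2 hF).trans (le_of_eq ?_))
  ring

/-- The residual after the stage. -/
theorem exists_res_le (N j q L K : ℕ) (B Cs : ℝ) (hjK : j ≤ K) :
    ∃ C : ℝ, 0 ≤ C ∧
      ∀ (M : Type) [TopologicalSpace M] [ChartedSpace R2 M] [IsManifold (𝓡 2) ∞ M]
        (g : Metric M) (V : Frame M N) (F F' : M → R4) (ℓ H σ : M → ℝ) (δ η : ℝ),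
        FrameSmooth V → 0 < η → η ≤ 1 → SpiralData g V F ℓ H σ L K B δ η →
        ContMDiff (𝓡 2) 𝓘(ℝ, R4) ∞ F' →
        (∀ i k, ∀ w : List (Fin N), w.length ≤ j → ∀ x,
          ‖DW (scaled ℓ V) w
              (fun y => gV g (scaled ℓ V) i k y - pullV F' (scaled ℓ V) i k y) x‖ ≤
            Cs * (1 / η) ^ w.length * (η + Real.sqrt (σ x) / (η * H x)) ^ (2 * q) *
              (ℓ x ^ 2 * Real.sqrt (σ x) * (Real.sqrt (σ x) + η * H x))) →
        ∀ i k, ∀ w : List (Fin N), w.length ≤ j → ∀ x,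
          ‖DW V w (fun y => gV g V i k y - pullV F' V i k y) x‖ ≤
            C * (η ^ q * η⁻¹ ^ ((L + 1) * j)) := by
  obtain ⟨Ci, hCi1, hCi⟩ := exists_bdOn_inv N j B
  obtain ⟨Cz, hCz1, hCz⟩ := exists_fixed_of_scaled N j B ℝ
  refine ⟨Cz * (2 ^ j * (2 ^ j * Ci * Ci) * (|Cs| * 4 ^ q * (2 * B ^ 2))), by positivity,
    fun M _ _ _ g V F F' ℓ H σ δ η hV hη hη1 h hF' hres i k w hw x => ?_⟩
  have hu : 1 ≤ η⁻¹ := (one_le_inv₀ hη).2 hη1
  have hp := h.ℓ_pos hη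
  have hne := fun y => (hp y).ne'
  have hW := frameSmooth_scaled hV h.smooth_ℓ
  have hbℓ := h.bd_ℓ.mono_order hjK
  set c := |Cs| * 4 ^ q * (2 * B ^ 2) * η ^ q * η⁻¹ ^ j with hc
  have h1 : Bd (scaled ℓ V) j c (fun y => ℓ y ^ 2)
      (fun y => gV g (scaled ℓ V) i k y - pullV F' (scaled ℓ V) i k y) := fun w hw y _ => by
    refine (hres i k w hw y).trans ?_
    have hH := h.H_pos hη y
    obtain ⟨hd, hσB⟩ := h.sqrt_σ_div hη hη1 y
    set r := Real.sqrt (σ y) with hr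
    have hr0 : 0 ≤ r := Real.sqrt_nonneg _
    have hB0 : 0 ≤ B := hH.le.trans (h.le_H y)
    have hs : (η + r / (η * H y)) ^ (2 * q) ≤ 4 ^ q * η ^ q := by
      rw [pow_mul, ← mul_pow]
      refine pow_le_pow_left₀ (sq_nonneg _) ?_ q
      have h2 : η + r / (η * H y) ≤ 2 * Real.sqrt η := by
        have : η ≤ Real.sqrt η := Real.le_sqrt_of_sq_le (by rw [sq]; exact mul_le_of_le_one_left hη.le hη1)
        linarith
      calc (η + r / (η * H y)) ^ 2 ≤ (2 * Real.sqrt η) ^ 2 :=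
            pow_le_pow_left₀ (by positivity) h2 2
        _ = 4 * η := by rw [mul_pow, Real.sq_sqrt hη.le]; ring
    have hw2 : r * (r + η * H y) ≤ 2 * B ^ 2 := by
      have hr1 : r ≤ B := hσB.trans (mul_le_of_le_one_left hB0 hη1)
      have hH1 : η * H y ≤ B := (mul_le_of_le_one_left hH.le hη1).trans (h.le_H y)
      calc r * (r + η * H y) ≤ B * (B + B) := mul_le_mul hr1 (add_le_add hr1 hH1)
            (by positivity) hB0
        _ = 2 * B ^ 2 := by ring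
    have hηw : (1 / η) ^ w.length ≤ η⁻¹ ^ j := by rw [one_div]; exact pow_le_pow_right₀ hu hw
    calc Cs * (1 / η) ^ w.length * (η + r / (η * H y)) ^ (2 * q) *
          (ℓ y ^ 2 * r * (r + η * H y))
        ≤ |Cs| * (1 / η) ^ w.length * (η + r / (η * H y)) ^ (2 * q) *
          (ℓ y ^ 2 * r * (r + η * H y)) := by
          gcongr
          exact le_abs_self Cs
      _ = |Cs| * ((1 / η) ^ w.length * (η + r / (η * H y)) ^ (2 * q) * (r * (r + η * H y))) *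
          ℓ y ^ 2 := by ring
      _ ≤ |Cs| * (η⁻¹ ^ j * (4 ^ q * η ^ q) * (2 * B ^ 2)) * ℓ y ^ 2 := by gcongr
      _ = c * ℓ y ^ 2 := by rw [hc]; ring
  have hinv := hCi M (scaled ℓ V) Set.univ ℓ hW (fun y _ => h.smooth_ℓ y) (fun y _ => hp y) hbℓ
  have hsm : ∀ y, ContMDiffAt (𝓡 2) 𝓘(ℝ, ℝ) ∞ (fun z => (ℓ z)⁻¹) y :=
    fun y => (h.smooth_ℓ y).inv₀ (hne y)
  have h2 : Bd (scaled ℓ V) j (2 ^ j * (2 ^ j * Ci * Ci) * c) (fun _ => 1)
      (fun y => gV g V i k y - pullV F' V i k y) := by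
    refine ((BdOn.mul hW (fun y _ => (hsm y).mul (hsm y))
      (fun y _ => ((contMDiff_gV g hW i k).sub (contMDiff_pullV hW hF' i k)) y)
      (BdOn.mul hW (fun y _ => hsm y) (fun y _ => hsm y) hinv hinv) h1).mono_bound
        fun y _ => le_of_eq ?_).congr fun y _ => Eventually.of_forall fun z => ?_
    · have := hne y
      field_simp
    · have := hne z
      simp only [gV_scaled, pullV_scaled, Pi.mul_apply]
      field_simp
  have h3 := hCz M V ℓ _ (fun _ => 1) _ hV h.smooth_ℓ hp hbℓ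
    ((contMDiff_gV g hV i k).sub (contMDiff_pullV hV hF' i k))
    (by positivity) (fun _ => zero_le_one) h2 w hw x
  refine h3.trans ?_
  rw [mul_one]
  calc Cz * (2 ^ j * (2 ^ j * Ci * Ci) * c) * (ℓ x)⁻¹ ^ w.length
      ≤ Cz * (2 ^ j * (2 ^ j * Ci * Ci) * c) * η⁻¹ ^ (L * j) :=
        mul_le_mul_of_nonneg_left (h.inv_ℓ_pow_le hη hη1 x hw) (by positivity)
    _ = _ := by
        rw [hc, show (L + 1) * j = j + L * j by ring, pow_add]
        ring

/-- The second fundamental form after the stage. -/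
theorem exists_sff_ge (N K : ℕ) (B Cs A : ℝ) (hK : 2 ≤ K) :
    ∃ C : ℝ, 0 ≤ C ∧
      ∀ (M : Type) [TopologicalSpace M] [ChartedSpace R2 M] [IsManifold (𝓡 2) ∞ M]
        (g : Metric M) (V : Frame M N) (F F' : M → R4) (ℓ H σ : M → ℝ) (L : ℕ) (δ η : ℝ),
        FrameSmooth V → 0 < η → η ≤ 1 → SpiralData g V F ℓ H σ L K B δ η →
        ContMDiff (𝓡 2) 𝓘(ℝ, R4) ∞ F' →
        (∀ w : List (Fin N), w.length ≤ 2 → ∀ x,
          ‖DW (scaled ℓ V) w (fun y => F' y - F y) x‖ ≤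
            Cs * (1 / η) ^ w.length * (η * ℓ x * Real.sqrt (σ x))) →
        (∀ x v, ∃ a : Fin N → ℝ, v = ∑ i, a i • V i x ∧ ∑ i, |a i| ≤ A * ‖dV4 F' x v‖) →
        ∀ x, (1 - C * Real.sqrt η) * (H x / ℓ x) ≤ B * sffSize F' V x := by
  obtain ⟨CF, hCF0, hCF⟩ := exists_D_F_le N K B
  obtain ⟨Cc, hCc1, hCc⟩ := exists_corr_le N 2 B
  set d₀ := Cc * |Cs| with hd₀
  refine ⟨|B| * (N * N * (d₀ * (1 + |A| * (CF + d₀ * |B|)))), by positivity,
    fun M _ _ _ g V F F' ℓ H σ L δ η hV hη hη1 h hF' hΔ hcoef x => ?_⟩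
  have hp := h.ℓ_pos hη
  have hℓx := hp x
  have hH := h.H_pos hη x
  have hB0 : 0 ≤ B := hH.le.trans (h.le_H x)
  set r := Real.sqrt (σ x) with hr
  have hr0 : 0 ≤ r := Real.sqrt_nonneg _
  have hΔ' : ∀ w : List (Fin N), w.length ≤ 2 → ∀ x,
      ‖DW (scaled ℓ V) w (fun y => F' y - F y) x‖ ≤
        |Cs| * (1 / η) ^ w.length * (η * ℓ x * Real.sqrt (σ x)) := fun w hw x =>
    (hΔ w hw x).trans (mul_le_mul_of_nonneg_right
      (mul_le_mul_of_nonneg_right (le_abs_self Cs) (by positivity))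
      (mul_nonneg (mul_nonneg hη.le (hp x).le) (Real.sqrt_nonneg _)))
  have hc := fun (w : List (Fin N)) (hw : w.length ≤ 2) =>
    hCc M g V F F' ℓ H σ L K δ η |Cs| hV hη hη1 hK h hF' (abs_nonneg _) hΔ' w hw x
  have e : ∀ w, DW V w (fun y => F' y - F y) x = DW V w F' x - DW V w F x := fun w =>
    DW_sub hV w (hF' x) (h.smooth_F x)
  have h1 : ∀ l, ‖D V l F' x - D V l F x‖ ≤ d₀ * r / η := fun l => by
    have := hc [l] (by simp)
    rw [e] at this
    refine this.trans (le_of_eq ?_)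
    rw [← hr, hd₀, List.length_singleton]
    field_simp
  have h2 : ∀ i k, ‖D V i (D V k F') x - D V i (D V k F) x‖ ≤ d₀ * r / (η * ℓ x) := fun i k => by
    have := hc [i, k] (by simp)
    rw [e] at this
    refine this.trans (le_of_eq ?_)
    rw [← hr, hd₀, show ([i, k] : List (Fin N)).length = 2 from rfl]
    field_simp
  obtain ⟨hq1, hq2⟩ := h.sqrt_σ_div hη hη1 x
  have hrη : r / η ≤ Real.sqrt η * H x := by
    rw [div_le_iff₀ hη]
    exact (h.sqrt_σ_le hη x).trans (le_of_eq (by ring))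
  have h3 : ∀ i k, ‖D V i (D V k F') x‖ ≤ (CF + d₀ * |B|) / ℓ x := fun i k => by
    have hF2 := hCF M g V F ℓ H σ L δ η hV hη h k [i] (by simp; omega) x
    simp only [List.length_singleton, pow_one] at hF2
    have hrB : r / η ≤ |B| :=
      le_trans ((div_le_iff₀ hη).2 (hq2.trans (le_of_eq (mul_comm _ _)))) (le_abs_self B)
    calc ‖D V i (D V k F') x‖ ≤ ‖D V i (D V k F) x‖ + ‖D V i (D V k F') x - D V i (D V k F) x‖ :=
          norm_le_norm_add_norm_sub' _ _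
      _ ≤ CF * (ℓ x)⁻¹ + d₀ * r / (η * ℓ x) := add_le_add hF2 (h2 i k)
      _ = (CF + d₀ * (r / η)) / ℓ x := by field_simp
      _ ≤ (CF + d₀ * |B|) / ℓ x := by gcongr
  set c₁ := d₀ * (1 + |A| * (CF + d₀ * |B|)) with hc₁
  have hterm : ∀ i k, ‖sff F V i k x‖ ≤ ‖sff F' V i k x‖ + c₁ * Real.sqrt η * (H x / ℓ x) := by
    intro i k
    refine (norm_sff_le_perturb (A := |A|) (d := d₀ * r / η) i k (abs_nonneg A) (by positivity)
      (fun v => ?_) h1).trans ?_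
    · obtain ⟨a, ha, hab⟩ := hcoef x v
      exact ⟨a, ha, hab.trans (mul_le_mul_of_nonneg_right (le_abs_self A) (norm_nonneg _))⟩
    calc ‖sff F' V i k x‖ + ‖D V i (D V k F') x - D V i (D V k F) x‖ +
          |A| * (d₀ * r / η) * ‖D V i (D V k F') x‖
        ≤ ‖sff F' V i k x‖ + d₀ * r / (η * ℓ x) +
          |A| * (d₀ * r / η) * ((CF + d₀ * |B|) / ℓ x) := by
          gcongr
          · exact h2 i k
          · exact h3 i k
      _ = ‖sff F' V i k x‖ + c₁ * (r / η) / ℓ x := by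
          rw [hc₁]; field_simp; ring
      _ ≤ ‖sff F' V i k x‖ + c₁ * (Real.sqrt η * H x) / ℓ x := by gcongr
      _ = _ := by ring
  have hsum : sffSize F V x ≤ sffSize F' V x + N * N * (c₁ * Real.sqrt η * (H x / ℓ x)) := by
    refine (Finset.sum_le_sum fun i _ => Finset.sum_le_sum fun k _ => hterm i k).trans
      (le_of_eq ?_)
    simp only [sffSize, Finset.sum_add_distrib, Finset.sum_const, Finset.card_univ,
      Fintype.card_fin, nsmul_eq_mul]
    ring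
  have hlow := h.sff_lower x
  rw [sffSize_scaled hV h.smooth_ℓ h.smooth_F] at hlow
  have hlow' : H x / ℓ x ≤ B * sffSize F V x := by
    rw [div_le_iff₀ hℓx]
    refine le_of_mul_le_mul_left (hlow.trans (le_of_eq ?_)) hℓx
    ring
  have hX : 0 ≤ N * N * (c₁ * Real.sqrt η * (H x / ℓ x)) := by positivity
  nlinarith [mul_le_mul_of_nonneg_left hsum hB0, mul_le_mul_of_nonneg_right (le_abs_self B) hX]

/-- **A7.** One stage after the last spiral gives the start maps. -/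
theorem startProp_of (hst : StageProp) (hsp : SpiralProp) : StartProp := by
  intro M _ _ _ _ _ hM g N V hV hspan J e A₀
  obtain ⟨G, hG⟩ := hM
  obtain ⟨L, hL⟩ := hsp M ⟨G, hG⟩ g N V hV hspan
  obtain ⟨P, hP⟩ := exists_phases g hV hspan (G := G) hG
  -- exponents and orders
  set j := max J 2 with hj
  set a := (L + 1) * j + L + 2 with ha
  set q := a * e + (L + 1) * j + 1 with hq
  obtain ⟨K₀, hK⟩ := hst N P (2 * q) j
  set K := max K₀ j with hKdef
  have hjK : j ≤ K := le_max_right _ _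
  have hK₀ : K₀ ≤ K := le_max_left _ _
  have hKle : K ≤ K + 1 := Nat.le_succ K
  obtain ⟨B₀, hB₀⟩ := hL (K + 1)
  set B₁ := max B₀ 1 with hB₁
  have hB1 : 1 ≤ B₁ := le_max_right _ _
  obtain ⟨B', hB'⟩ := hP K B₁
  obtain ⟨Cm, hCm, hcoef, hlow, hup, -⟩ := exists_metric_bounds g hV hspan
  choose cg hcg0 hcg using fun p : Fin N × Fin N =>
    exists_bd_of_contMDiff hV K (contMDiff_gV g hV p.1 p.2)
  obtain ⟨Cf, hCf1, hCf⟩ := exists_scaled_of_fixed N K B₁ ℝ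
  set Bg := ∑ p, 2 ^ K * (2 ^ K * B₁ * B₁) * (Cf * cg p) with hBg
  have hBgp : ∀ p, 2 ^ K * (2 ^ K * B₁ * B₁) * (Cf * cg p) ≤ Bg := fun p =>
    Finset.single_le_sum (f := fun p => 2 ^ K * (2 ^ K * B₁ * B₁) * (Cf * cg p))
      (fun p _ => by have := hcg0 p; positivity) (Finset.mem_univ p)
  have hBg0 : 0 ≤ Bg := Finset.sum_nonneg fun p _ => by have := hcg0 p; positivity
  set B₂ := B₁ + |B'| + Cm + Bg with hB₂
  have hB'2 : B' ≤ B₂ := by rw [hB₂]; linarith [le_abs_self B']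
  have hB12 : B₁ ≤ B₂ := by rw [hB₂]; linarith [abs_nonneg B']
  have hCm2 : Cm ≤ B₂ := by rw [hB₂]; linarith [abs_nonneg B']
  obtain ⟨Cs, ε₀, -, hε₀, hstage⟩ := hK B₂
  obtain ⟨C7, hC70, hmap⟩ := exists_map_le N j L (K + 1) B₁ Cs (hjK.trans hKle)
  obtain ⟨C6, hC60, hresid⟩ := exists_res_le N j q L (K + 1) B₁ Cs (hjK.trans hKle)
  obtain ⟨C5, hC50, hsff⟩ := exists_sff_ge N (K + 1) B₁ Cs (2 * Cm)
    ((le_max_right J 2).trans (hjK.trans hKle))
  obtain ⟨η₀, hη₀, hdata⟩ := hB₀ ε₀ hε₀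
  obtain ⟨η, hη, hηle, hη1, hηε, hηε2, hη6, hη7, hη6m, hη5, hηB, hηA⟩ :
      ∃ η, 0 < η ∧ η ≤ η₀ ∧ η ≤ 1 ∧ η ≤ ε₀ ∧ Real.sqrt η ≤ ε₀ ∧ C6 * η ≤ 1 ∧ C7 * η ≤ 1 ∧
        2 * C6 * Cm ^ 2 * η ≤ 1 ∧ C5 * Real.sqrt η ≤ 1 / 2 ∧ 2 * B₁ * η ≤ 1 ∧ A₀ * η ≤ 1 := by
    have hsm : ∀ c : ℝ, ∀ᶠ y in 𝓝[>] (0 : ℝ), c * y ≤ 1 := fun c => by
      have h0 : Tendsto (fun y : ℝ => c * y) (𝓝[>] 0) (𝓝 0) := by
        simpa using (tendsto_id.const_mul c).mono_left (nhdsWithin_le_nhds (a := (0 : ℝ)))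
      exact h0.eventually (eventually_le_nhds zero_lt_one)
    have hle : ∀ c : ℝ, 0 < c → ∀ᶠ y in 𝓝[>] (0 : ℝ), y ≤ c := fun c hc =>
      (tendsto_id.mono_left nhdsWithin_le_nhds).eventually (eventually_le_nhds hc)
    have hsqrt : ∀ c : ℝ, 0 < c → ∀ d : ℝ, ∀ᶠ y in 𝓝[>] (0 : ℝ), d * Real.sqrt y ≤ c := by
      intro c hc d
      have h0 : Tendsto (fun y : ℝ => d * Real.sqrt y) (𝓝[>] 0) (𝓝 0) := by
        simpa using ((Real.continuous_sqrt.tendsto 0).const_mul d).mono_left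
          (nhdsWithin_le_nhds (a := (0 : ℝ)))
      exact h0.eventually (eventually_le_nhds hc)
    obtain ⟨η, h1, h2, h3, h4, h5, h6, h7, h8, h9, h10, h11⟩ :=
      (eventually_mem_nhdsWithin (a := (0 : ℝ)) (s := Set.Ioi 0) |>.and ((hle η₀ hη₀).and
        ((hle 1 one_pos).and ((hle ε₀ hε₀).and ((hsqrt ε₀ hε₀ 1).and ((hsm C6).and ((hsm C7).and
          ((hsm (2 * C6 * Cm ^ 2)).and ((hsqrt (1 / 2) (by norm_num) C5).and
            ((hsm (2 * B₁)).and (hsm A₀))))))))))).exists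
    exact ⟨η, h1, h2, h3, h4, by simpa using h5, h6, h7, h8, h9, h10, h11⟩
  obtain ⟨F, ℓ, H, σ, h₀⟩ := hdata η hη hηle
  have h := h₀.mono_B hη (le_max_left B₀ 1 : B₀ ≤ B₁)
  have hℓ0 := h.ℓ_pos hη
  have hℓ1 := h.ℓ_le
  have hH0 := h.H_pos hη
  have hW := frameSmooth_scaled hV h.smooth_ℓ
  obtain ⟨Y, χ, hYs, hχs, hbχ, hbY, hrich⟩ :=
    hB' ℓ h.smooth_ℓ (fun x => ⟨hℓ0 x, hℓ1 x⟩) h.bd_ℓ
  have hg : ∀ i k, Bd (scaled ℓ V) K₀ B₂ (fun x => ℓ x ^ 2) (gV g (scaled ℓ V) i k) := by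
    intro i k
    rw [gV_scaled]
    have hb := h.bd_ℓ.mono_order hKle
    have h1 := BdOn.mul hW (fun x _ => (h.smooth_ℓ x).mul (h.smooth_ℓ x))
      (fun x _ => contMDiff_gV g hV i k x)
      (BdOn.mul hW (fun x _ => h.smooth_ℓ x) (fun x _ => h.smooth_ℓ x) hb hb)
      (hCf M V ℓ _ _ hV h.smooth_ℓ (fun x => ⟨(hℓ0 x).le, hℓ1 x⟩) hb
        (contMDiff_gV g hV i k) (hcg0 (i, k)) (hcg (i, k)))
    refine ((h1.mono_order hK₀).mono_bound fun x _ => ?_).congr fun x _ =>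
      Eventually.of_forall fun y => by simp only [Pi.mul_apply, sq]
    rw [mul_one, ← sq]
    refine mul_le_mul_of_nonneg_right ((hBgp (i, k)).trans ?_) (sq_nonneg _)
    rw [hB₂]; linarith [abs_nonneg B']
  have hsd : StageData g (scaled ℓ V) F ℓ H σ Y χ K₀ B₂ ε₀ :=
    stageData_of hV hη h (hK₀.trans hKle) hB12
      (fun x v => (hlow x v).trans (mul_le_mul_of_nonneg_right hCm2
        (Finset.sum_nonneg fun i _ => sq_nonneg _)))
      (fun x v => (hup x v).trans (mul_le_mul_of_nonneg_right hCm2 (metric_nonneg g x v)))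
      hg hYs hχs
      (fun p => ((hbχ p).mono_order hK₀).mono_const hB'2 fun _ _ => zero_le_one)
      (fun p i => ((hbY p i).mono_order hK₀).mono_const hB'2 fun _ _ => zero_le_one) hrich
  obtain ⟨F', hF', hΔ, hres⟩ := hstage M g (scaled ℓ V) F ℓ H σ Y χ η hsd hη hηε fun x => by
    refine (h.sqrt_σ_le hη x).trans ?_
    rw [mul_comm ε₀ η]
    exact mul_le_mul_of_nonneg_right (mul_le_mul_of_nonneg_left hηε2 hη.le) (hH0 x).le
  set u := η⁻¹ with hu
  have hu1 : 1 ≤ u := (one_le_inv₀ hη).2 hη1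
  have hu0 : 0 < u := zero_lt_one.trans_le hu1
  have hle_u : ∀ c, c * η ≤ 1 → c ≤ u := fun c hc => by
    rw [hu, ← one_div, le_div_iff₀ hη]; exact hc
  have hpow : η ^ q * u ^ ((L + 1) * j) = η ^ (a * e + 1) := by
    rw [hq, show a * e + (L + 1) * j + 1 = a * e + 1 + (L + 1) * j by ring, pow_add, mul_assoc,
      ← mul_pow, hu, mul_inv_cancel₀ hη.ne', one_pow, mul_one]
  have hr : ∀ i k, ∀ w : List (Fin N), w.length ≤ j → ∀ x,
      ‖DW V w (fun y => gV g V i k y - pullV F' V i k y) x‖ ≤ C6 * η ^ (a * e + 1) := by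
    intro i k w hw x
    rw [← hpow]
    exact hresid M g V F F' ℓ H σ ε₀ η hV hη hη1 h hF' hres i k w hw x
  refine ⟨u ^ a, F', ?_, hF', fun w hw x _ => ?_, fun x => ?_, fun i k w hw x _ => ?_⟩
  · exact (hle_u A₀ hηA).trans (le_self_pow₀ hu1 (by omega))
  · rw [mul_one]
    refine (hmap M g V F F' ℓ H σ ε₀ η hV hη hη1 h hF' hΔ w
      (hw.trans (le_max_left J 2)) x).trans ?_
    calc C7 * u ^ ((L + 1) * j) ≤ u * u ^ ((L + 1) * j) :=
          mul_le_mul_of_nonneg_right (hle_u C7 hη7) (by positivity)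
      _ = u ^ ((L + 1) * j + 1) := by rw [pow_succ']
      _ ≤ u ^ a := pow_le_pow_right₀ hu1 (by omega)
  · have hc : ∀ y v, ∃ b : Fin N → ℝ, v = ∑ i, b i • V i y ∧
        ∑ i, |b i| ≤ 2 * Cm * ‖dV4 F' y v‖ := fun y v =>
      coef_le_dV4 (r := C6 * η ^ (a * e + 1)) (zero_le_one.trans hCm)
        (fun i k => (Real.norm_eq_abs _).symm.trans_le (hr i k [] (Nat.zero_le j) y)) (by
          calc 2 * (C6 * η ^ (a * e + 1)) * Cm ^ 2 ≤ 2 * (C6 * η) * Cm ^ 2 := by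
                gcongr
                exact pow_le_of_le_one hη.le hη1 (by omega)
            _ = 2 * C6 * Cm ^ 2 * η := by ring
            _ ≤ 1 := hη6m) (hcoef y) v
    have hs := hsff M g V F F' ℓ H σ L ε₀ η hV hη hη1 h hF'
      (fun w hw => hΔ w (hw.trans (le_max_right J 2))) hc x
    have hHℓ : η ^ L ≤ H x / ℓ x := by
      rw [le_div_iff₀ (hℓ0 x)]
      exact (mul_le_of_le_one_right (pow_nonneg hη.le L) (hℓ1 x)).trans (h.H_ge x)
    have hS : η ^ L ≤ 2 * B₁ * sffSize F' V x := by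
      nlinarith [mul_le_mul_of_nonneg_right hη5 (le_trans (pow_nonneg hη.le L) hHℓ)]
    have hS0 : 0 ≤ sffSize F' V x :=
      Finset.sum_nonneg fun i _ => Finset.sum_nonneg fun k _ => norm_nonneg _
    calc (1 : ℝ) = u ^ L * η ^ L := by rw [← mul_pow, hu, inv_mul_cancel₀ hη.ne', one_pow]
      _ ≤ u ^ L * (2 * B₁ * sffSize F' V x) := mul_le_mul_of_nonneg_left hS (by positivity)
      _ ≤ u ^ L * (u * sffSize F' V x) := mul_le_mul_of_nonneg_left
          (mul_le_mul_of_nonneg_right (hle_u _ hηB) hS0) (by positivity)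
      _ = u ^ (L + 1) * sffSize F' V x := by ring
      _ ≤ u ^ a * sffSize F' V x :=
          mul_le_mul_of_nonneg_right (pow_le_pow_right₀ hu1 (by omega)) hS0
  · rw [mul_one]
    refine (hr i k w (hw.trans (le_max_left J 2)) x).trans ?_
    rw [← pow_mul, hu, inv_pow, inv_inv, pow_succ', ← mul_assoc]
    exact mul_le_of_le_one_left (pow_nonneg hη.le _) hη6

end Vale.Agent.P205.Full.Start
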