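import Vale.Agent.P205.Full.Start.SpiralSff

/-!
# P205 full, START A6: `BaseDataProp → SpiralProp` (helper36)
-/

open scoped Manifold ContDiff RealInnerProductSpace Topology
open Bundle Filter

set_option linter.unusedSectionVars false

namespace Vale.Agent.P205.Full.Start

variable {M : Type} [TopologicalSpace M] [ChartedSpace R2 M] [IsManifold (𝓡 2) ∞ M]
variable {N : ℕ} {ι : Type} {g : Metric M} {V : Frame M N}

theorem UB.bd_all {E : Type} [NormedAddCommGroup E] [NormedSpace ℝ E] {W : ι → Frame M N}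
    {s : ι → Set M} {K : ℕ} {μ : ι → M → ℝ} {f : ι → M → E} (h : UB W s K μ f) :
    ∃ C : ℝ, 0 ≤ C ∧ ∀ (Wq : Frame M N) (μq : M → ℝ) (fq : M → E),
      (∀ x, ∃ p, x ∈ s p ∧ W p = Wq ∧ μ p = μq ∧ f p = fq) → Bd Wq K C μq fq := by
  obtain ⟨-, C, hC, hb⟩ := h
  refine ⟨C, hC, fun Wq μq fq hcov w hw x _ => ?_⟩
  obtain ⟨p, hp, hW, hμ, hf⟩ := hcov x
  subst hW hμ hf
  exact hb p w hw x hp

theorem Bd.enlarge {E : Type} [NormedAddCommGroup E] [NormedSpace ℝ E] {W : Frame M N} {K : ℕ}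
    {C C' : ℝ} {μ : M → ℝ} {f : M → E} (h : Bd W K C μ f) (hC : C ≤ C') (hμ : ∀ x, 0 ≤ μ x) :
    Bd W K C' μ f :=
  BdOn.mono_const h hC fun x _ => hμ x

theorem spiralProp_of (hB : BaseDataProp) : SpiralProp := by
  intro M _ _ _ _ _ hM g N V hV hs
  obtain ⟨G, a, c, C₀, C, η₀, hG, hη₀, hd⟩ := hB M hM g N V hV hs
  let d : ∀ η : ℝ, 0 < η → η ≤ η₀ → BaseData g G V η a c C₀ C :=
    fun η h1 h2 => Classical.choice (hd η h1 h2)
  obtain ⟨J, U, ν, hloc, hcov⟩ := exists_locNormal_cover hG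
  -- the family of all parameters
  let ι₀ := {η : ℝ // 0 < η ∧ η ≤ min η₀ (1 / 2)} × Fin J
  let X₀ : Ctx g V ι₀ :=
    { G := G
      a := a
      c := c
      C₀ := C₀
      C := C
      η := fun p => p.1.1
      η_pos := fun p => p.1.2.1
      η_le := fun p => p.1.2.2.trans (min_le_right _ _)
      U := fun p => U p.2
      ν := fun p => ν p.2
      loc := fun p => hloc p.2
      νbd := fun K => by
        choose B hB0 hBb using fun j => exists_bd_of_contMDiff hV K (hloc j).smooth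
        exact ⟨∑ j, B j, Finset.sum_nonneg fun j _ => hB0 j, fun p =>
          ((hBb p.2).bdOn _).mono_const (Finset.single_le_sum (fun j _ => hB0 j)
            (Finset.mem_univ p.2)) fun _ _ => zero_le_one⟩
      imm := hG
      frame := hV
      gbd := fun K => by
        choose B hB0 hBb using fun q : Fin N × Fin N =>
          exists_bd_of_contMDiff hV K (contMDiff_gV g hV q.1 q.2)
        exact ⟨∑ q, B q, Finset.sum_nonneg fun q _ => hB0 q, fun i k =>
          Bd.enlarge (hBb (i, k)) (Finset.single_le_sum (fun q _ => hB0 q) (Finset.mem_univ (i, k)))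
            fun _ => zero_le_one⟩
      data := fun p => d p.1.1 p.1.2.1 (p.1.2.2.trans (min_le_left _ _)) }
  -- restriction to a family with non-degenerate derivatives
  obtain ⟨cg, hcg, hgram⟩ := X₀.gram_close
  obtain ⟨c', δ', B', hc', hδ', hlow⟩ := exists_gram2_lower hV hs g
  let ι := {p : ι₀ // cg * p.1.1 ≤ δ'}
  let X : Ctx g V ι := X₀.restrict fun p => p.1
  have hnd : X.Nondeg c' B' :=
    ⟨hc', fun p x hx => hlow x _ fun i k => (hgram p.1 x hx i k).trans p.2⟩
  have hcov' : ∀ p x, gram2 (X.vec p x) ≠ 0 := fun p x => by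
    obtain ⟨j, hj⟩ := hcov x
    exact hnd.gram_ne (p := ⟨(p.1.1, j), p.2⟩) hj
  refine ⟨2 * (7 * (a + 1) + c + 12) + 1, fun K => ?_⟩
  obtain ⟨Cℓ, hCℓ, bℓ⟩ := (X.tau_UB K).bd_all
  obtain ⟨Cσ, hCσ, bσ⟩ := (X.sig_bd K).bd_all
  have hsqrt : UB X.W X.U K (fun p x => Real.sqrt (X.u p x))
      (fun p x => Real.sqrt (X.u p x)) := by
    obtain ⟨-, B, -, hb⟩ := X.u_bd K
    obtain ⟨Cs, hCs, hc⟩ := exists_bdOn_sqrt N K B
    exact ⟨fun p x => (Real.contDiffAt_sqrt (X.u_pos p x).ne').comp_contMDiffAt (X.contMDiff_u x),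
      Cs, zero_le_one.trans hCs, fun p => hc M (X.W p) (X.U p) (X.u p) X.frameSmooth_W
        (fun x _ => X.contMDiff_u x) (fun x _ => X.u_pos p x) (hb p)⟩
  obtain ⟨CH, hCH, bH⟩ := hsqrt.bd_all
  choose CF hCF bF using fun i => (X.dF_bd i K).bd_all
  choose CS hCS bS using fun q : Fin N × Fin N =>
    (Ctx.sff_bd hnd hcov' hs q.1 q.2 K).bd_all
  choose CR hCR bR using fun q : Fin N × Fin N => (X.resW_bd q.1 q.2 K).bd_all
  obtain ⟨Bl, η₁, hη₁, hlower⟩ := Ctx.sff_lower hnd hs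
  have sF : 0 ≤ ∑ i, CF i := Finset.sum_nonneg fun i _ => hCF i
  have sS : 0 ≤ ∑ q, CS q := Finset.sum_nonneg fun q _ => hCS q
  have sR : 0 ≤ ∑ q, CR q := Finset.sum_nonneg fun q _ => hCR q
  have hcu : 0 ≤ X.cu := Real.sqrt_nonneg _
  refine ⟨Cℓ + Cσ + CH + (∑ i, CF i) + (∑ q, CS q) + |Bl| + X.cu + |C₀| + 1, fun δ hδ => ?_⟩
  have hc1 : 0 < X.cu + |C₀| + 1 := by positivity
  refine ⟨min (min (min η₀ (1 / 2)) η₁) (min (δ' / (cg + 1)) (min (δ / ((∑ q, CR q) + 1))
    (1 / (X.cu + |C₀| + 1)))), by positivity, fun η hη hηle => ?_⟩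
  have h0 : η ≤ min η₀ (1 / 2) := hηle.trans ((min_le_left _ _).trans (min_le_left _ _))
  have h1 : η ≤ η₁ := hηle.trans ((min_le_left _ _).trans (min_le_right _ _))
  have h2 : η * (cg + 1) ≤ δ' :=
    (le_div_iff₀ (by positivity)).1 (hηle.trans ((min_le_right _ _).trans (min_le_left _ _)))
  have h3 : η * ((∑ q, CR q) + 1) ≤ δ := (le_div_iff₀ (by positivity)).1
    (hηle.trans ((min_le_right _ _).trans ((min_le_right _ _).trans (min_le_left _ _))))
  have h4 : η * (X.cu + |C₀| + 1) ≤ 1 := (le_div_iff₀ hc1).1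
    (hηle.trans ((min_le_right _ _).trans ((min_le_right _ _).trans (min_le_right _ _))))
  rcases isEmpty_or_nonempty M with hem | ⟨⟨x₀⟩⟩
  · refine ⟨fun _ => 0, fun _ => 0, fun _ => 0, fun _ => 0, ?_⟩
    constructor <;> first
      | exact contMDiff_const
      | exact fun x => (hem.false x).elim
      | exact fun _ _ x _ => (hem.false x).elim
      | exact fun _ _ _ x _ => (hem.false x).elim
      | exact fun _ _ _ _ x _ => (hem.false x).elim
  -- the parameters at this `η`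
  let p₀ : ι₀ := (⟨η, hη, h0⟩, (hcov x₀).choose)
  have hp₀ : cg * η ≤ δ' := by nlinarith
  let q : Fin J → ι := fun j => ⟨(⟨η, hη, h0⟩, j), hp₀⟩
  set p : ι := q (hcov x₀).choose with hp
  have hat : ∀ x, ∃ j, x ∈ X.U (q j) := hcov
  have hηp : X.η p = η := rfl
  have hR : X.R p = η⁻¹ := rfl
  have hb : X.b = 7 * (a + 1) + c + 12 := rfl
  have hηb : η ^ X.b * X.Lam p = 1 := X.eta_pow_R p X.b
  have hη1 : η ≤ 1 := h0.trans ((min_le_right _ _).trans (by norm_num))
  have hη' : η ^ (2 * X.b + 1) ≤ η ^ X.b := pow_le_pow_of_le_one hη.le hη1 (by omega)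
  refine ⟨X.Fs p, X.tau p, fun x => Real.sqrt (X.u p x), X.sig p, ?_⟩
  have hμτ : ∀ x, 0 ≤ X.tau p x := fun x => (X.tau_pos p x).le
  have hcu' := X.sqrt_u_le p
  constructor
  case smooth_F => exact X.contMDiff_Fs
  case smooth_ℓ => exact X.contMDiff_tau
  case smooth_H => exact fun x =>
    (Real.contDiffAt_sqrt (X.u_pos p x).ne').comp_contMDiffAt (X.contMDiff_u x)
  case smooth_σ => exact X.contMDiff_sig
  case ℓ_ge =>
    intro x
    rw [← hb]
    have h5 : η * Real.sqrt (X.u p x) ≤ 1 := by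
      refine le_trans ?_ h4
      exact mul_le_mul_of_nonneg_left ((hcu' x).trans (by linarith [abs_nonneg C₀])) hη.le
    rw [Ctx.tau, inv_eq_one_div,
      le_div_iff₀ (mul_pos (pow_pos (X.Lam_pos p) 2) (X.sqrt_u_pos p x))]
    calc η ^ (2 * X.b + 1) * (X.Lam p ^ 2 * Real.sqrt (X.u p x))
        = (η ^ X.b * X.Lam p) ^ 2 * (η * Real.sqrt (X.u p x)) := by ring
      _ ≤ 1 := by rw [hηb, one_pow, one_mul]; exact h5
  case ℓ_le =>
    exact fun x => (le_mul_of_one_le_right (hμτ x) (X.one_le_Lam p)).trans (X.tau_Lam_le p x)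
  case H_ge =>
    intro x
    rw [← hb]
    refine hη'.trans (le_trans ?_ (X.sqrt_u_ge_inv p x))
    rw [inv_eq_one_div, le_div_iff₀ (X.Lam_pos p)]
    exact hηb.le
  case le_H => exact fun x => (hcu' x).trans (by linarith [abs_nonneg Bl, abs_nonneg C₀])
  case pos_σ => exact fun x => X.sig_pos p x
  case σ_le =>
    intro x
    rw [Real.sq_sqrt (X.u_pos p x).le]
    refine (X.sig_le p x).trans (mul_le_mul_of_nonneg_right ?_ (X.u_pos p x).le)
    calc (|X.C₀| + 1) * X.η p ^ 6 = (η * (|C₀| + 1)) * η ^ 2 * η ^ 3 := by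
          rw [hηp, show X.C₀ = C₀ from rfl]; ring
      _ ≤ 1 * 1 * η ^ 3 := by
          gcongr
          · exact le_trans (mul_le_mul_of_nonneg_left (by linarith) hη.le) h4
          · exact pow_le_one₀ hη.le hη1
      _ = η ^ 3 := by ring
  case sup_F =>
    intro x
    obtain ⟨j, hj⟩ := hat x
    have he : X.Fs p x = X.al (q j) • (X.F0 (q j) x + (X.freq (q j))⁻¹ • X.eF (q j) x) :=
      (spiralMap_eventuallyEq (X.data (q j)).nd (X.freq (q j)) (X.data (q j)).sec_S
        (X.loc (q j)) hj (X.al (q j))).self_of_nhds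
    rw [he, norm_smul, Real.norm_eq_abs,
      abs_of_nonneg (show 0 ≤ X.al (q j) from Real.sqrt_nonneg _)]
    have h5 : ‖X.F0 (q j) x + (X.freq (q j))⁻¹ • X.eF (q j) x‖ ≤ |C₀| + 1 := by
      refine (norm_add_le _ _).trans (add_le_add (((X.data (q j)).bd_F x).trans (le_abs_self _)) ?_)
      rw [norm_smul, norm_inv, Real.norm_eq_abs, abs_of_pos (X.freq_pos _), Ctx.eF,
        norm_eFld (X.data (q j)).nd _ (X.loc (q j)) hj, mul_one]
      exact inv_le_one_of_one_le₀ (one_le_pow₀ (X.one_le_Lam _))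
    refine (mul_le_of_le_one_left (norm_nonneg _) (X.al_bounds _).2).trans (h5.trans ?_)
    linarith [abs_nonneg Bl]
  case bd_ℓ =>
    exact Bd.enlarge (bℓ (scaled (X.tau p) V) (X.tau p) (X.tau p)
      fun x => ⟨q _, (hat x).choose_spec, rfl, rfl, rfl⟩)
      (by linarith [abs_nonneg Bl, abs_nonneg C₀]) hμτ
  case bd_H =>
    exact Bd.enlarge (bH (scaled (X.tau p) V) (fun x => Real.sqrt (X.u p x))
      (fun x => Real.sqrt (X.u p x)) fun x => ⟨q _, (hat x).choose_spec, rfl, rfl, rfl⟩)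
      (by linarith [abs_nonneg Bl, abs_nonneg C₀]) fun x => Real.sqrt_nonneg _
  case bd_σ =>
    exact Bd.enlarge (bσ (scaled (X.tau p) V) (X.sig p) (X.sig p)
      fun x => ⟨q _, (hat x).choose_spec, rfl, rfl, rfl⟩)
      (by linarith [abs_nonneg Bl, abs_nonneg C₀]) fun x => (X.sig_pos p x).le
  case bd_dF =>
    exact fun i => Bd.enlarge (bF i (scaled (X.tau p) V) (X.tau p)
      (D (scaled (X.tau p) V) i (X.Fs p)) fun x => ⟨q _, (hat x).choose_spec, rfl, rfl, rfl⟩)
      (by linarith [abs_nonneg Bl, abs_nonneg C₀,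
        Finset.single_le_sum (fun j _ => hCF j) (Finset.mem_univ i)]) hμτ
  case bd_sff =>
    exact fun i k => Bd.enlarge (bS (i, k) (scaled (X.tau p) V)
      (fun x => X.tau p x * Real.sqrt (X.u p x)) (sff (X.Fs p) (scaled (X.tau p) V) i k)
      fun x => ⟨q _, (hat x).choose_spec, rfl, rfl, rfl⟩)
      (by linarith [abs_nonneg Bl, abs_nonneg C₀,
        Finset.single_le_sum (fun j _ => hCS j) (Finset.mem_univ (i, k))])
      fun x => mul_nonneg (hμτ x) (Real.sqrt_nonneg _)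
  case sff_lower =>
    intro x
    obtain ⟨j, hj⟩ := hat x
    have hl : X.Lam p ^ 2 * X.u p x ≤ Bl * sffSize (X.Fs p) V x := hlower (q j) h1 x hj
    rw [sffSize_scaled hV X.contMDiff_tau X.contMDiff_Fs]
    have h5 := mul_le_mul_of_nonneg_left hl (sq_nonneg (X.tau p x))
    have hs0 : 0 ≤ sffSize (X.Fs p) V x :=
      Finset.sum_nonneg fun i _ => Finset.sum_nonneg fun k _ => norm_nonneg _
    calc X.tau p x * Real.sqrt (X.u p x)
        = X.tau p x ^ 2 * (X.Lam p ^ 2 * X.u p x) := by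
          have := X.tau_mul_sqrt p x
          linear_combination (-(X.tau p x * Real.sqrt (X.u p x))) * this
            + (X.tau p x ^ 2 * X.Lam p ^ 2) * Real.mul_self_sqrt (X.u_pos p x).le
      _ ≤ X.tau p x ^ 2 * (Bl * sffSize (X.Fs p) V x) := h5
      _ = Bl * (X.tau p x ^ 2 * sffSize (X.Fs p) V x) := by ring
      _ ≤ _ := mul_le_mul_of_nonneg_right (by linarith [le_abs_self Bl, abs_nonneg C₀])
          (mul_nonneg (sq_nonneg _) hs0)
  case bd_res =>
    intro i k
    have h5 := bR (i, k) (scaled (X.tau p) V) (fun x => η * (X.sig p x * X.tau p x ^ 2))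
      (fun x => gV g (scaled (X.tau p) V) i k x - pullV (X.Fs p) (scaled (X.tau p) V) i k x -
        X.sig p x * gV g (scaled (X.tau p) V) i k x)
      fun x => ⟨q _, (hat x).choose_spec, rfl, rfl, rfl⟩
    refine BdOn.mono_bound h5 fun x _ => ?_
    rw [← mul_assoc]
    refine mul_le_mul_of_nonneg_right ?_ (mul_nonneg (X.sig_pos p x).le (sq_nonneg _))
    refine le_trans ?_ h3
    rw [mul_comm]
    exact mul_le_mul_of_nonneg_left
      ((Finset.single_le_sum (fun j _ => hCR j) (Finset.mem_univ (i, k))).trans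
        (le_add_of_nonneg_right zero_le_one)) hη.le

end Vale.Agent.P205.Full.Start
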