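import Vale.Agent.P205.Full.Start.Profile

/-!
# Module START, A4 to assembly: the base map in adapted coordinates

`g2` is the metric in coordinates adapted at a nondegenerate critical point of the section, which
is `(A x² + B y²)/2` with `A = eA η⁻⁸`, `B = eB η⁸`. The slack is `η²² r²`, the radial scale is
`ρ = η⁹`.
-/

open scoped RealInnerProductSpace ContDiff

noncomputable section

namespace Vale.Agent.P205.Full.Start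

/-- The inclusion `ℝ² → ℝ² × 0 ⊆ ℝ³`. -/
def flat3 : R2 →L[ℝ] R3 :=
  px.smulRight (EuclideanSpace.single 0 1) + py.smulRight (EuclideanSpace.single 1 1)

/-- The target of the base map: `g (1 - η²² r²) - dψ²`. -/
def chartTarget (g2 : R2 → R2 →L[ℝ] R2 →L[ℝ] ℝ) (eA eB η : ℝ) (z v w : R2) : ℝ :=
  g2 z v w * (1 - η ^ 22 * ‖z‖ ^ 2) -
    dquad (eA * η⁻¹ ^ 8) (eB * η ^ 8) z v * dquad (eA * η⁻¹ ^ 8) (eB * η ^ 8) z w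

/-- The residual of a map `F` against the target. -/
def chartRes (g2 : R2 → R2 →L[ℝ] R2 →L[ℝ] ℝ) (eA eB η : ℝ) (F : R2 → R3) (z v w : R2) : ℝ :=
  chartTarget g2 eA eB η z v w - ⟪fderiv ℝ F z v, fderiv ℝ F z w⟫

/-- The radial shape of the residual: `min (η⁻³⁶ r⁴) 1`. -/
def chartT (η : ℝ) (z : R2) : ℝ := min (η⁻¹ ^ 36 * ‖z‖ ^ 4) 1

/-- What the base map provides: linear for `rad η⁸ ≤ r`, polynomial bounds, an immersion,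
a residual below the slack for `r ≤ η³⁰`, comparable with `chartT` beyond. -/
structure BaseChart (g2 : R2 → R2 →L[ℝ] R2 →L[ℝ] ℝ) (eA eB μ rad η : ℝ) (a : ℕ) (C₀ : ℝ)
    (C : ℕ → ℝ) (F : R2 → R3) : Prop where
  smooth : ContDiff ℝ ∞ F
  zero : F 0 = 0
  outer : ∀ z, rad * η ^ 8 ≤ ‖z‖ → F z = μ • flat3 z
  bd : ∀ (j : ℕ) (z : R2), ‖z‖ ≤ 1 → ‖iteratedFDeriv ℝ j F z‖ ≤ C j * η⁻¹ ^ (a * (j + 1))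
  bd_d : ∀ z v, ‖fderiv ℝ F z v‖ ≤ C₀ * ‖v‖
  imm : ∀ z v, ‖v‖ ≤ C₀ * ‖fderiv ℝ F z v‖
  core_res : ∀ z v w, ‖z‖ ≤ η ^ 30 →
    |chartRes g2 eA eB η F z v w| ≤ C₀ * η ^ 23 * ‖z‖ ^ 2 * (‖v‖ * ‖w‖)
  core_dres : ∀ z v w, ‖z‖ ≤ η ^ 30 →
    ‖fderiv ℝ (fun y => chartRes g2 eA eB η F y v w) z‖ ≤ C₀ * η ^ 8 * ‖z‖ * (‖v‖ * ‖w‖)
  core_ddres : ∀ z v w, ‖z‖ ≤ η ^ 30 →
    ‖fderiv ℝ (fderiv ℝ fun y => chartRes g2 eA eB η F y v w) z‖ ≤ C₀ * (‖v‖ * ‖w‖)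
  core_ddF : ∀ z, ‖z‖ ≤ η ^ 30 → ‖fderiv ℝ (fderiv ℝ F) z‖ ≤ C₀
  shell_lower : ∀ z v, η ^ 30 / 16 ≤ ‖z‖ → ‖z‖ ≤ rad * η ^ 8 →
    chartT η z * ‖v‖ ^ 2 ≤ C₀ * chartRes g2 eA eB η F z v v
  shell_upper : ∀ z v w, η ^ 30 / 16 ≤ ‖z‖ → ‖z‖ ≤ rad * η ^ 8 →
    |chartRes g2 eA eB η F z v w| ≤ C₀ * chartT η z * (‖v‖ * ‖w‖)

/-- The statement proved in `Start/BaseChart.lean`. -/
def BaseChartProp : Prop :=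
  ∀ (g2 : R2 → R2 →L[ℝ] R2 →L[ℝ] ℝ) (r₀ : ℝ), 0 < r₀ →
    ContDiffOn ℝ ∞ g2 (Metric.ball 0 r₀) →
    (∀ z ∈ Metric.ball (0 : R2) r₀, ∀ v w, g2 z v w = g2 z w v) →
    (∀ v w, g2 0 v w = ⟪v, w⟫) → fderiv ℝ g2 0 = 0 →
    ∀ (eA eB μ : ℝ), |eA| = 1 → |eB| = 1 → 0 < μ → μ ≤ 1 / 2 →
    ∃ rad₀ : ℝ, 0 < rad₀ ∧ ∀ rad : ℝ, 0 < rad → rad ≤ rad₀ →
      ∃ (a : ℕ) (C₀ : ℝ) (C : ℕ → ℝ) (η₀ : ℝ), 0 < C₀ ∧ 0 < η₀ ∧ η₀ ≤ 1 ∧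
        ∀ η : ℝ, 0 < η → η ≤ η₀ → ∃ F : R2 → R3, BaseChart g2 eA eB μ rad η a C₀ C F

end Vale.Agent.P205.Full.Start
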