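import Vale.Agent.P205.Full.Start.ChartData

/-!
# P205 full, START A2: the normal form at a critical point (the data handed to the later stages)
-/

open scoped Manifold ContDiff RealInnerProductSpace Topology
open Bundle Filter Set Metric

noncomputable section

namespace Vale.Agent.P205.Full.Start

variable {M : Type} [TopologicalSpace M] [ChartedSpace R2 M] [IsManifold (𝓡 2) ∞ M]

/-- Coordinates at a critical point in which the metric is `I + O(r²)`, the immersion is an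
affine similarity and the section is exactly a diagonal quadratic. -/
structure FlatPoint (g : Full.Metric M) (G S : M → R3) (p : M) where
  u : OpenPartialHomeomorph R2 M
  R : ℝ
  R_pos : 0 < R
  source_eq : u.source = ball 0 R
  smooth_u : ContMDiffOn (𝓡 2) (𝓡 2) ∞ u u.source
  smooth_symm : ContMDiffOn (𝓡 2) (𝓡 2) ∞ u.symm u.target
  bijective : ∀ z ∈ u.source, Function.Bijective (mfderiv (𝓡 2) (𝓡 2) u z)
  u_zero : u 0 = p
  metric_zero : ∀ i j, gPull g u (eb i) (eb j) 0 = if i = j then 1 else 0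
  metric_deriv : ∀ i j, HasFDerivAt (gPull g u (eb i) (eb j)) (0 : R2 →L[ℝ] ℝ) 0
  J : R2 →ₗᵢ[ℝ] R3
  μ : ℝ
  μ_pos : 0 < μ
  map_eq : ∀ z ∈ u.source, G (u z) = G p + μ • J z
  n : R3
  norm_n : ‖n‖ = 1
  orth_n : ∀ v, ⟪n, J v⟫ = 0
  nLine_eq : ∀ z ∈ u.source, ∀ v, nLine G (u z) v = ⟪n, v⟫ • n
  a : ℝ
  b : ℝ
  c₀ : ℝ
  a_ne : a ≠ 0
  b_ne : b ≠ 0
  sec_eq : ∀ z ∈ u.source, S (u z) = (c₀ + quad a b z) • n

/-- What A2 proves: flattening at all critical points, with arbitrarily short immersion and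
arbitrarily small differential of the section. -/
def FlattenProp : Prop :=
  ∀ (M : Type) [TopologicalSpace M] [T2Space M] [CompactSpace M] [ChartedSpace R2 M]
    [IsManifold (𝓡 2) ∞ M] (g : Full.Metric M) (N : ℕ) (V : Frame M N) (G₀ S₀ : M → R3),
    FrameSmooth V → FrameSpans V → IsImm3 G₀ → IsSection G₀ S₀ →
    {x | IsCrit G₀ V S₀ x}.Finite → (∀ x, IsCrit G₀ V S₀ x → IsNondegCrit G₀ V S₀ x) →
    ∀ κ : ℝ, 0 < κ →
      ∃ (G S : M → R3) (Z : Finset M) (P : (p : M) → p ∈ Z → FlatPoint g G S p),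
        IsImm3 G ∧ IsSection G S ∧ (∀ x, IsCrit G V S x ↔ x ∈ Z) ∧
        (∀ p hp q hq, p ≠ q → Disjoint (P p hp).u.target (P q hq).u.target) ∧
        (∀ x (v : TangentSpace (𝓡 2) x),
          ‖(mfderiv (𝓡 2) 𝓘(ℝ, R3) G x v : R3)‖ ^ 2 ≤ κ * g.inner x v v) ∧
        (∀ x (v : TangentSpace (𝓡 2) x),
          ‖nLine G x (mfderiv (𝓡 2) 𝓘(ℝ, R3) S x v : R3)‖ ^ 2 ≤ κ * g.inner x v v) ∧
        ∀ x, ‖S x‖ ^ 2 ≤ κ

end Vale.Agent.P205.Full.Start
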