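import Vale.Agent.P205.Full.Start.Data
import Vale.Agent.P205.Full.Start.FlatPoint
import Vale.Agent.P205.Full.Start.BaseChartDef

/-!
# P205 full, START: what the assembly of `BaseDataProp` consumes from A2 (for A4 see `BaseChartDef`)

The scales are `H = η⁻⁸`, `A = ± η⁻⁸`, `B = ± η⁸`, slack `η²² r²`, core radius `η³⁰`, contraction
`t = min (η⁻³⁶ r⁴) 1`.
-/

open scoped Manifold ContDiff RealInnerProductSpace
open Bundle Filter Set Metric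

noncomputable section

namespace Vale.Agent.P205.Full.Start

section

variable {M : Type} [TopologicalSpace M] [ChartedSpace R2 M] [IsManifold (𝓡 2) ∞ M]
variable {N : ℕ}

/-- The sign of a nonzero number. -/
def sgn (a : ℝ) : ℝ := if 0 < a then 1 else -1

lemma abs_sgn (a : ℝ) : |sgn a| = 1 := by unfold sgn; split <;> simp

/-- The section with the anisotropic quadratic at scale `κ η⁸` around each critical point. -/
structure ModData (g : Full.Metric M) (G S : M → R3) (V : Frame M N) (Z : Finset M)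
    (P : (p : M) → p ∈ Z → FlatPoint g G S p) (κ ε η : ℝ) (a : ℕ) (C₀ : ℝ) (C : ℕ → ℝ)
    (S' : M → R3) : Prop where
  sec : IsSection G S'
  poly : PolyBd V η a C S'
  sup : ∀ x, ‖S' x‖ ≤ C₀
  inner_eq : ∀ p hp, ∃ c : ℝ, ∀ z ∈ (P p hp).u.source, ‖z‖ ≤ κ * η ^ 8 →
    S' ((P p hp).u z) =
      (c + quad (sgn (P p hp).a * η⁻¹ ^ 8) (sgn (P p hp).b * η ^ 8) z) • (P p hp).n
  small : ∀ x (v : TangentSpace (𝓡 2) x),
    ‖nLine G x (mfderiv (𝓡 2) 𝓘(ℝ, R3) S' x v : R3)‖ ≤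
      ‖nLine G x (mfderiv (𝓡 2) 𝓘(ℝ, R3) S x v : R3)‖ + ε * Real.sqrt (g.inner x v v)
  hess_le : ∀ i k x, ‖D V i (dSec G V S' k) x‖ ≤ C₀ * η⁻¹ ^ 8
  low_in : ∀ p hp z, ‖z‖ ≤ (P p hp).R / 2 →
    η ^ 16 * ‖z‖ ^ 2 ≤ C₀ * qS G V S' ((P p hp).u z)
  low_out : ∀ x, (∀ p hp, x ∉ (P p hp).u '' closedBall 0 ((P p hp).R / 2)) →
    η ^ 16 ≤ C₀ * qS G V S' x

end

/-- What the second half of A2 proves. -/
def ModifyProp : Prop :=
  ∀ (M : Type) [TopologicalSpace M] [T2Space M] [CompactSpace M] [ChartedSpace R2 M]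
    [IsManifold (𝓡 2) ∞ M] (g : Full.Metric M) (N : ℕ) (V : Frame M N) (G S : M → R3)
    (Z : Finset M) (P : (p : M) → p ∈ Z → FlatPoint g G S p),
    FrameSmooth V → FrameSpans V → IsImm3 G → IsSection G S →
    (∀ x, IsCrit G V S x ↔ x ∈ Z) →
    (∀ p hp q hq, p ≠ q → Disjoint (P p hp).u.target (P q hq).u.target) →
    ∀ ε : ℝ, 0 < ε → ∃ κ₀ : ℝ, 0 < κ₀ ∧ ∀ κ : ℝ, 0 < κ → κ ≤ κ₀ →
      ∃ (a : ℕ) (C₀ : ℝ) (C : ℕ → ℝ) (η₀ : ℝ), 0 < η₀ ∧ η₀ ≤ 1 ∧ ∀ η : ℝ, 0 < η → η ≤ η₀ →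
        ∃ S' : M → R3, ModData g G S V Z P κ ε η a C₀ C S'

end Vale.Agent.P205.Full.Start
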