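import Vale.Agent.P205.Full.Start.Jets

/-!
# Module START, A4: second order Taylor expansion of a metric on the plane

The metric at a normal point is `I + T` with `T` a quadratic symmetric tensor, up to a remainder
of order three together with its first two derivatives.
-/

open Set Metric Filter
open scoped RealInnerProductSpace ContDiff Topology

namespace Vale.Agent.P205.Full.Start

noncomputable section

set_option maxSynthPendingDepth 3

section
variable {F : Type*} [NormedAddCommGroup F] [NormedSpace ℝ F]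

/-- The second order part at the origin. -/
def quadPart (g : R2 → F) (u : R2) : F := (1 / 2 : ℝ) • fderiv ℝ (fderiv ℝ g) 0 u u

/-- The remainder of order three. -/
def taylorRem (g : R2 → F) (u : R2) : F := g u - quadPart g u

variable {g : R2 → F} {r₀ : ℝ}

lemma hasFDerivAt_quadPart (hg : ContDiffAt ℝ ∞ g 0) (u : R2) :
    HasFDerivAt (quadPart g) (fderiv ℝ (fderiv ℝ g) 0 u) u := by
  have hs : IsSymmSndFDerivAt ℝ g 0 :=
    hg.isSymmSndFDerivAt (by simp; exact WithTop.coe_le_coe.2 le_top)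
  have h := (((fderiv ℝ (fderiv ℝ g) 0).hasFDerivAt (x := u)).clm_apply
    (hasFDerivAt_id u)).const_smul (1 / 2 : ℝ)
  refine h.congr_fderiv ?_
  ext v
  simp [hs v u, ← add_smul]
  norm_num

/-- Taylor with the first two derivatives of the remainder. -/
theorem taylorRem_bounds (hr : 0 < r₀) (hg : ContDiffOn ℝ ∞ g (ball 0 r₀)) (h0 : g 0 = 0)
    (h1 : fderiv ℝ g 0 = 0) :
    ∃ C : ℝ, 0 ≤ C ∧ ∀ u : R2, ‖u‖ ≤ r₀ / 2 →
      ‖taylorRem g u‖ ≤ C * ‖u‖ ^ 3 ∧ ‖fderiv ℝ (taylorRem g) u‖ ≤ C * ‖u‖ ^ 2 ∧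
        ‖fderiv ℝ (fderiv ℝ (taylorRem g)) u‖ ≤ C * ‖u‖ := by
  set H := fderiv ℝ (fderiv ℝ g) 0
  have hd1 : ContDiffOn ℝ ∞ (fderiv ℝ g) (ball 0 r₀) := hg.fderiv_of_isOpen isOpen_ball (by simp)
  have hd2 : ContDiffOn ℝ ∞ (fderiv ℝ (fderiv ℝ g)) (ball 0 r₀) :=
    hd1.fderiv_of_isOpen isOpen_ball (by simp)
  have hd3 : ContDiffOn ℝ ∞ (fderiv ℝ (fderiv ℝ (fderiv ℝ g))) (ball 0 r₀) :=
    hd2.fderiv_of_isOpen isOpen_ball (by simp)
  have hsub : closedBall (0 : R2) (r₀ / 2) ⊆ ball 0 r₀ := closedBall_subset_ball (by linarith)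
  have hnhds : ∀ x ∈ closedBall (0 : R2) (r₀ / 2), ball (0 : R2) r₀ ∈ 𝓝 x :=
    fun x hx => isOpen_ball.mem_nhds (hsub hx)
  have hg0 : ContDiffAt ℝ ∞ g 0 := hg.contDiffAt (ball_mem_nhds 0 hr)
  have hR1 : ∀ x ∈ ball (0 : R2) r₀, fderiv ℝ (taylorRem g) x = fderiv ℝ g x - H x := fun x hx =>
    ((((hg.contDiffAt (isOpen_ball.mem_nhds hx)).differentiableAt (by simp)).hasFDerivAt).sub
      (hasFDerivAt_quadPart hg0 x)).fderiv
  have hR2 : ∀ x ∈ closedBall (0 : R2) (r₀ / 2),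
      fderiv ℝ (fderiv ℝ (taylorRem g)) x = fderiv ℝ (fderiv ℝ g) x - H := by
    intro x hx
    have he : fderiv ℝ (taylorRem g) =ᶠ[𝓝 x] fun y => fderiv ℝ g y - H y :=
      eventually_of_mem (hnhds x hx) hR1
    rw [he.fderiv_eq]
    exact (((hd1.contDiffAt (hnhds x hx)).differentiableAt (by simp)).hasFDerivAt.sub
      H.hasFDerivAt).fderiv
  obtain ⟨C, hC⟩ := (isCompact_closedBall (0 : R2) (r₀ / 2)).exists_bound_of_continuousOn
    (hd3.continuousOn.mono hsub)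
  refine ⟨max C 0, le_max_right _ _, fun u hu => ?_⟩
  have hB : ∀ {x : R2}, x ∈ closedBall (0 : R2) ‖u‖ → x ∈ closedBall (0 : R2) (r₀ / 2) :=
    fun hx => closedBall_subset_closedBall hu hx
  have h0' : (0 : R2) ∈ closedBall (0 : R2) ‖u‖ := mem_closedBall_self (norm_nonneg u)
  have hu' : u ∈ closedBall (0 : R2) ‖u‖ := by simp
  have e2 : ∀ x ∈ closedBall (0 : R2) ‖u‖,
      ‖fderiv ℝ (fderiv ℝ (taylorRem g)) x‖ ≤ max C 0 * ‖u‖ := by
    intro x hx
    rw [hR2 x (hB hx)]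
    refine le_trans ((convex_closedBall (0 : R2) ‖u‖).norm_image_sub_le_of_norm_fderiv_le
      (fun y hy => (hd2.contDiffAt (hnhds y (hB hy))).differentiableAt (by simp))
      (fun y hy => (hC y (hB hy)).trans (le_max_left C 0)) h0' hx) ?_
    have : ‖x - 0‖ ≤ ‖u‖ := by simpa using hx
    gcongr
  have hRd : ∀ x ∈ closedBall (0 : R2) ‖u‖, DifferentiableAt ℝ (fderiv ℝ (taylorRem g)) x := by
    intro x hx
    exact (((hd1.contDiffAt (hnhds x (hB hx))).differentiableAt (by simp)).sub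
      H.differentiableAt).congr_of_eventuallyEq (eventually_of_mem (hnhds x (hB hx)) hR1)
  have hz : fderiv ℝ (taylorRem g) 0 = 0 := by
    rw [hR1 0 (mem_ball_self hr), h1, map_zero, sub_zero]
  have e1 : ∀ x ∈ closedBall (0 : R2) ‖u‖,
      ‖fderiv ℝ (taylorRem g) x‖ ≤ max C 0 * ‖u‖ ^ 2 := by
    intro x hx
    have h := (convex_closedBall (0 : R2) ‖u‖).norm_image_sub_le_of_norm_fderiv_le hRd e2 h0' hx
    rw [hz, sub_zero] at h
    refine h.trans ?_
    have : ‖x - 0‖ ≤ ‖u‖ := by simpa using hx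
    rw [pow_two, ← mul_assoc]
    gcongr
  refine ⟨?_, e1 u hu', e2 u hu'⟩
  have hd0 : ∀ x ∈ closedBall (0 : R2) ‖u‖, DifferentiableAt ℝ (taylorRem g) x := fun x hx =>
    ((hg.contDiffAt (hnhds x (hB hx))).differentiableAt (by simp)).sub
      (hasFDerivAt_quadPart hg0 x).differentiableAt
  have h := (convex_closedBall (0 : R2) ‖u‖).norm_image_sub_le_of_norm_fderiv_le hd0 e1 h0' hu'
  simp only [taylorRem, quadPart, h0, map_zero, smul_zero, sub_zero] at h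
  refine h.trans (le_of_eq ?_)
  ring

end

/-- The tensor with the entries of a second derivative. -/
def tensorOf (H : R2 →L[ℝ] R2 →L[ℝ] R2 →L[ℝ] R2 →L[ℝ] ℝ) : QT :=
  let e : Fin 2 → R2 := fun i => EuclideanSpace.single i 1
  ⟨H (e 0) (e 0) (e 0) (e 0) / 2, H (e 0) (e 1) (e 0) (e 0), H (e 1) (e 1) (e 0) (e 0) / 2,
    H (e 0) (e 0) (e 0) (e 1) / 2, H (e 0) (e 1) (e 0) (e 1), H (e 1) (e 1) (e 0) (e 1) / 2,
    H (e 0) (e 0) (e 1) (e 1) / 2, H (e 0) (e 1) (e 1) (e 1), H (e 1) (e 1) (e 1) (e 1) / 2⟩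

lemma eval_tensorOf {H : R2 →L[ℝ] R2 →L[ℝ] R2 →L[ℝ] R2 →L[ℝ] ℝ}
    (h1 : ∀ a b, H a b = H b a) (h2 : ∀ a b v w, H a b v w = H a b w v) (u v w : R2) :
    (tensorOf H).eval u v w = H u u v w / 2 := by
  have hs : ∀ z : R2, z = z 0 • EuclideanSpace.single 0 1 + z 1 • EuclideanSpace.single 1 1 :=
    fun z => by ext i; fin_cases i <;> simp
  conv_rhs => rw [hs u, hs v, hs w]
  simp only [map_add, map_smul, add_apply, smul_apply, smul_eq_mul]
  rw [h1 (EuclideanSpace.single 1 1) (EuclideanSpace.single 0 1),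
    h2 (EuclideanSpace.single 0 1) (EuclideanSpace.single 0 1) (EuclideanSpace.single 1 1)
      (EuclideanSpace.single 0 1),
    h2 (EuclideanSpace.single 0 1) (EuclideanSpace.single 1 1) (EuclideanSpace.single 1 1)
      (EuclideanSpace.single 0 1),
    h2 (EuclideanSpace.single 1 1) (EuclideanSpace.single 1 1) (EuclideanSpace.single 1 1)
      (EuclideanSpace.single 0 1)]
  simp only [tensorOf, QT.eval, QT.t11, QT.t12, QT.t22]
  ring

/-- The scalar remainder of a metric against its quadratic tensor. -/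
def metricRem (g₂ : R2 → R2 →L[ℝ] R2 →L[ℝ] ℝ) (T : QT) (v w : R2) (u : R2) : ℝ :=
  g₂ u v w - ⟪v, w⟫ - T.eval u v w

/-- **Expansion of a metric at a normal point.** -/
theorem exists_QT {g₂ : R2 → R2 →L[ℝ] R2 →L[ℝ] ℝ} {r₀ : ℝ} (hr : 0 < r₀)
    (hg : ContDiffOn ℝ ∞ g₂ (ball 0 r₀)) (hsymm : ∀ u ∈ ball (0 : R2) r₀, ∀ v w,
      g₂ u v w = g₂ u w v) (h0 : ∀ v w, g₂ 0 v w = ⟪v, w⟫) (h1 : fderiv ℝ g₂ 0 = 0) :
    ∃ (T : QT) (C : ℝ), 0 ≤ C ∧ ∀ u : R2, ‖u‖ ≤ r₀ / 2 → ∀ v w : R2,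
      |metricRem g₂ T v w u| ≤ C * ‖u‖ ^ 3 * (‖v‖ * ‖w‖) ∧
      ‖fderiv ℝ (metricRem g₂ T v w) u‖ ≤ C * ‖u‖ ^ 2 * (‖v‖ * ‖w‖) ∧
      ‖fderiv ℝ (fderiv ℝ (metricRem g₂ T v w)) u‖ ≤ C * ‖u‖ * (‖v‖ * ‖w‖) := by
  set g := fun u => g₂ u - g₂ 0 with hgdef
  have hg' : ContDiffOn ℝ ∞ g (ball 0 r₀) := hg.sub contDiffOn_const
  have hfd : fderiv ℝ g = fderiv ℝ g₂ := funext fun x => by
    simp only [g]
    exact fderiv_sub_const _
  obtain ⟨C, hC, hb⟩ := taylorRem_bounds hr hg' (by simp [g]) (by rw [hfd, h1])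
  set H := fderiv ℝ (fderiv ℝ g) 0 with hH
  have hg0 : ContDiffAt ℝ ∞ g 0 := hg'.contDiffAt (ball_mem_nhds 0 hr)
  have hs1 : ∀ a b, H a b = H b a :=
    fun a b => (hg0.isSymmSndFDerivAt (by simp; exact WithTop.coe_le_coe.2 le_top)) a b
  have hd : ∀ x ∈ ball (0 : R2) r₀, DifferentiableAt ℝ g₂ x := fun x hx =>
    (hg.contDiffAt (isOpen_ball.mem_nhds hx)).differentiableAt (by simp)
  have hs2 : ∀ a b v w, H a b v w = H a b w v := by
    intro a b v w
    have hD : ∀ x ∈ ball (0 : R2) r₀, fderiv ℝ g₂ x b v w = fderiv ℝ g₂ x b w v := by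
      intro x hx
      have e : (fun y => g₂ y v w) =ᶠ[𝓝 x] fun y => g₂ y w v :=
        eventually_of_mem (isOpen_ball.mem_nhds hx) fun y hy => hsymm y hy v w
      have k : ∀ p q : R2, fderiv ℝ (fun y => g₂ y p q) x b = fderiv ℝ g₂ x b p q := fun p q => by
        rw [(((hd x hx).hasFDerivAt.clm_apply (hasFDerivAt_const p x)).clm_apply
          (hasFDerivAt_const q x)).fderiv]
        simp
      rw [← k v w, e.fderiv_eq, k w v]
    have hd2 : DifferentiableAt ℝ (fderiv ℝ g₂) 0 :=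
      ((hg.fderiv_of_isOpen (m := ∞) isOpen_ball (by simp)).contDiffAt
        (ball_mem_nhds 0 hr)).differentiableAt (by simp)
    have k : ∀ p q : R2, fderiv ℝ (fun y => fderiv ℝ g₂ y b p q) 0 a = H a b p q := fun p q => by
      rw [((((hd2.hasFDerivAt.clm_apply (hasFDerivAt_const b 0)).clm_apply
        (hasFDerivAt_const p 0)).clm_apply (hasFDerivAt_const q 0))).fderiv, hH, hfd]
      simp
    have e : (fun y => fderiv ℝ g₂ y b v w) =ᶠ[𝓝 0] fun y => fderiv ℝ g₂ y b w v :=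
      eventually_of_mem (ball_mem_nhds 0 hr) hD
    rw [← k v w, e.fderiv_eq, k w v]
  refine ⟨tensorOf H, C, hC, fun u hu v w => ?_⟩
  set L : (R2 →L[ℝ] R2 →L[ℝ] ℝ) →L[ℝ] ℝ :=
    (ContinuousLinearMap.apply ℝ ℝ w).comp (ContinuousLinearMap.apply ℝ (R2 →L[ℝ] ℝ) v) with hL
  have hLle : ‖L‖ ≤ ‖v‖ * ‖w‖ := L.opNorm_le_bound (by positivity) fun A => by
    refine (ContinuousLinearMap.le_opNorm₂ A v w).trans (le_of_eq ?_)
    ring
  have hrem : metricRem g₂ (tensorOf H) v w = fun y => L (taylorRem g y) := by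
    funext y
    simp [metricRem, eval_tensorOf hs1 hs2, taylorRem, quadPart, ← hH, hL, g, h0]
    ring
  obtain ⟨b0, b1, b2⟩ := hb u hu
  have hmem : u ∈ ball (0 : R2) r₀ := by simp; linarith
  have hsm : ContDiffOn ℝ ∞ (taylorRem g) (ball 0 r₀) :=
    hg'.sub ((ContDiff.const_smul (1 / 2 : ℝ) (H.contDiff.clm_apply contDiff_id)).contDiffOn)
  have hev : fderiv ℝ (fun y => L (taylorRem g y)) =ᶠ[𝓝 u]
      fun y => ContinuousLinearMap.compL ℝ R2 _ ℝ L (fderiv ℝ (taylorRem g) y) := by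
    refine eventually_of_mem (isOpen_ball.mem_nhds hmem) fun y hy => ?_
    exact (L.hasFDerivAt.comp y
      ((hsm.contDiffAt (isOpen_ball.mem_nhds hy)).differentiableAt (by simp)).hasFDerivAt).fderiv
  rw [hrem]
  refine ⟨?_, ?_, ?_⟩
  · refine (L.le_opNorm _).trans ?_
    rw [mul_comm]
    gcongr
  · rw [hev.eq_of_nhds]
    refine (L.opNorm_comp_le _).trans ?_
    rw [mul_comm]
    gcongr
  · have hd2 : DifferentiableAt ℝ (fderiv ℝ (taylorRem g)) u :=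
      ((hsm.fderiv_of_isOpen (m := ∞) isOpen_ball (by simp)).contDiffAt
        (isOpen_ball.mem_nhds hmem)).differentiableAt (by simp)
    rw [hev.fderiv_eq]
    refine (le_of_eq (congrArg norm
      (((ContinuousLinearMap.compL ℝ R2 _ ℝ L).hasFDerivAt.comp u hd2.hasFDerivAt).fderiv))).trans ?_
    refine (ContinuousLinearMap.opNorm_comp_le _ _).trans ?_
    rw [mul_comm]
    gcongr
    exact ((ContinuousLinearMap.compL ℝ R2 (R2 →L[ℝ] R2 →L[ℝ] ℝ) ℝ).le_opNorm L).trans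
      ((mul_le_of_le_one_left (norm_nonneg L)
        (ContinuousLinearMap.norm_compL_le ℝ R2 (R2 →L[ℝ] R2 →L[ℝ] ℝ) ℝ)).trans hLle)

end

end Vale.Agent.P205.Full.Start
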