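import Vale.Agent.P205.Full.Start.Base
import Vale.Agent.P205.Full.Start.BaseChartDef
import Vale.Agent.P205.Full.Start.Taylor

/-!
# Module START, A4: the base map in adapted coordinates, order-zero facts
-/

open Real Set Filter Topology
open scoped RealInnerProductSpace ContDiff

noncomputable section

namespace Vale.Agent.P205.Full.Start

/-- Forgetting the fourth coordinate. -/
def toR3 : R4 →L[ℝ] R3 :=
  (EuclideanSpace.proj (0 : Fin 4) : R4 →L[ℝ] ℝ).smulRight (EuclideanSpace.single 0 1) +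
    (EuclideanSpace.proj (1 : Fin 4) : R4 →L[ℝ] ℝ).smulRight (EuclideanSpace.single 1 1) +
    (EuclideanSpace.proj (2 : Fin 4) : R4 →L[ℝ] ℝ).smulRight (EuclideanSpace.single 2 1)

lemma toR3_flatR (z : R2) : toR3 (flatR z) = flat3 z := by simp [toR3, flatR, flat3, px, py]

lemma inner_toR3 (x y : R4) (hx : x 3 = 0) : ⟪toR3 x, toR3 y⟫ = ⟪x, y⟫ := by
  simp [toR3, inner_add_left, inner_add_right, PiLp.inner_apply, Fin.sum_univ_four, hx]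

lemma norm_toR3_le (x : R4) : ‖toR3 x‖ ≤ ‖x‖ := by
  refine le_of_pow_le_pow_left₀ two_ne_zero (norm_nonneg _) ?_
  simp [toR3, EuclideanSpace.real_norm_sq_eq, Fin.sum_univ_three, Fin.sum_univ_four]
  nlinarith [sq_nonneg (x 3)]

namespace QT

variable (T : QT)

/-- The sum of the sizes of the coefficients. -/
def total : ℝ :=
  |T.a1| + |T.a2| + |T.a3| + |T.b1| + |T.b2| + |T.b3| + |T.c1| + |T.c2| + |T.c3|

lemma total_nonneg : 0 ≤ T.total := by unfold total; positivity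

lemma abs_coef_le : |T.a1| ≤ T.total ∧ |T.a2| ≤ T.total ∧ |T.a3| ≤ T.total ∧ |T.b1| ≤ T.total ∧
    |T.b2| ≤ T.total ∧ |T.b3| ≤ T.total ∧ |T.c1| ≤ T.total ∧ |T.c2| ≤ T.total ∧
    |T.c3| ≤ T.total := by
  have h := fun x : ℝ => abs_nonneg x
  have := h T.a1; have := h T.a2; have := h T.a3; have := h T.b1; have := h T.b2
  have := h T.b3; have := h T.c1; have := h T.c2; have := h T.c3
  unfold total
  refine ⟨?_, ?_, ?_, ?_, ?_, ?_, ?_, ?_, ?_⟩ <;> linarith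

lemma abs_eval_le (u v w : R2) : |T.eval u v w| ≤ 4 * T.total * ‖u‖ ^ 2 * (‖v‖ * ‖w‖) := by
  obtain ⟨a1, a2, a3, b1, b2, b3, c1, c2, c3⟩ := T.abs_coef_le
  have hn := T.total_nonneg
  have key : ∀ (i j : Fin 2), |v i * w j| ≤ ‖v‖ * ‖w‖ := fun i j => by
    rw [abs_mul]; exact mul_le_mul (abs_coord v i) (abs_coord w j) (abs_nonneg _) (norm_nonneg _)
  have bnd : ∀ c d e : ℝ, |c| + |d| + |e| ≤ T.total → |c * u 0 ^ 2 + d * (u 0 * u 1) + e * u 1 ^ 2| ≤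
      T.total * ‖u‖ ^ 2 := fun c d e h =>
    (quad_le c d e u).trans (mul_le_mul_of_nonneg_right h (sq_nonneg _))
  have z := fun x : ℝ => abs_nonneg x
  have e1 := bnd T.a1 T.a2 T.a3 (by unfold total; linarith [z T.b1, z T.b2, z T.b3, z T.c1, z T.c2, z T.c3])
  have e2 := bnd T.b1 T.b2 T.b3 (by unfold total; linarith [z T.a1, z T.a2, z T.a3, z T.c1, z T.c2, z T.c3])
  have e3 := bnd T.c1 T.c2 T.c3 (by unfold total; linarith [z T.a1, z T.a2, z T.a3, z T.b1, z T.b2, z T.b3])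
  have hB : 0 ≤ T.total * ‖u‖ ^ 2 := by positivity
  rw [eval, t11, t12, t22]
  refine (abs_add_three _ _ _).trans ?_
  rw [abs_mul, abs_mul _ (v 0 * w 1 + v 1 * w 0), abs_mul _ (v 1 * w 1)]
  have f1 := mul_le_mul e1 (key 0 0) (abs_nonneg _) hB
  have f2 := mul_le_mul e2 ((abs_add_le _ _).trans (add_le_add (key 0 1) (key 1 0))) (abs_nonneg _) hB
  have f3 := mul_le_mul e3 (key 1 1) (abs_nonneg _) hB
  linarith

end QT

/-- The jet tensor of the target. -/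
def chartQT (Q : QT) (eA eB η : ℝ) : QT :=
  (Q - QT.dpsiSq (eA * η⁻¹ ^ 8) (eB * η ^ 8)) - QT.radial (η ^ 22)

/-- The candidate. -/
def chartF (Q : QT) (eA eB μ s₁ η : ℝ) (z : R2) : R3 :=
  toR3 (baseMap (chartQT Q eA eB η) 1 μ s₁ (η ^ 9) z)

/-- The part of the target seen neither by the jet nor by the loss. -/
def targetRem (g2 : R2 → R2 →L[ℝ] R2 →L[ℝ] ℝ) (Q : QT) (η : ℝ) (z v w : R2) : ℝ :=
  metricRem g2 Q v w z * (1 - η ^ 22 * ‖z‖ ^ 2) - η ^ 22 * ‖z‖ ^ 2 * Q.eval z v w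

variable {g2 : R2 → R2 →L[ℝ] R2 →L[ℝ] ℝ} {Q : QT} {eA eB μ s₁ η : ℝ}

lemma chartTarget_eq (z v w : R2) :
    chartTarget g2 eA eB η z v w =
      ⟪v, w⟫ + (chartQT Q eA eB η).eval z v w + targetRem g2 Q η z v w := by
  rw [chartQT, QT.eval_sub, QT.eval_sub, QT.eval_dpsiSq, QT.eval_radial]
  simp [chartTarget, targetRem, metricRem, dquad, px, py, PiLp.inner_apply, Fin.sum_univ_two,
    EuclideanSpace.real_norm_sq_eq]
  ring

lemma chartF_smooth : ContDiff ℝ ∞ (chartF Q eA eB μ s₁ η) :=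
  toR3.contDiff.comp contDiff_baseMap

lemma fderiv_chartF (z v : R2) :
    fderiv ℝ (chartF Q eA eB μ s₁ η) z v =
      toR3 (fderiv ℝ (baseMap (chartQT Q eA eB η) 1 μ s₁ (η ^ 9)) z v) := by
  rw [show chartF Q eA eB μ s₁ η = toR3 ∘ baseMap (chartQT Q eA eB η) 1 μ s₁ (η ^ 9) from rfl,
    (toR3.hasFDerivAt.comp z (contDiff_baseMap.differentiable (by simp) z).hasFDerivAt).fderiv]
  rfl

lemma fderiv_baseMap_coord {T : QT} {α ρ : ℝ} (z v : R2) :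
    fderiv ℝ (baseMap T α μ s₁ ρ) z v 3 = 0 := by
  have h := ((EuclideanSpace.proj (3 : Fin 4) : R4 →L[ℝ] ℝ).hasFDerivAt.comp z
    ((contDiff_baseMap (T := T) (α := α) (μ := μ) (s₁ := s₁) (ρ := ρ)).differentiable (by simp)
      z).hasFDerivAt).fderiv
  have h0 : (fun y => (EuclideanSpace.proj (3 : Fin 4) : R4 →L[ℝ] ℝ) (baseMap T α μ s₁ ρ y)) =
      fun _ => (0 : ℝ) := funext fun y => baseMap_coord y
  have := congrArg (fun L : R2 →L[ℝ] ℝ => L v) h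
  simp only [Function.comp_def, h0] at this
  simpa using this.symm

lemma inner_fderiv_chartF (z v w : R2) :
    ⟪fderiv ℝ (chartF Q eA eB μ s₁ η) z v, fderiv ℝ (chartF Q eA eB μ s₁ η) z w⟫ =
      pullP (baseMap (chartQT Q eA eB η) 1 μ s₁ (η ^ 9)) z v w := by
  rw [fderiv_chartF, fderiv_chartF, inner_toR3 _ _ (fderiv_baseMap_coord z v)]
  rfl

/-- Everywhere: residual = loss + (target - pull-back of the jet). -/
lemma chartRes_eq (z v w : R2) :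
    chartRes g2 eA eB η (chartF Q eA eB μ s₁ η) z v w =
      gain (chartQT Q eA eB η) 1 μ s₁ (η ^ 9) z v w +
        (chartTarget g2 eA eB η z v w - pullP (baseJet (chartQT Q eA eB η) 1 (η ^ 9)) z v w) := by
  rw [chartRes, inner_fderiv_chartF, gain]; ring

/-- Inside: residual = loss - jet error + remainder. -/
lemma chartRes_inner (hη : 0 < η) {z : R2} (hz : ‖z‖ < η ^ 9 / 2) (v w : R2) :
    chartRes g2 eA eB η (chartF Q eA eB μ s₁ η) z v w =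
      gain (chartQT Q eA eB η) 1 μ s₁ (η ^ 9) z v w - (chartQT Q eA eB η).err 1 z v w +
        targetRem g2 Q η z v w := by
  rw [chartRes, inner_fderiv_chartF, pullP_baseMap_inner (pow_pos hη 9) one_ne_zero hz,
    chartTarget_eq (Q := Q)]
  ring

lemma chartF_zero : chartF Q eA eB μ s₁ η 0 = 0 := by
  simp [chartF, baseMap, baseJet, QT.dev, QT.jetMap, QT.jX, QT.jY, QT.jZ]

lemma chartF_outer (hη : 0 < η) (hs₁ : 1 ≤ s₁) {z : R2} (h : 2 * s₁ * η ^ 9 ≤ ‖z‖) :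
    chartF Q eA eB μ s₁ η z = μ • flat3 z := by
  rw [chartF, baseMap_outer (pow_pos hη 9) hs₁ h, mul_one, map_smul, toR3_flatR]

/-- Parameters of the jet. -/
lemma exists_chart_params (Q : QT) :
    ∃ K : ℝ, 1 ≤ K ∧ ∀ eA eB η : ℝ, |eA| = 1 → |eB| = 1 → 0 < η → η ≤ 1 →
      (chartQT Q eA eB η).Le (K * η⁻¹ ^ 16) ∧ |(chartQT Q eA eB η).kap| ≤ K ∧
      1 ≤ K * η⁻¹ ^ 16 ∧
      K * η⁻¹ ^ 16 * (η ^ 9) ^ 2 + (1 + |(chartQT Q eA eB η).kap|) * η ^ 9 ≤ 3 * K * η ^ 2 := by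
  set q := Q.total with hq
  have hq0 : 0 ≤ q := Q.total_nonneg
  refine ⟨(3 * q + 3) ^ 2, by nlinarith, fun eA eB η hA hB hη hη1 => ?_⟩
  set K := (3 * q + 3) ^ 2 with hK
  have hK1 : q + 2 ≤ K := by nlinarith
  have hK2 : 3 * q + 3 ≤ K := by nlinarith
  have hi : 1 ≤ η⁻¹ := one_le_inv₀ hη |>.2 hη1
  have hi16 : 1 ≤ η⁻¹ ^ 16 := one_le_pow₀ hi
  have hp : ∀ n, η ^ n ≤ 1 := fun n => pow_le_one₀ hη.le hη1
  have hp0 : ∀ n, 0 ≤ η ^ n := fun n => pow_nonneg hη.le n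
  have hA2 : (eA * η⁻¹ ^ 8) ^ 2 = η⁻¹ ^ 16 := by
    rw [mul_pow, ← sq_abs eA, hA]; ring
  have hB2 : (eB * η ^ 8) ^ 2 ≤ 1 := by
    rw [mul_pow, ← sq_abs eB, hB, ← pow_mul, one_pow, one_mul]; exact hp _
  have hAB : |eA * η⁻¹ ^ 8 * (eB * η ^ 8)| = 1 := by
    rw [show eA * η⁻¹ ^ 8 * (eB * η ^ 8) = eA * eB * (η⁻¹ * η) ^ 8 by ring,
      inv_mul_cancel₀ hη.ne', one_pow, mul_one, abs_mul, hA, hB, one_mul]
  obtain ⟨a1, a2, a3, b1, b2, b3, c1, c2, c3⟩ := Q.abs_coef_le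
  have hkap : |(chartQT Q eA eB η).kap| ≤ 3 * q + 3 := by
    rw [chartQT, QT.kap_sub_dpsiSq_radial, QT.kap]
    rw [abs_le] at a3 b2 c1 ⊢
    have := abs_le.1 hAB.le
    constructor <;> linarith [hp 22, hp0 22]
  have hT : ∀ x d : ℝ, |x| ≤ q → |d| ≤ η⁻¹ ^ 16 + 1 → |x - d| ≤ K * η⁻¹ ^ 16 := fun x d hx hd => by
    have := mul_le_mul_of_nonneg_right hK1 (by positivity : 0 ≤ η⁻¹ ^ 16)
    have := mul_le_mul_of_nonneg_left hi16 hq0
    linarith [abs_sub x d]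
  have hbig : 1 ≤ K * η⁻¹ ^ 16 :=
    one_le_mul_of_one_le_of_one_le (by linarith) hi16
  refine ⟨?_, hkap.trans hK2, hbig, ?_⟩
  · have hc := hp 22
    have hc0 := hp0 22
    have hA0 : 0 ≤ η⁻¹ ^ 16 := by positivity
    refine ⟨?_, ?_, ?_, ?_, ?_, ?_, ?_, ?_, ?_, ?_⟩
    · show |Q.a1 - (eA * η⁻¹ ^ 8) ^ 2 - η ^ 22| ≤ _
      rw [sub_sub, hA2]
      exact hT _ _ a1 (by rw [abs_of_nonneg (by linarith)]; linarith)
    · show |Q.a2 - 0 - 0| ≤ _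
      rw [sub_sub]; exact hT _ _ a2 (by simp only [add_zero, abs_zero]; positivity)
    · show |Q.a3 - 0 - η ^ 22| ≤ _
      rw [sub_sub]; exact hT _ _ a3 (by rw [abs_of_nonneg (by linarith)]; linarith)
    · show |Q.b1 - 0 - 0| ≤ _
      rw [sub_sub]; exact hT _ _ b1 (by simp only [add_zero, abs_zero]; positivity)
    · show |Q.b2 - eA * η⁻¹ ^ 8 * (eB * η ^ 8) - 0| ≤ _
      rw [sub_sub]; exact hT _ _ b2 (by rw [add_zero, hAB]; linarith)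
    · show |Q.b3 - 0 - 0| ≤ _
      rw [sub_sub]; exact hT _ _ b3 (by simp only [add_zero, abs_zero]; positivity)
    · show |Q.c1 - 0 - η ^ 22| ≤ _
      rw [sub_sub]; exact hT _ _ c1 (by rw [abs_of_nonneg (by linarith)]; linarith)
    · show |Q.c2 - 0 - 0| ≤ _
      rw [sub_sub]; exact hT _ _ c2 (by simp only [add_zero, abs_zero]; positivity)
    · show |Q.c3 - (eB * η ^ 8) ^ 2 - η ^ 22| ≤ _
      rw [sub_sub]
      exact hT _ _ c3 (by rw [abs_of_nonneg (by positivity)]; linarith)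
    · rw [← sq_abs]
      exact (pow_le_pow_left₀ (abs_nonneg _) hkap 2).trans
        (le_mul_of_one_le_right (by positivity) hi16)
  · have e : K * η⁻¹ ^ 16 * (η ^ 9) ^ 2 = K * η ^ 2 := by field_simp
    rw [e]
    have := mul_le_mul (show 1 + |(chartQT Q eA eB η).kap| ≤ 2 * K by linarith)
      (pow_le_pow_of_le_one hη.le hη1 (show 2 ≤ 9 by norm_num)) (hp0 9) (by linarith)
    linarith

lemma chartT_eq_radArg (η : ℝ) (z : R2) :
    min (((η ^ 9)⁻¹ ^ 2 * ‖z‖ ^ 2) ^ 2) 1 = chartT η z := by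
  rw [chartT, inv_pow, inv_pow, ← pow_mul, mul_pow, inv_pow, ← pow_mul, ← pow_mul]

lemma abs_dquad_le (hA : |eA| = 1) (hB : |eB| = 1) (hη : 0 < η) (hη1 : η ≤ 1) (z v : R2) :
    |dquad (eA * η⁻¹ ^ 8) (eB * η ^ 8) z v| ≤ 2 * η⁻¹ ^ 8 * (‖z‖ * ‖v‖) := by
  have h0 : |eA * η⁻¹ ^ 8| = η⁻¹ ^ 8 := by rw [abs_mul, hA, one_mul, abs_of_nonneg]; positivity
  have h1 : |eB * η ^ 8| ≤ η⁻¹ ^ 8 := by
    rw [abs_mul, hB, one_mul, abs_of_nonneg (by positivity)]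
    exact (pow_le_one₀ hη.le hη1).trans (one_le_pow₀ (one_le_inv₀ hη |>.2 hη1))
  have k : ∀ a x y : ℝ, |a| ≤ η⁻¹ ^ 8 → |x| ≤ ‖z‖ → |y| ≤ ‖v‖ →
      |a * x * y| ≤ η⁻¹ ^ 8 * (‖z‖ * ‖v‖) := fun a x y ha hx hy => by
    rw [mul_assoc, abs_mul, abs_mul]
    exact mul_le_mul ha (mul_le_mul hx hy (abs_nonneg _) (norm_nonneg _)) (by positivity)
      (by positivity)
  simp only [dquad, add_apply, smul_apply, smul_eq_mul]
  refine (abs_add_le _ _).trans ?_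
  linarith [k _ _ _ h0.le (abs_px z) (abs_px v), k _ _ _ h1 (abs_py z) (abs_py v)]

section Estimates

variable {Cr r₁ K C : ℝ}

/-- The remainder inside. -/
lemma targetRem_le (hrem : ∀ z v w, ‖z‖ ≤ r₁ → |metricRem g2 Q v w z| ≤ Cr * ‖z‖ ^ 3 * (‖v‖ * ‖w‖))
    {T : QT} (hT : T.Le (K * η⁻¹ ^ 16)) (hM : 1 ≤ K * η⁻¹ ^ 16) (hη : 0 < η) (hη1 : η ≤ 1)
    {z : R2} (hz : ‖z‖ ≤ r₁) (hz1 : ‖z‖ ≤ 1) (v w : R2) :
    |targetRem g2 Q η z v w - T.err 1 z v w| ≤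
      (Cr * ‖z‖ ^ 3 + (4 * Q.total * η ^ 22 + 288 * K ^ 2 * η⁻¹ ^ 32) * ‖z‖ ^ 4) *
        (‖v‖ * ‖w‖) := by
  have h1 := hrem z v w hz
  have h2 := Q.abs_eval_le z v w
  have h3 := T.err_le (α := 1) hM hT (by norm_num) z v w
  have hs : η ^ 22 * ‖z‖ ^ 2 ≤ 1 :=
    mul_le_one₀ (pow_le_one₀ hη.le hη1) (sq_nonneg _) (pow_le_one₀ (norm_nonneg _) hz1)
  have hs0 : 0 ≤ η ^ 22 * ‖z‖ ^ 2 := by positivity
  have f1 : |metricRem g2 Q v w z * (1 - η ^ 22 * ‖z‖ ^ 2)| ≤ Cr * ‖z‖ ^ 3 * (‖v‖ * ‖w‖) := by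
    rw [abs_mul, abs_of_nonneg (by linarith : 0 ≤ 1 - η ^ 22 * ‖z‖ ^ 2)]
    exact (mul_le_of_le_one_right (abs_nonneg _) (by linarith)).trans h1
  have f2 : |η ^ 22 * ‖z‖ ^ 2 * Q.eval z v w| ≤
      4 * Q.total * η ^ 22 * ‖z‖ ^ 4 * (‖v‖ * ‖w‖) := by
    rw [abs_mul, abs_of_nonneg hs0]
    exact (mul_le_mul_of_nonneg_left h2 hs0).trans (le_of_eq (by ring))
  rw [show (K * η⁻¹ ^ 16) ^ 2 = K ^ 2 * η⁻¹ ^ 32 by ring] at h3
  rw [targetRem]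
  refine (abs_sub _ _).trans ((add_le_add (abs_sub _ _) h3).trans ?_)
  linarith

/-- Arithmetic of the core: everything is below `η²³ r²`. -/
lemma core_arith (hC : 0 ≤ C) (hCr : 0 ≤ Cr) {q : ℝ} (hq : 0 ≤ q) (hη : 0 < η) (hη1 : η ≤ 1)
    {r : ℝ} (hr : 0 ≤ r) (hrη : r ≤ η ^ 30) :
    C * min (η⁻¹ ^ 36 * r ^ 4) 1 +
        (Cr * r ^ 3 + (4 * q * η ^ 22 + 288 * K ^ 2 * η⁻¹ ^ 32) * r ^ 4) ≤
      (C + Cr + 4 * q + 288 * K ^ 2) * η ^ 23 * r ^ 2 := by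
  have hp : ∀ {m n : ℕ}, n ≤ m → η ^ m ≤ η ^ n := fun h => pow_le_pow_of_le_one hη.le hη1 h
  have hrr : 0 ≤ r ^ 2 := sq_nonneg _
  have t1 : min (η⁻¹ ^ 36 * r ^ 4) 1 ≤ η ^ 23 * r ^ 2 := by
    refine (min_le_left _ _).trans ?_
    calc η⁻¹ ^ 36 * r ^ 4 = η⁻¹ ^ 36 * r ^ 2 * r ^ 2 := by ring
      _ ≤ η⁻¹ ^ 36 * (η ^ 30) ^ 2 * r ^ 2 := by gcongr
      _ = η ^ 24 * r ^ 2 := by field_simp
      _ ≤ η ^ 23 * r ^ 2 := mul_le_mul_of_nonneg_right (hp (by norm_num)) hrr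
  have t2 : r ^ 3 ≤ η ^ 23 * r ^ 2 := by
    calc r ^ 3 = r * r ^ 2 := by ring
      _ ≤ η ^ 23 * r ^ 2 := mul_le_mul_of_nonneg_right (hrη.trans (hp (by norm_num))) hrr
  have t3 : η⁻¹ ^ 32 * r ^ 4 ≤ η ^ 23 * r ^ 2 := by
    calc η⁻¹ ^ 32 * r ^ 4 = η⁻¹ ^ 32 * r ^ 2 * r ^ 2 := by ring
      _ ≤ η⁻¹ ^ 32 * (η ^ 30) ^ 2 * r ^ 2 := by gcongr
      _ = η ^ 28 * r ^ 2 := by field_simp
      _ ≤ η ^ 23 * r ^ 2 := mul_le_mul_of_nonneg_right (hp (by norm_num)) hrr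
  have t4 : η ^ 22 * r ^ 4 ≤ η ^ 23 * r ^ 2 := by
    refine le_trans ?_ t3
    gcongr
    exact (pow_le_one₀ hη.le hη1).trans (one_le_pow₀ (one_le_inv₀ hη |>.2 hη1))
  linarith [mul_le_mul_of_nonneg_left t1 hC, mul_le_mul_of_nonneg_left t2 hCr,
    mul_le_mul_of_nonneg_left t4 (by linarith : 0 ≤ 4 * q),
    mul_le_mul_of_nonneg_left t3 (by positivity : (0 : ℝ) ≤ 288 * K ^ 2)]

/-- Arithmetic of the inner shell. -/
lemma shell_arith (hCr : 0 ≤ Cr) {q : ℝ} (hq : 0 ≤ q) (hη : 0 < η) (hη1 : η ≤ 1)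
    {r : ℝ} (hr : η ^ 30 / 16 ≤ r) :
    Cr * r ^ 3 + (4 * q * η ^ 22 + 288 * K ^ 2 * η⁻¹ ^ 32) * r ^ 4 ≤
      (16 * Cr + 4 * q + 288 * K ^ 2) * η * (η⁻¹ ^ 36 * r ^ 4) := by
  have hr0 : 0 ≤ r := le_trans (by positivity) hr
  have hi : 1 ≤ η⁻¹ := one_le_inv₀ hη |>.2 hη1
  have h35 : η⁻¹ ^ 35 = η * η⁻¹ ^ 36 := by field_simp
  have a1 : r ^ 3 ≤ 16 * η⁻¹ ^ 35 * r ^ 4 := by
    have h : 1 ≤ 16 * η⁻¹ ^ 30 * r := by
      calc (1 : ℝ) = 16 * η⁻¹ ^ 30 * (η ^ 30 / 16) := by field_simp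
        _ ≤ _ := by gcongr
    calc r ^ 3 ≤ r ^ 3 * (16 * η⁻¹ ^ 30 * r) := le_mul_of_one_le_right (by positivity) h
      _ = 16 * η⁻¹ ^ 30 * r ^ 4 := by ring
      _ ≤ _ := by
          gcongr
          norm_num
  have a2 : η⁻¹ ^ 32 * r ^ 4 ≤ η⁻¹ ^ 35 * r ^ 4 := by
    gcongr
    norm_num
  have a3 : η ^ 22 * r ^ 4 ≤ η⁻¹ ^ 35 * r ^ 4 :=
    mul_le_mul_of_nonneg_right ((pow_le_one₀ hη.le hη1).trans (one_le_pow₀ hi)) (by positivity)
  have e : η * (η⁻¹ ^ 36 * r ^ 4) = η⁻¹ ^ 35 * r ^ 4 := by rw [h35]; ring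
  rw [mul_assoc (16 * Cr + 4 * q + 288 * K ^ 2), e]
  linarith [mul_le_mul_of_nonneg_left a1 hCr,
    mul_le_mul_of_nonneg_left a3 (by linarith : 0 ≤ 4 * q),
    mul_le_mul_of_nonneg_left a2 (by positivity : (0 : ℝ) ≤ 288 * K ^ 2)]

/-- Far from the centre the target is close to flat. -/
lemma chartTarget_near (hrem : ∀ z v w, ‖z‖ ≤ r₁ →
      |metricRem g2 Q v w z| ≤ Cr * ‖z‖ ^ 3 * (‖v‖ * ‖w‖)) (hCr : 0 ≤ Cr)
    (hA : |eA| = 1) (hB : |eB| = 1) (hη : 0 < η) (hη1 : η ≤ 1) {rad : ℝ} (hrad : 0 < rad)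
    (hrad1 : rad ≤ 1) (hradr : rad ≤ r₁) {z : R2} (hz : ‖z‖ ≤ rad * η ^ 8) (v w : R2) :
    |chartTarget g2 eA eB η z v w - ⟪v, w⟫| ≤ (Cr + 4 * Q.total + 5) * rad * (‖v‖ * ‖w‖) := by
  have hq := Q.total_nonneg
  have hV : 0 ≤ ‖v‖ * ‖w‖ := by positivity
  have hzrad : ‖z‖ ≤ rad := hz.trans (mul_le_of_le_one_right hrad.le (pow_le_one₀ hη.le hη1))
  have hz1 : ‖z‖ ≤ 1 := hzrad.trans hrad1
  have hr2 : ‖z‖ ^ 2 ≤ rad :=
    (pow_le_of_le_one (norm_nonneg _) hz1 two_ne_zero).trans hzrad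
  have hr3 : ‖z‖ ^ 3 ≤ rad :=
    (pow_le_of_le_one (norm_nonneg _) hz1 (by norm_num)).trans hzrad
  have hsq : η⁻¹ ^ 16 * ‖z‖ ^ 2 ≤ rad := by
    calc η⁻¹ ^ 16 * ‖z‖ ^ 2 ≤ η⁻¹ ^ 16 * (rad * η ^ 8) ^ 2 := by gcongr
      _ = rad ^ 2 := by field_simp
      _ ≤ rad := pow_le_of_le_one hrad.le hrad1 two_ne_zero
  have hs0 : 0 ≤ η ^ 22 * ‖z‖ ^ 2 := by positivity
  have hs1 : η ^ 22 * ‖z‖ ^ 2 ≤ rad :=
    (mul_le_of_le_one_left (sq_nonneg _) (pow_le_one₀ hη.le hη1)).trans hr2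
  have hdd : |dquad (eA * η⁻¹ ^ 8) (eB * η ^ 8) z v * dquad (eA * η⁻¹ ^ 8) (eB * η ^ 8) z w| ≤
      4 * rad * (‖v‖ * ‖w‖) := by
    rw [abs_mul]
    refine (mul_le_mul (abs_dquad_le hA hB hη hη1 z v) (abs_dquad_le hA hB hη hη1 z w)
      (abs_nonneg _) (by positivity)).trans ?_
    calc _ = 4 * (η⁻¹ ^ 16 * ‖z‖ ^ 2) * (‖v‖ * ‖w‖) := by ring
      _ ≤ _ := by gcongr
  have a1 := (mul_le_of_le_one_right (abs_nonneg (metricRem g2 Q v w z + Q.eval z v w))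
    (by linarith : 1 - η ^ 22 * ‖z‖ ^ 2 ≤ 1)).trans ((abs_add_le _ _).trans
      (add_le_add (hrem z v w (hzrad.trans hradr)) (Q.abs_eval_le z v w)))
  have a2 := mul_le_mul hs1 (abs_real_inner_le_norm v w) (abs_nonneg _) hrad.le
  have e : chartTarget g2 eA eB η z v w - ⟪v, w⟫ =
      ((metricRem g2 Q v w z + Q.eval z v w) * (1 - η ^ 22 * ‖z‖ ^ 2) -
        η ^ 22 * ‖z‖ ^ 2 * ⟪v, w⟫) -
        dquad (eA * η⁻¹ ^ 8) (eB * η ^ 8) z v * dquad (eA * η⁻¹ ^ 8) (eB * η ^ 8) z w := by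
    rw [chartTarget, metricRem]; ring
  rw [e]
  refine (abs_sub _ _).trans ((add_le_add (abs_sub _ _) hdd).trans ?_)
  rw [abs_mul, abs_mul (η ^ 22 * ‖z‖ ^ 2), abs_of_nonneg hs0,
    abs_of_nonneg (by linarith : 0 ≤ 1 - η ^ 22 * ‖z‖ ^ 2)]
  linarith [mul_le_mul_of_nonneg_left hr3 (mul_nonneg hCr hV),
    mul_le_mul_of_nonneg_left hr2 (by positivity : 0 ≤ 4 * Q.total * (‖v‖ * ‖w‖))]

/-- **The shell.** Target minus pull-back of the jet is a small multiple of the radial shape. -/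
lemma shell_le (hrem : ∀ z v w, ‖z‖ ≤ r₁ →
      |metricRem g2 Q v w z| ≤ Cr * ‖z‖ ^ 3 * (‖v‖ * ‖w‖)) (hCr : 0 ≤ Cr) (hC : 0 ≤ C)
    (hA : |eA| = 1) (hB : |eB| = 1) (hη : 0 < η) (hη1 : η ≤ 1)
    (hT : (chartQT Q eA eB η).Le (K * η⁻¹ ^ 16)) (hM : 1 ≤ K * η⁻¹ ^ 16) (hK : 0 ≤ K)
    (hclose : ∀ z v w, |pullP (baseJet (chartQT Q eA eB η) 1 (η ^ 9)) z v w - ⟪v, w⟫| ≤
      C * (3 * K) * η * (‖v‖ * ‖w‖))
    {rad : ℝ} (hrad : 0 < rad) (hrad1 : rad ≤ 1) (hradr : rad ≤ r₁)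
    {z : R2} (hlo : η ^ 30 / 16 ≤ ‖z‖) (hhi : ‖z‖ ≤ rad * η ^ 8) (v w : R2) :
    |chartTarget g2 eA eB η z v w - pullP (baseJet (chartQT Q eA eB η) 1 (η ^ 9)) z v w| ≤
      ((16 * Cr + 4 * Q.total + 288 * K ^ 2) * η +
        16 * ((Cr + 4 * Q.total + 5) * rad + C * (3 * K) * η)) * chartT η z * (‖v‖ * ‖w‖) := by
  have hV : 0 ≤ ‖v‖ * ‖w‖ := by positivity
  have hq := Q.total_nonneg
  have hzrad : ‖z‖ ≤ rad := hhi.trans (mul_le_of_le_one_right hrad.le (pow_le_one₀ hη.le hη1))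
  have ht0 : 0 ≤ chartT η z := le_min (by positivity) zero_le_one
  rcases lt_or_ge ‖z‖ (η ^ 9 / 2) with hin | hout
  · have ht : chartT η z = η⁻¹ ^ 36 * ‖z‖ ^ 4 := by
      refine min_eq_left ?_
      calc η⁻¹ ^ 36 * ‖z‖ ^ 4 ≤ η⁻¹ ^ 36 * (η ^ 9) ^ 4 := by
            gcongr; linarith [pow_pos hη 9]
        _ = 1 := by field_simp
    have hj : pullP (baseJet (chartQT Q eA eB η) 1 (η ^ 9)) z v w =
        ⟪v, w⟫ + (chartQT Q eA eB η).eval z v w + (chartQT Q eA eB η).err 1 z v w := by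
      simp only [pullP, fderiv_baseJet_inner (pow_pos hη 9) hin]
      rw [QT.pull_jetMap _ one_ne_zero, one_pow, one_mul]
    have e : chartTarget g2 eA eB η z v w -
        pullP (baseJet (chartQT Q eA eB η) 1 (η ^ 9)) z v w =
        targetRem g2 Q η z v w - (chartQT Q eA eB η).err 1 z v w := by
      rw [chartTarget_eq (Q := Q), hj]; ring
    rw [e]
    refine (targetRem_le hrem hT hM hη hη1 (hzrad.trans hradr) (hzrad.trans hrad1) v w).trans ?_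
    refine mul_le_mul_of_nonneg_right ((shell_arith hCr hq hη hη1 hlo).trans ?_) hV
    rw [ht]
    exact mul_le_mul_of_nonneg_right (le_add_of_nonneg_right (by positivity)) (by positivity)
  · have ht : 1 / 16 ≤ chartT η z := by
      refine le_min ?_ (by norm_num)
      calc (1 : ℝ) / 16 = η⁻¹ ^ 36 * (η ^ 9 / 2) ^ 4 := by field_simp; norm_num
        _ ≤ _ := by gcongr
    have h1 := chartTarget_near hrem hCr hA hB hη hη1 hrad hrad1 hradr hhi v w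
    have h2 := hclose z v w
    rw [abs_sub_comm] at h2
    refine (abs_sub_le _ ⟪v, w⟫ _).trans ((add_le_add h1 h2).trans ?_)
    rw [← add_mul]
    refine mul_le_mul_of_nonneg_right ?_ hV
    have hX : 0 ≤ 16 * ((Cr + 4 * Q.total + 5) * rad + C * (3 * K) * η) := by positivity
    calc (Cr + 4 * Q.total + 5) * rad + C * (3 * K) * η
        = 16 * ((Cr + 4 * Q.total + 5) * rad + C * (3 * K) * η) * (1 / 16) := by ring
      _ ≤ 16 * ((Cr + 4 * Q.total + 5) * rad + C * (3 * K) * η) * chartT η z :=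
          mul_le_mul_of_nonneg_left ht hX
      _ ≤ _ := mul_le_mul_of_nonneg_right (le_add_of_nonneg_left (by positivity)) ht0

end Estimates

/-- **Order-zero facts.** With a cubic bound on the metric remainder, the candidate is linear far
out, an immersion of bounded differential, its residual is below the slack in the core and
comparable with the radial shape in the shell. -/
theorem exists_chart_basic (g2 : R2 → R2 →L[ℝ] R2 →L[ℝ] ℝ) (Q : QT) {Cr r₁ : ℝ} (hCr : 0 ≤ Cr)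
    (hr₁ : 0 < r₁)
    (hrem : ∀ z v w, ‖z‖ ≤ r₁ → |metricRem g2 Q v w z| ≤ Cr * ‖z‖ ^ 3 * (‖v‖ * ‖w‖))
    {μ : ℝ} (hμ0 : 0 < μ) (hμ1 : μ < 1) :
    ∃ s₁ rad₀ : ℝ, 1 ≤ s₁ ∧ 0 < rad₀ ∧ ∀ rad : ℝ, 0 < rad → rad ≤ rad₀ →
      ∃ C₀ η₀ : ℝ, 0 < C₀ ∧ 0 < η₀ ∧ η₀ ≤ 1 / 4 ∧
        ∀ eA eB η : ℝ, |eA| = 1 → |eB| = 1 → 0 < η → η ≤ η₀ →
        (∀ z, rad * η ^ 8 ≤ ‖z‖ → chartF Q eA eB μ s₁ η z = μ • flat3 z) ∧
        (∀ z v, ‖fderiv ℝ (chartF Q eA eB μ s₁ η) z v‖ ≤ C₀ * ‖v‖) ∧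
        (∀ z v, ‖v‖ ≤ C₀ * ‖fderiv ℝ (chartF Q eA eB μ s₁ η) z v‖) ∧
        (∀ z v w, ‖z‖ ≤ η ^ 30 → |chartRes g2 eA eB η (chartF Q eA eB μ s₁ η) z v w| ≤
          C₀ * η ^ 23 * ‖z‖ ^ 2 * (‖v‖ * ‖w‖)) ∧
        (∀ z v, η ^ 30 / 16 ≤ ‖z‖ → ‖z‖ ≤ rad * η ^ 8 →
          chartT η z * ‖v‖ ^ 2 ≤ C₀ * chartRes g2 eA eB η (chartF Q eA eB μ s₁ η) z v v) ∧
        (∀ z v w, η ^ 30 / 16 ≤ ‖z‖ → ‖z‖ ≤ rad * η ^ 8 →
          |chartRes g2 eA eB η (chartF Q eA eB μ s₁ η) z v w| ≤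
            C₀ * chartT η z * (‖v‖ * ‖w‖)) := by
  obtain ⟨s₁, C, δ₀, hs₁, hC, hδ₀, hbase⟩ := exists_base hμ0 hμ1
  obtain ⟨K, hK, hpar⟩ := exists_chart_params Q
  have hq := Q.total_nonneg
  have hE2 : 0 ≤ Cr + 4 * Q.total + 5 := by linarith
  refine ⟨s₁, min (min r₁ 1) (1 / (64 * C * (Cr + 4 * Q.total + 5))), hs₁, by positivity,
    fun rad hrad hrad0 => ?_⟩
  have hradr : rad ≤ r₁ := hrad0.trans ((min_le_left _ _).trans (min_le_left _ _))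
  have hrad1 : rad ≤ 1 := hrad0.trans ((min_le_left _ _).trans (min_le_right _ _))
  have hradE : rad * (64 * C * (Cr + 4 * Q.total + 5)) ≤ 1 :=
    (le_div_iff₀ (by positivity)).1 (hrad0.trans (min_le_right _ _))
  refine ⟨2 * C + 2 + C * (3 * K) + (C + Cr + 4 * Q.total + 288 * K ^ 2) + 1 / (2 * C),
    min (min (1 / 4) (rad / (2 * s₁))) (min (δ₀ / (3 * K))
      (1 / (4 * C * (16 * Cr + 4 * Q.total + 288 * K ^ 2 + 16 * (C * (3 * K)))))),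
    by positivity, by positivity, (min_le_left _ _).trans (min_le_left _ _),
    fun eA eB η hA hB hη hηle => ?_⟩
  set C₀ := 2 * C + 2 + C * (3 * K) + (C + Cr + 4 * Q.total + 288 * K ^ 2) + 1 / (2 * C) with hC₀
  have hinv : 0 ≤ 1 / (2 * C) := by positivity
  have hCK : 0 ≤ C * (3 * K) := by positivity
  have hK2 : 0 ≤ 288 * K ^ 2 := by positivity
  have hη4 : η ≤ 1 / 4 := hηle.trans ((min_le_left _ _).trans (min_le_left _ _))
  have hη1 : η ≤ 1 := by linarith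
  have hηrad : η * (2 * s₁) ≤ rad :=
    (le_div_iff₀ (by positivity)).1 (hηle.trans ((min_le_left _ _).trans (min_le_right _ _)))
  have hηδ : η * (3 * K) ≤ δ₀ :=
    (le_div_iff₀ (by positivity)).1 (hηle.trans ((min_le_right _ _).trans (min_le_left _ _)))
  have hηE : η * (4 * C * (16 * Cr + 4 * Q.total + 288 * K ^ 2 + 16 * (C * (3 * K)))) ≤ 1 :=
    (le_div_iff₀ (by positivity)).1 (hηle.trans ((min_le_right _ _).trans (min_le_right _ _)))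
  obtain ⟨hT, hkap, hM1, hsz⟩ := hpar eA eB η hA hB hη hη1
  have hη2 : η ^ 2 ≤ η := pow_le_of_le_one hη.le hη1 (by norm_num)
  have hsz1 := hsz.trans (mul_le_mul_of_nonneg_left hη2 (by linarith : 0 ≤ 3 * K))
  have hb := hbase (chartQT Q eA eB η) (K * η⁻¹ ^ 16) 1 (η ^ 9) hM1 hT (by norm_num) le_rfl
    (pow_pos hη 9) (hsz1.trans (by linarith))
  simp only [chartT_eq_radArg, one_pow, one_mul] at hb
  have ht0 : ∀ z : R2, 0 ≤ chartT η z := fun z => le_min (by positivity) zero_le_one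
  have hclose : ∀ z v w, |pullP (baseJet (chartQT Q eA eB η) 1 (η ^ 9)) z v w - ⟪v, w⟫| ≤
      C * (3 * K) * η * (‖v‖ * ‖w‖) := fun z v w => by
    refine (hb z v w).2.2.2.trans (mul_le_mul_of_nonneg_right ?_ (by positivity))
    rw [mul_assoc C (3 * K)]
    exact mul_le_mul_of_nonneg_left hsz1 hC.le
  refine ⟨fun z hz => chartF_outer hη hs₁ (le_trans ?_ hz), fun z v => ?_, fun z v => ?_,
    fun z v w hz => ?_, fun z v hlo hhi => ?_, fun z v w hlo hhi => ?_⟩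
  · calc 2 * s₁ * η ^ 9 = η * (2 * s₁) * η ^ 8 := by ring
      _ ≤ rad * η ^ 8 := mul_le_mul_of_nonneg_right hηrad (by positivity)
  · obtain ⟨glow, -, -, -⟩ := hb z v v
    refine le_of_pow_le_pow_left₀ two_ne_zero (by positivity) ?_
    rw [← real_inner_self_eq_norm_sq (fderiv ℝ _ z v), inner_fderiv_chartF, mul_pow]
    have h0 : 0 ≤ gain (chartQT Q eA eB η) 1 μ s₁ (η ^ 9) z v v :=
      le_trans (by have := ht0 z; positivity) glow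
    have h2 := (abs_le.1 (hclose z v v)).2
    rw [real_inner_self_eq_norm_sq, ← sq] at h2
    have i3 : 1 + C * (3 * K) ≤ C₀ := by rw [hC₀]; linarith
    have i4 : 1 + C * (3 * K) * η ≤ C₀ ^ 2 := by
      linarith [le_self_pow₀ (show 1 ≤ C₀ by linarith) two_ne_zero,
        mul_le_of_le_one_right hCK hη1]
    rw [gain] at h0
    linarith [mul_le_mul_of_nonneg_right i4 (sq_nonneg ‖v‖)]
  · obtain ⟨-, -, himm, -⟩ := hb z v v
    have e : ‖fderiv ℝ (chartF Q eA eB μ s₁ η) z v‖ =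
        ‖fderiv ℝ (baseMap (chartQT Q eA eB η) 1 μ s₁ (η ^ 9)) z v‖ := by
      refine (sq_eq_sq₀ (norm_nonneg _) (norm_nonneg _)).1 ?_
      rw [← real_inner_self_eq_norm_sq, ← real_inner_self_eq_norm_sq, inner_fderiv_chartF]
      rfl
    rw [e]
    rw [inv_mul_le_iff₀ hC] at himm
    exact himm.trans (mul_le_mul_of_nonneg_right (by rw [hC₀]; linarith) (norm_nonneg _))
  · obtain ⟨-, gup, -, -⟩ := hb z v w
    have hz9 : ‖z‖ < η ^ 9 / 2 := by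
      calc ‖z‖ ≤ η ^ 30 := hz
        _ ≤ η ^ 10 := pow_le_pow_of_le_one hη.le hη1 (by norm_num)
        _ = η * η ^ 9 := by ring
        _ ≤ 1 / 4 * η ^ 9 := mul_le_mul_of_nonneg_right hη4 (by positivity)
        _ < η ^ 9 / 2 := by linarith [pow_pos hη 9]
    have hzr : ‖z‖ ≤ r₁ := by
      have h1 : η ≤ η * (2 * s₁) := le_mul_of_one_le_right hη.le (by linarith)
      linarith [hz.trans (pow_le_of_le_one hη.le hη1 (show 30 ≠ 0 by norm_num))]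
    rw [chartRes_inner hη hz9, sub_add_eq_add_sub, add_sub_assoc]
    refine (abs_add_le _ _).trans ((add_le_add gup (targetRem_le hrem hT hM1 hη hη1 hzr
      (hz.trans (pow_le_one₀ hη.le hη1)) v w)).trans ?_)
    rw [← add_mul]
    refine mul_le_mul_of_nonneg_right ((core_arith hC.le hCr hq hη hη1 (norm_nonneg z) hz).trans ?_)
      (by positivity)
    exact mul_le_mul_of_nonneg_right (mul_le_mul_of_nonneg_right (by rw [hC₀]; linarith)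
      (by positivity)) (by positivity)
  · obtain ⟨glow, -, -, -⟩ := hb z v v
    have hs := shell_le hrem hCr hC.le hA hB hη hη1 hT hM1 (by linarith) hclose hrad hrad1 hradr
      hlo hhi v v
    rw [chartRes_eq]
    set S := (16 * Cr + 4 * Q.total + 288 * K ^ 2) * η +
      16 * ((Cr + 4 * Q.total + 5) * rad + C * (3 * K) * η) with hS
    set X := chartTarget g2 eA eB η z v v -
      pullP (baseJet (chartQT Q eA eB η) 1 (η ^ 9)) z v v with hX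
    set G := gain (chartQT Q eA eB η) 1 μ s₁ (η ^ 9) z v v with hG
    have hS2 : 2 * C * S ≤ 1 := by rw [hS]; linarith
    have hm := mul_le_mul_of_nonneg_right hS2 (mul_nonneg (ht0 z) (sq_nonneg ‖v‖))
    have h2 := mul_le_mul_of_nonneg_left (abs_le.1 hs).1 (by positivity : 0 ≤ 2 * C)
    rw [inv_mul_eq_div, div_mul_eq_mul_div, div_le_iff₀ hC] at glow
    have h3 : chartT η z * ‖v‖ ^ 2 ≤ 2 * C * (G + X) := by linarith
    have hX0 : 0 ≤ G + X := nonneg_of_mul_nonneg_right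
      ((mul_nonneg (ht0 z) (sq_nonneg ‖v‖)).trans h3) (by positivity)
    exact h3.trans (mul_le_mul_of_nonneg_right (by rw [hC₀]; linarith) hX0)
  · obtain ⟨-, gup, -, -⟩ := hb z v w
    have hs := shell_le hrem hCr hC.le hA hB hη hη1 hT hM1 (by linarith) hclose hrad hrad1 hradr
      hlo hhi v w
    rw [chartRes_eq]
    refine (abs_add_le _ _).trans ((add_le_add gup hs).trans ?_)
    rw [← add_mul, ← add_mul]
    refine mul_le_mul_of_nonneg_right (mul_le_mul_of_nonneg_right ?_ (ht0 z)) (by positivity)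
    set S := (16 * Cr + 4 * Q.total + 288 * K ^ 2) * η +
      16 * ((Cr + 4 * Q.total + 5) * rad + C * (3 * K) * η) with hS
    have hS2 : 2 * C * S ≤ 1 := by rw [hS]; linarith
    have : S ≤ 1 / (2 * C) := by rw [le_div_iff₀ (by positivity)]; linarith
    rw [hC₀]; linarith

end Vale.Agent.P205.Full.Start
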