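import Vale.Agent.P205.Full.Start.Normal

/-!
# P205 full, START A1: the projection on the normal line is smooth
-/

open scoped Manifold ContDiff RealInnerProductSpace Topology
open Bundle Filter Set

namespace Vale.Agent.P205.Full.Start.Sect

variable {M : Type} [TopologicalSpace M] [ChartedSpace R2 M] [IsManifold (𝓡 2) ∞ M] {G : M → R3}

/-- A local unit normal around any point. -/
theorem exists_local_normal (hG : IsImm3 G) (x : M) :
    ∃ (U : Set M) (ν : M → R3), IsOpen U ∧ x ∈ U ∧ ContMDiffOn (𝓡 2) 𝓘(ℝ, R3) ∞ ν U ∧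
      ∀ y ∈ U, ‖ν y‖ = 1 ∧ ∀ v, nLine G y v = ⟪ν y, v⟫ • ν y := by
  refine ⟨(chartAt R2 x).source, fun y => nu G x (chartAt R2 x y), (chartAt R2 x).open_source,
    mem_chart_source R2 x, (contDiffOn_nu hG x).contMDiffOn.comp contMDiffOn_chart
      (fun y hy => (chartAt R2 x).map_source hy),
    fun y hy => ⟨norm_nu hG x ((chartAt R2 x).map_source hy), fun v => ?_⟩⟩
  have h := nLine_chart hG x ((chartAt R2 x).map_source hy) v
  rwa [(chartAt R2 x).left_inv hy] at h

/-- `x ↦ nLine G x` is smooth, as a map into the operators of `ℝ³`. -/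
theorem contMDiff_nLine (hG : IsImm3 G) :
    ContMDiff (𝓡 2) 𝓘(ℝ, R3 →L[ℝ] R3) ∞ (fun x => nLine G x) := by
  intro x
  obtain ⟨U, ν, hU, hxU, hν, h⟩ := exists_local_normal hG x
  have hq : ContDiff ℝ ∞ fun n : R3 => ((innerSL ℝ n : R3 →L[ℝ] ℝ).smulRight n : R3 →L[ℝ] R3) :=
    (innerSL ℝ (E := R3)).contDiff.smulRight contDiff_id
  refine ((hq.contMDiff.comp_contMDiffOn hν).contMDiffAt (hU.mem_nhds hxU)).congr_of_eventuallyEq ?_
  filter_upwards [hU.mem_nhds hxU] with y hy
  ext1 v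
  simp [(h y hy).2 v]

end Vale.Agent.P205.Full.Start.Sect
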