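import Vale.Agent.P205.Full.Start.AssembleAlg
import Vale.Agent.P205.Full.Start.AssembleStmts
import Vale.Agent.P205.Full.Start.BaseChartBasic
import Vale.Agent.P205.Full.Start.NormalSmooth

/-!
# P205 full, START: frame bounds in coordinates used at the cores
-/

open scoped Manifold ContDiff RealInnerProductSpace Topology
open Bundle Filter Set Metric

noncomputable section

namespace Vale.Agent.P205.Full.Start

variable {M : Type} [TopologicalSpace M] [ChartedSpace R2 M] [IsManifold (𝓡 2) ∞ M]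
variable {N : ℕ} {V : Frame M N}
variable {u : OpenPartialHomeomorph R2 M} (hu : ContMDiffOn (𝓡 2) (𝓡 2) ∞ u u.source)
  (hus : ContMDiffOn (𝓡 2) (𝓡 2) ∞ u.symm u.target)

lemma norm_iterated_one {E : Type*} [NormedAddCommGroup E] [NormedSpace ℝ E] (f : R2 → E)
    (z : R2) : ‖iteratedFDeriv ℝ 1 f z‖ = ‖fderiv ℝ f z‖ := norm_iteratedFDeriv_one f

lemma norm_iterated_two {E : Type*} [NormedAddCommGroup E] [NormedSpace ℝ E] (f : R2 → E)
    (z : R2) : ‖iteratedFDeriv ℝ 2 f z‖ = ‖fderiv ℝ (fderiv ℝ f) z‖ := by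
  rw [← norm_iteratedFDeriv_fderiv, norm_iteratedFDeriv_one]

/-- Derivatives of a product with a fixed smooth factor. -/
lemma norm_mul_le_of_bounds {s : Set R2} (hs : IsOpen s) {p E : R2 → ℝ}
    (hp : ContDiffOn ℝ ∞ p s) {z : R2} (hz : z ∈ s) (hE : ContDiffAt ℝ ∞ E z) {j : ℕ} (hj : j ≤ 2)
    {a b : ℝ} (ha : ∀ i ≤ j, ‖iteratedFDeriv ℝ i p z‖ ≤ a)
    (hb : ∀ i ≤ j, ‖iteratedFDeriv ℝ i E z‖ ≤ b) :
    ‖iteratedFDeriv ℝ j (fun w => p w * E w) z‖ ≤ 2 ^ j * (a * b) := by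
  obtain ⟨U, hU, hUo, hzU⟩ := _root_.eventually_nhds_iff.1
    ((hE.of_le (m := 2) (WithTop.coe_le_coe.2 le_top)).eventually (by simp))
  have ho : IsOpen (U ∩ s) := hUo.inter hs
  have h := norm_iteratedFDerivWithin_mul_le (𝕜 := ℝ) (N := 2)
    ((hp.mono inter_subset_right).of_le (WithTop.coe_le_coe.2 le_top))
    (fun w hw => (hU w hw.1).contDiffWithinAt) ho.uniqueDiffOn (x := z) ⟨hzU, hz⟩ (n := j)
    (by exact_mod_cast hj)
  rw [iteratedFDerivWithin_of_isOpen j ho ⟨hzU, hz⟩] at h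
  refine h.trans ?_
  have ha0 : 0 ≤ a := (norm_nonneg _).trans (ha j le_rfl)
  have hsum : (2 : ℝ) ^ j = ∑ i ∈ Finset.range (j + 1), (j.choose i : ℝ) := by
    exact_mod_cast (Nat.sum_range_choose j).symm
  rw [hsum, Finset.sum_mul]
  refine Finset.sum_le_sum fun i hi => ?_
  have hij : i ≤ j := Nat.le_of_lt_succ (Finset.mem_range.1 hi)
  rw [iteratedFDerivWithin_of_isOpen i ho ⟨hzU, hz⟩,
    iteratedFDerivWithin_of_isOpen (j - i) ho ⟨hzU, hz⟩, mul_assoc]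
  exact mul_le_mul_of_nonneg_left
    (mul_le_mul (ha i hij) (hb _ (Nat.sub_le _ _)) (norm_nonneg _) ha0) (Nat.cast_nonneg _)

include hu hus in
/-- A function given near a point by a quadratic form in the frame. -/
theorem exists_core_bilin_bounds (hV : FrameSmooth V) {K : Set R2} (hK : IsCompact K)
    (hKs : K ⊆ u.source) :
    ∃ C : ℝ, 1 ≤ C ∧ ∀ z ∈ K, ∀ (i k : Fin N) (f : M → ℝ) (E : Fin 2 → Fin 2 → R2 → ℝ)
      (b0 b1 b2 : ℝ), ContMDiff (𝓡 2) 𝓘(ℝ, ℝ) ∞ f → (∀ l m, ContDiffAt ℝ ∞ (E l m) z) →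
      (∀ᶠ a in 𝓝 z, f (u a) = ∑ l, ∑ m, cvf V u i a l * cvf V u k a m * E l m a) →
      (∀ l m, |E l m z| ≤ b0 ∧ ‖fderiv ℝ (E l m) z‖ ≤ b1 ∧
        ‖fderiv ℝ (fderiv ℝ (E l m)) z‖ ≤ b2) →
      (∀ j, |D V j f (u z)| ≤ C * (b0 + b1)) ∧
        ∀ j j', |D V j (D V j' f) (u z)| ≤ C * (b0 + b1 + b2) := by
  set p : Fin N × Fin N × Fin 2 × Fin 2 → R2 → ℝ := fun q a =>
    EuclideanSpace.proj (𝕜 := ℝ) q.2.2.1 (cvf V u q.1 a) *
      EuclideanSpace.proj (𝕜 := ℝ) q.2.2.2 (cvf V u q.2.1 a) with hp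
  have hps : ∀ q, ContDiffOn ℝ ∞ (p q) u.source := fun q =>
    ((EuclideanSpace.proj (𝕜 := ℝ) q.2.2.1).contDiff.comp_contDiffOn
      (contDiffOn_cvf hu hus hV q.1)).mul
    ((EuclideanSpace.proj (𝕜 := ℝ) q.2.2.2).contDiff.comp_contDiffOn
      (contDiffOn_cvf hu hus hV q.2.1))
  choose c hc0 hc using fun q => Open.exists_bound u.open_source hK hKs (hps q) 2
  set P := ∑ q, c q
  have hP : ∀ q, c q ≤ P := fun q => Finset.single_le_sum (fun r _ => hc0 r) (Finset.mem_univ q)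
  have hP0 : 0 ≤ P := Finset.sum_nonneg fun q _ => hc0 q
  obtain ⟨C₀, hC₀, hC₀b⟩ := exists_D_param_bounds (E := ℝ) hu hus hV hK hKs
  refine ⟨C₀ * (1 + 32 * P), one_le_mul_of_one_le_of_one_le hC₀ (by linarith),
    fun z hz i k f E b0 b1 b2 hf hE hev hb => ?_⟩
  have hb00 : 0 ≤ b0 := (abs_nonneg _).trans (hb 0 0).1
  have hb10 : 0 ≤ b1 := (norm_nonneg _).trans (hb 0 0).2.1
  have hb20 : 0 ≤ b2 := (norm_nonneg (fderiv ℝ (fderiv ℝ (E 0 0)) z)).trans (hb 0 0).2.2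
  set φ : R2 → ℝ := fun a => ∑ l, ∑ m, p (i, k, l, m) a * E l m a with hφ
  have hzs := u.open_source.mem_nhds (hKs hz)
  have hterm : ∀ l m, ContDiffAt ℝ ∞ (fun a => p (i, k, l, m) a * E l m a) z := fun l m =>
    ((hps _).contDiffAt hzs).mul (hE l m)
  have hφs : ContDiffAt ℝ ∞ φ z :=
    ContDiffAt.sum fun l _ => ContDiffAt.sum fun m _ => hterm l m
  have hφb : ∀ j, j ≤ 2 → ∀ b, (∀ l m, ∀ r ≤ j, ‖iteratedFDeriv ℝ r (E l m) z‖ ≤ b) →
      ‖iteratedFDeriv ℝ j φ z‖ ≤ 4 * (2 ^ j * (P * b)) := by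
    intro j hj b hbj
    have hle : (j : WithTop ℕ∞) ≤ ∞ := WithTop.coe_le_coe.2 le_top
    rw [hφ, iteratedFDeriv_fun_sum_apply fun l _ =>
      ContDiffAt.sum fun m _ => (hterm l m).of_le hle]
    refine (norm_sum_le _ _).trans ((Finset.sum_le_sum (g := fun _ => 2 * (2 ^ j * (P * b)))
      fun l _ => ?_).trans (by simp; linarith))
    rw [iteratedFDeriv_fun_sum_apply fun m _ => (hterm l m).of_le hle]
    refine (norm_sum_le _ _).trans ((Finset.sum_le_sum (g := fun _ => 2 ^ j * (P * b))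
      fun m _ => ?_).trans (by simp))
    exact norm_mul_le_of_bounds u.open_source (hps _) (hKs hz) (hE l m) hj
      (fun r hr => (hc _ r (hr.trans hj) z hz).trans (hP _)) (hbj l m)
  have h1 : ‖fderiv ℝ φ z‖ ≤ 8 * P * (b0 + b1) := by
    rw [← norm_iterated_one]
    refine (hφb 1 (by norm_num) (b0 + b1) fun l m r hr => ?_).trans (le_of_eq (by ring))
    interval_cases r
    · rw [norm_iteratedFDeriv_zero, Real.norm_eq_abs]; linarith [(hb l m).1]
    · rw [norm_iterated_one]; linarith [(hb l m).2.1]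
  have h2 : ‖fderiv ℝ (fderiv ℝ φ) z‖ ≤ 16 * P * (b0 + b1 + b2) := by
    rw [← norm_iterated_two]
    refine (hφb 2 le_rfl (b0 + b1 + b2) fun l m r hr => ?_).trans (le_of_eq (by ring))
    interval_cases r
    · rw [norm_iteratedFDeriv_zero, Real.norm_eq_abs]; linarith [(hb l m).1]
    · rw [norm_iterated_one]; linarith [(hb l m).2.1]
    · rw [norm_iterated_two]; linarith [(hb l m).2.2]
  obtain ⟨hD, hDD⟩ := (hC₀b z hz).2.2 f φ hf hφs hev
  have hC0' : 0 ≤ C₀ := by linarith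
  refine ⟨fun j => ?_, fun j j' => ?_⟩
  · refine (hD j).trans ?_
    rw [mul_assoc C₀]
    refine mul_le_mul_of_nonneg_left (h1.trans ?_) hC0'
    exact mul_le_mul_of_nonneg_right (by linarith) (by linarith)
  · refine (hDD j j').trans ?_
    rw [mul_assoc C₀]
    refine mul_le_mul_of_nonneg_left ?_ hC0'
    nlinarith [h1, h2, mul_nonneg hP0 hb20, mul_nonneg hP0 (add_nonneg hb00 hb10)]

include hu hus in
/-- The unit normal of a chart map with two-sided first and bounded second derivatives. -/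
theorem exists_core_normal_bound {E' : Type} [NormedAddCommGroup E'] [NormedSpace ℝ E']
    (hV : FrameSmooth V) {K : Set R2} (hK : IsCompact K) (hKs : K ⊆ u.source)
    (L : R3 →L[ℝ] E') (C₀ : ℝ) :
    ∃ C : ℝ, 1 ≤ C ∧ ∀ z ∈ K, ∀ (f : M → E') (Fl : R2 → R3),
      ContMDiff (𝓡 2) 𝓘(ℝ, E') ∞ f → ContDiff ℝ ∞ Fl →
      (∀ v, ‖fderiv ℝ Fl z v‖ ≤ C₀ * ‖v‖) → (∀ v, ‖v‖ ≤ C₀ * ‖fderiv ℝ Fl z v‖) →
      ‖fderiv ℝ (fderiv ℝ Fl) z‖ ≤ C₀ →
      (∀ᶠ a in 𝓝 z, f (u a) = L (unit3 (crossL (fderiv ℝ Fl a (eb 0)) (fderiv ℝ Fl a (eb 1))))) →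
      ∀ j, ‖D V j f (u z)‖ ≤ C := by
  obtain ⟨Cp, hCp, hCpb⟩ := exists_D_param_bounds (E := E') hu hus hV hK hKs
  set A : Set R3 := closedBall 0 (C₀ ^ 2) ∩ {w | 1 ≤ C₀ ^ 2 * ‖w‖}
  have hA : IsCompact A := (isCompact_closedBall _ _).inter_right
    (isClosed_le continuous_const (continuous_const.mul continuous_norm))
  have hA0 : A ⊆ {w | w ≠ 0} := fun w hw h0 => by
    have h := hw.2
    simp [h0] at h
    linarith
  obtain ⟨cu, hcu⟩ := hA.exists_bound_of_continuousOn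
    ((contDiffOn_unit3.continuousOn_fderiv_of_isOpen (isOpen_ne_fun continuous_id continuous_const)
      (by simp)).mono hA0)
  set T := ‖L‖ * (|cu| * (2 * |C₀| * |C₀|)) with hT
  refine ⟨Cp * (1 + T), one_le_mul_of_one_le_of_one_le hCp (le_add_of_nonneg_right (by positivity)),
    fun z hz f Fl hf hFl hup hlow h2 hev j => ?_⟩
  have he1 : ∀ i, ‖eb i‖ = 1 := fun i => by simp [eb]
  have hC0 : 0 < C₀ := by
    have h := hlow (eb 0)
    rw [he1] at h
    nlinarith [norm_nonneg (fderiv ℝ Fl z (eb 0))]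
  have hd : ContDiff ℝ ∞ (fderiv ℝ Fl) := hFl.fderiv_right (m := ∞) le_rfl
  have hFd : HasFDerivAt (fderiv ℝ Fl) (fderiv ℝ (fderiv ℝ Fl) z) z :=
    ((hd.differentiable (by simp)) z).hasFDerivAt
  set W : R2 → R3 := fun a => crossL (fderiv ℝ Fl a (eb 0)) (fderiv ℝ Fl a (eb 1)) with hW
  have hai : ∀ i, HasFDerivAt (fun a => fderiv ℝ Fl a (eb i))
      ((ContinuousLinearMap.apply ℝ R3 (eb i)).comp (fderiv ℝ (fderiv ℝ Fl) z)) z := fun i =>
    (ContinuousLinearMap.apply ℝ R3 (eb i)).hasFDerivAt.comp z hFd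
  have hWd := crossL.hasFDerivAt_of_bilinear (hai 0) (hai 1)
  have hWsm : ContDiff ℝ ∞ W :=
    (crossL.contDiff.comp (hd.clm_apply contDiff_const)).clm_apply (hd.clm_apply contDiff_const)
  have hWA : W z ∈ A := by
    refine ⟨mem_closedBall_zero_iff.2 ?_, norm_cross_ge hC0 _ hlow⟩
    refine (norm_cross_le _ _).trans ?_
    rw [sq]
    exact mul_le_mul ((hup _).trans (by rw [he1, mul_one])) ((hup _).trans (by rw [he1, mul_one]))
      (norm_nonneg _) hC0.le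
  have hWb : ‖fderiv ℝ W z‖ ≤ 2 * C₀ * C₀ := by
    refine ContinuousLinearMap.opNorm_le_bound _ (by positivity) fun v => ?_
    rw [hWd.fderiv]
    have hb : ∀ i, ‖fderiv ℝ Fl z (eb i)‖ ≤ C₀ := fun i =>
      (hup _).trans (by rw [he1, mul_one])
    have hb2 : ∀ i, ‖fderiv ℝ (fderiv ℝ Fl) z v (eb i)‖ ≤ C₀ * ‖v‖ := fun i =>
      ((fderiv ℝ (fderiv ℝ Fl) z).le_opNorm₂ v (eb i)).trans (by
        rw [he1, mul_one]; exact mul_le_mul_of_nonneg_right h2 (norm_nonneg v))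
    simp only [ContinuousLinearMap.precompR_apply, ContinuousLinearMap.precompL_apply,
      ContinuousLinearMap.compL_apply,
      add_apply, ContinuousLinearMap.coe_comp, Function.comp_apply,
      ContinuousLinearMap.apply_apply]
    refine (norm_add_le _ _).trans ?_
    have k1 := (norm_cross_le (fderiv ℝ Fl z (eb 0))
      (fderiv ℝ (fderiv ℝ Fl) z v (eb 1))).trans
      (mul_le_mul (hb 0) (hb2 1) (norm_nonneg _) hC0.le)
    have k2 := (norm_cross_le (fderiv ℝ (fderiv ℝ Fl) z v (eb 0))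
      (fderiv ℝ Fl z (eb 1))).trans
      (mul_le_mul (hb2 0) (hb 1) (norm_nonneg _) (by positivity))
    simp only [crossL_apply]
    linarith
  have hWne : W z ≠ 0 := hA0 hWA
  have hu3s : ContDiffAt ℝ ∞ unit3 (W z) :=
    contDiffOn_unit3.contDiffAt ((isOpen_ne_fun continuous_id continuous_const).mem_nhds hWne)
  have huW : ContDiffAt ℝ ∞ (unit3 ∘ W) z := ContDiffAt.comp z hu3s hWsm.contDiffAt
  have hφs : ContDiffAt ℝ ∞ (L ∘ unit3 ∘ W) z :=
    ContDiffAt.comp z L.contDiff.contDiffAt huW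
  refine ((((hCpb z hz).2.2 f _ hf hφs hev).1 j)).trans
    (mul_le_mul_of_nonneg_left ?_ (by linarith))
  have hu3 : HasFDerivAt unit3 (fderiv ℝ unit3 (W z)) (W z) :=
    (hu3s.differentiableAt (by simp)).hasFDerivAt
  have hWf : HasFDerivAt W (fderiv ℝ W z) z := ((hWsm.differentiable (by simp)) z).hasFDerivAt
  have hcomp : HasFDerivAt (L ∘ unit3 ∘ W)
      (L.comp ((fderiv ℝ unit3 (W z)).comp (fderiv ℝ W z))) z :=
    L.hasFDerivAt.comp z (hu3.comp z hWf)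
  rw [hcomp.fderiv]
  refine (L.opNorm_comp_le _).trans (le_trans ?_ (le_add_of_nonneg_left zero_le_one))
  rw [hT]
  refine mul_le_mul_of_nonneg_left ?_ (norm_nonneg L)
  refine ((fderiv ℝ unit3 (W z)).opNorm_comp_le _).trans ?_
  rw [abs_of_pos hC0]
  exact mul_le_mul ((hcu _ hWA).trans (le_abs_self _)) hWb (norm_nonneg _) (abs_nonneg _)

include hu hus in
/-- The lower bound of the second derivative of the section at a core. -/
theorem exists_core_hess (hV : FrameSmooth V) (hs : FrameSpans V) {K : Set R2} (hK : IsCompact K)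
    (hKs : K ⊆ u.source) :
    ∃ C η₁ : ℝ, 0 < C ∧ 0 < η₁ ∧ ∀ η : ℝ, 0 < η → η ≤ η₁ → ∀ z ∈ K, ‖z‖ ≤ η ^ 30 →
      ∀ (G S : M → R3) (n : R3) (c eA eB : ℝ), IsImm3 G → ContMDiff (𝓡 2) 𝓘(ℝ, R3) ∞ S →
      ‖n‖ = 1 → |eA| = 1 → |eB| = 1 →
      (∀ᶠ a in 𝓝 z, (∀ v, nLine G (u a) v = ⟪n, v⟫ • n) ∧
        S (u a) = (c + quad (eA * η⁻¹ ^ 8) (eB * η ^ 8) a) • n) →
      η⁻¹ ^ 8 ≤ C * ∑ i, ∑ k, ‖nLine G (u z) (D V i (dSec G V S k) (u z))‖ := by
  obtain ⟨C₁, hC₁, hC₁b⟩ := exists_cvf_bounds hu hus hV hs hK hKs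
  obtain ⟨C₂, hC₂, hC₂b⟩ := exists_D_param_bounds (E := ℝ) hu hus hV hK hKs
  have hC10 : (0 : ℝ) < C₁ := by linarith
  set R := (N : ℝ) * (C₁ ^ 2 + 2 * C₂ ^ 2) with hR
  have hR0 : 0 ≤ R := by positivity
  have hden : 0 < 2 * C₁ * R + 1 := by positivity
  refine ⟨2 * C₁, min 1 (1 / (2 * C₁ * R + 1)), by linarith,
    lt_min one_pos (by positivity), fun η hη hηle z hz hzn G S n c eA eB hG hS hn hA hB hev => ?_⟩
  have hη1 : η ≤ 1 := hηle.trans (min_le_left _ _)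
  have hpow : η ≤ 1 / (2 * C₁ * R + 1) := hηle.trans (min_le_right _ _)
  have hbig : 2 * C₁ * R ≤ η⁻¹ ^ 8 := by
    have h1 : 1 ≤ η⁻¹ := one_le_inv₀ hη |>.2 hη1
    have h2 : η⁻¹ ≤ η⁻¹ ^ 8 := le_self_pow₀ h1 (by norm_num)
    have h3 : η * (2 * C₁ * R + 1) ≤ 1 := (le_div_iff₀ hden).1 hpow
    have h4 : 2 * C₁ * R + 1 ≤ η⁻¹ := by
      rw [← one_div, le_div_iff₀ hη, mul_comm]
      exact h3
    linarith
  set A := eA * η⁻¹ ^ 8 with hAdef
  set B := eB * η ^ 8 with hBdef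
  have hcs : ∀ i, DifferentiableAt ℝ (cvf V u i) z := fun i =>
    ((contDiffOn_cvf hu hus hV i).contDiffAt (u.open_source.mem_nhds (hKs hz))).differentiableAt
      (by simp)
  set ψ : Fin N → R2 → ℝ := fun k a =>
    A * px a * px (cvf V u k a) + B * py a * py (cvf V u k a) with hψ
  have hdS : ∀ k, ∀ᶠ a in 𝓝 z, dSec G V S k (u a) = ψ k a • n := by
    intro k
    filter_upwards [eventually_eventually_nhds.2 hev, u.open_source.mem_nhds (hKs hz)] with a ha has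
    have hq : HasFDerivAt (fun b => c + quad A B b) (dquad A B a) a :=
      (hasFDerivAt_quad A B a).const_add c
    rw [dSec_param hu hus hS has hn ha.self_of_nhds.1 hq.differentiableAt
      (ha.mono fun b hb => hb.2) k, hq.fderiv]
    simp [hψ, dquad]
  have hval : ∀ i k, nLine G (u z) (D V i (dSec G V S k) (u z)) =
      (A * px (cvf V u i z) * px (cvf V u k z) + B * py (cvf V u i z) * py (cvf V u k z) +
        dquad A B z (fderiv ℝ (cvf V u k) z (cvf V u i z))) • n := by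
    intro i k
    have hsm : MDifferentiableAt (𝓡 2) 𝓘(ℝ, R3) (dSec G V S k) (u z) :=
      (((Sect.contMDiff_nLine hG).clm_apply (Full.contMDiff_D hV k hS)) (u z)).mdifferentiableAt
        (by simp)
    rw [D_param_congr hu hus (hKs hz) hsm (hdS k) i]
    have hψd : HasFDerivAt (ψ k) ((A * px z) • (px.comp (fderiv ℝ (cvf V u k) z)) +
        px (cvf V u k z) • (A • px) + ((B * py z) • (py.comp (fderiv ℝ (cvf V u k) z)) +
        py (cvf V u k z) • (B • py))) z :=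
      (((px.hasFDerivAt).const_mul A).mul (px.hasFDerivAt.comp z (hcs k).hasFDerivAt)).add
        (((py.hasFDerivAt).const_mul B).mul (py.hasFDerivAt.comp z (hcs k).hasFDerivAt))
    rw [(hψd.smul_const n).fderiv, ContinuousLinearMap.smulRight_apply, hev.self_of_nhds.1,
      real_inner_smul_right, real_inner_self_eq_norm_sq, hn, one_pow, mul_one]
    congr 1
    simp only [dquad, add_apply, smul_apply, ContinuousLinearMap.coe_comp, Function.comp_apply,
      smul_eq_mul]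
    ring
  set T := ∑ i, ∑ k, ‖nLine G (u z) (D V i (dSec G V S k) (u z))‖ with hT
  have hi : ∀ i, η⁻¹ ^ 8 * ⟪eb 0, cvf V u i z⟫ ^ 2 - (C₁ ^ 2 + 2 * C₂ ^ 2) ≤
      ∑ k, ‖nLine G (u z) (D V i (dSec G V S k) (u z))‖ := by
    intro i
    refine le_trans ?_ (Finset.single_le_sum
      (f := fun k => ‖nLine G (u z) (D V i (dSec G V S k) (u z))‖)
      (fun k _ => norm_nonneg _) (Finset.mem_univ i))
    rw [hval, norm_smul, hn, mul_one, Real.norm_eq_abs, real_inner_comm, inner_eb]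
    set v := cvf V u i z
    have hv : ‖v‖ ≤ C₁ := (hC₁b z hz).1 i
    have hpy : |B * py v * py v| ≤ C₁ ^ 2 := by
      have hB' : |B| = η ^ 8 := by
        rw [hBdef, abs_mul, hB, one_mul, abs_of_nonneg (by positivity : (0 : ℝ) ≤ η ^ 8)]
      rw [mul_assoc, abs_mul, hB', abs_mul, sq]
      exact (mul_le_of_le_one_left (by positivity) (pow_le_one₀ hη.le hη1)).trans
        (mul_le_mul ((abs_py v).trans hv) ((abs_py v).trans hv) (abs_nonneg _) hC10.le)
    have hd : |dquad A B z (fderiv ℝ (cvf V u i) z v)| ≤ 2 * C₂ ^ 2 := by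
      refine (abs_dquad_le hA hB hη hη1 z _).trans ?_
      have h22 : η⁻¹ ^ 8 * ‖z‖ ≤ 1 := by
        rw [inv_pow, inv_mul_le_iff₀ (by positivity), mul_one]
        exact hzn.trans (pow_le_pow_of_le_one hη.le hη1 (by norm_num))
      have hw : ‖fderiv ℝ (cvf V u i) z v‖ ≤ C₂ ^ 2 := by
        rw [sq]
        exact ((fderiv ℝ (cvf V u i) z).le_opNorm v).trans
          (mul_le_mul ((hC₂b z hz).2.1 i) ((hC₂b z hz).1 i) (norm_nonneg _) (by linarith))
      calc 2 * η⁻¹ ^ 8 * (‖z‖ * ‖fderiv ℝ (cvf V u i) z v‖)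
          = 2 * (η⁻¹ ^ 8 * ‖z‖) * ‖fderiv ℝ (cvf V u i) z v‖ := by ring
        _ ≤ 2 * 1 * C₂ ^ 2 := mul_le_mul (by linarith) hw (norm_nonneg _) (by norm_num)
        _ = _ := by ring
    have hmain : |A * px v * px v| = η⁻¹ ^ 8 * px v ^ 2 := by
      rw [mul_assoc, abs_mul, hAdef, abs_mul, hA, one_mul,
        abs_of_nonneg (by positivity : (0 : ℝ) ≤ η⁻¹ ^ 8), abs_mul, abs_mul_abs_self, sq]
    show η⁻¹ ^ 8 * px v ^ 2 - (C₁ ^ 2 + 2 * C₂ ^ 2) ≤ _
    have t1 := abs_sub_abs_le_abs_sub (A * px v * px v)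
      (-(B * py v * py v + dquad A B z (fderiv ℝ (cvf V u i) z v)))
    rw [abs_neg, sub_neg_eq_add, ← add_assoc, hmain] at t1
    linarith [abs_add_le (B * py v * py v) (dquad A B z (fderiv ℝ (cvf V u i) z v))]
  have h0 := (hC₁b z hz).2 (eb 0)
  rw [show ‖eb 0‖ = 1 by simp [eb], one_pow] at h0
  have hsum := Finset.sum_le_sum (s := Finset.univ) fun i _ => hi i
  rw [Finset.sum_sub_distrib, ← Finset.mul_sum, Finset.sum_const, Finset.card_univ,
    Fintype.card_fin, nsmul_eq_mul] at hsum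
  have hη8 : 0 ≤ η⁻¹ ^ 8 := by positivity
  have h5 := mul_le_mul_of_nonneg_left h0 hη8
  have h6 := mul_le_mul_of_nonneg_left hsum hC10.le
  nlinarith

end Vale.Agent.P205.Full.Start
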