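import Vale.Agent.P205.Full.Start.AssembleRes
import Vale.Agent.P205.Full.Start.AssembleCore

/-!
# P205 full, START: the core conditions of the assembly near the critical points
-/

open scoped Manifold ContDiff RealInnerProductSpace Topology
open Bundle Filter Set Metric

noncomputable section

namespace Vale.Agent.P205.Full.Start

lemma chartRes_expand (g2 : R2 → R2 →L[ℝ] R2 →L[ℝ] ℝ) (eA eB η : ℝ) (F : R2 → R3) (z v w : R2) :
    chartRes g2 eA eB η F z v w =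
      ∑ l, ∑ m, v l * w m * chartRes g2 eA eB η F z (eb l) (eb m) := by
  simp only [Fin.sum_univ_two]
  conv_lhs => rw [sum_eb v, sum_eb w]
  simp only [chartRes, chartTarget, map_add, map_smul, add_apply, smul_apply, smul_eq_mul,
    inner_add_left, inner_add_right, real_inner_smul_left, real_inner_smul_right, px, py,
    PiLp.proj_apply]
  ring

lemma contDiffAt_chartRes {g2 : R2 → R2 →L[ℝ] R2 →L[ℝ] ℝ} {F : R2 → R3} {z : R2}
    (hg : ContDiffAt ℝ ∞ g2 z) (hF : ContDiff ℝ ∞ F) (eA eB η : ℝ) (v w : R2) :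
    ContDiffAt ℝ ∞ (fun y => chartRes g2 eA eB η F y v w) z := by
  have hd : ∀ u, ContDiff ℝ ∞ fun y => fderiv ℝ F y u := fun u =>
    (hF.fderiv_right (m := ∞) le_rfl).clm_apply contDiff_const
  have hq : ∀ u, ContDiff ℝ ∞ fun y => dquad (eA * η⁻¹ ^ 8) (eB * η ^ 8) y u := fun u => by
    simp only [dquad, add_apply, smul_apply, smul_eq_mul]
    fun_prop
  exact ((((hg.clm_apply contDiffAt_const).clm_apply contDiffAt_const).mul
    (contDiffAt_const.sub (contDiffAt_const.mul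
      (contDiff_norm_sq ℝ).contDiffAt))).sub ((hq v).contDiffAt.mul (hq w).contDiffAt)).sub
    ((hd v).contDiffAt.inner ℝ (hd w).contDiffAt)

lemma norm_comp_isom (L : R3 →L[ℝ] R4) (hL : ∀ v, ‖L v‖ = ‖v‖) (T : R2 →L[ℝ] R3) {c : ℝ}
    (hc : 0 ≤ c) (h : ∀ v, ‖T v‖ ≤ c * ‖v‖) : ‖L.comp T‖ ≤ c :=
  ContinuousLinearMap.opNorm_le_bound _ hc fun v => (hL (T v)).le.trans (h v)

lemma norm_fderiv_comp_isom (L : R3 →L[ℝ] R4) (hL : ∀ v, ‖L v‖ = ‖v‖) {F : R2 → R3}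
    (hF : ContDiff ℝ ∞ F) (z : R2) :
    ‖fderiv ℝ (fun y => L.comp (fderiv ℝ F y)) z‖ ≤ ‖fderiv ℝ (fderiv ℝ F) z‖ := by
  have h1 : HasFDerivAt (fderiv ℝ F) (fderiv ℝ (fderiv ℝ F) z) z :=
    ((hF.fderiv_right (m := ∞) le_rfl).differentiable (by simp) z).hasFDerivAt
  have h2 := (ContinuousLinearMap.compL ℝ R2 R3 R4 L).hasFDerivAt.comp z h1
  rw [show (fun y => L.comp (fderiv ℝ F y)) =
    (ContinuousLinearMap.compL ℝ R2 R3 R4 L) ∘ fderiv ℝ F from rfl, h2.fderiv]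
  refine ContinuousLinearMap.opNorm_le_bound _
    (norm_nonneg (fderiv ℝ (fderiv ℝ F) z)) fun v => ?_
  refine (norm_comp_isom L hL (fderiv ℝ (fderiv ℝ F) z v)
    (mul_nonneg (norm_nonneg (fderiv ℝ (fderiv ℝ F) z)) (norm_nonneg v)) fun w => ?_)
  exact (fderiv ℝ (fderiv ℝ F) z).le_opNorm₂ v w

lemma hasFDerivAt_affine_comp (A : R3 →L[ℝ] R4) (R : R3 →L[ℝ] R3) (b : R3) {F : R2 → R3}
    (hF : ContDiff ℝ ∞ F) (y : R2) :
    HasFDerivAt (fun y => A (b + R (F y))) ((A.comp R).comp (fderiv ℝ F y)) y := by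
  rw [ContinuousLinearMap.comp_assoc]
  exact A.hasFDerivAt.comp y
    ((R.hasFDerivAt.comp y ((hF.differentiable (by simp)) y).hasFDerivAt).const_add b)

lemma contDiff_affine_comp (A : R3 →L[ℝ] R4) (R : R3 →L[ℝ] R3) (b : R3) {F : R2 → R3}
    (hF : ContDiff ℝ ∞ F) : ContDiff ℝ ∞ fun y => A (b + R (F y)) :=
  A.contDiff.comp (contDiff_const.add (R.contDiff.comp hF))

namespace Setup

variable {M : Type} [TopologicalSpace M] [ChartedSpace R2 M] [IsManifold (𝓡 2) ∞ M]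
variable {g : Full.Metric M} {σ : Setup g} {N : ℕ} {V : Frame M N}

lemma InCore.mono_const {G : M → R3} {F : M → R4} {nd : NormalData G F} {S : M → R3} {sq : M → ℝ}
    {η A B : ℝ} {x : M} (h : InCore g G V F nd S sq η A x) (hAB : A ≤ B) :
    InCore g G V F nd S sq η B x where
  ddF i k := (h.ddF i k).trans hAB
  dn1 i := (h.dn1 i).trans hAB
  dO i := (h.dO i).trans hAB
  dres i j k := (h.dres i j k).trans (mul_le_mul_of_nonneg_right hAB (Real.sqrt_nonneg _))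
  ddres i j l k := (h.ddres i j l k).trans hAB
  hess := h.hess.trans (mul_le_mul_of_nonneg_right hAB
    (Finset.sum_nonneg fun _ _ => Finset.sum_nonneg fun _ _ => norm_nonneg _))

variable [T2Space M]

omit [T2Space M] in
lemma core_small {η κ r : ℝ} {z : R2} (hη : 0 < η) (hη1 : η ≤ 1) (hηκ : η ≤ κ) (hηr : η ≤ r)
    (hr : 0 < r) (hz : ‖z‖ < η ^ 30 / 4) :
    ‖z‖ ≤ η ^ 30 ∧ ‖z‖ < r / 4 ∧ ‖z‖ < r ∧ ‖z‖ < κ * η ^ 8 ∧ ‖z‖ ≤ 1 := by
  have h30 : η ^ 30 ≤ η := pow_le_of_le_one hη.le hη1 (by norm_num)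
  have h30p : 0 < η ^ 30 := pow_pos hη 30
  refine ⟨by linarith, by linarith, by linarith, ?_, by linarith⟩
  calc ‖z‖ < η ^ 30 := by linarith
    _ ≤ η ^ 9 := pow_le_pow_of_le_one hη.le hη1 (by norm_num)
    _ = η * η ^ 8 := by ring
    _ ≤ κ * η ^ 8 := mul_le_mul_of_nonneg_right hηκ (by positivity)

/-- The residual near one critical point. -/
lemma exists_core_res_at (hV : FrameSmooth V) (κ ε Cm : ℝ) (hκ : 0 < κ)
    (am : ℕ) (Cp : ℕ → ℝ) (a : ℕ) (C₀ : ℝ) (C : ℕ → ℝ) (q : σ.Idx) :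
    ∃ C', 0 ≤ C' ∧ ∀ η, 0 < η → η ≤ min 1 (min κ (σ.rd q)) →
      ∀ (rad : ℝ) (Fl : σ.Idx → R2 → R3) (S' : M → R3),
      σ.Loc Fl (rad * η ^ 8) → σ.Charts Fl rad η a C₀ C →
      ModData g σ.G σ.S V σ.Z σ.P κ ε η am Cm Cp S' →
      (∀ i k, ContMDiff (𝓡 2) 𝓘(ℝ, ℝ) ∞ (baseRes g σ.G V (σ.mapF Fl) S' (σ.slack η) i k)) →
      ∀ z : R2, ‖z‖ < η ^ 30 / 4 → ∀ i k,
        (∀ j, |D V j (baseRes g σ.G V (σ.mapF Fl) S' (σ.slack η) i k) (σ.U q z)| ≤
          C' * Real.sqrt (qS σ.G V S' (σ.U q z))) ∧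
        ∀ j l, |D V j (D V l (baseRes g σ.G V (σ.mapF Fl) S' (σ.slack η) i k)) (σ.U q z)| ≤ C' := by
  have hu := σ.smooth_U q
  have hus := (σ.pt q).smooth_symm
  obtain ⟨Cb, hCb, hCbb⟩ := exists_core_bilin_bounds hu hus hV (isCompact_closedBall _ _)
    (σ.ball_source q)
  set c := |C₀| + 1
  have hc : 0 < c := by positivity
  have hc0 : C₀ ≤ c := (le_abs_self C₀).trans (le_add_of_nonneg_right zero_le_one)
  have hsq0 : 0 ≤ Real.sqrt (|Cm| + 1) := Real.sqrt_nonneg _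
  have hp1 : 0 ≤ Cb * (3 * c) := by positivity
  have hp2 : 0 ≤ Cb * (3 * c) * Real.sqrt (|Cm| + 1) := mul_nonneg hp1 hsq0
  set C' := Cb * (3 * c) * (1 + Real.sqrt (|Cm| + 1)) with hC'
  refine ⟨C', by positivity, fun η hη hle rad Fl S' hl hch hm hres z hz => ?_⟩
  have hη1 : η ≤ 1 := hle.trans (min_le_left _ _)
  have hηκ : η ≤ κ := hle.trans ((min_le_right _ _).trans (min_le_left _ _))
  have hηr : η ≤ σ.rd q := hle.trans ((min_le_right _ _).trans (min_le_right _ _))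
  obtain ⟨hz30, hzr4, hzr, hzk, hz1⟩ := core_small hη hη1 hηκ hηr (σ.rd_pos q) hz
  have hzK : z ∈ closedBall (0 : R2) (σ.rd q) := mem_closedBall_zero_iff.2 hzr.le
  have hzs := σ.ball_source q hzK
  have hch' := hch q
  have hFs : ContDiff ℝ ∞ (Fl q) := hch'.smooth
  have hEs : ∀ l m, ContDiffAt ℝ ∞ (fun y =>
      chartRes (σ.g2 q) (σ.eA q) (σ.eB q) η (Fl q) y (eb l) (eb m)) z := fun l m =>
    contDiffAt_chartRes
      ((contDiffOn_gBil g (σ.U q).open_source hu).contDiffAt ((σ.U q).open_source.mem_nhds hzs))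
      hFs _ _ _ _ _
  have hev : ∀ i k, ∀ᶠ y in 𝓝 z,
      baseRes g σ.G V (σ.mapF Fl) S' (σ.slack η) i k (σ.U q y) = ∑ l, ∑ m,
        cvf V (σ.U q) i y l * cvf V (σ.U q) k y m *
          chartRes (σ.g2 q) (σ.eA q) (σ.eB q) η (Fl q) y (eb l) (eb m) := fun i k => by
    filter_upwards [(isOpen_lt continuous_norm continuous_const).mem_nhds hzr4,
      (isOpen_lt continuous_norm continuous_const).mem_nhds hzk] with y hy hy'
    rw [res_param hl hm q hy hy' i k]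
    exact chartRes_expand _ _ _ _ _ _ _ _
  have he : ∀ l, ‖eb l‖ = 1 := fun l => by simp [eb]
  have hn0 := norm_nonneg z
  have h23 : η ^ 23 * ‖z‖ ^ 2 ≤ η ^ 8 * ‖z‖ := by
    rw [sq, ← mul_assoc]
    calc η ^ 23 * ‖z‖ * ‖z‖ ≤ η ^ 23 * ‖z‖ * 1 := mul_le_mul_of_nonneg_left hz1 (by positivity)
      _ ≤ η ^ 8 * ‖z‖ := by
        rw [mul_one]
        exact mul_le_mul_of_nonneg_right (pow_le_pow_of_le_one hη.le hη1 (by norm_num)) hn0
  have hE : ∀ l m,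
      |chartRes (σ.g2 q) (σ.eA q) (σ.eB q) η (Fl q) z (eb l) (eb m)| ≤ c * (η ^ 8 * ‖z‖) ∧
      ‖fderiv ℝ (fun y => chartRes (σ.g2 q) (σ.eA q) (σ.eB q) η (Fl q) y (eb l) (eb m)) z‖ ≤
        c * (η ^ 8 * ‖z‖) ∧
      ‖fderiv ℝ (fderiv ℝ fun y =>
        chartRes (σ.g2 q) (σ.eA q) (σ.eB q) η (Fl q) y (eb l) (eb m)) z‖ ≤ c := by
    intro l m
    have e0 := hch'.core_res z (eb l) (eb m) hz30
    have e1 := hch'.core_dres z (eb l) (eb m) hz30
    have e2 := hch'.core_ddres z (eb l) (eb m) hz30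
    simp only [he, mul_one] at e0 e1 e2
    refine ⟨e0.trans ?_, e1.trans ?_, e2.trans hc0⟩
    · calc C₀ * η ^ 23 * ‖z‖ ^ 2 ≤ c * (η ^ 23 * ‖z‖ ^ 2) := by
            rw [mul_assoc]; exact mul_le_mul_of_nonneg_right hc0 (by positivity)
        _ ≤ c * (η ^ 8 * ‖z‖) := mul_le_mul_of_nonneg_left h23 hc.le
    · rw [mul_assoc]; exact mul_le_mul_of_nonneg_right hc0 (by positivity)
  have hq0 : 0 ≤ qS σ.G V S' (σ.U q z) :=
    Finset.sum_nonneg fun i _ => real_inner_self_nonneg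
  have hroot : η ^ 8 * ‖z‖ ≤ Real.sqrt (|Cm| + 1) * Real.sqrt (qS σ.G V S' (σ.U q z)) := by
    rw [← Real.sqrt_mul (by positivity)]
    refine Real.le_sqrt_of_sq_le ?_
    have hlow : η ^ 16 * ‖z‖ ^ 2 ≤ Cm * qS σ.G V S' (σ.U q z) :=
      hm.low_in q.1 q.2 z (hzr.le.trans (σ.rd_le_half q))
    rw [mul_pow, ← pow_mul]
    exact hlow.trans (mul_le_mul_of_nonneg_right
      ((le_abs_self Cm).trans (le_add_of_nonneg_right zero_le_one)) hq0)
  intro i k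
  refine ⟨fun j => ?_, fun j l => ?_⟩
  · refine ((hCbb z hzK i k _ _ _ _ c (hres i k) hEs (hev i k) hE).1 j).trans ?_
    calc Cb * (c * (η ^ 8 * ‖z‖) + c * (η ^ 8 * ‖z‖))
        ≤ Cb * (3 * c) * (η ^ 8 * ‖z‖) := by
          nlinarith [mul_nonneg (mul_nonneg (by linarith : (0 : ℝ) ≤ Cb) hc.le)
            (mul_nonneg (pow_nonneg hη.le 8) hn0)]
      _ ≤ Cb * (3 * c) * (Real.sqrt (|Cm| + 1) * Real.sqrt (qS σ.G V S' (σ.U q z))) :=
          mul_le_mul_of_nonneg_left hroot hp1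
      _ ≤ C' * Real.sqrt (qS σ.G V S' (σ.U q z)) := by
          rw [← mul_assoc]
          refine mul_le_mul_of_nonneg_right ?_ (Real.sqrt_nonneg _)
          rw [hC']; linarith
  · refine ((hCbb z hzK i k _ _ _ _ c (hres i k) hEs (hev i k) hE).2 j l).trans ?_
    have h8 : η ^ 8 * ‖z‖ ≤ 1 := mul_le_one₀ (pow_le_one₀ hη.le hη1) hn0 hz1
    have h9 : c * (η ^ 8 * ‖z‖) ≤ c := mul_le_of_le_one_right hc.le h8
    have h10 : Cb * (c * (η ^ 8 * ‖z‖) + c * (η ^ 8 * ‖z‖) + c) ≤ Cb * (3 * c) :=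
      mul_le_mul_of_nonneg_left (by linarith) (by linarith)
    rw [hC']; linarith

/-- The map and the normal near one critical point. -/
lemma exists_core_map_at (hV : FrameSmooth V) (a : ℕ) (C₀ : ℝ) (C : ℕ → ℝ) (κ : ℝ) (q : σ.Idx) :
    ∃ C', 0 ≤ C' ∧ ∀ η, 0 < η → η ≤ min 1 (min κ (σ.rd q)) →
      ∀ (rad : ℝ) (Fl : σ.Idx → R2 → R3) (hl : σ.Loc Fl (rad * η ^ 8)),
      σ.Charts Fl rad η a C₀ C → ∀ z : R2, ‖z‖ < η ^ 30 / 4 →
        (∀ i k, ‖D V i (D V k (σ.mapF Fl)) (σ.U q z)‖ ≤ C') ∧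
        (∀ i, ‖D V i hl.normal.n1 (σ.U q z)‖ ≤ C') ∧ ∀ i, ‖D V i hl.normal.O (σ.U q z)‖ ≤ C' := by
  have hu := σ.smooth_U q
  have hus := (σ.pt q).smooth_symm
  have hK : IsCompact (closedBall (0 : R2) (σ.rd q)) := isCompact_closedBall _ _
  have hKs := σ.ball_source q
  set c := |C₀| + 1
  obtain ⟨Cn, hCn, hCnb⟩ := exists_core_normal_bound hu hus hV hK hKs (σ.tw q) c
  obtain ⟨Cd, hCd, hCdb⟩ := exists_D_param_bounds (E := R4) hu hus hV hK hKs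
  have hc : 0 < c := by positivity
  have hc0 : C₀ ≤ c := (le_abs_self C₀).trans (le_add_of_nonneg_right zero_le_one)
  have hp3 : 0 ≤ Cd * (2 * c) := by positivity
  set C' := Cn + Cd * (2 * c) with hC'
  refine ⟨C', by linarith, fun η hη hle rad Fl hl hch z hz => ?_⟩
  have hη1 : η ≤ 1 := hle.trans (min_le_left _ _)
  have hηκ : η ≤ κ := hle.trans ((min_le_right _ _).trans (min_le_left _ _))
  have hηr : η ≤ σ.rd q := hle.trans ((min_le_right _ _).trans (min_le_right _ _))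
  obtain ⟨hz30, hzr4, hzr, hzk, hz1⟩ := core_small hη hη1 hηκ hηr (σ.rd_pos q) hz
  have hzK : z ∈ closedBall (0 : R2) (σ.rd q) := mem_closedBall_zero_iff.2 hzr.le
  have hzs := σ.ball_source q hzK
  have hch' := hch q
  have hFs : ContDiff ℝ ∞ (Fl q) := hch'.smooth
  have hdd : ‖fderiv ℝ (fderiv ℝ (Fl q)) z‖ ≤ c := (hch'.core_ddF z hz30).trans hc0
  have hd1 : ∀ v, ‖fderiv ℝ (Fl q) z v‖ ≤ c * ‖v‖ := fun v =>
    (hch'.bd_d z v).trans (mul_le_mul_of_nonneg_right hc0 (norm_nonneg _))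
  have hLF : ∀ᶠ y in 𝓝 z, σ.mapF Fl (σ.U q y) = emb34 (σ.G q.1 + σ.rot q (Fl q y)) :=
    hl.mapF_eventually q hzr
  have hLn : ∀ v, ‖emb34.comp (σ.rot q) v‖ = ‖v‖ := fun v => by
    rw [ContinuousLinearMap.comp_apply, norm_emb34, σ.norm_rot]
  have hdF : ∀ y, HasFDerivAt (fun y => emb34 (σ.G q.1 + σ.rot q (Fl q y)))
      ((emb34.comp (σ.rot q)).comp (fderiv ℝ (Fl q) y)) y :=
    fun y => hasFDerivAt_affine_comp emb34 (σ.rot q) (σ.G q.1) hFs y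
  have hφs : ContDiff ℝ ∞ fun y => emb34 (σ.G q.1 + σ.rot q (Fl q y)) :=
    contDiff_affine_comp emb34 (σ.rot q) (σ.G q.1) hFs
  have hφ1 : ‖fderiv ℝ (fun y => emb34 (σ.G q.1 + σ.rot q (Fl q y))) z‖ ≤ c := by
    rw [(hdF z).fderiv]
    exact norm_comp_isom (emb34.comp (σ.rot q)) hLn (fderiv ℝ (Fl q) z) hc.le hd1
  have hφ2 : ‖fderiv ℝ (fderiv ℝ fun y => emb34 (σ.G q.1 + σ.rot q (Fl q y))) z‖ ≤ c := by
    have he : fderiv ℝ (fun y => emb34 (σ.G q.1 + σ.rot q (Fl q y))) =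
        fun y => (emb34.comp (σ.rot q)).comp (fderiv ℝ (Fl q) y) := funext fun y => (hdF y).fderiv
    rw [he]
    exact (norm_fderiv_comp_isom (emb34.comp (σ.rot q)) hLn hFs z).trans hdd
  refine ⟨fun i k => ?_, fun i => ?_, fun i => ?_⟩
  · obtain ⟨-, -, hgen⟩ := hCdb z hzK
    have hcd : ContDiffAt ℝ ∞ (fun y => emb34 (σ.G q.1 + σ.rot q (Fl q y))) z := hφs.contDiffAt
    have hfs := hl.contMDiff_mapF
    obtain ⟨-, hgen2⟩ :=
      hgen (σ.mapF Fl) (fun y => emb34 (σ.G q.1 + σ.rot q (Fl q y))) hfs hcd hLF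
    have hsum : ‖fderiv ℝ (fderiv ℝ fun y => emb34 (σ.G q.1 + σ.rot q (Fl q y))) z‖ +
        ‖fderiv ℝ (fun y => emb34 (σ.G q.1 + σ.rot q (Fl q y))) z‖ ≤ c + c :=
      add_le_add hφ2 hφ1
    have hmul := mul_le_mul_of_nonneg_left hsum (show (0 : ℝ) ≤ Cd by linarith)
    have hle' : Cd * (c + c) ≤ C' := by rw [hC']; linarith
    exact le_trans (hgen2 i k) (le_trans hmul hle')
  · have e : D V i hl.normal.n1 (σ.U q z) = 0 := D_const axis4
    rw [e, norm_zero, hC']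
    linarith
  · have hev : ∀ᶠ y in 𝓝 z, σ.mapO Fl (σ.U q y) =
        σ.tw q (unit3 (crossL (fderiv ℝ (Fl q) y (eb 0)) (fderiv ℝ (Fl q) y (eb 1)))) := by
      filter_upwards [(isOpen_lt continuous_norm continuous_const).mem_nhds hzr] with y hy
      exact hl.mapO_param q (le_of_lt hy)
    have himm : ∀ v, ‖v‖ ≤ c * ‖fderiv ℝ (Fl q) z v‖ := fun v => (hch'.imm z v).trans
      (mul_le_mul_of_nonneg_right hc0 (norm_nonneg _))
    have hO : hl.normal.O = σ.mapO Fl := rfl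
    rw [hO]
    have hfin := hCnb z hzK (σ.mapO Fl) (Fl q) hl.contMDiff_mapO hFs hd1 himm hdd hev i
    have hCn' : Cn ≤ C' := by rw [hC']; linarith
    exact hfin.trans hCn'

/-- The core conditions at one critical point. -/
lemma exists_inCore_at (hV : FrameSmooth V) (hs : FrameSpans V) (κ ε Cm : ℝ) (hκ : 0 < κ)
    (am : ℕ) (Cp : ℕ → ℝ) (a : ℕ) (C₀ : ℝ) (C : ℕ → ℝ) (q : σ.Idx) :
    ∃ C' η₁, 0 < η₁ ∧ ∀ η, 0 < η → η ≤ η₁ → ∀ (rad : ℝ) (Fl : σ.Idx → R2 → R3) (S' : M → R3)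
      (hl : σ.Loc Fl (rad * η ^ 8)), σ.Charts Fl rad η a C₀ C →
      ModData g σ.G σ.S V σ.Z σ.P κ ε η am Cm Cp S' →
      (∀ i k, ContMDiff (𝓡 2) 𝓘(ℝ, ℝ) ∞ (baseRes g σ.G V (σ.mapF Fl) S' (σ.slack η) i k)) →
      ∀ z : R2, ‖z‖ < η ^ 30 / 4 →
        InCore g σ.G V (σ.mapF Fl) hl.normal S' (σ.slack η) η C' (σ.U q z) := by
  obtain ⟨Cr, hCr, hr⟩ := exists_core_res_at (σ := σ) hV κ ε Cm hκ am Cp a C₀ C q
  obtain ⟨Cf, hCf, hf⟩ := exists_core_map_at (σ := σ) hV a C₀ C κ q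
  obtain ⟨Ch, η₂, hCh, hη₂, hChb⟩ := exists_core_hess (σ.smooth_U q) (σ.pt q).smooth_symm hV hs
    (isCompact_closedBall _ _) (σ.ball_source q)
  refine ⟨Cr + Cf + Ch, min (min 1 (min κ (σ.rd q))) η₂, lt_min (lt_min one_pos
    (lt_min hκ (σ.rd_pos q))) hη₂, fun η hη hle rad Fl S' hl hch hm hres z hz => ?_⟩
  have hle' : η ≤ min 1 (min κ (σ.rd q)) := hle.trans (min_le_left _ _)
  have h1 := hr η hη hle' rad Fl S' hl hch hm hres z hz
  obtain ⟨h2, h3, h4⟩ := hf η hη hle' rad Fl hl hch z hz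
  have hb : Cf ≤ Cr + Cf + Ch := by linarith
  have hb' : Cr ≤ Cr + Cf + Ch := by linarith
  refine
    { ddF := fun i k => (h2 i k).trans hb
      dn1 := fun i => (h3 i).trans hb
      dO := fun i => (h4 i).trans hb
      dres := fun i j k =>
        ((h1 i k).1 j).trans (mul_le_mul_of_nonneg_right hb' (Real.sqrt_nonneg _))
      ddres := fun i j l k => ((h1 i k).2 j l).trans hb'
      hess := ?_ }
  obtain ⟨cst, hcst⟩ := mod_eventually hm q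
  obtain ⟨hz30, -, hzr, hzk, -⟩ := core_small hη (hle'.trans (min_le_left _ _))
    (hle'.trans ((min_le_right _ _).trans (min_le_left _ _)))
    (hle'.trans ((min_le_right _ _).trans (min_le_right _ _))) (σ.rd_pos q) hz
  refine (hChb η hη (hle.trans (min_le_right _ _)) z (mem_closedBall_zero_iff.2 hzr.le) hz30 σ.G S'
    (σ.pt q).n cst (σ.eA q) (σ.eB q) σ.imm hm.sec.1 (σ.pt q).norm_n (σ.abs_eA q) (σ.abs_eB q)
    (hcst z hzr hzk)).trans ?_
  exact mul_le_mul_of_nonneg_right (by linarith)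
    (Finset.sum_nonneg fun _ _ => Finset.sum_nonneg fun _ _ => norm_nonneg _)

/-- The core conditions near all the critical points. -/
theorem exists_inCore (hV : FrameSmooth V) (hs : FrameSpans V) (κ ε Cm : ℝ) (hκ : 0 < κ)
    (am : ℕ) (Cp : ℕ → ℝ) (a : ℕ) (C₀ : ℝ) (C : ℕ → ℝ) :
    ∃ C' η₁, 0 < η₁ ∧ ∀ η, 0 < η → η ≤ η₁ → ∀ (rad : ℝ) (Fl : σ.Idx → R2 → R3) (S' : M → R3)
      (hl : σ.Loc Fl (rad * η ^ 8)), σ.Charts Fl rad η a C₀ C →
      ModData g σ.G σ.S V σ.Z σ.P κ ε η am Cm Cp S' →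
      (∀ i k, ContMDiff (𝓡 2) 𝓘(ℝ, ℝ) ∞ (baseRes g σ.G V (σ.mapF Fl) S' (σ.slack η) i k)) →
      ∀ (q : σ.Idx) (z : R2), ‖z‖ < η ^ 30 / 4 →
        InCore g σ.G V (σ.mapF Fl) hl.normal S' (σ.slack η) η C' (σ.U q z) := by
  choose C' η₁ hη₁ h using fun q : σ.Idx => exists_inCore_at hV hs κ ε Cm hκ am Cp a C₀ C q
  refine ⟨∑ q, |C' q|, (1 + ∑ q, (η₁ q)⁻¹)⁻¹, inv_pos.2 (add_pos_of_pos_of_nonneg one_pos
    (Finset.sum_nonneg fun q _ => (inv_pos.2 (hη₁ q)).le)),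
    fun η hη hle rad Fl S' hl hch hm hres q z hz => InCore.mono_const
      (h q η hη (hle.trans ?_) rad Fl S' hl hch hm hres z hz) ((le_abs_self _).trans
        (Finset.single_le_sum (f := fun q => |C' q|) (fun _ _ => abs_nonneg _)
          (Finset.mem_univ q)))⟩
  refine inv_le_of_inv_le₀ (hη₁ q) ?_
  exact (Finset.single_le_sum (f := fun q => (η₁ q)⁻¹) (fun q _ => (inv_pos.2 (hη₁ q)).le)
    (Finset.mem_univ q)).trans (le_add_of_nonneg_left zero_le_one)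

end Setup

end Vale.Agent.P205.Full.Start
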