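import Vale.Agent.P205.Full.Start.AssembleSetup

/-!
# P205 full, START: the hypotheses under which the base map is built at each critical point
-/

open scoped Manifold ContDiff RealInnerProductSpace Topology
open Bundle Filter Set Metric

noncomputable section

namespace Vale.Agent.P205.Full.Start

/-- Larger constants are allowed in `BaseChart`. -/
lemma BaseChart.mono {g2 : R2 → R2 →L[ℝ] R2 →L[ℝ] ℝ} {eA eB μ rad η : ℝ} {a a' : ℕ} {C₀ C₀' : ℝ}
    {C C' : ℕ → ℝ} {F : R2 → R3} (h : BaseChart g2 eA eB μ rad η a C₀ C F) (hη : 0 < η)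
    (hη1 : η ≤ 1) (ha : a ≤ a') (h0 : 0 < C₀) (hC₀ : C₀ ≤ C₀') (hC : ∀ n, |C n| ≤ C' n) :
    BaseChart g2 eA eB μ rad η a' C₀' C' F where
  smooth := h.smooth
  zero := h.zero
  outer := h.outer
  bd j z hz := (h.bd j z hz).trans (mul_le_mul ((le_abs_self _).trans (hC j))
    (pow_le_pow_right₀ (one_le_inv_eta hη hη1) (Nat.mul_le_mul_right _ ha)) (by positivity)
    ((abs_nonneg _).trans (hC j)))
  bd_d z v := (h.bd_d z v).trans (by gcongr)
  imm z v := (h.imm z v).trans (by gcongr)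
  core_res z v w hz := (h.core_res z v w hz).trans (by gcongr)
  core_dres z v w hz := (h.core_dres z v w hz).trans (by gcongr)
  core_ddres z v w hz := (h.core_ddres z v w hz).trans (by gcongr)
  core_ddF z hz := (h.core_ddF z hz).trans hC₀
  shell_lower z v h1 h2 := by
    have hp : 0 ≤ C₀ * chartRes g2 eA eB η F z v v :=
      le_trans (mul_nonneg (le_min (by positivity) zero_le_one) (sq_nonneg _))
        (h.shell_lower z v h1 h2)
    exact (h.shell_lower z v h1 h2).trans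
      (mul_le_mul_of_nonneg_right hC₀ (nonneg_of_mul_nonneg_right hp h0))
  shell_upper z v w h1 h2 := by
    have ht : 0 ≤ chartT η z := le_min (by positivity) zero_le_one
    exact (h.shell_upper z v w h1 h2).trans (by gcongr)

namespace Setup

variable {M : Type} [TopologicalSpace M] [ChartedSpace R2 M] [IsManifold (𝓡 2) ∞ M]
variable {g : Full.Metric M} (σ : Setup g)

lemma g2_hyps (q : σ.Idx) :
    ContDiffOn ℝ ∞ (σ.g2 q) (ball 0 (σ.pt q).R) ∧
      (∀ z ∈ ball (0 : R2) (σ.pt q).R, ∀ v w, σ.g2 q z v w = σ.g2 q z w v) ∧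
      (∀ v w, σ.g2 q 0 v w = ⟪v, w⟫) ∧ fderiv ℝ (σ.g2 q) 0 = 0 := by
  have hd : ∀ i j, HasFDerivAt (gPull g (σ.U q) (eb i) (eb j)) (0 : R2 →L[ℝ] ℝ) 0 :=
    (σ.pt q).metric_deriv
  refine ⟨?_, fun z _ v w => ?_, fun v w => ?_, ?_⟩
  · rw [← (σ.pt q).source_eq]
    exact contDiffOn_gBil g (σ.U q).open_source (σ.smooth_U q)
  · show gBil g (σ.U q) z v w = gBil g (σ.U q) z w v
    rw [gBil_apply, gBil_apply]
    exact g.symm _ _ _
  · have h := fun i j => (σ.pt q).metric_zero i j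
    show gBil g (σ.pt q).u 0 v w = ⟪v, w⟫
    simp only [gBil, h, PiLp.inner_apply, Fin.sum_univ_two]
    simp [px, py, mul_comm]
  · let Q := R2 →L[ℝ] R2 →L[ℝ] ℝ
    let nQ : NormedAddCommGroup Q := inferInstance
    let sQ : NormedSpace ℝ Q := inferInstance
    have hk : ∀ i j (P : Q), HasFDerivAt (fun z => gPull g (σ.U q) (eb i) (eb j) z • P)
        (0 : R2 →L[ℝ] Q) 0 := fun i j P => by
      have h := ((ContinuousLinearMap.id ℝ ℝ).smulRight P).hasFDerivAt.comp 0 (hd i j)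
      rw [ContinuousLinearMap.comp_zero] at h
      exact h
    have h := (((hk 0 0 (px.smulRight px)).fun_add (hk 0 1 (px.smulRight py))).fun_add
      (hk 1 0 (py.smulRight px))).fun_add (hk 1 1 (py.smulRight py))
    simp only [add_zero] at h
    exact h.fderiv

lemma mu_le (q : σ.Idx) : (σ.pt q).μ ≤ 1 / 2 := by
  have hz : (0 : R2) ∈ (σ.pt q).u.source := by
    rw [(σ.pt q).source_eq]; exact mem_ball_self (σ.pt q).R_pos
  set T := mfderiv (𝓡 2) (𝓡 2) (σ.pt q).u 0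
  have hs := σ.shortG ((σ.pt q).u 0) (T (eb 0))
  have hg : g.inner ((σ.pt q).u 0) (T (eb 0)) (T (eb 0)) = 1 := by
    have := (σ.pt q).metric_zero 0 0
    simpa [gPull, T] using this
  have hc := mfderiv_comp 0 (σ.imm.1.mdifferentiableAt (by simp) (x := (σ.pt q).u 0))
    (mdiffAt_param (σ.pt q).smooth_u hz)
  rw [mfderiv_eq_fderiv] at hc
  have he : (σ.G ∘ (σ.pt q).u) =ᶠ[𝓝 0] fun z => σ.G q.1 + (σ.pt q).μ • (σ.pt q).J z :=
    eventuallyEq_of_mem ((σ.pt q).u.open_source.mem_nhds hz) fun z hz => (σ.pt q).map_eq z hz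
  have hd : HasFDerivAt (fun z => σ.G q.1 + (σ.pt q).μ • (σ.pt q).J z)
      ((σ.pt q).μ • (σ.pt q).J.toContinuousLinearMap) 0 :=
    ((σ.pt q).J.toContinuousLinearMap.hasFDerivAt.const_smul (σ.pt q).μ).const_add (σ.G q.1)
  rw [he.fderiv_eq, hd.fderiv] at hc
  have e : (mfderiv (𝓡 2) 𝓘(ℝ, R3) σ.G ((σ.pt q).u 0) (T (eb 0)) : R3) =
      (σ.pt q).μ • (σ.pt q).J (eb 0) := (DFunLike.congr_fun hc (eb 0)).symm
  rw [hg, norm_tangentSpace_vectorSpace, mul_one] at hs
  have hn : ‖(σ.pt q).μ • (σ.pt q).J (eb 0)‖ = (σ.pt q).μ := by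
    rw [norm_smul, (σ.pt q).J.norm_map, Real.norm_of_nonneg (σ.pt q).μ_pos.le]
    simp [eb]
  have h2 : (σ.pt q).μ ^ 2 ≤ (1 / 4) ^ 2 := by
    rw [← hn]
    refine le_trans (le_of_eq ?_) (hs.trans (by norm_num))
    rw [← e]
  linarith [(pow_le_pow_iff_left₀ (σ.pt q).μ_pos.le (by norm_num) two_ne_zero).1 h2]

end Setup

end Vale.Agent.P205.Full.Start
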