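import Vale.Agent.P205.Full.Start.AssembleSetup

/-!
# P205 full, START: the slack and the cutoff of the twists

`prof` is `‖z‖²` near the critical points and `1` away from them; the slack is `η²² prof`. The
cutoff `chi` vanishes on the core discs of radius `η³⁰ / 4` and is `1` outside radius `η³⁰ / 2`.
-/

open scoped Manifold ContDiff RealInnerProductSpace Topology
open Bundle Filter Set Metric

noncomputable section

namespace Vale.Agent.P205.Full.Start.Setup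

variable {M : Type} [TopologicalSpace M] [ChartedSpace R2 M] [IsManifold (𝓡 2) ∞ M]
variable {g : Full.Metric M} (σ : Setup g)
variable {N : ℕ} {V : Frame M N}

/-- A point is in none of the balls or in one of them. -/
lemma cases_ball (us : σ.Idx → OpenPartialHomeomorph R2 M) (rs : σ.Idx → ℝ) (x : M) :
    (∀ q, x ∉ us q '' closedBall 0 (rs q)) ∨ ∃ q z, ‖z‖ ≤ rs q ∧ us q z = x := by
  by_cases h : ∀ q, x ∉ us q '' closedBall 0 (rs q)
  · exact Or.inl h
  · simp only [not_forall, not_not] at h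
    obtain ⟨q, z, hz, e⟩ := h
    exact Or.inr ⟨q, z, mem_closedBall_zero_iff.1 hz, e⟩

lemma spread_off {E : Type} [NormedAddCommGroup E] (f : M → E) (hs : σ.Idx → R2 → E) {x : M}
    (hx : ∀ q, x ∉ σ.U q '' closedBall 0 (σ.rd q)) : spread σ.U σ.rd f hs x = f x := by
  rw [spread, Finset.sum_eq_zero (fun q _ => lift_zero (hx q)), add_zero]

/-! ## The profile -/

lemma prof_param (q : σ.Idx) {z : R2} (hz : ‖z‖ ≤ σ.rd q) :
    σ.prof (σ.U q z) = 1 + qloc (σ.rd q) z := σ.spread_param _ _ q hz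

lemma prof_ge (q : σ.Idx) {z : R2} (hz : ‖z‖ ≤ σ.rd q) : ‖z‖ ^ 2 ≤ σ.prof (σ.U q z) := by
  rw [σ.prof_param q hz]
  exact (qloc_mem (σ.rd_pos q) (σ.rd_le_one q) z hz).1

lemma prof_nonneg (x : M) : 0 ≤ σ.prof x := by
  rcases σ.cases_ball σ.U σ.rd x with h | ⟨q, z, hz, rfl⟩
  · rw [prof, σ.spread_off _ _ h]
    exact zero_le_one
  · exact (sq_nonneg _).trans (σ.prof_ge q hz)

lemma prof_le_one (x : M) : σ.prof x ≤ 1 := by
  rcases σ.cases_ball σ.U σ.rd x with h | ⟨q, z, hz, rfl⟩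
  · rw [prof, σ.spread_off _ _ h]
  · rw [σ.prof_param q hz]
    exact (qloc_mem (σ.rd_pos q) (σ.rd_le_one q) z hz).2

lemma slack_nonneg {η : ℝ} (hη : 0 < η) (x : M) : 0 ≤ σ.slack η x :=
  mul_nonneg (by positivity) (σ.prof_nonneg x)

lemma slack_eventually (η : ℝ) (q : σ.Idx) {z : R2} (hz : ‖z‖ < σ.rd q / 4) :
    ∀ᶠ a in 𝓝 z, σ.slack η (σ.U q a) = η ^ 22 * ‖a‖ ^ 2 := by
  filter_upwards [(isOpen_lt continuous_norm continuous_const).mem_nhds hz] with a ha
  have ha' : ‖a‖ < σ.rd q / 4 := ha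
  rw [slack, σ.prof_param q (by linarith [σ.rd_pos q]), qloc_inner (σ.rd_pos q) ha'.le]

lemma contMDiff_prof [T2Space M] : ContMDiff (𝓡 2) 𝓘(ℝ, ℝ) ∞ σ.prof :=
  contMDiff_spread σ.smooth_symm σ.ball_source σ.rd'_lt
    (fun q _ h => qloc_zero (σ.rd_pos q) h) (fun _ _ _ => (qloc_smooth _).contDiffAt)
    contMDiff_const

lemma contMDiff_slack [T2Space M] (η : ℝ) : ContMDiff (𝓡 2) 𝓘(ℝ, ℝ) ∞ (σ.slack η) :=
  (ContinuousLinearMap.mul ℝ ℝ (η ^ 22)).contDiff.comp_contMDiff σ.contMDiff_prof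

/-! ## The cutoff -/

variable {η : ℝ}

lemma chi_param (η : ℝ) (q : σ.Idx) {z : R2} (hz : ‖z‖ ≤ σ.rd q) :
    σ.chi η (σ.U q z) = 1 - cutR (η ^ 30 / 2) z := by
  rw [chi, σ.spread_param _ _ q hz, sub_eq_add_neg]

lemma chi_mem (η : ℝ) (x : M) : 0 ≤ σ.chi η x ∧ σ.chi η x ≤ 1 := by
  rcases σ.cases_ball σ.U σ.rd x with h | ⟨q, z, hz, rfl⟩
  · rw [chi, σ.spread_off _ _ h]
    exact ⟨zero_le_one, le_rfl⟩
  · rw [σ.chi_param η q hz]
    exact ⟨sub_nonneg.2 (cutR_le_one _ _), sub_le_self _ (cutR_nonneg _ _)⟩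

lemma chi_one (hη : 0 < η) {x : M}
    (hx : ∀ q z, ‖z‖ ≤ σ.rd q → σ.U q z = x → η ^ 30 / 2 ≤ ‖z‖) : σ.chi η x = 1 := by
  rcases σ.cases_ball σ.U σ.rd x with h | ⟨q, z, hz, rfl⟩
  · rw [chi, σ.spread_off _ _ h]
  · rw [σ.chi_param η q hz, cutR_zero (by positivity) (hx q z hz rfl), sub_zero]

variable [T2Space M]

lemma contMDiff_chi (hη : 0 < η) (hs : ∀ q, η ^ 30 / 2 ≤ σ.rd' q) :
    ContMDiff (𝓡 2) 𝓘(ℝ, ℝ) ∞ (σ.chi η) :=
  contMDiff_spread σ.smooth_symm σ.ball_source σ.rd'_lt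
    (fun q _ h => neg_eq_zero.2 (cutR_zero (by positivity) ((hs q).trans h)))
    (fun _ _ _ => (cutR_smooth _).neg.contDiffAt) contMDiff_const

omit [T2Space M] in
lemma tsupport_chi (hη : 0 < η) (hs : ∀ q, η ^ 30 / 2 ≤ σ.rd' q) {x : M}
    (hx : x ∈ tsupport (σ.chi η)) :
    ∀ q z, ‖z‖ ≤ σ.rd q → σ.U q z = x → η ^ 30 / 4 ≤ ‖z‖ := by
  intro q z hz e
  by_contra hn
  refine notMem_tsupport_iff_eventuallyEq.2 ?_ hx
  subst e
  rw [← (σ.U q).map_nhds_eq (σ.mem_source q hz)]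
  show ∀ᶠ a in 𝓝 z, σ.chi η (σ.U q a) = 0
  filter_upwards [(isOpen_lt continuous_norm continuous_const).mem_nhds (not_le.1 hn)] with a ha
  have ha' : ‖a‖ < η ^ 30 / 4 := ha
  have h30 : 0 < η ^ 30 := pow_pos hη 30
  rw [σ.chi_param η q (by linarith [hs q, σ.rd'_lt q]), cutR_one (by positivity) (by linarith),
    sub_self]

/-! ## Uniform bounds -/

omit [T2Space M] in
/-- The core radius is below all the chart radii. -/
lemma exists_core_small :
    ∃ η₀ : ℝ, 0 < η₀ ∧ η₀ ≤ 1 ∧ ∀ η : ℝ, 0 < η → η ≤ η₀ → ∀ q, η ^ 30 / 2 ≤ σ.rd' q := by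
  have h0 : ∀ q, 0 ≤ (σ.rd' q)⁻¹ := fun q => (inv_pos.2 (σ.rd'_pos q)).le
  set s := 1 + ∑ q, (σ.rd' q)⁻¹
  have h1 : 1 ≤ s := le_add_of_nonneg_right (Finset.sum_nonneg fun q _ => h0 q)
  refine ⟨s⁻¹, inv_pos.2 (by linarith), inv_le_one_of_one_le₀ h1, fun η hη hle q => ?_⟩
  have h2 : η ≤ σ.rd' q := hle.trans (inv_le_of_inv_le₀ (σ.rd'_pos q)
    ((Finset.single_le_sum (fun p _ => h0 p) (Finset.mem_univ q)).trans
      (le_add_of_nonneg_left zero_le_one)))
  have h3 : η ^ 30 ≤ η :=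
    pow_le_of_le_one hη.le (hle.trans (inv_le_one_of_one_le₀ h1)) (by norm_num)
  linarith [pow_pos hη 30]

theorem exists_slack_polyBd [CompactSpace M] (hV : FrameSmooth V) :
    ∃ (a : ℕ) (C : ℕ → ℝ) (η₀ : ℝ), 0 < η₀ ∧ ∀ η : ℝ, 0 < η → η ≤ η₀ →
      PolyBd V η a C (σ.slack η) ∧ PolyBd V η a C (σ.chi η) := by
  obtain ⟨Cp, -, hCp⟩ := exists_polyBd_of_contMDiff hV σ.contMDiff_prof
  obtain ⟨Cc, hCc⟩ := exists_cutR_iterated
  obtain ⟨η₀, h0, h01, hsmall⟩ := σ.exists_core_small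
  obtain ⟨Ch, hCh⟩ := exists_polyBd_spread (E := ℝ) hV σ.smooth_symm σ.ball_source σ.rd'_lt
    (f := fun _ => (1 : ℝ)) contMDiff_const 30 fun _ k => |Cc k| * 2 ^ k
  refine ⟨30, fun n => |Cp n| + |Ch n|, η₀, h0, fun η hη hle => ?_⟩
  have hη1 : η ≤ 1 := hle.trans h01
  constructor
  · have h := (hCp η).const_smul hV hη hη1 (c := η ^ 22) (c₀ := 1) (b := 0)
      (by rw [pow_zero, one_mul, abs_of_nonneg (by positivity)]
          exact pow_le_one₀ hη.le hη1) σ.contMDiff_prof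
    refine PolyBd.congr (h.mono hη hη1 (by norm_num) (fun n => ?_) fun n => by positivity)
      (funext fun y => rfl)
    simp
  · refine (hCh η (fun _ z => -cutR (η ^ 30 / 2) z) hη hη1
      (fun q _ h => neg_eq_zero.2 (cutR_zero (by positivity) ((hsmall η hη hle q).trans h)))
      (fun _ _ _ => (cutR_smooth _).neg.contDiffAt) fun q k z _ => ?_).mono hη hη1 le_rfl
      (fun n => (le_abs_self (Ch n)).trans (le_add_of_nonneg_left (abs_nonneg _)))
      fun n => by positivity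
    rw [show (fun z => -cutR (η ^ 30 / 2) z) = -cutR (η ^ 30 / 2) from rfl,
      iteratedFDeriv_neg, Pi.neg_apply, norm_neg]
    calc ‖iteratedFDeriv ℝ k (cutR (η ^ 30 / 2)) z‖
        ≤ Cc k * (η ^ 30 / 2)⁻¹ ^ k := hCc _ (by positivity) k z
      _ ≤ |Cc k| * (η ^ 30 / 2)⁻¹ ^ k := by gcongr; exact le_abs_self _
      _ = |Cc k| * 2 ^ k * η⁻¹ ^ (30 * k) := by
          rw [inv_div, div_eq_mul_inv, mul_pow, ← inv_pow, ← pow_mul, mul_assoc]
      _ ≤ _ := by
          gcongr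
          · exact one_le_inv_eta hη hη1
          · omega

omit [T2Space M] in
lemma qS_nonneg (G S' : M → R3) (x : M) : 0 ≤ qS G V S' x :=
  Finset.sum_nonneg fun _ _ => real_inner_self_nonneg

/-- The profile has differential of size its square root. -/
lemma exists_prof_deriv [CompactSpace M] (hV : FrameSmooth V) :
    ∃ C : ℝ, 1 ≤ C ∧ (∀ i x, |D V i σ.prof x| ≤ C * Real.sqrt (σ.prof x)) ∧
      ∀ i k x, |D V i (D V k σ.prof) x| ≤ C := by
  obtain ⟨C2, hC20, hC2⟩ := exists_bd_of_contMDiff hV 2 σ.contMDiff_prof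
  choose cp hcp1 hcp using fun q => exists_D_param_bounds (E := ℝ) (σ.smooth_U q)
    (σ.smooth_symm q) hV (isCompact_closedBall (0 : R2) (σ.rd' q))
    ((closedBall_subset_closedBall (σ.rd'_lt q).le).trans (σ.ball_source q))
  choose cq hcq0 hcq using fun q => exists_qloc_deriv (σ.rd_pos q)
  have hpq : ∀ q, 0 ≤ cp q * cq q := fun q => mul_nonneg (by linarith [hcp1 q]) (hcq0 q)
  have hsum : 0 ≤ ∑ q, cp q * cq q := Finset.sum_nonneg fun q _ => hpq q
  refine ⟨1 + C2 + ∑ q, cp q * cq q, by linarith, fun i x => ?_, fun i k x => ?_⟩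
  · rcases σ.cases_point x with hx | ⟨q, z, hz, rfl⟩
    · have he : σ.prof =ᶠ[𝓝 x] fun _ => (1 : ℝ) :=
        spread_outside σ.ball_source (fun q => (σ.rd'_lt q).le)
          (fun q _ h => qloc_zero (σ.rd_pos q) h) hx
      rw [D_congr he, D_const, abs_zero]
      exact mul_nonneg (by linarith) (Real.sqrt_nonneg _)
    · have hzr : ‖z‖ < σ.rd q := hz.trans_lt (σ.rd'_lt q)
      have hev : ∀ᶠ a in 𝓝 z, σ.prof (σ.U q a) = 1 + qloc (σ.rd q) a := by
        filter_upwards [(isOpen_lt continuous_norm continuous_const).mem_nhds hzr] with a ha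
        exact σ.prof_param q (le_of_lt ha)
      have h := ((hcp q z (mem_closedBall_zero_iff.2 hz)).2.2 σ.prof
        (fun a => 1 + qloc (σ.rd q) a) σ.contMDiff_prof
        (contDiff_const.add (qloc_smooth _)).contDiffAt hev).1 i
      rw [fderiv_const_add, Real.norm_eq_abs] at h
      refine h.trans ?_
      calc cp q * ‖fderiv ℝ (qloc (σ.rd q)) z‖ ≤ cp q * (cq q * ‖z‖) :=
            mul_le_mul_of_nonneg_left (hcq q z hzr.le) (by linarith [hcp1 q])
        _ ≤ (1 + C2 + ∑ q, cp q * cq q) * Real.sqrt (σ.prof (σ.U q z)) := by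
            rw [← mul_assoc]
            refine mul_le_mul ?_ ?_ (norm_nonneg z) (by linarith)
            · linarith [Finset.single_le_sum (fun p _ => hpq p) (Finset.mem_univ q)]
            · exact Real.le_sqrt_of_sq_le (σ.prof_ge q hzr.le)
  · have h := hC2 [i, k] le_rfl x (mem_univ x)
    rw [mul_one, Real.norm_eq_abs] at h
    exact h.trans (by linarith)

omit [T2Space M] in
/-- The lower bounds of the modified section dominate the profile. -/
lemma exists_prof_le (V : Frame M N) (κ ε Cm : ℝ) (am : ℕ) (Cp : ℕ → ℝ) :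
    ∃ C : ℝ, 1 ≤ C ∧ ∀ (η : ℝ) (S' : M → R3), 0 < η → η ≤ 1 →
      ModData g σ.G σ.S V σ.Z σ.P κ ε η am Cm Cp S' →
      ∀ x, η ^ 16 * σ.prof x ≤ C * qS σ.G V S' x := by
  set s := 1 + ∑ q, (4 / σ.rd q) ^ 2 with hs
  have hsum : ∀ q, (4 / σ.rd q) ^ 2 ≤ s := fun q =>
    (Finset.single_le_sum (fun p _ => sq_nonneg (4 / σ.rd p)) (Finset.mem_univ q)).trans
      (le_add_of_nonneg_left zero_le_one)
  have hs1 : 1 ≤ s := le_add_of_nonneg_right (Finset.sum_nonneg fun q _ => sq_nonneg _)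
  refine ⟨s * max Cm 1, one_le_mul_of_one_le_of_one_le hs1 (le_max_right _ _),
    fun η S' hη hη1 hM x => ?_⟩
  have hq0 := qS_nonneg (V := V) σ.G S' x
  have h16 : 0 ≤ η ^ 16 := by positivity
  rcases σ.cases_ball σ.U (fun q => (σ.pt q).R / 2) x with hx | ⟨q, z, hz, rfl⟩
  · calc η ^ 16 * σ.prof x ≤ η ^ 16 := mul_le_of_le_one_right h16 (σ.prof_le_one x)
      _ ≤ Cm * qS σ.G V S' x := hM.low_out x fun p hp => hx ⟨p, hp⟩
      _ ≤ 1 * (max Cm 1 * qS σ.G V S' x) := by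
          rw [one_mul]; exact mul_le_mul_of_nonneg_right (le_max_left _ _) hq0
      _ ≤ s * (max Cm 1 * qS σ.G V S' x) := mul_le_mul_of_nonneg_right hs1
          (mul_nonneg (zero_le_one.trans (le_max_right _ _)) hq0)
      _ = _ := (mul_assoc _ _ _).symm
  · have hp : σ.prof (σ.U q z) ≤ s * ‖z‖ ^ 2 := by
      rcases le_or_gt ‖z‖ (σ.rd q / 4) with h | h
      · rw [σ.prof_param q (by linarith [σ.rd_pos q]), qloc_inner (σ.rd_pos q) h]
        exact le_mul_of_one_le_left (sq_nonneg _) hs1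
      · refine (σ.prof_le_one _).trans
          (le_trans ?_ (mul_le_mul_of_nonneg_right (hsum q) (sq_nonneg _)))
        rw [← mul_pow]
        refine one_le_pow₀ ?_
        rw [div_mul_eq_mul_div, le_div_iff₀ (σ.rd_pos q)]
        linarith
    calc η ^ 16 * σ.prof (σ.U q z) ≤ s * (η ^ 16 * ‖z‖ ^ 2) := by
          rw [mul_left_comm s]; exact mul_le_mul_of_nonneg_left hp h16
      _ ≤ s * (max Cm 1 * qS σ.G V S' (σ.U q z)) := by
          refine mul_le_mul_of_nonneg_left ((hM.low_in q.1 q.2 z hz).trans ?_) (by linarith)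
          exact mul_le_mul_of_nonneg_right (le_max_left _ _) hq0
      _ = _ := (mul_assoc _ _ _).symm

theorem exists_slack_bounds [CompactSpace M] (hV : FrameSmooth V) (κ ε Cm : ℝ) (am : ℕ)
    (Cp : ℕ → ℝ) :
    ∃ C η₀ : ℝ, 0 < η₀ ∧ ∀ η : ℝ, 0 < η → η ≤ η₀ → ∀ S' : M → R3,
      ModData g σ.G σ.S V σ.Z σ.P κ ε η am Cm Cp S' →
      (∀ x, σ.slack η x ≤ C * η ^ 6 * qS σ.G V S' x) ∧
      (∀ i x, |D V i (σ.slack η) x| ≤ C * Real.sqrt (qS σ.G V S' x)) ∧
      (∀ i k x, |D V i (D V k (σ.slack η)) x| ≤ C) ∧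
      ∀ x, (∀ q z, ‖z‖ ≤ σ.rd q → σ.U q z = x → η ^ 30 / 4 ≤ ‖z‖) →
        η ^ 85 ≤ qS σ.G V S' x ∧ η ^ 85 ≤ σ.slack η x := by
  obtain ⟨c1, hc1, hd1, hd2⟩ := σ.exists_prof_deriv hV
  obtain ⟨c0, hc0, hlow⟩ := σ.exists_prof_le V κ ε Cm am Cp
  refine ⟨c1 * c0, (16 * c0)⁻¹, by positivity, fun η hη hle S' hM => ?_⟩
  have hη1 : η ≤ 1 := hle.trans (inv_le_one_of_one_le₀ (by linarith))
  have hl := hlow η S' hη hη1 hM
  have hp : ContMDiff (𝓡 2) 𝓘(ℝ, ℝ) ∞ σ.prof := σ.contMDiff_prof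
  have hD : ∀ k, D V k (σ.slack η) = fun y => η ^ 22 • D V k σ.prof y := fun k =>
    funext fun y => D_const_smul (η ^ 22) (hp.mdifferentiableAt (by simp))
  have h22 : |η ^ 22| ≤ 1 := by
    rw [abs_of_nonneg (by positivity)]; exact pow_le_one₀ hη.le hη1
  refine ⟨fun x => ?_, fun i x => ?_, fun i k x => ?_, fun x hx => ?_⟩
  · have hq0 := qS_nonneg (V := V) σ.G S' x
    calc σ.slack η x = η ^ 6 * (η ^ 16 * σ.prof x) := by rw [slack]; ring
      _ ≤ η ^ 6 * (c1 * c0 * qS σ.G V S' x) := mul_le_mul_of_nonneg_left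
          ((hl x).trans (mul_le_mul_of_nonneg_right (le_mul_of_one_le_left (by linarith) hc1) hq0))
          (by positivity)
      _ = _ := by ring
  · simp only [hD, smul_eq_mul]
    rw [abs_mul, abs_of_pos (pow_pos hη 22)]
    have hsq : η ^ 8 * Real.sqrt (σ.prof x) ≤ c0 * Real.sqrt (qS σ.G V S' x) := by
      rw [← Real.sqrt_sq (pow_nonneg hη.le 8), ← Real.sqrt_mul (sq_nonneg _),
        ← Real.sqrt_sq (zero_le_one.trans hc0), ← Real.sqrt_mul (sq_nonneg _)]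
      refine Real.sqrt_le_sqrt ?_
      rw [← pow_mul]
      exact (hl x).trans (mul_le_mul_of_nonneg_right (le_self_pow₀ hc0 two_ne_zero)
        (qS_nonneg σ.G S' x))
    calc η ^ 22 * |D V i σ.prof x| ≤ η ^ 22 * (c1 * Real.sqrt (σ.prof x)) :=
          mul_le_mul_of_nonneg_left (hd1 i x) (by positivity)
      _ = η ^ 14 * (c1 * (η ^ 8 * Real.sqrt (σ.prof x))) := by ring
      _ ≤ 1 * (c1 * (c0 * Real.sqrt (qS σ.G V S' x))) := mul_le_mul (pow_le_one₀ hη.le hη1)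
          (mul_le_mul_of_nonneg_left hsq (by linarith))
          (by positivity) zero_le_one
      _ = _ := by ring
  · rw [hD, D_const_smul _ ((contMDiff_D hV k hp).mdifferentiableAt (by simp)), smul_eq_mul,
      abs_mul]
    exact (mul_le_mul h22 (hd2 i k x) (abs_nonneg _) zero_le_one).trans
      (by rw [one_mul]; exact le_mul_of_one_le_right (by linarith) hc0)
  · have h60 : η ^ 60 / 16 ≤ σ.prof x := by
      rcases σ.cases_ball σ.U σ.rd x with h | ⟨q, z, hz, rfl⟩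
      · rw [prof, σ.spread_off _ _ h]
        linarith [pow_le_one₀ (n := 60) hη.le hη1]
      · have := pow_le_pow_left₀ (by positivity) (hx q z hz rfl) 2
        refine le_trans (le_of_eq ?_) (this.trans (σ.prof_ge q hz))
        ring
    have hη16 : 16 * c0 * η ≤ 1 := by
      have := mul_le_mul_of_nonneg_left hle (show (0 : ℝ) ≤ 16 * c0 by linarith)
      rwa [mul_inv_cancel₀ (by positivity)] at this
    have hpw : 16 * c0 * η ^ 85 ≤ η ^ 76 * (η ^ 8) := by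
      calc 16 * c0 * η ^ 85 = η ^ 84 * (16 * c0 * η) := by ring
        _ ≤ η ^ 84 * 1 := mul_le_mul_of_nonneg_left hη16 (by positivity)
        _ = _ := by ring
    have h8 : η ^ 8 ≤ 1 := pow_le_one₀ hη.le hη1
    constructor
    · refine le_of_mul_le_mul_left ?_ (show (0 : ℝ) < c0 by linarith)
      refine le_trans ?_ ((mul_le_mul_of_nonneg_left h60 (by positivity)).trans (hl x))
      have := mul_le_mul_of_nonneg_left h8 (pow_nonneg hη.le 76)
      linarith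
    · refine le_trans ?_ (mul_le_mul_of_nonneg_left h60 (by positivity) : _ ≤ σ.slack η x)
      have h84 : η ^ 84 ≤ η ^ 82 := pow_le_pow_of_le_one hη.le hη1 (by norm_num)
      have : η ^ 85 ≤ c0 * η ^ 85 := le_mul_of_one_le_left (by positivity) hc0
      linarith

end Vale.Agent.P205.Full.Start.Setup
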