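import Vale.Agent.P205.Full.Start.AssembleRes

/-!
# P205 full, START: the pinching of the residual off the cores

Off the cores the residual is comparable with `chartT` in the balls of radius `rad η⁸`, and with
the metric elsewhere, where the map is `G × 0`.
-/

open scoped Manifold ContDiff RealInnerProductSpace Topology
open Bundle Filter Set Metric

noncomputable section

namespace Vale.Agent.P205.Full.Start

section Algebra

variable {N : ℕ} {E : Type*} [NormedAddCommGroup E] [InnerProductSpace ℝ E]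

lemma sum_bilin_form {F : Type*} [AddCommGroup F] [Module ℝ F] [TopologicalSpace F]
    (B : F →L[ℝ] F →L[ℝ] ℝ) (y : Fin N → ℝ) (a : Fin N → F) :
    ∑ i, ∑ k, y i * y k * B (a i) (a k) = B (∑ i, y i • a i) (∑ i, y i • a i) := by
  simp only [map_sum, map_smul, sum_apply, smul_apply, smul_eq_mul, Finset.mul_sum]
  rw [Finset.sum_comm]
  refine Finset.sum_congr rfl fun k _ => Finset.sum_congr rfl fun i _ => ?_
  ring

lemma sum_inner_form (y : Fin N → ℝ) (a : Fin N → E) :
    ∑ i, ∑ k, y i * y k * ⟪a i, a k⟫ = ‖∑ i, y i • a i‖ ^ 2 := by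
  rw [← real_inner_self_eq_norm_sq]
  exact sum_bilin_form (innerSL ℝ : E →L[ℝ] E →L[ℝ] ℝ) y a

end Algebra

namespace Setup

variable {M : Type} [TopologicalSpace M] [ChartedSpace R2 M] [IsManifold (𝓡 2) ∞ M]
variable {g : Full.Metric M} (σ : Setup g) {N : ℕ} {V : Frame M N}

/-- The metric in the coordinates is comparable with the euclidean one. -/
lemma exists_g2_bounds : ∃ C : ℝ, 1 ≤ C ∧ ∀ q z, ‖z‖ ≤ σ.rd q → ∀ w : R2,
    σ.g2 q z w w ≤ C * ‖w‖ ^ 2 ∧ ‖w‖ ^ 2 ≤ C * σ.g2 q z w w := by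
  have hq : ∀ q, ∃ C : ℝ, 1 ≤ C ∧ ∀ z, ‖z‖ ≤ σ.rd q → ∀ w : R2,
      σ.g2 q z w w ≤ C * ‖w‖ ^ 2 ∧ ‖w‖ ^ 2 ≤ C * σ.g2 q z w w := by
    intro q
    have hsub := σ.ball_source q
    have hc : ContinuousOn (fun p : R2 × R2 => σ.g2 q p.1 p.2 p.2)
        (closedBall 0 (σ.rd q) ×ˢ sphere (0 : R2) 1) :=
      ((((contDiffOn_gBil g (σ.U q).open_source (σ.smooth_U q)).continuousOn.mono hsub).comp
        continuous_fst.continuousOn fun p hp => hp.1).clm_apply
        continuous_snd.continuousOn).clm_apply continuous_snd.continuousOn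
    have hK := (isCompact_closedBall (0 : R2) (σ.rd q)).prod (isCompact_sphere (0 : R2) 1)
    obtain ⟨m, hm, hmin⟩ := hK.exists_forall_le' hc (a := 0) fun p hp => by
      show 0 < gBil g (σ.U q) p.1 p.2 p.2
      rw [gBil_apply, gPull]
      refine g.pos _ _ fun h0 => ?_
      have h1 : p.2 = 0 := ((σ.pt q).bijective p.1 (hsub hp.1)).1 (h0.trans (map_zero _).symm)
      simpa [h1] using hp.2
    obtain ⟨B, hB⟩ := hK.exists_bound_of_continuousOn hc
    refine ⟨max 1 (max |B| m⁻¹), le_max_left _ _, fun z hz w => ?_⟩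
    rcases eq_or_ne w 0 with rfl | hw
    · simp
    · have hn : 0 < ‖w‖ := norm_pos_iff.2 hw
      have hp : (z, ‖w‖⁻¹ • w) ∈ closedBall (0 : R2) (σ.rd q) ×ˢ sphere (0 : R2) 1 :=
        ⟨mem_closedBall_zero_iff.2 hz, by simp [norm_smul, hn.ne']⟩
      have e : σ.g2 q z (‖w‖⁻¹ • w) (‖w‖⁻¹ • w) = σ.g2 q z w w / ‖w‖ ^ 2 := by
        simp only [map_smul, smul_apply, smul_eq_mul]; field_simp
      have h1 := hmin _ hp
      have h2 := (le_abs_self _).trans (((Real.norm_eq_abs _).symm.le).trans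
        ((hB _ hp).trans (le_abs_self B)))
      simp only [e] at h1 h2
      rw [le_div_iff₀ (by positivity)] at h1
      rw [div_le_iff₀ (by positivity)] at h2
      refine ⟨h2.trans (mul_le_mul_of_nonneg_right
        ((le_max_left _ _).trans (le_max_right _ _)) (by positivity)), ?_⟩
      have h3 : 0 ≤ σ.g2 q z w w := le_trans (by positivity) h1
      calc ‖w‖ ^ 2 = m⁻¹ * (m * ‖w‖ ^ 2) := by field_simp
        _ ≤ m⁻¹ * σ.g2 q z w w := mul_le_mul_of_nonneg_left h1 (by positivity)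
        _ ≤ _ := mul_le_mul_of_nonneg_right ((le_max_right _ _).trans (le_max_right _ _)) h3
  choose C hC1 hC using hq
  refine ⟨1 + ∑ q, C q, le_add_of_nonneg_right
    (Finset.sum_nonneg fun q _ => zero_le_one.trans (hC1 q)), fun q z hz w => ?_⟩
  have hle : C q ≤ 1 + ∑ q, C q := (Finset.single_le_sum (fun p _ => zero_le_one.trans (hC1 p))
    (Finset.mem_univ q)).trans (le_add_of_nonneg_left zero_le_one)
  obtain ⟨h1, h2⟩ := hC q z hz w
  have h0 : 0 ≤ σ.g2 q z w w := by
    by_contra hn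
    nlinarith [hC1 q, sq_nonneg ‖w‖]
  exact ⟨h1.trans (mul_le_mul_of_nonneg_right hle (sq_nonneg _)),
    h2.trans (mul_le_mul_of_nonneg_right hle h0)⟩

variable [T2Space M] {σ}

omit [T2Space M] in
/-- The range of the slack; `η⁸²/16` bounds it below off the cores. -/
lemma slack_range {η : ℝ} (hη : 0 < η) (hη1 : η ≤ 1) (x : M) :
    0 ≤ σ.slack η x ∧ σ.slack η x ≤ η ^ 22 ∧
      ((∀ q z, ‖z‖ ≤ σ.rd q → σ.U q z = x → η ^ 30 / 4 ≤ ‖z‖) →
        η ^ 82 / 16 ≤ σ.slack η x) := by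
  have h22 : 0 ≤ η ^ 22 := by positivity
  have e : η ^ 82 / 16 = η ^ 22 * (η ^ 30 / 4) ^ 2 := by ring
  rw [e, slack]
  by_cases hx : ∃ q, x ∈ σ.U q '' closedBall 0 (σ.rd q)
  · obtain ⟨q, z, hz, rfl⟩ := hx
    rw [mem_closedBall_zero_iff] at hz
    rw [prof, σ.spread_param _ _ q hz]
    obtain ⟨h1, h2⟩ := qloc_mem (σ.rd_pos q) (σ.rd_le_one q) z hz
    exact ⟨mul_nonneg h22 (le_trans (sq_nonneg _) h1), mul_le_of_le_one_right h22 h2,
      fun h => mul_le_mul_of_nonneg_left
        ((pow_le_pow_left₀ (by positivity) (h q z hz rfl) 2).trans h1) h22⟩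
  · push_neg at hx
    have : σ.prof x = 1 := by
      rw [prof, spread, Finset.sum_eq_zero (fun q _ => lift_zero (hx q)), add_zero]
    rw [this, mul_one]
    refine ⟨h22, le_rfl, fun _ => mul_le_of_le_one_right h22 (pow_le_one₀ (by positivity) ?_)⟩
    exact (div_le_self (by positivity) (by norm_num)).trans (pow_le_one₀ hη.le hη1)

/-- Off the small balls the map is `G × 0`. -/
lemma Loc.mapF_off {Fl : σ.Idx → R2 → R3} {ρ : ℝ} (h : σ.Loc Fl ρ) {x : M}
    (hx : ∀ q z, ‖z‖ ≤ σ.rd q → σ.U q z = x → ρ < ‖z‖) :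
    σ.mapF Fl =ᶠ[𝓝 x] fun y => emb34 (σ.G y) := by
  refine spread_outside (rs' := fun _ => ρ) σ.ball_source
    (fun q => ((h.lt q).trans (σ.rd'_lt q)).le) (fun q z hz => ?_) fun q => ?_
  · rw [locF, h.outer q z hz, sub_self, map_zero, map_zero]
  · rintro ⟨z, hz, rfl⟩
    rw [mem_closedBall_zero_iff] at hz
    exact absurd (hx q z (hz.trans ((h.lt q).trans (σ.rd'_lt q)).le) rfl) (not_lt.2 hz)

/-- The residual off the cores is comparable with a monomial weight times the metric. -/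
theorem exists_pinch (κ Cm : ℝ) (am : ℕ) (Cp : ℕ → ℝ) (a : ℕ) (C₀ : ℝ)
    (C : ℕ → ℝ) : ∃ C' η₁ : ℝ, 0 < C' ∧ 0 < η₁ ∧ ∀ η, 0 < η → η ≤ η₁ → ∀ rad Fl S', 0 < rad →
      σ.Loc Fl (rad * η ^ 8) → (∀ q, rad < σ.rd q / 4) → rad < κ →
      σ.Charts Fl rad η a C₀ C → ModData g σ.G σ.S V σ.Z σ.P κ (1 / 4) η am Cm Cp S' →
      ∀ x, (∀ q z, ‖z‖ ≤ σ.rd q → σ.U q z = x → η ^ 30 / 4 ≤ ‖z‖) →
      ∃ t : ℝ, η ^ 85 ≤ t ∧ t ≤ C' ∧ ∀ y : Fin N → ℝ,
        t / C' * (∑ i, ∑ k, y i * y k * gV g V i k x) ≤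
            ∑ i, ∑ k, y i * y k * baseRes g σ.G V (σ.mapF Fl) S' (σ.slack η) i k x ∧
          ∑ i, ∑ k, y i * y k * baseRes g σ.G V (σ.mapF Fl) S' (σ.slack η) i k x ≤
            C' * t * ∑ i, ∑ k, y i * y k * gV g V i k x := by
  obtain ⟨Cg, hCg1, hCg⟩ := σ.exists_g2_bounds
  refine ⟨2 + |C₀| * Cg, 1 / 256, add_pos_of_pos_of_nonneg two_pos
    (mul_nonneg (abs_nonneg _) (zero_le_one.trans hCg1)), by norm_num,
    fun η hη hηle rad Fl S' hrad hl hrd hrk hch hm x hx => ?_⟩
  have hη1 : η ≤ 1 := hηle.trans (by norm_num)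
  have hC' : 2 ≤ 2 + |C₀| * Cg := le_add_of_nonneg_right
    (mul_nonneg (abs_nonneg _) (zero_le_one.trans hCg1))
  have h85 : η ^ 85 ≤ 1 := pow_le_one₀ hη.le hη1
  by_cases hA : ∃ q z, ‖z‖ ≤ σ.rd q ∧ σ.U q z = x ∧ ‖z‖ ≤ rad * η ^ 8
  · obtain ⟨q, z, hz, rfl, hzr⟩ := hA
    have hlo := hx q z hz rfl
    have hzrad : ‖z‖ ≤ rad :=
      hzr.trans (mul_le_of_le_one_right hrad.le (pow_le_one₀ hη.le hη1))
    have hz4 : ‖z‖ < σ.rd q / 4 := lt_of_le_of_lt hzrad (hrd q)
    have hzk : ‖z‖ < κ * η ^ 8 :=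
      lt_of_le_of_lt hzr (mul_lt_mul_of_pos_right hrk (pow_pos hη 8))
    refine ⟨chartT η z, le_min ?_ h85, (min_le_right _ _).trans (by linarith), fun y => ?_⟩
    · calc η ^ 85 ≤ η ^ 84 * (1 / 256) := by
            rw [pow_succ]; exact mul_le_mul_of_nonneg_left hηle (by positivity)
        _ = η⁻¹ ^ 36 * (η ^ 30 / 4) ^ 4 := by field_simp; ring
        _ ≤ _ := mul_le_mul_of_nonneg_left (pow_le_pow_left₀ (by positivity) hlo 4)
            (by positivity)
    · set w : R2 := ∑ i, y i • cvf V (σ.U q) i z with hw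
      have e1 : ∑ i, ∑ k, y i * y k * gV g V i k (σ.U q z) = σ.g2 q z w w := by
        rw [hw, ← sum_bilin_form (σ.g2 q z)]
        exact Finset.sum_congr rfl fun i _ => Finset.sum_congr rfl fun k _ => by
          rw [gV_param (σ.smooth_U q) (σ.pt q).smooth_symm g (σ.mem_source q hz)]; rfl
      set L := dquad (σ.eA q * η⁻¹ ^ 8) (σ.eB q * η ^ 8) z
      have e2 : ∑ i, ∑ k, y i * y k *
          baseRes g σ.G V (σ.mapF Fl) S' (σ.slack η) i k (σ.U q z) =
            chartRes (σ.g2 q) (σ.eA q) (σ.eB q) η (Fl q) z w w := by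
        have h1 := sum_bilin_form (σ.g2 q z) y fun i => cvf V (σ.U q) i z
        have h2 := sum_inner_form y fun i => L (cvf V (σ.U q) i z)
        have h3 := sum_inner_form y fun i => fderiv ℝ (Fl q) z (cvf V (σ.U q) i z)
        simp only [← map_smul, ← map_sum, ← hw, RCLike.inner_apply, conj_trivial,
          Real.norm_eq_abs, sq_abs] at h1 h2 h3
        simp only [chartRes, chartTarget, real_inner_self_eq_norm_sq]
        rw [show L w * L w = L w ^ 2 by ring, ← h1, ← h2, ← h3, Finset.sum_mul,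
          ← Finset.sum_sub_distrib, ← Finset.sum_sub_distrib]
        refine Finset.sum_congr rfl fun i _ => ?_
        rw [Finset.sum_mul, ← Finset.sum_sub_distrib, ← Finset.sum_sub_distrib]
        refine Finset.sum_congr rfl fun k _ => ?_
        rw [res_param hl hm q hz4 hzk i k]
        simp only [chartRes, chartTarget, L]
        ring
      rw [e1, e2]
      obtain ⟨g1, g2'⟩ := hCg q z hz w
      have lo := (hch q).shell_lower z w (le_trans (by linarith [pow_pos hη 30]) hlo) hzr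
      have up := (le_abs_self _).trans
        ((hch q).shell_upper z w w (le_trans (by linarith [pow_pos hη 30]) hlo) hzr)
      have ht : 0 < chartT η z := lt_min
        (mul_pos (by positivity) (pow_pos (lt_of_lt_of_le (by positivity) hlo) 4)) one_pos
      set R := chartRes (σ.g2 q) (σ.eA q) (σ.eB q) η (Fl q) z w w
      set t := chartT η z
      have hg0 : 0 ≤ σ.g2 q z w w := by nlinarith [sq_nonneg ‖w‖]
      constructor
      · rw [div_mul_eq_mul_div, div_le_iff₀ (by linarith)]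
        have hR0 : t * ‖w‖ ^ 2 ≤ |C₀| * |R| := by
          rw [← abs_mul]; exact lo.trans (le_abs_self _)
        rcases eq_or_ne w 0 with hw0 | hw0
        · simp [R, hw0, chartRes, chartTarget]
        · have hC00 : 0 < C₀ * R := lt_of_lt_of_le (by positivity) lo
          have hC0 : 0 < C₀ := by
            refine (pos_iff_pos_of_mul_pos hC00).2 ?_
            by_contra hn
            have hC0' : 0 ≤ C₀ := by
              have := (abs_nonneg _).trans ((hch q).shell_upper z w w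
                (le_trans (by linarith [pow_pos hη 30]) hlo) hzr)
              nlinarith [mul_pos ht (mul_pos (norm_pos_iff.2 hw0) (norm_pos_iff.2 hw0))]
            nlinarith [hC0'.trans' le_rfl, hC00, mul_nonpos_of_nonneg_of_nonpos hC0' (not_lt.1 hn)]
          have hR : 0 < R := by
            by_contra hn
            nlinarith
          rw [abs_of_pos hC0]
          calc t * σ.g2 q z w w ≤ t * (Cg * ‖w‖ ^ 2) := mul_le_mul_of_nonneg_left g1 ht.le
            _ ≤ Cg * (C₀ * R) := by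
                rw [mul_left_comm]; exact mul_le_mul_of_nonneg_left lo (by linarith)
            _ ≤ R * (2 + C₀ * Cg) := by nlinarith
      · refine up.trans ?_
        rw [← sq]
        calc C₀ * t * ‖w‖ ^ 2 ≤ |C₀| * t * (Cg * σ.g2 q z w w) :=
              mul_le_mul (mul_le_mul_of_nonneg_right (le_abs_self _) ht.le) g2' (by positivity)
                (by positivity)
          _ ≤ _ := by nlinarith [mul_nonneg ht.le hg0]
  · push_neg at hA
    refine ⟨1, h85, by linarith, fun y => ?_⟩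
    have hev := hl.mapF_off fun q z hz he => hA q z hz he
    set v : TangentSpace (𝓡 2) x := ∑ i, y i • V i x with hv
    have eg : ∑ i, ∑ k, y i * y k * gV g V i k x = g.inner x v v :=
      sum_bilin_form (F := TangentSpace (𝓡 2) x) (g.inner x) y fun i => V i x
    have eD : ∀ i, D V i (σ.mapF Fl) x = emb34 (D V i σ.G x) := fun i => by
      have hd := emb34.hasFDerivAt.hasMFDerivAt.comp x
        (σ.imm.1.mdifferentiableAt (by simp) (x := x)).hasMFDerivAt
      simp only [D, hev.mfderiv_eq]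
      simp only [Function.comp_def] at hd
      rw [hd.mfderiv]
      rfl
    have key : ∀ f : M → R3, (∑ i, y i • D V i f x : R3) =
        (mfderiv (𝓡 2) 𝓘(ℝ, R3) f x v : R3) := fun f => by
      let T : TangentSpace (𝓡 2) x →L[ℝ] R3 := mfderiv (𝓡 2) 𝓘(ℝ, R3) f x
      show ∑ i, y i • T (V i x) = T v
      simp only [hv, map_sum, map_smul]
    have eS : ‖∑ i, y i • dSec σ.G V S' i x‖ =
        ‖nLine σ.G x (mfderiv (𝓡 2) 𝓘(ℝ, R3) S' x v : R3)‖ := by
      rw [← key S', map_sum]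
      exact congrArg norm (Finset.sum_congr rfl fun i _ => (map_smul _ _ _).symm)
    have e2 : ∑ i, ∑ k, y i * y k * baseRes g σ.G V (σ.mapF Fl) S' (σ.slack η) i k x =
        g.inner x v v * (1 - σ.slack η x) - ‖∑ i, y i • dSec σ.G V S' i x‖ ^ 2 -
          ‖∑ i, y i • D V i σ.G x‖ ^ 2 := by
      rw [← eg, ← sum_inner_form, ← sum_inner_form, Finset.sum_mul, ← Finset.sum_sub_distrib,
        ← Finset.sum_sub_distrib]
      refine Finset.sum_congr rfl fun i _ => ?_
      rw [Finset.sum_mul, ← Finset.sum_sub_distrib, ← Finset.sum_sub_distrib]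
      refine Finset.sum_congr rfl fun k _ => ?_
      simp only [baseRes, dSecSq, pullV, eD, inner_emb34]
      ring
    rw [e2, eg, eS]
    set n1 := ‖nLine σ.G x (mfderiv (𝓡 2) 𝓘(ℝ, R3) S' x v : R3)‖
    set n0 := ‖nLine σ.G x (mfderiv (𝓡 2) 𝓘(ℝ, R3) σ.S x v : R3)‖
    set gg := g.inner x v v
    have hs1 : n1 ≤ n0 + 1 / 4 * Real.sqrt gg := hm.small x v
    have hg0 : 0 ≤ gg := by
      rcases eq_or_ne v 0 with h | h
      · simp [gg, h]
      · exact (g.pos x v h).le
    have hn0 : n0 ≤ 1 / 4 * Real.sqrt gg := by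
      refine (pow_le_pow_iff_left₀ (norm_nonneg _) (by positivity) two_ne_zero).1 ?_
      rw [mul_pow, Real.sq_sqrt hg0]
      exact (σ.shortS x v).trans (le_of_eq (by norm_num [gg]))
    have hn1 : n1 ^ 2 ≤ gg / 4 := by
      have h2 : n1 ≤ 1 / 2 * Real.sqrt gg := by linarith
      refine (pow_le_pow_left₀ (norm_nonneg _) h2 2).trans (le_of_eq ?_)
      rw [mul_pow, Real.sq_sqrt hg0]; ring
    obtain ⟨hq0, hq1, -⟩ := slack_range (σ := σ) hη hη1 x
    have hq2 : σ.slack η x ≤ 1 / 16 := hq1.trans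
      ((pow_le_of_le_one hη.le hη1 (by norm_num)).trans (hηle.trans (by norm_num)))
    have hm0 : ‖∑ i, y i • D V i σ.G x‖ ^ 2 ≤ 1 / 16 * gg :=
      (congrArg (fun r : R3 => ‖r‖ ^ 2) (key σ.G)).trans_le
        (by simpa only [norm_tangentSpace_vectorSpace] using σ.shortG x v)
    have hprod : gg * σ.slack η x ≤ gg * (1 / 16) := mul_le_mul_of_nonneg_left hq2 hg0
    set m := ‖∑ i, y i • D V i σ.G x‖
    have hlow : gg ≤ 2 * (gg * (1 - σ.slack η x) - n1 ^ 2 - m ^ 2) := by
      linarith only [hprod, hn1, hm0, hg0, mul_sub gg 1 (σ.slack η x)]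
    have hup : gg * (1 - σ.slack η x) - n1 ^ 2 - m ^ 2 ≤ gg := by
      linarith only [mul_sub gg 1 (σ.slack η x), mul_nonneg hg0 hq0, sq_nonneg n1, sq_nonneg m]
    constructor
    · rw [div_mul_eq_mul_div, one_mul, div_le_iff₀ (lt_of_lt_of_le two_pos hC')]
      refine hlow.trans ((mul_comm _ _).trans_le (mul_le_mul_of_nonneg_left hC' ?_))
      linarith only [hlow, hg0]
    · refine hup.trans (le_mul_of_one_le_left hg0 ?_)
      rw [mul_one]
      linarith only [hC']

end Setup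

end Vale.Agent.P205.Full.Start
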