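import Vale.Agent.P205.Full.Statement

/-!
# Module START, A4: calculus for the derivative bounds of the base map

Scaling of iterated derivatives, uniform bounds for compact families, and families vanishing to
order `k` at the origin with two derivatives.
-/

open Set Metric Filter Topology
open scoped ContDiff RealInnerProductSpace

noncomputable section

namespace Vale.Agent.P205.Full.Start

variable {E F G : Type*} [NormedAddCommGroup E] [NormedSpace ℝ E] [NormedAddCommGroup F]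
  [NormedSpace ℝ F] [NormedAddCommGroup G] [NormedSpace ℝ G]

/-- Scaling of iterated derivatives. -/
theorem norm_iteratedFDeriv_scale {f : R2 → E} (hf : ContDiff ℝ ∞ f) (c ρ : ℝ) (hρ : 0 < ρ)
    (j : ℕ) (u : R2) :
    ‖iteratedFDeriv ℝ j (fun z => c • f (ρ⁻¹ • z)) u‖ =
      |c| * ρ⁻¹ ^ j * ‖iteratedFDeriv ℝ j f (ρ⁻¹ • u)‖ := by
  have hj : ContDiff ℝ j f := hf.of_le (by exact_mod_cast le_top)
  have hg : ContDiff ℝ j fun z : R2 => f (ρ⁻¹ • z) := hj.comp (contDiff_id.const_smul ρ⁻¹)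
  rw [iteratedFDeriv_const_smul_apply' hg.contDiffAt, iteratedFDeriv_comp_const_smul _ hj,
    norm_smul, norm_smul, norm_pow, norm_inv, Real.norm_of_nonneg hρ.le, Real.norm_eq_abs,
    mul_assoc]

variable {P : Type*} [NormedAddCommGroup P] [NormedSpace ℝ P]

theorem norm_iteratedFDeriv_slice_le {Φ : P × R2 → E} (hΦ : ContDiff ℝ ∞ Φ) (p : P) (j : ℕ)
    (x : R2) :
    ‖iteratedFDeriv ℝ j (fun z => Φ (p, z)) x‖ ≤ ‖iteratedFDeriv ℝ j Φ (p, x)‖ := by
  set Ψ := fun q : P × R2 => Φ ((p, 0) + q) with hΨ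
  have hΨs : ContDiff ℝ ∞ Ψ := hΦ.comp (contDiff_const.add contDiff_id)
  have he : (fun z => Φ (p, z)) = Ψ ∘ ContinuousLinearMap.inr ℝ P R2 := by
    funext z; simp [Ψ]
  rw [he, ContinuousLinearMap.iteratedFDeriv_comp_right _ hΨs x
    (show (j : WithTop ℕ∞) ≤ ∞ by exact_mod_cast le_top)]
  refine (ContinuousMultilinearMap.norm_compContinuousLinearMap_le _ _).trans ?_
  rw [hΨ, iteratedFDeriv_comp_add_left' j (p, (0 : R2))]
  simp only [ContinuousLinearMap.inr_apply, Prod.mk_add_mk, add_zero, zero_add]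
  refine mul_le_of_le_one_right (norm_nonneg _) (Finset.prod_le_one (fun i _ => norm_nonneg _)
    fun i _ => ?_)
  exact ContinuousLinearMap.opNorm_le_bound _ zero_le_one fun z => by simp

theorem exists_slice_bound [ProperSpace P] {Φ : P × R2 → E} (hΦ : ContDiff ℝ ∞ Φ) (R R' : ℝ)
    (n : ℕ) :
    ∃ C : ℝ, 0 ≤ C ∧ ∀ p : P, ‖p‖ ≤ R → ∀ x : R2, ‖x‖ ≤ R' → ∀ j ≤ n,
      ‖iteratedFDeriv ℝ j (fun z => Φ (p, z)) x‖ ≤ C := by
  have h : ∀ j : ℕ, ∃ C, ∀ q ∈ closedBall (0 : P) R ×ˢ closedBall (0 : R2) R',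
      ‖iteratedFDeriv ℝ j Φ q‖ ≤ C := fun j =>
    ((isCompact_closedBall _ _).prod (isCompact_closedBall _ _)).exists_bound_of_continuousOn
      (hΦ.continuous_iteratedFDeriv (by exact_mod_cast le_top)).continuousOn
  choose C hC using h
  refine ⟨∑ j ∈ Finset.range (n + 1), |C j|, by positivity, fun p hp x hx j hj => ?_⟩
  refine (norm_iteratedFDeriv_slice_le hΦ p j x).trans
    ((hC j (p, x) ⟨by simpa using hp, by simpa using hx⟩).trans ?_)
  exact (le_abs_self _).trans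
    (Finset.single_le_sum (f := fun i => |C i|) (fun i _ => abs_nonneg _) (by simp; omega))

/-- Uniform vanishing to order `k` at the origin, with two derivatives, on the ball of
radius `1/4`. -/
def Van {ι : Type*} (k : ℕ) (f : ι → R2 → E) : Prop :=
  (∀ i, ContDiff ℝ ∞ (f i)) ∧ ∃ C : ℝ, 0 ≤ C ∧ ∀ i x, ‖x‖ ≤ 1 / 4 → ∀ j ≤ 2,
    ‖iteratedFDeriv ℝ j (f i) x‖ ≤ C * ‖x‖ ^ (k - j)

namespace Van

variable {ι : Type*} {k l : ℕ} {f : ι → R2 → E} {g : ι → R2 → F}

theorem mono (hf : Van k f) (h : l ≤ k) : Van l f := by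
  obtain ⟨hs, C, hC, hb⟩ := hf
  refine ⟨hs, C, hC, fun i x hx j hj => (hb i x hx j hj).trans ?_⟩
  exact mul_le_mul_of_nonneg_left
    (pow_le_pow_of_le_one (norm_nonneg _) (hx.trans (by norm_num)) (Nat.sub_le_sub_right h j)) hC

theorem comp_left (hf : Van k f) (L : E →L[ℝ] F) : Van k fun i x => L (f i x) := by
  obtain ⟨hs, C, hC, hb⟩ := hf
  refine ⟨fun i => L.contDiff.comp (hs i), ‖L‖ * C, mul_nonneg (norm_nonneg L) hC,
    fun i x hx j hj => ?_⟩
  refine (L.norm_iteratedFDeriv_comp_left (N := (∞ : WithTop ℕ∞)) (hs i).contDiffAt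
    (by exact_mod_cast le_top)).trans ?_
  rw [mul_assoc]
  gcongr
  exact hb i x hx j hj

theorem add {f' : ι → R2 → E} (hf : Van k f) (hf' : Van k f') :
    Van k fun i x => f i x + f' i x := by
  obtain ⟨hs, C, hC, hb⟩ := hf
  obtain ⟨hs', C', hC', hb'⟩ := hf'
  refine ⟨fun i => (hs i).add (hs' i), C + C', add_nonneg hC hC', fun i x hx j hj => ?_⟩
  rw [fun_iteratedFDeriv_add_apply ((hs i).contDiffAt.of_le (by exact_mod_cast le_top))
    ((hs' i).contDiffAt.of_le (by exact_mod_cast le_top))]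
  refine (norm_add_le _ _).trans ?_
  rw [add_mul]
  exact add_le_add (hb i x hx j hj) (hb' i x hx j hj)

theorem congr {f' : ι → R2 → E} (hf : Van k f) (h : ∀ i x, f i x = f' i x) : Van k f' := by
  have e : f = f' := funext fun i => funext (h i)
  exact e ▸ hf

theorem neg (hf : Van k f) : Van k fun i x => -f i x := by
  simpa using hf.comp_left (-ContinuousLinearMap.id ℝ E)

theorem bilin (hf : Van k f) (hg : Van l g) (B : E →L[ℝ] F →L[ℝ] G) :
    Van (k + l) fun i x => B (f i x) (g i x) := by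
  obtain ⟨hs, C, hC, hb⟩ := hf
  obtain ⟨hs', C', hC', hb'⟩ := hg
  refine ⟨fun i => (B.contDiff.comp (hs i)).clm_apply (hs' i),
    ‖B‖ * (4 * (C * C')), by have := norm_nonneg B; positivity, fun i x hx j hj => ?_⟩
  refine (B.norm_iteratedFDeriv_le_of_bilinear (N := (∞ : WithTop ℕ∞)) (hs i) (hs' i) x
    (by exact_mod_cast le_top)).trans ?_
  rw [mul_assoc]
  refine mul_le_mul_of_nonneg_left ?_ (norm_nonneg B)
  have hr : ‖x‖ ≤ 1 := hx.trans (by norm_num)
  calc ∑ m ∈ Finset.range (j + 1), (j.choose m : ℝ) * ‖iteratedFDeriv ℝ m (f i) x‖ *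
        ‖iteratedFDeriv ℝ (j - m) (g i) x‖
      ≤ ∑ m ∈ Finset.range (j + 1), (j.choose m : ℝ) * (C * C' * ‖x‖ ^ (k + l - j)) := by
        refine Finset.sum_le_sum fun m hm => ?_
        rw [Finset.mem_range] at hm
        rw [mul_assoc]
        refine mul_le_mul_of_nonneg_left ?_ (Nat.cast_nonneg _)
        refine (mul_le_mul (hb i x hx m (by omega)) (hb' i x hx (j - m) (by omega))
          (norm_nonneg _) (by positivity)).trans ?_
        rw [mul_mul_mul_comm, ← pow_add]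
        exact mul_le_mul_of_nonneg_left
          (pow_le_pow_of_le_one (norm_nonneg _) hr (by omega)) (by positivity)
    _ = (2 : ℝ) ^ j * (C * C' * ‖x‖ ^ (k + l - j)) := by
        rw [← Finset.sum_mul]
        congr 1
        exact_mod_cast Nat.sum_range_choose j
    _ ≤ 4 * (C * C') * ‖x‖ ^ (k + l - j) := by
        rw [mul_assoc 4]
        refine mul_le_mul_of_nonneg_right ?_ (by positivity)
        calc (2 : ℝ) ^ j ≤ 2 ^ 2 := pow_le_pow_right₀ (by norm_num) hj
          _ = 4 := by norm_num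

theorem reindex {κ : Type*} (hf : Van k f) (σ : κ → ι) : Van k fun i => f (σ i) := by
  obtain ⟨hs, C, hC, hb⟩ := hf
  exact ⟨fun i => hs _, C, hC, fun i => hb _⟩

/-- A family vanishing at the origin has order one. -/
theorem of_zero (hf : Van 0 f) (h0 : ∀ i, f i 0 = 0) : Van 1 f := by
  obtain ⟨hs, C, hC, hb⟩ := hf
  refine ⟨hs, C, hC, fun i x hx j hj => ?_⟩
  rcases Nat.eq_zero_or_pos j with rfl | hpos
  · rw [norm_iteratedFDeriv_zero]
    have h := (convex_closedBall (0 : R2) (1 / 4)).norm_image_sub_le_of_norm_fderiv_le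
      (f := f i) (C := C) (fun y _ => ((hs i).differentiable (by simp)).differentiableAt)
      (fun y hy => by
        have := hb i y (by simpa using hy) 1 (by norm_num)
        simpa [norm_iteratedFDeriv_one] using this)
      (mem_closedBall_self (by norm_num)) (show x ∈ closedBall (0 : R2) (1 / 4) by simpa using hx)
    simpa [h0 i] using h
  · rw [show 1 - j = 0 by omega, pow_zero]
    simpa using hb i x hx j hj

theorem d1 (hf : Van k f) :
    ∃ C : ℝ, 0 ≤ C ∧ ∀ i x, ‖x‖ ≤ 1 / 4 →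
      ‖f i x‖ ≤ C * ‖x‖ ^ k ∧ ‖fderiv ℝ (f i) x‖ ≤ C * ‖x‖ ^ (k - 1) ∧
        ‖fderiv ℝ (fderiv ℝ (f i)) x‖ ≤ C * ‖x‖ ^ (k - 2) := by
  obtain ⟨hs, C, hC, hb⟩ := hf
  refine ⟨C, hC, fun i x hx => ⟨?_, ?_, ?_⟩⟩
  · simpa [norm_iteratedFDeriv_zero] using hb i x hx 0 (by norm_num)
  · simpa [norm_iteratedFDeriv_one] using hb i x hx 1 (by norm_num)
  · have := hb i x hx 2 le_rfl
    rwa [← norm_iteratedFDeriv_fderiv, norm_iteratedFDeriv_one] at this

end Van

/-- Compact families of smooth maps have order zero. -/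
theorem Van.of_joint [ProperSpace P] {ι : Type*} {Φ : P × R2 → E} (hΦ : ContDiff ℝ ∞ Φ) (R : ℝ)
    (σ : ι → P) (hσ : ∀ i, ‖σ i‖ ≤ R) : Van 0 fun i x => Φ (σ i, x) := by
  obtain ⟨C, hC, hb⟩ := exists_slice_bound hΦ R (1 / 4) 2
  exact ⟨fun i => hΦ.comp (contDiff_const.prodMk contDiff_id), C, hC, fun i x hx j hj => by
    simpa using hb (σ i) (hσ i) x hx j hj⟩

/-- The differentials of a compact family have order zero. -/
theorem Van.of_joint_fderiv [ProperSpace P] {ι : Type*} {Φ : P × R2 → E} (hΦ : ContDiff ℝ ∞ Φ)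
    (R : ℝ) (σ : ι → P) (hσ : ∀ i, ‖σ i‖ ≤ R) :
    Van 0 fun i x => fderiv ℝ (fun z => Φ (σ i, z)) x := by
  obtain ⟨C, hC, hb⟩ := exists_slice_bound hΦ R (1 / 4) 3
  refine ⟨fun i => (hΦ.comp (contDiff_const.prodMk contDiff_id)).fderiv_right (by simp), C, hC,
    fun i x hx j hj => ?_⟩
  rw [norm_iteratedFDeriv_fderiv]
  simpa using hb (σ i) (hσ i) x hx (j + 1) (by omega)

/-- A fixed smooth map has order zero. -/
theorem Van.of_smooth {ι : Type*} {f : R2 → E} (hf : ContDiff ℝ ∞ f) : Van 0 fun _ : ι => f :=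
  Van.of_joint (P := ℝ) (Φ := fun q => f q.2) (hf.comp contDiff_snd) 0 (fun _ => 0)
    (fun _ => by simp)

/-- The identity has order one. -/
theorem Van.id {ι : Type*} : Van 1 fun _ : ι => fun x : R2 => x :=
  (Van.of_smooth contDiff_id).of_zero fun _ => rfl

end Vale.Agent.P205.Full.Start
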