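import Vale.Agent.P205.Full.Start.Base
import Vale.Agent.P205.Full.Start.BaseCalc

/-!
# Module START, A4: derivative bounds of the base map

With `x = ρ⁻¹ u` the base map is `ρ • sMap p x` for a parameter `p` in a compact set. For `‖x‖ < 1`
it is the jet plus `‖x‖⁴ • K p x` with `K p 0 = 0`, so the loss is of order four at the origin.
-/

open Real Set Metric Filter Topology
open scoped RealInnerProductSpace ContDiff

noncomputable section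

set_option maxSynthPendingDepth 3

namespace Vale.Agent.P205.Full.Start

/-- Coefficients of the scaled jet. -/
abbrev JPar := Fin 11 → ℝ

/-- Parameters in the compact range. -/
abbrev JInd := {p : JPar // ‖p‖ ≤ 2}

/-- The polynomial part of the scaled jet. -/
def sPoly (p : JPar) (x : R2) : R4 :=
  (p 1 * x 0 ^ 3 + p 2 * (x 0 ^ 2 * x 1) + p 3 * (x 0 * x 1 ^ 2) + p 4 * x 1 ^ 3) •
      EuclideanSpace.single 0 1 +
    (p 5 * x 0 ^ 3 + p 6 * (x 0 ^ 2 * x 1) + p 7 * (x 0 * x 1 ^ 2) + p 8 * x 1 ^ 3) •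
      EuclideanSpace.single 1 1 +
    (p 9 * x 0 ^ 2 + p 10 * x 1 ^ 2) • EuclideanSpace.single 2 1

/-- The jet at scale one. -/
def sJet (p : JPar) (x : R2) : R4 := p 0 • flatR x + cut1 x • sPoly p x

/-- The radial factor at scale one. -/
def radOne (μ s₁ : ℝ) (x : R2) : ℝ := wprof μ s₁ ((‖x‖ ^ 2) ^ 2)

/-- The base map at scale one. -/
def sMap (μ s₁ : ℝ) (p : JPar) (x : R2) : R4 := radOne μ s₁ x • sJet p x

/-- The coefficient of `‖x‖⁴` in `radOne - 1`. -/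
def deficit (μ : ℝ) (x : R2) : ℝ :=
  -(1 - μ) / ((1 + (‖x‖ ^ 2) ^ 2) *
    ∑ i ∈ Finset.range 8, (rootEight ((‖x‖ ^ 2) ^ 2))⁻¹ ^ i)

/-- The scaled parameters of a jet. -/
def jpar (T : QT) (α ρ : ℝ) : JPar :=
  ![α, ρ ^ 2 * ((T.a1 - 1) / 6) / α, ρ ^ 2 * (T.a2 / 4) / α, ρ ^ 2 * (T.a3 / 2) / α,
    ρ ^ 2 * ((T.b3 - T.c2 / 4) / 3) / α, ρ ^ 2 * ((T.b1 - T.a2 / 4) / 3) / α,
    ρ ^ 2 * (T.c1 / 2) / α, ρ ^ 2 * (T.c2 / 4) / α, ρ ^ 2 * ((T.c3 - T.kap ^ 2) / 6) / α,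
    ρ / 2, ρ * T.kap / 2]

lemma contDiff_sJet : ContDiff ℝ ∞ fun q : JPar × R2 => sJet q.1 q.2 := by
  have h0 : ContDiff ℝ ∞ fun q : JPar × R2 => sPoly q.1 q.2 := by
    unfold sPoly
    fun_prop
  exact ((((ContinuousLinearMap.proj (R := ℝ) (φ := fun _ : Fin 11 => ℝ) 0).contDiff.comp
    contDiff_fst).smul (flatR.contDiff.comp contDiff_snd)).add
      ((cut1_smooth.comp contDiff_snd).smul h0))

lemma contDiff_sJet_at (p : JPar) : ContDiff ℝ ∞ (sJet p) := by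
  have h := contDiff_sJet.comp ((contDiff_const (c := p)).prodMk (contDiff_id (E := R2)))
  simpa only [Function.comp_def, id_eq] using h

lemma sJet_zero (p : JPar) : sJet p 0 = 0 := by simp [sJet, sPoly]

lemma contDiff_radOne (μ s₁ : ℝ) : ContDiff ℝ ∞ (radOne μ s₁) :=
  contDiff_iff_contDiffAt.2 fun x =>
    (contDiffAt_wprof μ s₁ (by linarith [sq_nonneg (‖x‖ ^ 2)])).comp x
      ((contDiff_norm_sq ℝ).pow 2).contDiffAt

lemma sum_root_pos (x : R2) :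
    0 < ∑ i ∈ Finset.range 8, (rootEight ((‖x‖ ^ 2) ^ 2))⁻¹ ^ i := by
  have := rootEight_pos (show (-1 : ℝ) < (‖x‖ ^ 2) ^ 2 by linarith [sq_nonneg (‖x‖ ^ 2)])
  exact Finset.sum_pos (fun i _ => by positivity) ⟨0, by simp⟩

lemma contDiff_deficit (μ : ℝ) : ContDiff ℝ ∞ (deficit μ) := by
  have hs : ContDiff ℝ ∞ fun x : R2 => (‖x‖ ^ 2) ^ 2 := (contDiff_norm_sq ℝ).pow 2
  have hb : ContDiff ℝ ∞ fun x : R2 => (rootEight ((‖x‖ ^ 2) ^ 2))⁻¹ :=
    contDiff_iff_contDiffAt.2 fun x => by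
      have hp : (-1 : ℝ) < (‖x‖ ^ 2) ^ 2 := by linarith [sq_nonneg (‖x‖ ^ 2)]
      exact (ContDiffAt.comp x (g := rootEight) (contDiffAt_rootEight hp) hs.contDiffAt).inv
        (by exact (rootEight_pos hp).ne')
  refine contDiff_const.div ((contDiff_const.add hs).mul (ContDiff.sum fun i _ => hb.pow i))
    fun x => ?_
  have := sum_root_pos x
  positivity

/-- For `‖x‖ ≤ 1` the factor is `1 + ‖x‖⁴ deficit`. -/
lemma radOne_inner {μ s₁ : ℝ} (hs₁ : 1 ≤ s₁) {x : R2} (hx : ‖x‖ ≤ 1) :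
    radOne μ s₁ x = 1 + (‖x‖ ^ 2) ^ 2 * deficit μ x := by
  have hs1 : (‖x‖ ^ 2) ^ 2 ≤ 1 :=
    pow_le_one₀ (sq_nonneg _) (pow_le_one₀ (norm_nonneg _) hx)
  have hp := sum_root_pos x
  rw [radOne, wprof, pcut_of_le ((div_le_one (by linarith)).2 (hs1.trans hs₁)), one_mul, deficit]
  set s := (‖x‖ ^ 2) ^ 2 with hs
  have hs0 : 0 ≤ s := sq_nonneg _
  set b := (rootEight s)⁻¹ with hb
  have hb8 : b ^ 8 * (1 + s) = 1 := by
    rw [hb, inv_pow, rootEight_pow (by linarith), inv_mul_cancel₀ (by linarith)]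
  have hg := geom_sum_mul b 8
  set σ := ∑ i ∈ Finset.range 8, b ^ i with hσ
  field_simp
  linear_combination (1 - μ) * (1 + s) * hg + (1 - μ) * hb8

lemma radW_eq (μ s₁ ρ : ℝ) (u : R2) : radW μ s₁ ρ u = radOne μ s₁ (ρ⁻¹ • u) := by
  rw [radW, radOne, norm_smul, Real.norm_eq_abs, mul_pow |ρ⁻¹|, sq_abs]

lemma baseJet_scale (T : QT) {α ρ : ℝ} (hρ : ρ ≠ 0) (u : R2) :
    baseJet T α ρ u = ρ • sJet (jpar T α ρ) (ρ⁻¹ • u) := by
  have e : T.dev α u = ρ • sPoly (jpar T α ρ) (ρ⁻¹ • u) := by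
    rw [QT.dev_eq, sPoly]
    simp only [smul_add, smul_smul, PiLp.smul_apply, smul_eq_mul]
    congr 1
    congr 1
    all_goals congr 1
    all_goals simp [jpar, QT.jX, QT.jY, QT.jZ]
    all_goals field_simp
  rw [baseJet, sJet, e, smul_add, map_smul, smul_comm ρ (cut1 (ρ⁻¹ • u))]
  congr 1
  simp only [jpar, Matrix.cons_val_zero, smul_smul]
  congr 1
  field_simp

lemma baseMap_scale (T : QT) {α μ s₁ ρ : ℝ} (hρ : ρ ≠ 0) (u : R2) :
    baseMap T α μ s₁ ρ u = ρ • sMap μ s₁ (jpar T α ρ) (ρ⁻¹ • u) := by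
  rw [baseMap, baseJet_scale T hρ, radW_eq, sMap, smul_comm]

lemma norm_jpar_le {T : QT} {M α ρ : ℝ} (hM : 1 ≤ M) (hT : T.Le M) (hα : 1 / 2 ≤ α) (hα1 : α ≤ 1)
    (hρ : 0 < ρ) (hsmall : M * ρ ^ 2 + (1 + |T.kap|) * ρ ≤ 1) : ‖jpar T α ρ‖ ≤ 2 := by
  obtain ⟨a1, a2, a3, b1, b2, b3, c1, c2, c3, hk⟩ := hT
  rw [abs_le] at a1 a2 a3 b1 b2 b3 c1 c2 c3
  have hk0 := sq_nonneg T.kap
  have h1 : M * ρ ^ 2 ≤ 1 := by nlinarith [mul_nonneg (abs_nonneg T.kap) hρ.le]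
  have h2 : ρ ≤ 1 ∧ |T.kap| * ρ ≤ 1 := by
    constructor <;> nlinarith [mul_nonneg (abs_nonneg T.kap) hρ.le, sq_nonneg ρ]
  have key : ∀ c : ℝ, |c| ≤ M → |ρ ^ 2 * c / α| ≤ 2 := fun c hc => by
    rw [abs_div, abs_of_pos (by linarith : 0 < α), div_le_iff₀ (by linarith), abs_mul,
      abs_of_nonneg (sq_nonneg ρ)]
    nlinarith [mul_le_mul_of_nonneg_left hc (sq_nonneg ρ)]
  rw [pi_norm_le_iff_of_nonneg (by norm_num)]
  intro i
  rw [Real.norm_eq_abs]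
  fin_cases i <;> simp [jpar]
  · rw [abs_le]; constructor <;> linarith
  all_goals first
    | (apply key; rw [abs_le]; constructor <;> linarith)
    | (rw [abs_div, abs_of_pos hρ, abs_two]; linarith [h2.1])
    | (rw [abs_div, abs_mul, abs_of_pos hρ, abs_two, mul_comm]; linarith [h2.2])

lemma norm_iteratedFDeriv_clm_le {E : Type*} [NormedAddCommGroup E] [NormedSpace ℝ E]
    (L : R2 →L[ℝ] E) (j : ℕ) (u : R2) : ‖iteratedFDeriv ℝ j L u‖ ≤ ‖L‖ * (1 + ‖u‖) := by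
  have h0 := norm_nonneg L
  have h1 := norm_nonneg u
  rcases j with _ | j
  · rw [norm_iteratedFDeriv_zero]
    nlinarith [L.le_opNorm u]
  · rw [← norm_iteratedFDeriv_fderiv, show fderiv ℝ (L : R2 → E) = fun _ => L from
      funext fun z => L.fderiv]
    rcases j with _ | j
    · rw [norm_iteratedFDeriv_zero]; nlinarith
    · rw [iteratedFDeriv_succ_const, Pi.zero_apply, norm_zero]; positivity

lemma norm_flatR_le : ‖flatR‖ ≤ 1 :=
  ContinuousLinearMap.opNorm_le_bound _ zero_le_one fun z => by rw [norm_flatR, one_mul]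

/-- **All derivatives of the base map.** -/
theorem exists_baseMap_bound (μ : ℝ) {s₁ : ℝ} (hs₁ : 1 ≤ s₁) (j : ℕ) :
    ∃ C : ℝ, 0 ≤ C ∧ ∀ (T : QT) (M α ρ : ℝ), 1 ≤ M → T.Le M → 1 / 2 ≤ α → α ≤ 1 → 0 < ρ →
      M * ρ ^ 2 + (1 + |T.kap|) * ρ ≤ 1 → ∀ u : R2,
        ‖iteratedFDeriv ℝ j (baseMap T α μ s₁ ρ) u‖ ≤ C * ρ⁻¹ ^ j * (1 + ‖u‖) := by
  have hΦ : ContDiff ℝ ∞ fun q : JPar × R2 => sMap μ s₁ q.1 q.2 :=
    ((contDiff_radOne μ s₁).comp contDiff_snd).smul contDiff_sJet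
  obtain ⟨C, hC, hb⟩ := exists_slice_bound hΦ 2 (2 * s₁ + 1) j
  refine ⟨max C |μ|, le_max_of_le_left hC, fun T M α ρ hM hT hα hα1 hρ hsmall u => ?_⟩
  have hρ1 : ρ ≤ 1 := by
    nlinarith [mul_nonneg (abs_nonneg T.kap) hρ.le, sq_nonneg ρ]
  have hu0 := norm_nonneg u
  have hpow : 1 ≤ ρ⁻¹ ^ j := one_le_pow₀ (one_le_inv₀ hρ |>.2 hρ1)
  rcases le_or_gt ‖ρ⁻¹ • u‖ (2 * s₁ + 1) with hin | hout
  · have hs : ContDiff ℝ ∞ (sMap μ s₁ (jpar T α ρ)) := by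
      unfold sMap
      exact (contDiff_radOne μ s₁).smul (contDiff_sJet_at _)
    have hb0 := hb _ (norm_jpar_le hM hT hα hα1 hρ hsmall) _ hin j le_rfl
    beta_reduce at hb0
    have hb' : ‖iteratedFDeriv ℝ j (sMap μ s₁ (jpar T α ρ)) (ρ⁻¹ • u)‖ ≤ max C |μ| :=
      hb0.trans (le_max_left _ _)
    rw [show baseMap T α μ s₁ ρ = fun z => ρ • sMap μ s₁ (jpar T α ρ) (ρ⁻¹ • z) from
      funext fun z => baseMap_scale T hρ.ne' z, norm_iteratedFDeriv_scale hs ρ ρ hρ, abs_of_pos hρ]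
    have h1 : ρ * ρ⁻¹ ^ j * ‖iteratedFDeriv ℝ j (sMap μ s₁ (jpar T α ρ)) (ρ⁻¹ • u)‖ ≤
        1 * ρ⁻¹ ^ j * max C |μ| :=
      mul_le_mul (mul_le_mul_of_nonneg_right hρ1 (by positivity)) hb' (norm_nonneg _) (by positivity)
    refine h1.trans ?_
    rw [one_mul, mul_comm]
    exact le_mul_of_one_le_right (by positivity) (by linarith)
  · rw [norm_smul, norm_inv, Real.norm_of_nonneg hρ.le, inv_mul_eq_div, lt_div_iff₀ hρ] at hout
    have hev : baseMap T α μ s₁ ρ =ᶠ[𝓝 u] ((μ * α) • flatR : R2 →L[ℝ] R4) := by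
      filter_upwards [(isOpen_lt continuous_const continuous_norm).mem_nhds hout] with z hz
      rw [baseMap_outer hρ hs₁ (by nlinarith [hρ.le]), smul_apply]
    rw [(hev.iteratedFDeriv ℝ j).eq_of_nhds]
    refine (norm_iteratedFDeriv_clm_le _ j u).trans (mul_le_mul_of_nonneg_right ?_ (by linarith))
    calc ‖(μ * α) • flatR‖ ≤ |μ| * |α| * 1 := by
          rw [norm_smul, Real.norm_eq_abs, abs_mul]
          exact mul_le_mul_of_nonneg_left norm_flatR_le (by positivity)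
      _ ≤ |μ| * 1 * ρ⁻¹ ^ j := by
          gcongr
          rw [abs_le]; constructor <;> linarith
      _ ≤ max C |μ| * ρ⁻¹ ^ j := by rw [mul_one]; gcongr; exact le_max_right _ _

/-! ### Order four of the loss -/

/-- `‖x‖⁴`. -/
def quartN (x : R2) : ℝ := (‖x‖ ^ 2) ^ 2

/-- Its differential. -/
def dquartN (x : R2) : R2 →L[ℝ] ℝ :=
  (4 : ℝ) • (‖x‖ ^ 2 • (innerSL ℝ : R2 →L[ℝ] R2 →L[ℝ] ℝ) x)

lemma hasFDerivAt_quartN (x : R2) : HasFDerivAt quartN (dquartN x) x := by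
  refine ((hasStrictFDerivAt_norm_sq x).hasFDerivAt.pow 2).congr_fderiv ?_
  ext v
  simp [dquartN]
  ring

/-- The inner product of two differentials. -/
def pairB : (R2 →L[ℝ] R4) →L[ℝ] (R2 →L[ℝ] R4) →L[ℝ] R2 →L[ℝ] R2 →L[ℝ] ℝ :=
  LinearMap.toContinuousLinearMap
    { toFun := fun A : R2 →L[ℝ] R4 => LinearMap.toContinuousLinearMap
        { toFun := fun B : R2 →L[ℝ] R4 => (innerSL ℝ : R4 →L[ℝ] R4 →L[ℝ] ℝ).bilinearComp A B
          map_add' := fun B B' => by ext v w; simp [inner_add_right]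
          map_smul' := fun c B => by ext v w; simp }
      map_add' := fun A A' => by ext B v w; simp
      map_smul' := fun c A => by ext B v w; simp }

lemma pairB_apply (A B : R2 →L[ℝ] R4) (v w : R2) : pairB A B v w = ⟪A v, B w⟫ := rfl

/-- The remainder `K`. -/
def sK (μ : ℝ) (i : JInd) (x : R2) : R4 := deficit μ x • sJet i.1 x

/-- The differential of `‖x‖⁴ K`. -/
def sA (μ : ℝ) (i : JInd) (x : R2) : R2 →L[ℝ] R4 :=
  quartN x • fderiv ℝ (sK μ i) x + ContinuousLinearMap.smulRightL ℝ R2 R4 (dquartN x) (sK μ i x)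

/-- The loss at scale one. -/
def sGain (μ : ℝ) (i : JInd) (x : R2) : R2 →L[ℝ] R2 →L[ℝ] ℝ :=
  -(pairB (fderiv ℝ (sJet i.1) x) (sA μ i x) + pairB (sA μ i x) (fderiv ℝ (sJet i.1) x) +
    pairB (sA μ i x) (sA μ i x))

lemma contDiff_sK_joint (μ : ℝ) :
    ContDiff ℝ ∞ fun q : JPar × R2 => deficit μ q.2 • sJet q.1 q.2 :=
  ((contDiff_deficit μ).comp contDiff_snd).smul contDiff_sJet

lemma contDiff_sK (μ : ℝ) (i : JInd) : ContDiff ℝ ∞ (sK μ i) := by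
  unfold sK
  exact (contDiff_deficit μ).smul (contDiff_sJet_at i.1)

lemma van_normSq : Van 2 fun (_ : JInd) (x : R2) => ‖x‖ ^ 2 :=
  (Van.id.bilin Van.id (innerSL ℝ : R2 →L[ℝ] R2 →L[ℝ] ℝ)).congr fun _ x =>
    real_inner_self_eq_norm_sq x

lemma van_quartN : Van 4 fun (_ : JInd) (x : R2) => quartN x :=
  (van_normSq.bilin van_normSq (ContinuousLinearMap.mul ℝ ℝ)).congr fun _ x => by
    simp [quartN, sq]

lemma van_dquartN : Van 3 fun (_ : JInd) (x : R2) => dquartN x :=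
  ((van_normSq.bilin (Van.id.comp_left (innerSL ℝ : R2 →L[ℝ] R2 →L[ℝ] ℝ))
    (ContinuousLinearMap.lsmul ℝ ℝ)).comp_left
      ((4 : ℝ) • ContinuousLinearMap.id ℝ (R2 →L[ℝ] ℝ)))

lemma van_sK (μ : ℝ) : Van 1 fun (i : JInd) (x : R2) => sK μ i x :=
  (Van.of_joint (contDiff_sK_joint μ) 2 (fun i : JInd => i.1) fun i => i.2).of_zero
    fun i => by simp [sJet_zero]

lemma van_sA (μ : ℝ) : Van 4 fun (i : JInd) (x : R2) => sA μ i x :=
  (van_quartN.bilin (Van.of_joint_fderiv (contDiff_sK_joint μ) 2 (fun i : JInd => i.1)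
    fun i => i.2) (ContinuousLinearMap.lsmul ℝ ℝ)).add
      (van_dquartN.bilin (van_sK μ) (ContinuousLinearMap.smulRightL ℝ R2 R4))

lemma van_sGain (μ : ℝ) : Van 4 fun (i : JInd) (x : R2) => sGain μ i x := by
  have hJ : Van 0 fun (i : JInd) (x : R2) => fderiv ℝ (sJet i.1) x :=
    Van.of_joint_fderiv contDiff_sJet 2 (fun i : JInd => i.1) fun i => i.2
  exact ((((hJ.bilin (van_sA μ) pairB).mono (l := 4) (by norm_num)).add
    (((van_sA μ).bilin hJ pairB).mono (l := 4) (by norm_num))).add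
      (((van_sA μ).bilin (van_sA μ) pairB).mono (l := 4) (by norm_num))).neg

lemma sMap_inner {μ s₁ : ℝ} (hs₁ : 1 ≤ s₁) (i : JInd) {x : R2} (hx : ‖x‖ ≤ 1) :
    sMap μ s₁ i.1 x = sJet i.1 x + quartN x • sK μ i x := by
  rw [sMap, radOne_inner hs₁ hx, add_smul, one_smul, sK, smul_smul, quartN]

lemma fderiv_sMap_inner {μ s₁ : ℝ} (hs₁ : 1 ≤ s₁) (i : JInd) {x : R2} (hx : ‖x‖ < 1) :
    fderiv ℝ (sMap μ s₁ i.1) x = fderiv ℝ (sJet i.1) x + sA μ i x := by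
  have hev : sMap μ s₁ i.1 =ᶠ[𝓝 x] fun z => sJet i.1 z + quartN z • sK μ i z := by
    filter_upwards [(isOpen_lt continuous_norm continuous_const).mem_nhds hx] with z hz
    exact sMap_inner hs₁ i (le_of_lt hz)
  have hJ : ContDiff ℝ ∞ (sJet i.1) := contDiff_sJet_at _
  rw [hev.fderiv_eq, ((hJ.differentiable (by simp) x).hasFDerivAt.fun_add
    ((hasFDerivAt_quartN x).fun_smul
      ((contDiff_sK μ i).differentiable (by simp) x).hasFDerivAt)).fderiv]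
  rfl

lemma fderiv_scale {E : Type*} [NormedAddCommGroup E] [NormedSpace ℝ E] {f : R2 → E} {ρ : ℝ}
    (hρ : ρ ≠ 0) {u : R2} (hf : DifferentiableAt ℝ f (ρ⁻¹ • u)) :
    fderiv ℝ (fun z => ρ • f (ρ⁻¹ • z)) u = fderiv ℝ f (ρ⁻¹ • u) := by
  have h := (hf.hasFDerivAt.comp u ((hasFDerivAt_id u).fun_const_smul ρ⁻¹)).fun_const_smul ρ
  refine h.fderiv.trans ?_
  ext v
  simp [smul_smul, hρ]

lemma gain_eq_scale {μ s₁ : ℝ} (hs₁ : 1 ≤ s₁) {T : QT} {α ρ : ℝ} (hρ : 0 < ρ) (i : JInd)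
    (hi : i.1 = jpar T α ρ) {u : R2} (hu : ‖u‖ < ρ) (v w : R2) :
    gain T α μ s₁ ρ u v w = sGain μ i (ρ⁻¹ • u) v w := by
  have hx : ‖ρ⁻¹ • u‖ < 1 := by rwa [norm_scaled hρ, div_lt_one hρ]
  have hJ : ContDiff ℝ ∞ (sJet i.1) := contDiff_sJet_at _
  have hM : ContDiff ℝ ∞ (sMap μ s₁ i.1) := by
    unfold sMap
    exact (contDiff_radOne μ s₁).smul hJ
  have e1 : fderiv ℝ (baseJet T α ρ) u = fderiv ℝ (sJet i.1) (ρ⁻¹ • u) := by
    rw [show baseJet T α ρ = fun z => ρ • sJet i.1 (ρ⁻¹ • z) from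
      funext fun z => hi ▸ baseJet_scale T hρ.ne' z]
    exact fderiv_scale hρ.ne' (hJ.differentiable (by simp) _)
  have e2 : fderiv ℝ (baseMap T α μ s₁ ρ) u = fderiv ℝ (sMap μ s₁ i.1) (ρ⁻¹ • u) := by
    rw [show baseMap T α μ s₁ ρ = fun z => ρ • sMap μ s₁ i.1 (ρ⁻¹ • z) from
      funext fun z => hi ▸ baseMap_scale T hρ.ne' z]
    exact fderiv_scale hρ.ne' (hM.differentiable (by simp) _)
  rw [gain, pullP, pullP, e1, e2, fderiv_sMap_inner hs₁ i hx]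
  simp only [sGain, neg_apply, add_apply, pairB_apply, inner_add_left, inner_add_right]
  ring

/-- **The loss is of order four at the origin, with two derivatives.** -/
theorem exists_gain_bound (μ : ℝ) {s₁ : ℝ} (hs₁ : 1 ≤ s₁) :
    ∃ C : ℝ, 0 ≤ C ∧ ∀ (T : QT) (M α ρ : ℝ), 1 ≤ M → T.Le M → 1 / 2 ≤ α → α ≤ 1 → 0 < ρ →
      M * ρ ^ 2 + (1 + |T.kap|) * ρ ≤ 1 → ∀ u v w : R2, ‖u‖ ≤ ρ / 4 →
        ‖fderiv ℝ (fun z => gain T α μ s₁ ρ z v w) u‖ ≤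
            C * (‖u‖ ^ 3 / ρ ^ 4) * (‖v‖ * ‖w‖) ∧
          ‖fderiv ℝ (fderiv ℝ fun z => gain T α μ s₁ ρ z v w) u‖ ≤
            C * (‖u‖ ^ 2 / ρ ^ 4) * (‖v‖ * ‖w‖) := by
  obtain ⟨hsm, C, hC, hb⟩ := van_sGain μ
  refine ⟨C, hC, fun T M α ρ hM hT hα hα1 hρ hsmall u v w hu => ?_⟩
  set i : JInd := ⟨jpar T α ρ, norm_jpar_le hM hT hα hα1 hρ hsmall⟩ with hi
  set L : (R2 →L[ℝ] R2 →L[ℝ] ℝ) →L[ℝ] ℝ :=
    (ContinuousLinearMap.apply ℝ ℝ w).comp (ContinuousLinearMap.apply ℝ (R2 →L[ℝ] ℝ) v) with hL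
  have hLle : ‖L‖ ≤ ‖v‖ * ‖w‖ := L.opNorm_le_bound (by positivity) fun A => by
    refine (ContinuousLinearMap.le_opNorm₂ A v w).trans (le_of_eq ?_)
    ring
  have hLs : ContDiff ℝ ∞ fun x => L (sGain μ i x) := L.contDiff.comp (hsm i)
  have hev : (fun z => gain T α μ s₁ ρ z v w) =ᶠ[𝓝 u]
      fun z => (1 : ℝ) • (fun x => L (sGain μ i x)) (ρ⁻¹ • z) := by
    filter_upwards [(isOpen_lt continuous_norm continuous_const).mem_nhds
      (show ‖u‖ < ρ by linarith)] with z hz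
    rw [one_smul, gain_eq_scale hs₁ hρ i rfl hz]
    rfl
  have hx : ‖ρ⁻¹ • u‖ ≤ 1 / 4 := by rw [norm_scaled hρ, div_le_iff₀ hρ]; linarith
  have key : ∀ j ≤ 2, ‖iteratedFDeriv ℝ j (fun z => gain T α μ s₁ ρ z v w) u‖ ≤
      ρ⁻¹ ^ j * (C * (‖u‖ / ρ) ^ (4 - j)) * (‖v‖ * ‖w‖) := fun j hj => by
    rw [(hev.iteratedFDeriv ℝ j).eq_of_nhds, norm_iteratedFDeriv_scale hLs 1 ρ hρ j u, abs_one,
      one_mul, mul_assoc]
    refine mul_le_mul_of_nonneg_left ?_ (by positivity)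
    refine (L.norm_iteratedFDeriv_comp_left (N := (∞ : WithTop ℕ∞)) (hsm i).contDiffAt
      (by exact_mod_cast le_top)).trans ?_
    rw [mul_comm (C * _), ← norm_scaled hρ]
    exact mul_le_mul hLle (hb i _ hx j hj) (norm_nonneg _) (by positivity)
  constructor
  · have h1 := key 1 (by norm_num)
    rw [norm_iteratedFDeriv_one] at h1
    refine h1.trans (le_of_eq ?_)
    simp only [Nat.reduceSub, pow_one, div_pow]
    field_simp
  · have h2 := key 2 le_rfl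
    rw [← norm_iteratedFDeriv_fderiv, norm_iteratedFDeriv_one] at h2
    refine h2.trans (le_of_eq ?_)
    simp only [Nat.reduceSub, div_pow]
    field_simp

end Vale.Agent.P205.Full.Start
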