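import Vale.Agent.P205.Full.Start.BaseBounds

/-!
# Module START, A4: the second derivative of the base map near the critical point
-/

open Set Metric Filter Topology
open scoped RealInnerProductSpace ContDiff

noncomputable section

set_option maxSynthPendingDepth 3

namespace Vale.Agent.P205.Full.Start

/-- A rank one map of the plane into `ℝ⁴`. -/
def rankMap (p : R2 →L[ℝ] ℝ) (k : Fin 4) : R2 →L[ℝ] R4 :=
  p.smulRight (EuclideanSpace.single k (1 : ℝ))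

lemma norm_rankMap_le {p : R2 →L[ℝ] ℝ} (hp : ‖p‖ ≤ 1) (k : Fin 4) : ‖rankMap p k‖ ≤ 1 := by
  simpa [rankMap, ContinuousLinearMap.norm_smulRight_apply] using hp

lemma exists_deriv_quad (c d e : ℝ) (u : R2) :
    ∃ L : R2 →L[ℝ] ℝ, HasFDerivAt (fun z : R2 => c * z 0 ^ 2 + d * (z 0 * z 1) + e * z 1 ^ 2) L u ∧
      ‖L‖ ≤ 2 * (|c| + |d| + |e|) * ‖u‖ := by
  have hx : HasFDerivAt (fun z : R2 => z 0) px u := px.hasFDerivAt
  have hy : HasFDerivAt (fun z : R2 => z 1) py u := py.hasFDerivAt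
  refine ⟨_, ((hx.pow 2).const_mul c |>.fun_add ((hx.fun_mul hy).const_mul d)).fun_add
    ((hy.pow 2).const_mul e), ContinuousLinearMap.opNorm_le_bound _ (by positivity) fun v => ?_⟩
  have hu0 := QT.abs_coord u 0
  have hu1 := QT.abs_coord u 1
  have hv0 := abs_px v
  have hv1 := abs_py v
  have k : ∀ a b : ℝ, |a| ≤ ‖u‖ → |b| ≤ ‖v‖ → |a * b| ≤ ‖u‖ * ‖v‖ := fun a b ha hb => by
    rw [abs_mul]; exact mul_le_mul ha hb (abs_nonneg _) (norm_nonneg _)
  simp only [add_apply, smul_apply, smul_eq_mul, nsmul_eq_mul, Nat.add_one_sub_one, pow_one,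
    Nat.cast_ofNat, Real.norm_eq_abs]
  refine (abs_add_three _ _ _).trans ?_
  have h1 : |c * (2 * u 0 * px v)| ≤ |c| * (2 * (‖u‖ * ‖v‖)) := by
    rw [abs_mul c, mul_assoc 2, abs_mul 2, abs_two]
    gcongr
    exact k _ _ hu0 hv0
  have h2 : |d * (u 0 * py v + u 1 * px v)| ≤ |d| * (2 * (‖u‖ * ‖v‖)) := by
    rw [abs_mul d]
    gcongr
    refine (abs_add_le _ _).trans ?_
    linarith [k _ _ hu0 hv1, k _ _ hu1 hv0]
  have h3 : |e * (2 * u 1 * py v)| ≤ |e| * (2 * (‖u‖ * ‖v‖)) := by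
    rw [abs_mul e, mul_assoc 2, abs_mul 2, abs_two]
    gcongr
    exact k _ _ hu1 hv1
  linarith

/-- The second derivative of the jet map. -/
lemma QT.norm_fderiv2_jetMap (T : QT) {M α : ℝ} (hM : 1 ≤ M) (hT : T.Le M) (hα : 1 / 2 ≤ α)
    (u : R2) :
    ‖fderiv ℝ (fderiv ℝ (T.jetMap α)) u‖ ≤ 56 * M * ‖u‖ + (1 + |T.kap|) := by
  obtain ⟨a1, a2, a3, b1, b2, b3, c1, c2, c3, hk⟩ := hT
  rw [abs_le] at a1 a2 a3 b1 b2 b3 c1 c2 c3
  have hk0 := sq_nonneg T.kap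
  set c := α⁻¹ with hc
  have hc0 : 0 ≤ c := inv_nonneg.2 (by linarith)
  have hc2 : c ≤ 2 := by
    rw [hc, inv_le_comm₀ (by linarith) (by norm_num)]; linarith
  have hD : fderiv ℝ (T.jetMap α) = fun z =>
      (((((α • flatR + (c * T.Xx z) • rankMap px 0) + (c * T.Xy z) • rankMap py 0) +
        (c * T.Yx z) • rankMap px 1) + (c * T.Yy z) • rankMap py 1) +
        px z • rankMap px 2) + (T.kap * py z) • rankMap py 2 := by
    funext z
    ext v : 1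
    rw [T.fderiv_jetMap α z v]
    simp only [rankMap, flatR, add_apply, smul_apply, ContinuousLinearMap.smulRight_apply,
      smul_add, smul_smul, hc]
    simp only [px, py, EuclideanSpace.proj, PiLp.proj_apply, div_eq_mul_inv]
    module
  have hq : ∀ (p q r : ℝ), |p| ≤ 5 * M / 4 → |r| ≤ 5 * M / 4 ∧ |q| ≤ M → ∀ f : R2 → ℝ,
      (f = fun z => c * (p * z 0 ^ 2 + q * (z 0 * z 1) + r * z 1 ^ 2)) →
      ∃ L : R2 →L[ℝ] ℝ, HasFDerivAt f L u ∧ ‖L‖ ≤ 14 * M * ‖u‖ := by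
    intro p q r hp hrq f hf
    obtain ⟨L, hL, hLb⟩ := exists_deriv_quad p q r u
    refine ⟨c • L, hf ▸ hL.const_mul c, ?_⟩
    rw [norm_smul, Real.norm_of_nonneg hc0]
    have hsum : |p| + |q| + |r| ≤ 7 / 2 * M := by
      have : |q| ≤ M := hrq.2
      linarith [hrq.1]
    calc c * ‖L‖ ≤ 2 * (2 * (7 / 2 * M) * ‖u‖) := by
          refine mul_le_mul hc2 (hLb.trans ?_) (norm_nonneg _) (by norm_num)
          gcongr
      _ = 14 * M * ‖u‖ := by ring
  obtain ⟨L1, d1, n1⟩ := hq ((T.a1 - 1) / 2) (T.a2 / 2) (T.a3 / 2)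
    (by rw [abs_le]; constructor <;> linarith)
    ⟨by rw [abs_le]; constructor <;> linarith, by rw [abs_le]; constructor <;> linarith⟩
    (fun z => c * T.Xx z) rfl
  obtain ⟨L2, d2, n2⟩ := hq (T.a2 / 4) T.a3 (T.b3 - T.c2 / 4)
    (by rw [abs_le]; constructor <;> linarith)
    ⟨by rw [abs_le]; constructor <;> linarith, by rw [abs_le]; constructor <;> linarith⟩
    (fun z => c * T.Xy z) rfl
  obtain ⟨L3, d3, n3⟩ := hq (T.b1 - T.a2 / 4 - 0) T.c1 (T.c2 / 4) (by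
      have := abs_le.2 b1
      rw [abs_le]; constructor <;> linarith)
    ⟨by rw [abs_le]; constructor <;> linarith, by rw [abs_le]; constructor <;> linarith⟩
    (fun z => c * T.Yx z) (by funext z; simp [QT.Yx])
  obtain ⟨L4, d4, n4⟩ := hq (T.c1 / 2) (T.c2 / 2) ((T.c3 - T.kap ^ 2) / 2)
    (by rw [abs_le]; constructor <;> linarith)
    ⟨by rw [abs_le]; constructor <;> linarith, by rw [abs_le]; constructor <;> linarith⟩
    (fun z => c * T.Yy z) rfl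
  have h := ((((((hasFDerivAt_const (α • flatR) u).fun_add (d1.smul_const (rankMap px 0))).fun_add
    (d2.smul_const (rankMap py 0))).fun_add (d3.smul_const (rankMap px 1))).fun_add
    (d4.smul_const (rankMap py 1))).fun_add (px.hasFDerivAt.smul_const (rankMap px 2))).fun_add
    ((py.hasFDerivAt.const_mul T.kap).smul_const (rankMap py 2))
  rw [hD, h.fderiv, zero_add]
  have n5 : ∀ (L : R2 →L[ℝ] ℝ) (R : R2 →L[ℝ] R4) (B : ℝ), ‖L‖ ≤ B → ‖R‖ ≤ 1 →
      ‖L.smulRight R‖ ≤ B := fun L R B hL hR => by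
    rw [ContinuousLinearMap.norm_smulRight_apply]
    exact (mul_le_of_le_one_right (norm_nonneg _) hR).trans hL
  have e1 := n5 _ _ _ n1 (norm_rankMap_le norm_px 0)
  have e2 := n5 _ _ _ n2 (norm_rankMap_le norm_py 0)
  have e3 := n5 _ _ _ n3 (norm_rankMap_le norm_px 1)
  have e4 := n5 _ _ _ n4 (norm_rankMap_le norm_py 1)
  have e5 := n5 px _ 1 norm_px (norm_rankMap_le norm_px 2)
  have e6 := n5 (T.kap • py) _ |T.kap| (by
    rw [norm_smul, Real.norm_eq_abs]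
    exact mul_le_of_le_one_right (abs_nonneg _) norm_py) (norm_rankMap_le norm_py 2)
  refine norm_add_le_of_le (norm_add_le_of_le (norm_add_le_of_le (norm_add_le_of_le
    (norm_add_le_of_le e1 e2) e3) e4) e5) e6 |>.trans ?_
  linarith

/-- **The second derivative of the base map near the origin.** -/
theorem exists_baseMap_second (μ : ℝ) {s₁ : ℝ} (hs₁ : 1 ≤ s₁) :
    ∃ C : ℝ, 0 ≤ C ∧ ∀ (T : QT) (M α ρ : ℝ), 1 ≤ M → T.Le M → 1 / 2 ≤ α → α ≤ 1 → 0 < ρ →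
      M * ρ ^ 2 + (1 + |T.kap|) * ρ ≤ 1 → ∀ u : R2, ‖u‖ ≤ ρ / 4 →
        ‖fderiv ℝ (fderiv ℝ (baseMap T α μ s₁ ρ)) u‖ ≤
          56 * M * ‖u‖ + (1 + |T.kap|) + C * (‖u‖ ^ 3 / ρ ^ 4) := by
  obtain ⟨hsm, C, hC, hb⟩ := van_quartN.bilin (van_sK μ) (ContinuousLinearMap.lsmul ℝ ℝ)
  refine ⟨C, hC, fun T M α ρ hM hT hα hα1 hρ hsmall u hu => ?_⟩
  set i : JInd := ⟨jpar T α ρ, norm_jpar_le hM hT hα hα1 hρ hsmall⟩ with hi
  set f : R2 → R4 := fun x => quartN x • sK μ i x with hf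
  have hfs : ContDiff ℝ ∞ f := hsm i
  have hgs : ContDiff ℝ ∞ fun z => ρ • f (ρ⁻¹ • z) :=
    (hfs.comp (contDiff_id.const_smul ρ⁻¹)).const_smul ρ
  have hx : ‖ρ⁻¹ • u‖ ≤ 1 / 4 := by rw [norm_scaled hρ, div_le_iff₀ hρ]; linarith
  have hev : baseMap T α μ s₁ ρ =ᶠ[𝓝 u] fun z => T.jetMap α z + ρ • f (ρ⁻¹ • z) := by
    filter_upwards [(isOpen_lt continuous_norm continuous_const).mem_nhds
      (show ‖u‖ < ρ / 2 by linarith)] with z hz
    have hz' : ‖ρ⁻¹ • z‖ ≤ 1 := by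
      have : ‖z‖ < ρ / 2 := hz
      rw [norm_scaled hρ, div_le_iff₀ hρ]; linarith
    rw [baseMap_scale T hρ.ne', show jpar T α ρ = i.1 from rfl, sMap_inner hs₁ i hz', smul_add,
      show i.1 = jpar T α ρ from rfl, ← baseJet_scale T hρ.ne', baseJet_inner hρ (le_of_lt hz)]
  have hsum := (hev.iteratedFDeriv ℝ 2).eq_of_nhds
  have h2 : ((2 : ℕ) : WithTop ℕ∞) ≤ ∞ := WithTop.coe_le_coe.2 le_top
  rw [fun_iteratedFDeriv_add_apply ((T.contDiff_jetMap α).contDiffAt.of_le h2)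
    (hgs.contDiffAt.of_le h2)] at hsum
  rw [← norm_iteratedFDeriv_one, norm_iteratedFDeriv_fderiv, hsum]
  refine (norm_add_le _ _).trans (add_le_add ?_ ?_)
  · rw [← norm_iteratedFDeriv_fderiv, norm_iteratedFDeriv_one]
    exact T.norm_fderiv2_jetMap hM hT hα u
  · rw [norm_iteratedFDeriv_scale hfs ρ ρ hρ 2 u, abs_of_pos hρ]
    refine (mul_le_mul_of_nonneg_left (hb i _ hx 2 le_rfl) (by positivity)).trans (le_of_eq ?_)
    rw [norm_scaled hρ]
    simp only [Nat.reduceAdd, Nat.reduceSub, div_pow]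
    field_simp

end Vale.Agent.P205.Full.Start
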