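import Vale.Agent.P205.Full.Start.BaseChartCore
import Vale.Agent.P205.Full.Start.BaseBounds
import Vale.Agent.P205.Full.Start.BaseSecond

/-!
# Module START, A4: proof of `BaseChartProp`
-/

open Real Set Filter Topology
open scoped RealInnerProductSpace ContDiff

noncomputable section

namespace Vale.Agent.P205.Full.Start

set_option maxSynthPendingDepth 3

lemma contDiff_gain {T : QT} {α μ s₁ ρ : ℝ} (v w : R2) :
    ContDiff ℝ ∞ fun y => gain T α μ s₁ ρ y v w := by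
  have h : ∀ {P : R2 → R4}, ContDiff ℝ ∞ P → ∀ x : R2, ContDiff ℝ ∞ fun y => fderiv ℝ P y x :=
    fun hP x => (hP.fderiv_right (m := ∞) (by simp)).clm_apply contDiff_const
  exact ((h contDiff_baseJet v).inner ℝ (h contDiff_baseJet w)).sub
    ((h contDiff_baseMap v).inner ℝ (h contDiff_baseMap w))

lemma norm_toR3 : ‖toR3‖ ≤ 1 :=
  ContinuousLinearMap.opNorm_le_bound _ zero_le_one fun x => by
    rw [one_mul]; exact norm_toR3_le x

/-- **A4.** The base map in adapted coordinates. -/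
theorem baseChart : BaseChartProp := by
  intro g2 r₀ hr₀ hg hsymm h0 h1 eA eB μ hA hB hμ0 hμ2
  have hμ1 : μ < 1 := by linarith
  obtain ⟨Q, Cr, hCr, hQ⟩ := exists_QT hr₀ hg hsymm h0 h1
  obtain ⟨s₁, rad₀, hs₁, hrad₀, hbasic⟩ := exists_chart_basic g2 Q hCr (half_pos hr₀)
    (fun z v w hz => (hQ z hz v w).1) hμ0 hμ1
  obtain ⟨K, hK, hpar⟩ := exists_chart_params Q
  choose Cb hCb hbd using fun j => exists_baseMap_bound μ hs₁ j
  obtain ⟨Cg, hCg, hgain⟩ := exists_gain_bound μ hs₁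
  obtain ⟨C2, hC2, hsec⟩ := exists_baseMap_second μ hs₁
  refine ⟨rad₀, hrad₀, fun rad hrad hradle => ?_⟩
  obtain ⟨C₀, η₀, hC₀, hη₀, hη₀4, hfields⟩ := hbasic rad hrad hradle
  refine ⟨9, C₀ + (Cg + 8192 * K ^ 2 + 16 * Cr + 160 * Q.total) + (57 * K + 1 + C2),
    fun j => 2 * Cb j, min η₀ (min (1 / (3 * K)) (r₀ / 2)), ?_, by positivity,
    (min_le_left _ _).trans (hη₀4.trans (by norm_num)), fun η hη hηle => ?_⟩
  · have := Q.total_nonneg
    positivity
  set C₁ := Cg + 8192 * K ^ 2 + 16 * Cr + 160 * Q.total with hC₁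
  have hq := Q.total_nonneg
  have hC₁0 : 0 ≤ C₁ := by positivity
  have hC2K : 0 ≤ (57 * K + 1 + C2) := by positivity
  have hη4 : η ≤ 1 / 4 := hηle.trans ((min_le_left _ _).trans hη₀4)
  have hη1 : η ≤ 1 := by linarith
  have hηK : η * (3 * K) ≤ 1 :=
    (le_div_iff₀ (by positivity)).1 (hηle.trans ((min_le_right _ _).trans (min_le_left _ _)))
  have hηr : η ≤ r₀ / 2 := hηle.trans ((min_le_right _ _).trans (min_le_right _ _))
  obtain ⟨hT, hkap, hM, hsz⟩ := hpar eA eB η hA hB hη hη1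
  have hη2 : η ^ 2 ≤ η := pow_le_of_le_one hη.le hη1 (by norm_num)
  have hsmall := hsz.trans ((mul_le_mul_of_nonneg_left hη2 (by linarith : 0 ≤ 3 * K)).trans
    (by linarith : 3 * K * η ≤ 1))
  obtain ⟨fout, fdF, fimm, fres, flo, fup⟩ :=
    hfields eA eB η hA hB hη (hηle.trans (min_le_left _ _))
  have hnear : ∀ {z : R2}, ‖z‖ ≤ η ^ 30 → ‖z‖ ≤ η ^ 9 / 4 := fun {z} hz => by
    calc ‖z‖ ≤ η ^ 30 := hz
      _ ≤ η ^ 10 := pow_le_pow_of_le_one hη.le hη1 (by norm_num)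
      _ = η * η ^ 9 := by ring
      _ ≤ 1 / 4 * η ^ 9 := mul_le_mul_of_nonneg_right hη4 (by positivity)
      _ = η ^ 9 / 4 := by ring
  have hmet : ∀ {z v w : R2}, ‖z‖ ≤ η ^ 30 → D2le (metricRem g2 Q v w) z
      (Cr * ‖z‖ ^ 3 * (‖v‖ * ‖w‖)) (Cr * ‖z‖ ^ 2 * (‖v‖ * ‖w‖)) (Cr * ‖z‖ * (‖v‖ * ‖w‖)) :=
    fun {z v w} hz => by
      have hzr : ‖z‖ ≤ r₀ / 2 := (hz.trans (pow_le_of_le_one hη.le hη1 (by norm_num))).trans hηr
      obtain ⟨b0, b1, b2⟩ := hQ z hzr v w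
      refine ⟨?_, b0, b1, b2⟩
      have hmem : z ∈ Metric.ball (0 : R2) r₀ := by simp; linarith
      exact (((((hg.contDiffAt (Metric.isOpen_ball.mem_nhds hmem)).of_le
        (WithTop.coe_le_coe.2 le_top)).clm_apply contDiffAt_const).clm_apply
          contDiffAt_const).sub contDiffAt_const).sub (Q.d2le_eval v w z).smooth
  have hga : ∀ {z v w : R2}, ‖z‖ ≤ η ^ 30 →
      D2le (fun y => gain (chartQT Q eA eB η) 1 μ s₁ (η ^ 9) y v w) z
        |gain (chartQT Q eA eB η) 1 μ s₁ (η ^ 9) z v w|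
        (Cg * ‖z‖ ^ 3 / (η ^ 9) ^ 4 * (‖v‖ * ‖w‖))
        (Cg * ‖z‖ ^ 2 / (η ^ 9) ^ 4 * (‖v‖ * ‖w‖)) := fun {z v w} hz => by
    obtain ⟨g1, g2'⟩ := hgain _ _ 1 _ hM hT (by norm_num) le_rfl (pow_pos hη 9) hsmall z v w
      (hnear hz)
    refine ⟨(contDiff_gain v w).contDiffAt.of_le (WithTop.coe_le_coe.2 le_top), le_rfl, ?_, ?_⟩
    · rw [mul_div_assoc]; exact g1
    · rw [mul_div_assoc]; exact g2'
  have fchartRes_nonneg : ∀ z v, η ^ 30 / 16 ≤ ‖z‖ → ‖z‖ ≤ rad * η ^ 8 →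
      0 ≤ chartRes g2 eA eB η (chartF Q eA eB μ s₁ η) z v v := fun z v hlo hhi =>
    nonneg_of_mul_nonneg_right ((mul_nonneg (le_min (by positivity) zero_le_one)
      (sq_nonneg ‖v‖)).trans (flo z v hlo hhi)) hC₀
  refine ⟨chartF Q eA eB μ s₁ η, chartF_smooth, chartF_zero, fout, fun j z hz => ?_,
    fun z v => (fdF z v).trans ?_, fun z v => (fimm z v).trans ?_,
    fun z v w hz => (fres z v w hz).trans ?_, fun z v w hz => ?_, fun z v w hz => ?_,
    fun z hz => ?_, fun z v hlo hhi => (flo z v hlo hhi).trans ?_,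
    fun z v w hlo hhi => (fup z v w hlo hhi).trans ?_⟩
  · refine (toR3.norm_iteratedFDeriv_comp_left (N := (∞ : WithTop ℕ∞))
      contDiff_baseMap.contDiffAt (by exact_mod_cast le_top)).trans ?_
    have h := hbd j _ _ 1 _ hM hT (by norm_num) le_rfl (pow_pos hη 9) hsmall z
    refine (mul_le_of_le_one_left (norm_nonneg _) norm_toR3).trans (h.trans ?_)
    calc Cb j * ((η ^ 9)⁻¹) ^ j * (1 + ‖z‖) ≤ Cb j * ((η ^ 9)⁻¹) ^ j * 2 :=
          mul_le_mul_of_nonneg_left (by linarith) (mul_nonneg (hCb j) (by positivity))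
      _ = 2 * Cb j * η⁻¹ ^ (9 * j) := by rw [inv_pow, inv_pow, ← pow_mul]; ring
      _ ≤ 2 * Cb j * η⁻¹ ^ (9 * (j + 1)) := mul_le_mul_of_nonneg_left
          (pow_le_pow_right₀ (one_le_inv₀ hη |>.2 hη1) (by linarith)) (by linarith [hCb j])
  · exact mul_le_mul_of_nonneg_right (by linarith) (norm_nonneg _)
  · exact mul_le_mul_of_nonneg_right (by linarith) (norm_nonneg _)
  · exact mul_le_mul_of_nonneg_right (mul_le_mul_of_nonneg_right
      (mul_le_mul_of_nonneg_right (by linarith) (by positivity)) (by positivity)) (by positivity)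
  · refine ((chart_core_deriv hCr hCg hT hM hη hη4 hz (hmet hz) (hga hz)).1).trans ?_
    exact mul_le_mul_of_nonneg_right (mul_le_mul_of_nonneg_right
      (mul_le_mul_of_nonneg_right (by linarith) (by positivity)) (norm_nonneg _)) (by positivity)
  · refine ((chart_core_deriv hCr hCg hT hM hη hη4 hz (hmet hz) (hga hz)).2).trans ?_
    exact mul_le_mul_of_nonneg_right (by linarith) (by positivity)
  · have hz9 : ‖z‖ ≤ η ^ 9 / 4 := hnear hz
    have hh := hsec (chartQT Q eA eB η) _ 1 _ hM hT (by norm_num) le_rfl (pow_pos hη 9) hsmall z hz9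
    rw [← norm_iteratedFDeriv_one, norm_iteratedFDeriv_fderiv]
    rw [← norm_iteratedFDeriv_one, norm_iteratedFDeriv_fderiv] at hh
    refine (toR3.norm_iteratedFDeriv_comp_left (N := (∞ : WithTop ℕ∞))
      contDiff_baseMap.contDiffAt (WithTop.coe_le_coe.2 le_top)).trans ?_
    refine (mul_le_of_le_one_left (norm_nonneg _) norm_toR3).trans (hh.trans ?_)
    have e1 : K * η⁻¹ ^ 16 * ‖z‖ ≤ K := by
      calc K * η⁻¹ ^ 16 * ‖z‖ ≤ K * η⁻¹ ^ 16 * η ^ 30 := by gcongr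
        _ = K * η ^ 14 := by field_simp
        _ ≤ K := mul_le_of_le_one_right (by linarith) (pow_le_one₀ hη.le hη1)
    have e2 : ‖z‖ ^ 3 / (η ^ 9) ^ 4 ≤ 1 := by
      rw [div_le_iff₀ (by positivity), one_mul]
      calc ‖z‖ ^ 3 ≤ (η ^ 30) ^ 3 := by gcongr
        _ ≤ (η ^ 9) ^ 4 := by
            rw [← pow_mul, ← pow_mul]; exact pow_le_pow_of_le_one hη.le hη1 (by norm_num)
    linarith [mul_le_mul_of_nonneg_left e2 hC2]
  · exact mul_le_mul_of_nonneg_right (by linarith) (fchartRes_nonneg z v hlo hhi)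
  · exact mul_le_mul_of_nonneg_right (mul_le_mul_of_nonneg_right (by linarith)
      (le_min (by positivity) zero_le_one)) (by positivity)

end Vale.Agent.P205.Full.Start
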