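import Vale.Agent.P205.Full.Start.Data

/-!
# P205 full, START A5: interface of the twists (helper94)

Finitely many Nash spirals add `χ² R` to the pull-back metric up to any power of `η`, changing
nothing off the support of `χ`. All bounds are monomials in `η`.
-/

open scoped Manifold ContDiff RealInnerProductSpace Topology
open Bundle

namespace Vale.Agent.P205.Full.Start

section

variable {M : Type} [TopologicalSpace M] [ChartedSpace R2 M] [IsManifold (𝓡 2) ∞ M]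
variable {N : ℕ}

/-- Input of the twists: the tensor `R` is pinched on the support of `χ`. -/
structure TwistIn (g : Metric M) (G : M → R3) (V : Frame M N) (η : ℝ) (a c : ℕ) (C₀ : ℝ)
    (C : ℕ → ℝ) (F : M → R4) (nd : NormalData G F) (χ : M → ℝ)
    (R : Fin N → Fin N → M → ℝ) : Prop where
  smooth_F : ContMDiff (𝓡 2) 𝓘(ℝ, R4) ∞ F
  smooth_χ : ContMDiff (𝓡 2) 𝓘(ℝ, ℝ) ∞ χ
  smooth_R : ∀ i k, ContMDiff (𝓡 2) 𝓘(ℝ, ℝ) ∞ (R i k)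
  poly_F : PolyBd V η a C F
  poly_n1 : PolyBd V η a C nd.n1
  poly_O : PolyBd V η a C nd.O
  poly_χ : PolyBd V η a C χ
  poly_R : ∀ i k, PolyBd V η a C (R i k)
  symm_R : ∀ i k x, R i k x = R k i x
  bd_χ : ∀ x, |χ x| ≤ C₀
  bd_dF : ∀ i x, ‖D V i F x‖ ≤ C₀
  lower_F : ∀ x (v : TangentSpace (𝓡 2) x),
    g.inner x v v ≤ C₀ * ‖(mfderiv (𝓡 2) 𝓘(ℝ, R4) F x v : R4)‖ ^ 2
  pinch : ∀ x ∈ tsupport χ, ∃ t : ℝ, η ^ c ≤ t ∧ t ≤ C₀ ∧ ∀ y : Fin N → ℝ,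
    t / C₀ * (∑ i, ∑ k, y i * y k * gV g V i k x) ≤ ∑ i, ∑ k, y i * y k * R i k x ∧
      ∑ i, ∑ k, y i * y k * R i k x ≤ C₀ * t * ∑ i, ∑ k, y i * y k * gV g V i k x

/-- Output of the twists. -/
structure TwistOut (g : Metric M) (G : M → R3) (V : Frame M N) (η : ℝ) (a b : ℕ) (C₀ : ℝ)
    (C : ℕ → ℝ) (F : M → R4) (nd : NormalData G F) (χ : M → ℝ)
    (R : Fin N → Fin N → M → ℝ) (F₁ : M → R4) (nd₁ : NormalData G F₁) : Prop where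
  smooth_F : ContMDiff (𝓡 2) 𝓘(ℝ, R4) ∞ F₁
  inj : ∀ x, Function.Injective (mfderiv (𝓡 2) 𝓘(ℝ, R4) F₁ x)
  poly_F : PolyBd V η a C F₁
  poly_n1 : PolyBd V η a C nd₁.n1
  poly_O : PolyBd V η a C nd₁.O
  bd_dF : ∀ i x, ‖D V i F₁ x‖ ≤ C₀
  lower_F : ∀ x (v : TangentSpace (𝓡 2) x),
    g.inner x v v ≤ C₀ * ‖(mfderiv (𝓡 2) 𝓘(ℝ, R4) F₁ x v : R4)‖ ^ 2
  close : ∀ x, ‖F₁ x - F x‖ ≤ η
  res : ∀ i k x, |pullV F₁ V i k x - pullV F V i k x - χ x ^ 2 * R i k x| ≤ η ^ b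
  off : ∀ x ∉ tsupport χ, F₁ =ᶠ[𝓝 x] F ∧ nd₁.n1 x = nd.n1 x ∧ nd₁.O x = nd.O x

end

/-- What A5 proves. -/
def TwistProp : Prop :=
  ∀ (M : Type) [TopologicalSpace M] [T2Space M] [CompactSpace M] [ChartedSpace R2 M]
    [IsManifold (𝓡 2) ∞ M] (g : Metric M) (N : ℕ) (V : Frame M N), FrameSmooth V → FrameSpans V →
    ∀ G : M → R3, IsImm3 G → ∀ (a c b : ℕ) (C₀ : ℝ) (C : ℕ → ℝ),
    ∃ (a₁ : ℕ) (C₀₁ : ℝ) (C₁ : ℕ → ℝ) (η₀ : ℝ), 0 < η₀ ∧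
      ∀ η : ℝ, 0 < η → η ≤ η₀ → ∀ (F : M → R4) (nd : NormalData G F) (χ : M → ℝ)
        (R : Fin N → Fin N → M → ℝ), TwistIn g G V η a c C₀ C F nd χ R →
        ∃ (F₁ : M → R4) (nd₁ : NormalData G F₁), TwistOut g G V η a₁ b C₀₁ C₁ F nd χ R F₁ nd₁

end Vale.Agent.P205.Full.Start
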