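import Vale.Agent.P205.Full.Start.AssembleBase
import Vale.Agent.P205.Full.Start.AssembleInput
import Vale.Agent.P205.Full.Start.AssembleSlack
import Vale.Agent.P205.Full.Start.AssembleTwist
import Vale.Agent.P205.Full.Start.BaseChart
import Vale.Agent.P205.Full.Start.TwistDefs

/-!
# P205 full, START: the pieces joining the charts, the twists and the base data

Local maps with common constants exist; the section has bounded differential; the residual is
below the slack at the cores and stays so after the twists.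
-/

open scoped Manifold ContDiff RealInnerProductSpace Topology
open Bundle Filter Set Metric

noncomputable section

namespace Vale.Agent.P205.Full.Start

section

variable {M : Type} [TopologicalSpace M] [ChartedSpace R2 M] [IsManifold (𝓡 2) ∞ M]
variable {g : Full.Metric M} {G : M → R3} {N : ℕ} {V : Frame M N}

lemma baseRes_symm (F : M → R4) (S : M → R3) (sq : M → ℝ) (i k : Fin N) (x : M) :
    baseRes g G V F S sq i k x = baseRes g G V F S sq k i x := by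
  simp only [baseRes, dSecSq, pullV, gV]
  rw [g.symm x (V i x) (V k x), real_inner_comm (dSec G V S i x), real_inner_comm (D V i F x)]

/-- The core conditions only depend on the germ of the base data. -/
lemma InCore.congr_nhds {F F₁ : M → R4} {nd : NormalData G F} {nd₁ : NormalData G F₁}
    {S : M → R3} {sq : M → ℝ} {η C₀ : ℝ} {x : M} (h : InCore g G V F nd S sq η C₀ x)
    (hF : F₁ =ᶠ[𝓝 x] F) (hn : nd₁.n1 =ᶠ[𝓝 x] nd.n1) (hO : nd₁.O =ᶠ[𝓝 x] nd.O) :
    InCore g G V F₁ nd₁ S sq η C₀ x := by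
  have hR : ∀ i k, baseRes g G V F₁ S sq i k =ᶠ[𝓝 x] baseRes g G V F S sq i k := fun i k => by
    filter_upwards [D_congr_eventually (V := V) (i := i) hF,
      D_congr_eventually (V := V) (i := k) hF] with y h1 h2
    simp only [baseRes, pullV, h1, h2]
  refine ⟨fun i k => ?_, fun i => ?_, fun i => ?_, fun i j k => ?_, fun i j l k => ?_, h.hess⟩
  · rw [D_congr (D_congr_eventually hF)]; exact h.ddF i k
  · rw [D_congr hn]; exact h.dn1 i
  · rw [D_congr hO]; exact h.dO i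
  · rw [D_congr (hR i k)]; exact h.dres i j k
  · rw [D_congr (D_congr_eventually (hR i k))]; exact h.ddres i j l k

end

namespace Setup

variable {M : Type} [TopologicalSpace M] [ChartedSpace R2 M] [IsManifold (𝓡 2) ∞ M]
variable {g : Full.Metric M} (σ : Setup g) {N : ℕ} {V : Frame M N}

/-- Local maps with common constants. -/
theorem exists_charts {κ : ℝ} (hκ : 0 < κ) :
    ∃ (rad : ℝ) (a : ℕ) (C₀ : ℝ) (C : ℕ → ℝ) (η₀ : ℝ), 0 < rad ∧ (∀ q, rad < σ.rd q / 4) ∧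
      rad < κ ∧ 0 < η₀ ∧ η₀ ≤ 1 ∧
      (∀ η, 0 < η → η ≤ η₀ → ∀ q, rad * η ^ 8 < σ.rd' q) ∧
      ∀ η, 0 < η → η ≤ η₀ → ∃ Fl, σ.Charts Fl rad η a C₀ C := by
  choose rad₀ hrad₀ hmk using fun q => baseChart (σ.g2 q) (σ.pt q).R (σ.pt q).R_pos
    (σ.g2_hyps q).1 (σ.g2_hyps q).2.1 (σ.g2_hyps q).2.2.1 (σ.g2_hyps q).2.2.2 (σ.eA q) (σ.eB q)
    (σ.pt q).μ (σ.abs_eA q) (σ.abs_eB q) (σ.pt q).μ_pos (σ.mu_le q)
  have h0 : ∀ q, 0 ≤ (rad₀ q)⁻¹ + 8 / σ.rd q := fun q =>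
    add_nonneg (inv_pos.2 (hrad₀ q)).le (div_pos (by norm_num) (σ.rd_pos q)).le
  set s := 2 / κ + (1 + ∑ q, ((rad₀ q)⁻¹ + 8 / σ.rd q)) with hs
  have hsq : ∀ q, (rad₀ q)⁻¹ + 8 / σ.rd q ≤ s := fun q =>
    (Finset.single_le_sum (fun p _ => h0 p) (Finset.mem_univ q)).trans
      (by linarith [div_pos two_pos hκ])
  have hsk : 2 / κ ≤ s := le_add_of_nonneg_right
    (add_nonneg zero_le_one (Finset.sum_nonneg fun q _ => h0 q))
  have hs0 : 0 < s := lt_of_lt_of_le (div_pos two_pos hκ) hsk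
  have hle : ∀ q, s⁻¹ ≤ rad₀ q := fun q => inv_le_of_inv_le₀ (hrad₀ q)
    ((le_add_of_nonneg_right (div_pos (by norm_num) (σ.rd_pos q)).le).trans (hsq q))
  choose a C₀ C η₀ hC₀ hη₀ hη₀1 hex using fun q => hmk q s⁻¹ (inv_pos.2 hs0) (hle q)
  have hi : ∀ q, 0 ≤ (η₀ q)⁻¹ := fun q => (inv_pos.2 (hη₀ q)).le
  set t := 1 + ∑ q, (η₀ q)⁻¹
  have ht1 : 1 ≤ t := le_add_of_nonneg_right (Finset.sum_nonneg fun q _ => hi q)
  have hr4 : ∀ q, s⁻¹ < σ.rd q / 4 := fun q => by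
    have h8 : 8 / σ.rd q ≤ s :=
      (le_add_of_nonneg_left (inv_pos.2 (hrad₀ q)).le).trans (hsq q)
    have : s⁻¹ ≤ σ.rd q / 8 := inv_le_of_inv_le₀ (by linarith [σ.rd_pos q]) (by rwa [inv_div])
    linarith [σ.rd_pos q]
  refine ⟨s⁻¹, ∑ q, a q, 1 + ∑ q, C₀ q, fun j => ∑ q, |C q j|, t⁻¹, inv_pos.2 hs0, hr4, ?_,
    inv_pos.2 (by linarith), inv_le_one_of_one_le₀ ht1, fun η hη hηle q => ?_, fun η hη hηle => ?_⟩
  · have : s⁻¹ ≤ κ / 2 := inv_le_of_inv_le₀ (by linarith) (by rwa [inv_div])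
    linarith
  · refine lt_of_le_of_lt (mul_le_of_le_one_right (inv_pos.2 hs0).le
      (pow_le_one₀ hη.le (hηle.trans (inv_le_one_of_one_le₀ ht1)))) ?_
    rw [rd']
    linarith [hr4 q, σ.rd_pos q]
  · have hq : ∀ q, η ≤ η₀ q := fun q => hηle.trans (inv_le_of_inv_le₀ (hη₀ q)
      ((Finset.single_le_sum (fun p _ => hi p) (Finset.mem_univ q)).trans
        (le_add_of_nonneg_left zero_le_one)))
    choose Fl hFl using fun q => hex q η hη (hq q)
    refine ⟨Fl, fun q => (hFl q).mono hη ((hq q).trans (hη₀1 q))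
      (Finset.single_le_sum (fun p _ => Nat.zero_le (a p)) (Finset.mem_univ q)) (hC₀ q)
      ((Finset.single_le_sum (fun p _ => (hC₀ p).le) (Finset.mem_univ q)).trans
        (le_add_of_nonneg_left zero_le_one))
      fun j => Finset.single_le_sum (fun p _ => abs_nonneg (C p j)) (Finset.mem_univ q)⟩

/-- The differential of the modified section is bounded. -/
lemma exists_dSec_bound [CompactSpace M] [T2Space M] (hV : FrameSmooth V) (hs : FrameSpans V) :
    ∃ C : ℝ, ∀ (κ η Cm : ℝ) (am : ℕ) (Cp : ℕ → ℝ) (S' : M → R3),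
      ModData g σ.G σ.S V σ.Z σ.P κ (1 / 4) η am Cm Cp S' →
      ∀ i x, ‖dSec σ.G V S' i x‖ ≤ C := by
  obtain ⟨C, hC, -, -, -, hb⟩ := exists_metric_bounds g hV hs
  refine ⟨C, fun κ η Cm am Cp S' hm i x => ?_⟩
  have h0 : 0 ≤ g.inner x (V i x) (V i x) := by
    rcases eq_or_ne (V i x) 0 with h | h
    · simp [h]
    · exact (g.pos x _ h).le
  have h1 : g.inner x (V i x) (V i x) ≤ C := (le_abs_self _).trans (hb i i x)
  have hsq : Real.sqrt (g.inner x (V i x) (V i x)) ≤ C :=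
    (Real.sqrt_le_sqrt (h1.trans (by nlinarith : C ≤ C ^ 2))).trans
      (le_of_eq (Real.sqrt_sq (by linarith)))
  have hn0 : ‖nLine σ.G x (mfderiv (𝓡 2) 𝓘(ℝ, R3) σ.S x (V i x) : R3)‖ ≤
      1 / 4 * Real.sqrt (g.inner x (V i x) (V i x)) := by
    refine (pow_le_pow_iff_left₀ (norm_nonneg _) (by positivity) two_ne_zero).1 ?_
    rw [mul_pow, Real.sq_sqrt h0]
    exact (σ.shortS x (V i x)).trans (le_of_eq (by norm_num))
  have := hm.small x (V i x)
  calc ‖dSec σ.G V S' i x‖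
      = ‖nLine σ.G x (mfderiv (𝓡 2) 𝓘(ℝ, R3) S' x (V i x) : R3)‖ := rfl
    _ ≤ C := by linarith

variable [T2Space M]

/-- At the cores the residual is `η` times the slack. -/
theorem exists_core_res (hV : FrameSmooth V) (hs : FrameSpans V) (κ ε Cm : ℝ) (hκ : 0 < κ)
    (am : ℕ) (Cp : ℕ → ℝ) (a : ℕ) (C₀ : ℝ) (C : ℕ → ℝ) :
    ∃ C' η₁ : ℝ, 0 < η₁ ∧ ∀ η, 0 < η → η ≤ η₁ → ∀ rad Fl S',
      σ.Loc Fl (rad * η ^ 8) → σ.Charts Fl rad η a C₀ C →
      ModData g σ.G σ.S V σ.Z σ.P κ ε η am Cm Cp S' →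
      ∀ i k q z, ‖z‖ ≤ η ^ 30 / 2 →
        |baseRes g σ.G V (σ.mapF Fl) S' (σ.slack η) i k (σ.U q z)| ≤
          C' * η * σ.slack η (σ.U q z) := by
  choose c hc1 hc using fun q => exists_cvf_bounds (σ.smooth_U q) (σ.pt q).smooth_symm hV hs
    (isCompact_closedBall (0 : R2) (σ.rd q)) (σ.ball_source q)
  have hcq : ∀ q, 0 ≤ c q := fun q => zero_le_one.trans (hc1 q)
  have hi : ∀ q, 0 ≤ 4 / σ.rd q := fun q => (div_pos (by norm_num) (σ.rd_pos q)).le
  set b := ∑ q, c q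
  set s := 1 + κ⁻¹ + ∑ q, 4 / σ.rd q
  have hs1 : 1 ≤ s := by
    have : 0 ≤ ∑ q, 4 / σ.rd q := Finset.sum_nonneg fun q _ => hi q
    linarith [inv_pos.2 hκ]
  refine ⟨|C₀| * (b * b), s⁻¹, inv_pos.2 (by linarith),
    fun η hη hle rad Fl S' hl hch hm i k q z hz => ?_⟩
  have hη1 : η ≤ 1 := hle.trans (inv_le_one_of_one_le₀ hs1)
  have hηκ : η ≤ κ := hle.trans (inv_le_of_inv_le₀ hκ
    (by linarith [Finset.sum_nonneg fun q (_ : q ∈ Finset.univ) => hi q]))
  have hηr : η ≤ σ.rd q / 4 := hle.trans (inv_le_of_inv_le₀ (by linarith [σ.rd_pos q])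
    (by rw [inv_div]; linarith [Finset.single_le_sum (fun p _ => hi p) (Finset.mem_univ q),
      inv_pos.2 hκ]))
  have h30 : η ^ 30 ≤ η := pow_le_of_le_one hη.le hη1 (by norm_num)
  have hz4 : ‖z‖ < σ.rd q / 4 := by linarith [pow_pos hη 30]
  have hzk : ‖z‖ < κ * η ^ 8 := by
    have h22 : η ^ 22 ≤ κ := (pow_le_of_le_one hη.le hη1 (by norm_num)).trans hηκ
    have := mul_le_mul_of_nonneg_right h22 (pow_nonneg hη.le 8)
    rw [← pow_add, show (22 : ℕ) + 8 = 30 from rfl] at this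
    linarith [pow_pos hη 30]
  have hzr : ‖z‖ ≤ σ.rd q := by linarith [σ.rd_pos q]
  have hbq : ∀ j, ‖cvf V (σ.U q) j z‖ ≤ b := fun j =>
    ((hc q z (mem_closedBall_zero_iff.2 hzr)).1 j).trans
      (Finset.single_le_sum (fun p _ => hcq p) (Finset.mem_univ q))
  rw [res_param hl hm q hz4 hzk i k, slack_val η q hz4.le]
  refine ((hch q).core_res z _ _ (by linarith [pow_pos hη 30])).trans ?_
  have hb2 : ‖cvf V (σ.U q) i z‖ * ‖cvf V (σ.U q) k z‖ ≤ b * b :=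
    mul_le_mul (hbq i) (hbq k) (norm_nonneg _) ((norm_nonneg _).trans (hbq i))
  calc C₀ * η ^ 23 * ‖z‖ ^ 2 * (‖cvf V (σ.U q) i z‖ * ‖cvf V (σ.U q) k z‖)
      ≤ |C₀| * η ^ 23 * ‖z‖ ^ 2 * (b * b) := by
        gcongr
        · exact le_abs_self _
    _ = _ := by ring

variable {η : ℝ}

omit [T2Space M] in
/-- Points of the core discs are off the support of the cutoff. -/
lemma notMem_tsupport_chi (hη : 0 < η) (hsm : ∀ q, η ^ 30 / 2 ≤ σ.rd' q) {x : M}
    (hx : ¬ ∀ q z, ‖z‖ ≤ σ.rd q → σ.U q z = x → η ^ 30 / 4 ≤ ‖z‖) :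
    x ∉ tsupport (σ.chi η) := fun h => hx (σ.tsupport_chi hη hsm h)

omit [T2Space M] in
/-- The core conditions survive the twists. -/
lemma inCore_twist (hη : 0 < η) (hsm : ∀ q, η ^ 30 / 2 ≤ σ.rd' q) {a b : ℕ} {C₀ C₀' : ℝ}
    {C : ℕ → ℝ} {F F₁ : M → R4} {nd : NormalData σ.G F} {nd₁ : NormalData σ.G F₁}
    {R : Fin N → Fin N → M → ℝ} {S' : M → R3} {sq : M → ℝ}
    (hT : TwistOut g σ.G V η a b C₀ C F nd (σ.chi η) R F₁ nd₁) {x : M}
    (hx : ¬ ∀ q z, ‖z‖ ≤ σ.rd q → σ.U q z = x → η ^ 30 / 4 ≤ ‖z‖)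
    (h : InCore g σ.G V F nd S' sq η C₀' x) : InCore g σ.G V F₁ nd₁ S' sq η C₀' x := by
  have hn := (isClosed_tsupport (σ.chi η)).isOpen_compl.mem_nhds
    (σ.notMem_tsupport_chi hη hsm hx)
  exact h.congr_nhds (hT.off x (mem_of_mem_nhds hn :)).1
    (eventuallyEq_of_mem hn fun y hy => (hT.off y hy).2.1)
    (eventuallyEq_of_mem hn fun y hy => (hT.off y hy).2.2)

omit [T2Space M] in
/-- The residual after the twists is `η` times the slack. -/
lemma res_twist_le (hη : 0 < η) (hη1 : η ≤ 1) (hsm : ∀ q, η ^ 30 / 2 ≤ σ.rd' q) {a b : ℕ}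
    (hb : 86 ≤ b) {C₀ C₀' : ℝ} {C : ℕ → ℝ} {F F₁ : M → R4} {nd : NormalData σ.G F}
    {nd₁ : NormalData σ.G F₁} {S' : M → R3} {sq : M → ℝ} (hsq : ∀ x, 0 ≤ sq x)
    (hT : TwistOut g σ.G V η a b C₀ C F nd (σ.chi η) (baseRes g σ.G V F S' sq) F₁ nd₁)
    (hcore : ∀ i k q z, ‖z‖ ≤ η ^ 30 / 2 →
      |baseRes g σ.G V F S' sq i k (σ.U q z)| ≤ C₀' * η * sq (σ.U q z))
    (hlow : ∀ x, (∀ q z, ‖z‖ ≤ σ.rd q → σ.U q z = x → η ^ 30 / 4 ≤ ‖z‖) → η ^ 85 ≤ sq x)
    (i k : Fin N) (x : M) :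
    |baseRes g σ.G V F₁ S' sq i k x| ≤ (|C₀'| + 1) * η * sq x := by
  have hηs : 0 ≤ η * sq x := mul_nonneg hη.le (hsq x)
  by_cases hP : ∀ q z, ‖z‖ ≤ σ.rd q → σ.U q z = x → η ^ 30 / 4 ≤ ‖z‖
  · have hηb : η ^ b ≤ η * sq x := by
      refine (pow_le_pow_of_le_one hη.le hη1 hb).trans ?_
      rw [pow_succ']
      exact mul_le_mul_of_nonneg_left (hlow x hP) hη.le
    have hmain : |σ.chi η x ^ 2 - 1| * |baseRes g σ.G V F S' sq i k x| ≤
        |C₀'| * (η * sq x) := by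
      by_cases hQ : ∀ q z, ‖z‖ ≤ σ.rd q → σ.U q z = x → η ^ 30 / 2 ≤ ‖z‖
      · rw [σ.chi_one hη hQ, one_pow, sub_self, abs_zero, zero_mul]
        positivity
      · simp only [not_forall, not_le] at hQ
        obtain ⟨q, z, -, he, hz⟩ := hQ
        have h := hcore i k q z hz.le
        rw [he, mul_assoc] at h
        obtain ⟨c0, c1⟩ := σ.chi_mem η x
        refine (mul_le_of_le_one_left (abs_nonneg _) ?_).trans
          (h.trans (mul_le_mul_of_nonneg_right (le_abs_self _) hηs))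
        rw [abs_le]
        constructor <;> nlinarith
    have e : baseRes g σ.G V F₁ S' sq i k x =
        (1 - σ.chi η x ^ 2) * baseRes g σ.G V F S' sq i k x -
          (pullV F₁ V i k x - pullV F V i k x -
            σ.chi η x ^ 2 * baseRes g σ.G V F S' sq i k x) := by
      simp only [baseRes]; ring
    rw [e]
    refine (abs_sub _ _).trans ?_
    rw [abs_mul, abs_sub_comm]
    linarith [hT.res i k x]
  · have hF := (hT.off x (σ.notMem_tsupport_chi hη hsm hP)).1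
    have e : baseRes g σ.G V F₁ S' sq i k x = baseRes g σ.G V F S' sq i k x := by
      simp only [baseRes, pullV, D_congr hF]
    simp only [not_forall, not_le] at hP
    obtain ⟨q, z, -, he, hz⟩ := hP
    have h := hcore i k q z (hz.le.trans (by linarith [pow_pos hη 30]))
    rw [he, mul_assoc] at h
    rw [e]
    refine h.trans ?_
    rw [mul_assoc]
    exact mul_le_mul_of_nonneg_right ((le_abs_self _).trans (le_add_of_nonneg_right zero_le_one))
      hηs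

end Setup

end Vale.Agent.P205.Full.Start
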