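import Vale.Agent.P205.Full.Start.FlattenLocal

/-!
# P205 full, START A2: flattening at all critical points

The local surgeries are put together on disjoint open sets and the pair is scaled down.
-/

open scoped Manifold ContDiff RealInnerProductSpace Topology
open Bundle Filter Set Metric

noncomputable section

namespace Vale.Agent.P205.Full.Start

variable {M : Type} [TopologicalSpace M] [ChartedSpace R2 M] [IsManifold (𝓡 2) ∞ M]

/-- The differential of a smooth map is bounded by the metric. -/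
lemma exists_differential_bound [CompactSpace M] (g : Full.Metric M) {N : ℕ} {V : Frame M N}
    (hV : FrameSmooth V) (hs : FrameSpans V) {f : M → R3}
    (hf : ContMDiff (𝓡 2) 𝓘(ℝ, R3) ∞ f) :
    ∃ C, 0 < C ∧ ∀ x (v : TangentSpace (𝓡 2) x),
      ‖(mfderiv (𝓡 2) 𝓘(ℝ, R3) f x v : R3)‖ ^ 2 ≤ C * g.inner x v v := by
  obtain ⟨C, hC, h⟩ := Open.exists_form_le V hs (Open.pullForm f) (Open.metricForm g)
    (fun x v w => real_inner_comm (F := R3) _ _) (fun x v w => g.symm x v w) (fun x v hv => g.pos x v hv)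
    (fun i k => (Open.contMDiff_D V hV hf i).continuous.inner
      (Open.contMDiff_D V hV hf k).continuous)
    (fun i k => (Open.contMDiff_gV g V hV i k).continuous)
  refine ⟨C, hC, fun x v => ?_⟩
  rw [← real_inner_self_eq_norm_sq]
  exact h x v

omit [ChartedSpace R2 M] in
/-- Near every point a sum of local changes is one of them or none. -/
lemma local_sum {ι : Type} [Fintype ι] {U : ι → Set M}
    (hd : ∀ i j, i ≠ j → Disjoint (U i) (U j)) {K : ι → Set M} (hK : ∀ i, IsClosed (K i))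
    (hKU : ∀ i, K i ⊆ U i) {f₀ : M → R3} {f : ι → M → R3} (he : ∀ i, ∀ x ∉ K i, f i x = f₀ x) :
    (∀ i, ∀ x ∈ U i, f₀ x + ∑ j, (f j x - f₀ x) = f i x) ∧
    ∀ x, (∀ i, x ∉ U i) →
      (fun y => f₀ y + ∑ j, (f j y - f₀ y)) =ᶠ[𝓝 x] f₀ := by
  classical
  refine ⟨fun i x hx => ?_, fun x hx => ?_⟩
  · rw [Finset.sum_eq_single i, add_sub_cancel]
    · intro j _ hj
      rw [he j x fun h => (Set.disjoint_left.1 (hd j i hj) (hKU j h)) hx, sub_self]
    · simp
  · have hn : ∀ᶠ y in 𝓝 x, ∀ i, y ∉ K i :=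
      eventually_all.2 fun i => (hK i).isOpen_compl.mem_nhds fun h => hx i (hKU i h)
    filter_upwards [hn] with y hy
    rw [Finset.sum_eq_zero fun j _ => by rw [he j y (hy j), sub_self], add_zero]

lemma norm_sq_smul (ν : ℝ) (w : R3) : ‖ν • w‖ ^ 2 = ν ^ 2 * ‖w‖ ^ 2 := by
  rw [norm_smul, mul_pow, Real.norm_eq_abs, sq_abs]

/-- Flattening at all critical points, with arbitrarily small data. -/
theorem flatten : FlattenProp := by
  intro M _ _ _ _ _ g N V G₀ S₀ hV hs hG hS hfin hnd κ hκ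
  classical
  obtain ⟨U, hU, hdisj⟩ := hfin.t2_separation
  set Z := hfin.toFinset with hZ
  have hmem : ∀ x, x ∈ Z ↔ IsCrit G₀ V S₀ x := fun x => by simp [hZ]
  have hd : ∀ p q, p ∈ Z → q ∈ Z → p ≠ q → Disjoint (U p) (U q) := fun p q hp hq hne =>
    hdisj ((hmem p).1 hp) ((hmem q).1 hq) hne
  have honly : ∀ p : Z, ∀ x ∈ U p.1, IsCrit G₀ V S₀ x → x = p.1 := fun p x hx hc => by
    by_contra hne
    exact Set.disjoint_left.1 (hd x p ((hmem x).2 hc) p.2 hne) (hU x).1 hx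
  choose G₁ S₁ K P hKc hKU hPU hG₁ hS₁ heq hcrit using fun p : Z =>
    exists_local g hG hS hV hs (hnd p.1 ((hmem p.1).1 p.2)) (hU p.1).2 (hU p.1).1 (honly p)
  set A : M → R3 := fun y => G₀ y + ∑ p, (G₁ p y - G₀ y) with hA
  set B : M → R3 := fun y => S₀ y + ∑ p, (S₁ p y - S₀ y) with hB
  have hdz : ∀ p q : Z, p ≠ q → Disjoint (U p.1) (U q.1) := fun p q h =>
    hd _ _ p.2 q.2 fun e => h (Subtype.ext e)
  obtain ⟨hAin, hAout⟩ := local_sum hdz (fun p => (hKc p).isClosed)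
    hKU (f₀ := G₀) (f := G₁) fun p x hx => (heq p x hx).1
  obtain ⟨hBin, hBout⟩ := local_sum hdz (fun p => (hKc p).isClosed)
    hKU (f₀ := S₀) (f := S₁) fun p x hx => (heq p x hx).2
  have hAs : ContMDiff (𝓡 2) 𝓘(ℝ, R3) ∞ A :=
    hG.1.add (contMDiff_finsetSum fun p _ => (hG₁ p).1.sub hG.1)
  have hBs : ContMDiff (𝓡 2) 𝓘(ℝ, R3) ∞ B :=
    hS.1.add (contMDiff_finsetSum fun p _ => (hS₁ p).1.sub hS.1)
  obtain ⟨CA, hCA, hA'⟩ := exists_differential_bound g hV hs hAs
  obtain ⟨CB, hCB, hB'⟩ := exists_differential_bound g hV hs hBs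
  simp only [norm_tangentSpace_vectorSpace] at hA' hB'
  obtain ⟨c, hc⟩ := isCompact_univ.exists_bound_of_continuousOn hBs.continuous.continuousOn
  set ν := Real.sqrt (κ / (CA + CB + (c ^ 2 + 1))) with hν
  have hν0 : 0 < ν := Real.sqrt_pos.2 (by positivity)
  have hν2 : ν ^ 2 * (CA + CB + (c ^ 2 + 1)) = κ := by
    rw [hν, Real.sq_sqrt (by positivity), div_mul_cancel₀ _ (by positivity)]
  set G : M → R3 := fun y => ν • A y with hGdef
  set S : M → R3 := fun y => ν • B y with hSdef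
  have hGin : ∀ p : Z, ∀ y ∈ U p.1, G y = ν • G₁ p y := fun p y hy =>
    congrArg (ν • ·) (hAin p y hy)
  have hSin : ∀ p : Z, ∀ y ∈ U p.1, S y = ν • S₁ p y := fun p y hy =>
    congrArg (ν • ·) (hBin p y hy)
  -- near every point the data are one of the local pairs, or the given pair
  have hmodel : ∀ x, ∃ G' S' : M → R3, IsImm3 G' ∧ IsSection G' S' ∧
      (G =ᶠ[𝓝 x] fun y => ν • G' y) ∧ (S =ᶠ[𝓝 x] fun y => ν • S' y) ∧
      (IsCrit G' V S' x ↔ x ∈ Z) := by
    intro x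
    by_cases hx : ∃ p : Z, x ∈ U p.1
    · obtain ⟨p, hp⟩ := hx
      refine ⟨G₁ p, S₁ p, hG₁ p, hS₁ p, Filter.eventually_of_mem ((hU p.1).2.mem_nhds hp) (hGin p),
        Filter.eventually_of_mem ((hU p.1).2.mem_nhds hp) (hSin p), ?_⟩
      rw [hcrit p x hp]
      exact ⟨fun h => h ▸ p.2, fun h => honly p x hp ((hmem x).1 h)⟩
    · simp only [not_exists] at hx
      exact ⟨G₀, S₀, hG, hS, (hAout x hx).mono fun y hy => congrArg (ν • ·) hy,
        (hBout x hx).mono fun y hy => congrArg (ν • ·) hy, (hmem x).symm⟩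
  refine ⟨G, S, Z, fun p hp => (P ⟨p, hp⟩).transfer (hU p).2 (hPU ⟨p, hp⟩) (hG₁ ⟨p, hp⟩).1 hν0
      (hGin ⟨p, hp⟩) (hSin ⟨p, hp⟩), ⟨?_, fun x => ?_⟩, ⟨?_, fun x => ?_⟩, fun x => ?_,
    fun p hp q hq hne => (hd p q hp hq hne).mono (hPU ⟨p, hp⟩) (hPU ⟨q, hq⟩),
    fun x v => ?_, fun x v => ?_, fun x => ?_⟩
  · exact (contMDiff_const (I' := 𝓘(ℝ, ℝ)) (c := ν)).smul hAs
  · obtain ⟨G', S', hG', -, heG, -, -⟩ := hmodel x
    exact injective_of_eventually hν0.ne' (hG'.1.mdifferentiable (by simp) x) heG (hG'.2 x)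
  · exact (contMDiff_const (I' := 𝓘(ℝ, ℝ)) (c := ν)).smul hBs
  · obtain ⟨G', S', hG', hS', heG, heS, -⟩ := hmodel x
    rw [nLine_eq_of_eventually hν0.ne' (hG'.1.mdifferentiable (by simp) x) heG, heS.self_of_nhds,
      map_smul, hS'.2]
  · obtain ⟨G', S', hG', hS', heG, heS, hiff⟩ := hmodel x
    rw [isCrit_of_eventually hν0.ne' (hG'.1.mdifferentiable (by simp) x) heG
      (hS'.1.mdifferentiable (by simp) x) heS]
    exact hiff
  · rw [norm_tangentSpace_vectorSpace,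
      mfderiv_eq_smul (hAs.mdifferentiable (by simp) x) Filter.EventuallyEq.rfl]
    refine (norm_sq_smul ν _).trans_le ?_
    rw [← hν2, mul_assoc]
    refine mul_le_mul_of_nonneg_left ((hA' x v).trans ?_) (sq_nonneg ν)
    exact mul_le_mul_of_nonneg_right (by nlinarith) (Open.inner_self_nonneg' g x v)
  · refine le_trans (pow_le_pow_left₀ (norm_nonneg _)
      (Submodule.norm_starProjection_apply_le _ _) 2) ?_
    rw [mfderiv_eq_smul (hBs.mdifferentiable (by simp) x) Filter.EventuallyEq.rfl]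
    refine (norm_sq_smul ν _).trans_le ?_
    rw [← hν2, mul_assoc]
    refine mul_le_mul_of_nonneg_left ((hB' x v).trans ?_) (sq_nonneg ν)
    exact mul_le_mul_of_nonneg_right (by nlinarith) (Open.inner_self_nonneg' g x v)
  · simp only [hSdef, norm_smul, mul_pow, Real.norm_eq_abs, sq_abs, ← hν2]
    refine mul_le_mul_of_nonneg_left ?_ (sq_nonneg ν)
    nlinarith [hc x (Set.mem_univ x), norm_nonneg (B x)]

end Vale.Agent.P205.Full.Start
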