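import Vale.Agent.P205.Full.Start.Interface
import Vale.Agent.P205.Full.Stage.Calculus
import Vale.Agent.P205.Full.Stage.CalculusBd

/-!
# P205 full, START A7: uniform bounds for coordinates in a spanning frame

On a compact surface every tangent vector is a combination of frame vectors with coefficients
bounded by any continuous positive definite form.
-/

open scoped Manifold ContDiff RealInnerProductSpace
open Bundle

noncomputable section

namespace Vale.Agent.P205.Full.Start

section

variable {M : Type} [TopologicalSpace M] [ChartedSpace R2 M] [IsManifold (𝓡 2) ∞ M]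
variable {N : ℕ} {V : Frame M N}

theorem finrank_tangent (x : M) : Module.finrank ℝ (TangentSpace (𝓡 2) x) = 2 :=
  finrank_euclideanSpace_fin

theorem bilin_comb {x : M} (b : TangentSpace (𝓡 2) x →L[ℝ] TangentSpace (𝓡 2) x →L[ℝ] ℝ)
    (hsym : ∀ u v, b u v = b v u) (p q : TangentSpace (𝓡 2) x) (s t : ℝ) :
    b (s • p + t • q) (s • p + t • q) =
      s ^ 2 * b p p + 2 * s * t * b p q + t ^ 2 * b q q := by
  simp only [map_add, map_smul, add_apply, smul_apply, smul_eq_mul]
  rw [hsym q p]
  ring

/-- Two vectors with positive Gram determinant form a basis of the tangent plane. -/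
theorem exists_comb {x : M} (b : TangentSpace (𝓡 2) x →L[ℝ] TangentSpace (𝓡 2) x →L[ℝ] ℝ)
    (hsym : ∀ u v, b u v = b v u) {p q : TangentSpace (𝓡 2) x}
    (hdet : 0 < b p p * b q q - b p q ^ 2) (v : TangentSpace (𝓡 2) x) :
    ∃ s t : ℝ, v = s • p + t • q := by
  have hli : LinearIndependent ℝ ![p, q] := by
    refine LinearIndependent.pair_iff.2 fun s t h => ?_
    have h1 : s * b p p + t * b p q = 0 := by
      have := congrArg (fun u => b p u) h
      simpa [map_add, map_smul] using this
    have h2 : s * b p q + t * b q q = 0 := by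
      have := congrArg (fun u => b q u) h
      rw [hsym p q]
      simpa [map_add, map_smul] using this
    refine ⟨?_, ?_⟩
    · have : s * (b p p * b q q - b p q ^ 2) = 0 := by linear_combination b q q * h1 - b p q * h2
      exact (mul_eq_zero.1 this).resolve_right hdet.ne'
    · have : t * (b p p * b q q - b p q ^ 2) = 0 := by linear_combination b p p * h2 - b p q * h1
      exact (mul_eq_zero.1 this).resolve_right hdet.ne'
  have hcard : Fintype.card (Fin 2) = Module.finrank ℝ (TangentSpace (𝓡 2) x) := by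
    rw [finrank_tangent]; simp
  have htop := hli.span_eq_top_of_card_eq_finrank hcard
  have hv : v ∈ Submodule.span ℝ (Set.range ![p, q]) := by rw [htop]; exact Submodule.mem_top
  rw [Matrix.range_cons, Matrix.range_cons, Matrix.range_empty, Set.union_empty,
    Set.singleton_union, Submodule.mem_span_pair] at hv
  obtain ⟨s, t, h⟩ := hv
  exact ⟨s, t, h.symm⟩

/-- A spanning family has a pair with positive Gram determinant. -/
theorem exists_det_pos (hspan : FrameSpans V) {x : M}
    (b : TangentSpace (𝓡 2) x →L[ℝ] TangentSpace (𝓡 2) x →L[ℝ] ℝ)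
    (hsym : ∀ u v, b u v = b v u) (hpos : ∀ v, v ≠ 0 → 0 < b v v) :
    ∃ i k, 0 < b (V i x) (V i x) * b (V k x) (V k x) - b (V i x) (V k x) ^ 2 := by
  obtain ⟨i, hi⟩ : ∃ i, V i x ≠ 0 := by
    by_contra h
    push_neg at h
    have : (⊤ : Submodule ℝ (TangentSpace (𝓡 2) x)) ≤ ⊥ := by
      rw [← hspan x, Submodule.span_le]
      rintro _ ⟨i, rfl⟩
      simp [h i]
    have h2 := Submodule.finrank_mono this
    rw [finrank_top, finrank_tangent, finrank_bot] at h2
    omega
  obtain ⟨k, hk⟩ : ∃ k, V k x ∉ Submodule.span ℝ {V i x} := by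
    by_contra h
    push_neg at h
    have : (⊤ : Submodule ℝ (TangentSpace (𝓡 2) x)) ≤ Submodule.span ℝ {V i x} := by
      rw [← hspan x, Submodule.span_le]
      rintro _ ⟨k, rfl⟩
      exact h k
    have h2 := Submodule.finrank_mono this
    rw [finrank_top, finrank_tangent, finrank_span_singleton hi] at h2
    omega
  set p := V i x with hp
  set q := V k x with hq
  refine ⟨i, k, ?_⟩
  have hne : (-b p q) • p + b p p • q ≠ 0 := fun h => hk (by
    have hpp := (hpos p hi).ne'
    refine Submodule.mem_span_singleton.2 ⟨b p q / b p p, ?_⟩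
    have h' : b p p • q = b p q • p := by
      rw [add_comm, neg_smul, ← sub_eq_add_neg, sub_eq_zero] at h
      exact h
    rw [div_eq_inv_mul, mul_smul, ← h', smul_smul, inv_mul_cancel₀ hpp, one_smul])
  have h := hpos _ hne
  rw [bilin_comb b hsym] at h
  have hpp := hpos p hi
  nlinarith [h, hpp]

/-- Coordinates in the frame are bounded by a continuous positive definite form. -/
theorem exists_coef_bound [CompactSpace M] (hspan : FrameSpans V)
    (b : (x : M) → TangentSpace (𝓡 2) x →L[ℝ] TangentSpace (𝓡 2) x →L[ℝ] ℝ)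
    (hsym : ∀ x u v, b x u v = b x v u) (hpos : ∀ x v, v ≠ 0 → 0 < b x v v)
    (hc : ∀ i k, Continuous fun x => b x (V i x) (V k x)) :
    ∃ C : ℝ, 0 < C ∧ ∀ x v, ∃ a : Fin N → ℝ,
      v = ∑ i, a i • V i x ∧ ∑ i, a i ^ 2 ≤ C * b x v v := by
  classical
  rcases isEmpty_or_nonempty M with hM | hM
  · exact ⟨1, one_pos, fun x => hM.elim x⟩
  set G : Fin N → Fin N → M → ℝ := fun i k x => b x (V i x) (V k x) with hG
  set det : Fin N × Fin N → M → ℝ := fun q x => G q.1 q.1 x * G q.2 q.2 x - G q.1 q.2 x ^ 2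
    with hdet
  have hcd : ∀ q, Continuous (det q) := fun q =>
    ((hc q.1 q.1).mul (hc q.2 q.2)).sub ((hc q.1 q.2).pow 2)
  set Φ : M → ℝ := fun x => ∑ q, max (det q x) 0 with hΦ
  have hcΦ : Continuous Φ := continuous_finsetSum _ fun q _ => (hcd q).max continuous_const
  obtain ⟨x₀, -, hx₀⟩ := isCompact_univ.exists_isMinOn Set.univ_nonempty hcΦ.continuousOn
  have hd : 0 < Φ x₀ := by
    obtain ⟨i, k, h⟩ := exists_det_pos hspan (b x₀) (hsym x₀) (hpos x₀)
    exact lt_of_lt_of_le h ((le_max_left _ 0).trans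
      (Finset.single_le_sum (f := fun q => max (det q x₀) 0) (fun q _ => le_max_right _ _)
        (Finset.mem_univ (i, k))))
  have hcS : Continuous fun x => ∑ i, |G i i x| := continuous_finsetSum _ fun i _ => (hc i i).abs
  obtain ⟨S, hS⟩ := isCompact_univ.exists_bound_of_continuousOn hcS.continuousOn
  have hS0 : 0 ≤ S := (norm_nonneg _).trans (hS x₀ (Set.mem_univ _))
  set n : ℝ := ((Finset.univ : Finset (Fin N × Fin N)).card : ℝ) with hn
  have hne : (Finset.univ : Finset (Fin N × Fin N)).Nonempty := by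
    rcases Finset.univ.eq_empty_or_nonempty (α := Fin N × Fin N) with h | h
    · exfalso
      simp only [hΦ, h, Finset.sum_empty, lt_irrefl] at hd
    · exact h
  have hn0 : 0 < n := Nat.cast_pos.2 hne.card_pos
  refine ⟨(2 * S + 1) * n / Φ x₀, by positivity, fun x v => ?_⟩
  obtain ⟨⟨i, k⟩, -, hmax⟩ := Finset.exists_max_image Finset.univ (fun q => det q x) hne
  have hlow : Φ x₀ / n ≤ det (i, k) x := by
    rw [div_le_iff₀ hn0]
    refine (hx₀ (Set.mem_univ x)).trans ?_
    by_contra hlt
    push_neg at hlt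
    obtain ⟨i', k', h⟩ := exists_det_pos hspan (b x) (hsym x) (hpos x)
    have hpk : 0 ≤ det (i, k) x := (h.le.trans (hmax (i', k') (Finset.mem_univ _)))
    have : Φ x ≤ det (i, k) x * n := by
      refine (Finset.sum_le_card_nsmul _ _ (det (i, k) x) fun q _ =>
        max_le (hmax q (Finset.mem_univ _)) hpk).trans (le_of_eq ?_)
      rw [nsmul_eq_mul, hn, mul_comm]
    linarith
  have hdp : 0 < det (i, k) x := lt_of_lt_of_le (div_pos hd hn0) hlow
  obtain ⟨s, t, hv⟩ := exists_comb (b x) (hsym x) hdp v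
  have hik : i ≠ k := fun e => by
    subst e
    simp only [hdet, hG] at hdp
    nlinarith [hdp]
  refine ⟨fun l => (if l = i then s else 0) + if l = k then t else 0, ?_, ?_⟩
  · simp only [add_smul, ite_smul, zero_smul, Finset.sum_add_distrib, Finset.sum_ite_eq',
      Finset.mem_univ, if_true]
    exact hv
  · have e : ∀ l, ((if l = i then s else 0) + if l = k then t else (0 : ℝ)) ^ 2 =
        (if l = i then s ^ 2 else 0) + if l = k then t ^ 2 else 0 := fun l => by
      by_cases h1 : l = i
      · rw [if_pos h1, if_pos h1, if_neg (h1 ▸ hik), if_neg (h1 ▸ hik), add_zero, add_zero]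
      · rw [if_neg h1, if_neg h1]; split_ifs <;> ring
    simp only [e, Finset.sum_add_distrib, Finset.sum_ite_eq', Finset.mem_univ, if_true]
    have hb : b x v v = s ^ 2 * G i i x + 2 * s * t * G i k x + t ^ 2 * G k k x := by
      rw [hv]; exact bilin_comb (b x) (hsym x) _ _ _ _
    have hkey : det (i, k) x * (s ^ 2 + t ^ 2) ≤ (G i i x + G k k x) * b x v v := by
      rw [hb]
      simp only [hdet]
      nlinarith [sq_nonneg (s * G i i x + t * G i k x), sq_nonneg (s * G i k x + t * G k k x)]
    have hb0 : 0 ≤ b x v v := by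
      by_cases h0 : v = 0
      · simp [h0]
      · exact (hpos x v h0).le
    have hiS : ∀ l, G l l x ≤ S := fun l => (le_abs_self _).trans <|
      (Finset.single_le_sum (f := fun l => |G l l x|) (fun l _ => abs_nonneg _)
        (Finset.mem_univ l)).trans ((le_abs_self _).trans (hS x (Set.mem_univ x)))
    have h3 : (G i i x + G k k x) * b x v v ≤ (2 * S + 1) * b x v v :=
      mul_le_mul_of_nonneg_right (by linarith [hiS i, hiS k]) hb0
    have h4 : Φ x₀ / n * (s ^ 2 + t ^ 2) ≤ (2 * S + 1) * b x v v :=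
      ((mul_le_mul_of_nonneg_right hlow (by positivity)).trans hkey).trans h3
    rw [div_mul_eq_mul_div, div_le_iff₀ hn0] at h4
    rw [div_mul_eq_mul_div, le_div_iff₀ hd]
    linarith

/-- Constants of the metric in a spanning frame. -/
theorem exists_metric_bounds [CompactSpace M] (g : Metric M) (hV : FrameSmooth V)
    (hspan : FrameSpans V) :
    ∃ C : ℝ, 1 ≤ C ∧
      (∀ x v, ∃ a : Fin N → ℝ, v = ∑ i, a i • V i x ∧ ∑ i, |a i| ≤ C * Real.sqrt (g.inner x v v)) ∧
      (∀ x v, g.inner x v v ≤ C * ∑ i, g.inner x (V i x) v ^ 2) ∧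
      (∀ x v, ∑ i, g.inner x (V i x) v ^ 2 ≤ C * g.inner x v v) ∧
      ∀ i k x, |gV g V i k x| ≤ C := by
  obtain ⟨C₁, hC₁, hcoef⟩ := exists_coef_bound hspan (fun x => g.inner x) (fun x => g.symm x)
    (fun x => g.pos x) (fun i k => (contMDiff_gV g hV i k).continuous)
  choose c hc using fun q : Fin N × Fin N =>
    isCompact_univ.exists_bound_of_continuousOn
      (contMDiff_gV g hV q.1 q.2).continuous.continuousOn
  have hnn : ∀ x v, 0 ≤ g.inner x v v := fun x v => by
    by_cases h : v = 0
    · simp [h]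
    · exact (g.pos x v h).le
  set S := ∑ q, |c q| with hS
  have hgV : ∀ i k x, |gV g V i k x| ≤ S := fun i k x =>
    (hc (i, k) x (Set.mem_univ x)).trans ((le_abs_self _).trans
      (Finset.single_le_sum (f := fun q => |c q|) (fun q _ => abs_nonneg _)
        (Finset.mem_univ (i, k))))
  have hS0 : 0 ≤ S := Finset.sum_nonneg fun q _ => abs_nonneg _
  have hcs : ∀ x u v, g.inner x u v ^ 2 ≤ g.inner x u u * g.inner x v v := fun x u v => by
    by_cases h : u = 0
    · simp [h]
    · have h1 := hnn x ((-g.inner x u v) • u + g.inner x u u • v)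
      rw [bilin_comb (g.inner x) (g.symm x)] at h1
      nlinarith [g.pos x u h, h1]
  refine ⟨1 + (N + 1) * (C₁ + 1) + (N + 1) * S,
    by nlinarith [mul_nonneg (Nat.cast_nonneg (α := ℝ) N) hS0], fun x v => ?_, fun x v => ?_,
    fun x v => ?_, fun i k x => (hgV i k x).trans ?_⟩
  · obtain ⟨a, ha, hb⟩ := hcoef x v
    refine ⟨a, ha, ?_⟩
    have h2 : (∑ i, |a i|) ^ 2 ≤ (N : ℝ) * ∑ i, a i ^ 2 := by
      have := sq_sum_le_card_mul_sum_sq (s := Finset.univ) (f := fun i => |a i|)
      simpa using this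
    refine le_trans ?_ (mul_le_mul_of_nonneg_right (le_add_of_le_of_nonneg
      (le_add_of_nonneg_left zero_le_one : (↑N + 1) * (C₁ + 1) ≤ _) (by positivity))
      (Real.sqrt_nonneg _))
    have h3 : (∑ i, |a i|) ^ 2 ≤ (((N : ℝ) + 1) * (C₁ + 1) * Real.sqrt (g.inner x v v)) ^ 2 := by
      rw [mul_pow _ (Real.sqrt _), Real.sq_sqrt (hnn x v)]
      refine h2.trans ((mul_le_mul_of_nonneg_left hb (Nat.cast_nonneg _)).trans ?_)
      rw [← mul_assoc]
      refine mul_le_mul_of_nonneg_right ?_ (hnn x v)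
      have : 1 ≤ ((N : ℝ) + 1) * (C₁ + 1) := one_le_mul_of_one_le_of_one_le
        (le_add_of_nonneg_left (Nat.cast_nonneg _)) (le_add_of_nonneg_left hC₁.le)
      nlinarith [mul_nonneg (Nat.cast_nonneg (α := ℝ) N) hC₁.le]
    exact (pow_le_pow_iff_left₀ (Finset.sum_nonneg fun i _ => abs_nonneg _)
      (by positivity) two_ne_zero).1 h3
  · obtain ⟨a, ha, hb⟩ := hcoef x v
    have h1 : g.inner x v v = ∑ i, a i * g.inner x (V i x) v := by
      conv_lhs => arg 1; arg 2; rw [ha]
      simp [map_sum, map_smul, sum_apply, smul_apply, smul_eq_mul]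
    have h2 := Finset.sum_mul_sq_le_sq_mul_sq Finset.univ a fun i => g.inner x (V i x) v
    rw [← h1] at h2
    have hQ : 0 ≤ ∑ i, g.inner x (V i x) v ^ 2 := Finset.sum_nonneg fun i _ => sq_nonneg _
    have h4 : g.inner x v v ≤ C₁ * ∑ i, g.inner x (V i x) v ^ 2 := by
      rcases (hnn x v).eq_or_lt with h0 | h0
      · rw [← h0]; positivity
      · nlinarith [h2.trans (mul_le_mul_of_nonneg_right hb hQ)]
    exact h4.trans (mul_le_mul_of_nonneg_right
      (by nlinarith [mul_nonneg (Nat.cast_nonneg (α := ℝ) N) hS0,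
        mul_nonneg (Nat.cast_nonneg (α := ℝ) N) hC₁.le]) hQ)
  · calc ∑ i, g.inner x (V i x) v ^ 2 ≤ ∑ _i : Fin N, S * g.inner x v v :=
          Finset.sum_le_sum fun i _ => (hcs x _ v).trans
            (mul_le_mul_of_nonneg_right ((le_abs_self _).trans (hgV i i x)) (hnn x v))
      _ = N * S * g.inner x v v := by simp [mul_assoc]
      _ ≤ _ := mul_le_mul_of_nonneg_right
          (by nlinarith [mul_nonneg (Nat.cast_nonneg (α := ℝ) N) hC₁.le]) (hnn x v)
  · nlinarith [mul_nonneg (Nat.cast_nonneg (α := ℝ) N) hC₁.le,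
      mul_nonneg (Nat.cast_nonneg (α := ℝ) N) hS0]

end

end Vale.Agent.P205.Full.Start
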