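import Vale.Agent.P205.Full.Start.Profile

/-!
# P205 full, START A2: bounds for the anisotropic profile

The differential of the profile is bounded below linearly in `‖z‖`; all derivatives of the
change `profile - quad` are bounded by `ρ² ρ⁻ᵏ` times the size of the coefficients.
-/

open Set Metric
open scoped ContDiff

noncomputable section

namespace Vale.Agent.P205.Full.Start

/-- The differential of the profile grows at least linearly. -/
theorem exists_profile_lower :
    ∃ C : ℝ, 0 < C ∧ ∀ a b A B r ρ : ℝ, 0 < r → 0 < ρ → 16 * ρ ≤ r → 0 < a * A → 0 < b * B →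
      C * ρ ^ 2 * (|a| + |b| + |A| + |B|) ≤ min |a| |b| * r ^ 2 →
      ∀ z, min (min |a| |b|) (min |A| |B|) * ‖z‖ ≤
        4 * ‖fderiv ℝ (profile a b A B r ρ) z‖ := by
  obtain ⟨C₁, hC₁, hcut⟩ := exists_cutR_deriv_bound
  refine ⟨256 * C₁, by linarith, fun a b A B r ρ hr hρ hρr haA hbB hsmall z => ?_⟩
  set S := |a| + |b| + |A| + |B| with hS
  have hS0 : 0 ≤ S := by positivity
  set m := min (min |a| |b|) (min |A| |B|) with hm
  have hm0 : 0 ≤ m := le_min (le_min (abs_nonneg _) (abs_nonneg _))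
    (le_min (abs_nonneg _) (abs_nonneg _))
  set L := fderiv ℝ (profile a b A B r ρ) z with hL
  have hLe := (hasFDerivAt_profile a b A B r hρ.ne' z).fderiv
  -- the error produced by the cutoff
  have herr : ∀ v : R2, ‖v‖ = 1 → |(ρ ^ 2 * ((A - a) * bigW (px z / ρ) +
      (B - b) * bigW (py z / ρ))) * fderiv ℝ (cutR r) z v| ≤ 32 * C₁ * S * ρ ^ 2 / r := by
    intro v hv
    have hw : |(A - a) * bigW (px z / ρ) + (B - b) * bigW (py z / ρ)| ≤ 32 * S := by
      refine (abs_add_le _ _).trans ?_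
      rw [abs_mul, abs_mul]
      have := mul_le_mul (abs_sub A a) (abs_bigW (px z / ρ)) (abs_nonneg _) (by positivity)
      have := mul_le_mul (abs_sub B b) (abs_bigW (py z / ρ)) (abs_nonneg _) (by positivity)
      linarith
    have hd : |fderiv ℝ (cutR r) z v| ≤ C₁ / r := by
      rw [← Real.norm_eq_abs]
      refine (ContinuousLinearMap.le_opNorm _ v).trans ?_
      rw [hv, mul_one]; exact hcut r hr z
    rw [abs_mul, abs_mul, abs_of_nonneg (sq_nonneg ρ)]
    refine (mul_le_mul (mul_le_mul_of_nonneg_left hw (sq_nonneg ρ)) hd (abs_nonneg _)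
      (by positivity)).trans (le_of_eq ?_)
    ring
  have key : ∀ (v : R2) (c d t : ℝ), ‖v‖ = 1 → dquad a b z v = c * t →
      (cutR r z • (((A - a) * (px z * beta (px z / ρ))) • px +
        ((B - b) * (py z * beta (py z / ρ))) • py)) v =
          cutR r z * ((d - c) * (t * beta (t / ρ))) →
      0 < c * d → min |a| |b| ≤ |c| → m ≤ |c| → m ≤ |d| → ‖z‖ ≤ 2 * |t| →
      m * ‖z‖ ≤ 4 * ‖L‖ := by
    intro v c d t hv e1 e2 hcd hmc hc hd hzt
    have hLv : |L v| ≤ ‖L‖ := by
      rw [← Real.norm_eq_abs]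
      refine (L.le_opNorm v).trans ?_
      rw [hv, mul_one]
    have e3 : L v = c * t + (cutR r z * ((d - c) * (t * beta (t / ρ))) +
        ρ ^ 2 * ((A - a) * bigW (px z / ρ) + (B - b) * bigW (py z / ρ)) *
          fderiv ℝ (cutR r) z v) := by
      rw [hL, hLe]
      simp only [add_apply, e1, e2]
      simp only [smul_apply, smul_eq_mul]
    rcases lt_or_ge ‖z‖ (r / 2) with hin | hout
    · have hev : cutR r =ᶠ[nhds z] fun _ => 1 := by
        filter_upwards [(isOpen_lt continuous_norm continuous_const).mem_nhds hin] with w hw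
        exact cutR_one hr (le_of_lt hw)
      have hc0 : fderiv ℝ (cutR r) z = 0 := by rw [hev.fderiv_eq]; simp
      rw [hc0, zero_apply, mul_zero, cutR_one hr hin.le, add_zero, one_mul] at e3
      set β := beta (t / ρ)
      have hb0 : 0 ≤ β := beta_nonneg _
      have hb1 : β ≤ 1 := beta_le_one _
      have e4 : L v = (c + (d - c) * β) * t := by rw [e3]; ring
      have hk : m ≤ |c + (d - c) * β| := by
        rcases mul_pos_iff.1 hcd with ⟨h1, h2⟩ | ⟨h1, h2⟩
        · rw [abs_of_pos h1] at hc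
          rw [abs_of_pos h2] at hd
          refine le_trans ?_ (le_abs_self _)
          nlinarith [mul_le_mul_of_nonneg_left hd hb0,
            mul_le_mul_of_nonneg_left hc (sub_nonneg.2 hb1)]
        · rw [abs_of_neg h1] at hc
          rw [abs_of_neg h2] at hd
          refine le_trans ?_ (neg_le_abs _)
          nlinarith [mul_le_mul_of_nonneg_left hd hb0,
            mul_le_mul_of_nonneg_left hc (sub_nonneg.2 hb1)]
      have h1 : m * |t| ≤ ‖L‖ := by
        rw [e4, abs_mul] at hLv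
        exact (mul_le_mul_of_nonneg_right hk (abs_nonneg t)).trans hLv
      linarith [mul_le_mul_of_nonneg_left hzt hm0, norm_nonneg L]
    · rw [beta_zero (by rw [abs_div, abs_of_pos hρ, le_div_iff₀ hρ]; linarith)] at e3
      simp only [mul_zero, zero_add] at e3
      have hE := herr v hv
      generalize hEd : ρ ^ 2 * ((A - a) * bigW (px z / ρ) + (B - b) * bigW (py z / ρ)) *
        fderiv ℝ (cutR r) z v = Er at e3 hE
      have h1 : 32 * C₁ * S * ρ ^ 2 / r ≤ |c| * |t| / 2 := by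
        rw [div_le_div_iff₀ hr two_pos]
        have h2 : min |a| |b| * r ^ 2 ≤ |c| * (4 * |t|) * r := by
          rw [show min |a| |b| * r ^ 2 = min |a| |b| * r * r by ring]
          refine mul_le_mul_of_nonneg_right (mul_le_mul hmc (by linarith) hr.le (abs_nonneg c)) hr.le
        linarith [hsmall.trans h2]
      have h3 : |c * t| ≤ |c * t + Er| + |Er| := by
        have := abs_sub (c * t + Er) Er
        simpa using this
      rw [← e3, abs_mul] at h3
      linarith [mul_le_mul_of_nonneg_right hc (abs_nonneg t), mul_le_mul_of_nonneg_left hzt hm0]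
  have hz : ‖z‖ ≤ 2 * |px z| ∨ ‖z‖ ≤ 2 * |py z| := by
    by_contra h
    push Not at h
    have h1 := pow_lt_pow_left₀ h.1 (by positivity) two_ne_zero
    have h2 := pow_lt_pow_left₀ h.2 (by positivity) two_ne_zero
    rw [mul_pow, sq_abs, norm_sq_eq] at h1 h2
    nlinarith [sq_nonneg (px z), sq_nonneg (py z)]
  rcases hz with h | h
  · exact key (EuclideanSpace.single 0 1) a A (px z) (by simp) (by simp [dquad, px, py])
      (by simp [px, py]) haA (min_le_left _ _) ((min_le_left _ _).trans (min_le_left _ _))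
      ((min_le_right _ _).trans (min_le_left _ _)) h
  · exact key (EuclideanSpace.single 1 1) b B (py z) (by simp) (by simp [dquad, px, py])
      (by simp [px, py]) hbB (min_le_right _ _) ((min_le_left _ _).trans (min_le_right _ _))
      ((min_le_right _ _).trans (min_le_right _ _)) h

lemma exists_deriv_bounds {E : Type} [NormedAddCommGroup E] [NormedSpace ℝ E] {f : E → ℝ}
    (hf : ContDiff ℝ ∞ f) (hs : HasCompactSupport f) :
    ∃ C : ℕ → ℝ, (∀ k, 0 ≤ C k) ∧ ∀ k x, ‖iteratedFDeriv ℝ k f x‖ ≤ C k := by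
  choose C hC using fun k : ℕ => (hs.iteratedFDeriv k).exists_bound_of_continuous
    (hf.continuous_iteratedFDeriv (by exact_mod_cast le_top))
  exact ⟨C, fun k => (norm_nonneg _).trans (hC k 0), hC⟩

/-- All derivatives of the change of the profile. -/
theorem exists_profile_bd {r : ℝ} (hr : 0 < r) :
    ∃ C : ℕ → ℝ, (∀ k, 0 ≤ C k) ∧ ∀ a b A B ρ : ℝ, 0 < ρ → ρ ≤ 1 → ∀ k z,
      ‖iteratedFDeriv ℝ k (fun w => profile a b A B r ρ w - quad a b w) z‖ ≤
        C k * (|a| + |b| + |A| + |B|) * ρ ^ 2 * ρ⁻¹ ^ k := by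
  obtain ⟨Cw, hCw0, hCw⟩ := exists_deriv_bounds bigW_smooth (HasCompactSupport.intro
    (isCompact_closedBall (0 : ℝ) 4) fun t ht => bigW_zero (by
      simp only [mem_closedBall, dist_zero_right, Real.norm_eq_abs, not_le] at ht; exact ht.le))
  obtain ⟨Cc, hCc0, hCc⟩ := exists_deriv_bounds (cutR_smooth r) (HasCompactSupport.intro
    (isCompact_closedBall (0 : R2) r) fun z hz => cutR_zero hr (by
      simp only [mem_closedBall, dist_zero_right, not_le] at hz; exact hz.le))
  set D : ℕ → ℝ := fun k => ∑ i ∈ Finset.range (k + 1), (k.choose i : ℝ) * Cc i * Cw (k - i)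
  have hD0 : ∀ k, 0 ≤ D k := fun k => Finset.sum_nonneg fun i _ =>
    mul_nonneg (mul_nonneg (Nat.cast_nonneg _) (hCc0 i)) (hCw0 _)
  have main : ∀ (p : R2 →L[ℝ] ℝ) (ρ : ℝ), ‖p‖ ≤ 1 → 0 < ρ → ρ ≤ 1 → ∀ k z,
      ‖iteratedFDeriv ℝ k (fun w => cutR r w * bigW ((ρ⁻¹ • p) w)) z‖ ≤ D k * ρ⁻¹ ^ k := by
    intro p ρ hp hρ hρ1 k z
    have hW : ∀ j, ‖iteratedFDeriv ℝ j (bigW ∘ (ρ⁻¹ • p)) z‖ ≤ Cw j * ρ⁻¹ ^ j := fun j => by
      rw [(ρ⁻¹ • p).iteratedFDeriv_comp_right bigW_smooth z (by exact_mod_cast le_top)]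
      refine (ContinuousMultilinearMap.norm_compContinuousLinearMap_le _ _).trans ?_
      rw [Finset.prod_const, Finset.card_univ, Fintype.card_fin]
      refine mul_le_mul (hCw j _) (pow_le_pow_left₀ (norm_nonneg _) ?_ j) (by positivity) (hCw0 j)
      rw [norm_smul, Real.norm_of_nonneg (by positivity : 0 ≤ ρ⁻¹)]
      exact mul_le_of_le_one_right (by positivity) hp
    refine (norm_iteratedFDeriv_mul_le (cutR_smooth r)
      (bigW_smooth.comp (ρ⁻¹ • p).contDiff) z (by exact_mod_cast le_top)).trans ?_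
    rw [Finset.sum_mul]
    refine Finset.sum_le_sum fun i _ => ?_
    calc (k.choose i : ℝ) * ‖iteratedFDeriv ℝ i (cutR r) z‖ *
          ‖iteratedFDeriv ℝ (k - i) (bigW ∘ (ρ⁻¹ • p)) z‖
        ≤ (k.choose i : ℝ) * Cc i * (Cw (k - i) * ρ⁻¹ ^ (k - i)) := by
          gcongr
          · exact mul_nonneg (Nat.cast_nonneg _) (hCc0 i)
          · exact hCc i z
          · exact hW (k - i)
      _ ≤ (k.choose i : ℝ) * Cc i * Cw (k - i) * ρ⁻¹ ^ k := by
          rw [← mul_assoc]
          exact mul_le_mul_of_nonneg_left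
            (pow_le_pow_right₀ ((one_le_inv₀ hρ).2 hρ1) (Nat.sub_le k i))
            (mul_nonneg (mul_nonneg (Nat.cast_nonneg _) (hCc0 i)) (hCw0 _))
  refine ⟨fun k => 2 * D k, fun k => mul_nonneg two_pos.le (hD0 k),
    fun a b A B ρ hρ hρ1 k z => ?_⟩
  have hf : ∀ p : R2 →L[ℝ] ℝ, ContDiff ℝ ∞ fun w => cutR r w * bigW ((ρ⁻¹ • p) w) := fun p =>
    (cutR_smooth r).mul (bigW_smooth.comp (ρ⁻¹ • p).contDiff)
  have e : (fun w => profile a b A B r ρ w - quad a b w) =
      fun w => (ρ ^ 2 * (A - a)) • (cutR r w * bigW ((ρ⁻¹ • px) w)) +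
        (ρ ^ 2 * (B - b)) • (cutR r w * bigW ((ρ⁻¹ • py) w)) := by
    funext w
    simp only [profile, smul_apply, smul_eq_mul, div_eq_inv_mul]
    ring
  have hn : ∀ p : R2 →L[ℝ] ℝ, ContDiffAt ℝ k (fun w => cutR r w * bigW ((ρ⁻¹ • p) w)) z :=
    fun p => ((hf p).of_le (by exact_mod_cast le_top)).contDiffAt
  rw [e, fun_iteratedFDeriv_add_apply ((hn px).const_smul _) ((hn py).const_smul _),
    iteratedFDeriv_const_smul_apply' (hn px), iteratedFDeriv_const_smul_apply' (hn py)]
  refine (norm_add_le _ _).trans ?_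
  rw [norm_smul, norm_smul, Real.norm_eq_abs, Real.norm_eq_abs, abs_mul, abs_mul,
    abs_of_nonneg (sq_nonneg ρ)]
  have hS : |A - a| + |B - b| ≤ 2 * (|a| + |b| + |A| + |B|) := by
    linarith [abs_sub A a, abs_sub B b, abs_nonneg a, abs_nonneg b, abs_nonneg A, abs_nonneg B]
  calc ρ ^ 2 * |A - a| * _ + ρ ^ 2 * |B - b| * _
      ≤ ρ ^ 2 * |A - a| * (D k * ρ⁻¹ ^ k) + ρ ^ 2 * |B - b| * (D k * ρ⁻¹ ^ k) :=
        add_le_add (mul_le_mul_of_nonneg_left (main px ρ norm_px hρ hρ1 k z) (by positivity))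
          (mul_le_mul_of_nonneg_left (main py ρ norm_py hρ hρ1 k z) (by positivity))
    _ = (|A - a| + |B - b|) * (D k * ρ ^ 2 * ρ⁻¹ ^ k) := by ring
    _ ≤ _ := by
        have := mul_le_mul_of_nonneg_right hS
          (mul_nonneg (mul_nonneg (hD0 k) (sq_nonneg ρ)) (pow_nonneg (inv_nonneg.2 hρ.le) k))
        linarith

end Vale.Agent.P205.Full.Start
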