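import Vale.Agent.P205.Full.Start.TransferPoly

/-!
# P205 full, START: transfer of bounds from coordinates to frame derivatives

`u : OpenPartialHomeomorph R2 M` has smooth inverse. If the derivatives of `f ∘ u` are bounded
by monomials in `η` on a compact set, so are the frame derivatives of `f` on its image, with
constants independent of `f` and `η`.
-/

open scoped Manifold ContDiff RealInnerProductSpace Topology
open Bundle Filter Set

set_option linter.unusedSectionVars false

namespace Vale.Agent.P205.Full.Start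

section

variable {M : Type} [TopologicalSpace M] [ChartedSpace R2 M] [IsManifold (𝓡 2) ∞ M]
variable {E : Type} [NormedAddCommGroup E] [NormedSpace ℝ E]
variable {N : ℕ} {V : Frame M N}

/-- Bounds on a compact set where the function is smooth. -/
theorem exists_bdOn_of_isCompact (hV : FrameSmooth V) {s : Set M} (hs : IsCompact s) (K : ℕ)
    {f : M → E} (hf : ∀ x ∈ s, ContMDiffAt (𝓡 2) 𝓘(ℝ, E) ∞ f x) :
    ∃ C : ℝ, 0 ≤ C ∧ BdOn V s K C (fun _ => 1) f := by
  induction K generalizing f with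
  | zero =>
    obtain ⟨C, hC⟩ := hs.exists_bound_of_continuousOn
      (f := f) fun x hx => (hf x hx).continuousAt.continuousWithinAt
    refine ⟨max C 0, le_max_right _ _, bdOn_zero_iff.2 fun x hx => ?_⟩
    rw [mul_one]
    exact (hC x hx).trans (le_max_left _ _)
  | succ K ih =>
    choose c hc0 hc using fun i => ih fun x hx => contMDiffAt_D hV i (hf x hx)
    obtain ⟨C, hC⟩ := hs.exists_bound_of_continuousOn
      (f := f) fun x hx => (hf x hx).continuousAt.continuousWithinAt
    have hsum : 0 ≤ ∑ i, c i := Finset.sum_nonneg fun i _ => hc0 i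
    refine ⟨max C 0 + ∑ i, c i, add_nonneg (le_max_right _ _) hsum,
      bdOn_succ_iff.2 ⟨fun x hx => ?_, fun i => ?_⟩⟩
    · rw [mul_one]
      exact (hC x hx).trans (le_add_of_le_of_nonneg (le_max_left _ _) hsum)
    · refine (hc i).mono_const ?_ fun _ _ => zero_le_one
      exact le_add_of_nonneg_of_le (le_max_right _ _)
        (Finset.single_le_sum (fun j _ => hc0 j) (Finset.mem_univ i))

theorem contMDiffAt_symm_of_target {u : OpenPartialHomeomorph R2 M}
    (hu : ContMDiffOn (𝓡 2) 𝓘(ℝ, R2) ∞ u.symm u.target) {x : M} (hx : x ∈ u.target) :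
    ContMDiffAt (𝓡 2) 𝓘(ℝ, R2) ∞ u.symm x :=
  hu.contMDiffAt (u.open_target.mem_nhds hx)

/-- A function is smooth where its expression in the coordinates is. -/
theorem contMDiffAt_of_comp {u : OpenPartialHomeomorph R2 M}
    (hu : ContMDiffOn (𝓡 2) 𝓘(ℝ, R2) ∞ u.symm u.target) {f : M → E} {z : R2}
    (hz : z ∈ u.source) (hf : ContDiffAt ℝ ∞ (fun a => f (u a)) z) :
    ContMDiffAt (𝓡 2) 𝓘(ℝ, E) ∞ f (u z) := by
  have e : u.symm (u z) = z := u.left_inv hz
  refine ((e.symm ▸ hf).comp_contMDiffAt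
    (contMDiffAt_symm_of_target hu (u.map_source hz))).congr_of_eventuallyEq ?_
  filter_upwards [u.open_target.mem_nhds (u.map_source hz)] with y hy
  exact congrArg f (u.right_inv hy).symm

/-- Frame derivatives from coordinate derivatives on a compact set of coordinates. -/
theorem exists_DW_le_transfer (hV : FrameSmooth V) (u : OpenPartialHomeomorph R2 M)
    (hu : ContMDiffOn (𝓡 2) 𝓘(ℝ, R2) ∞ u.symm u.target) {K : Set R2} (hK : IsCompact K)
    (hKs : K ⊆ u.source) (a : ℕ) (C : ℕ → ℝ) :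
    ∃ C' : ℕ → ℝ, (∀ n, 0 ≤ C' n) ∧ ∀ (η : ℝ) (f : M → E) (z : R2), 0 < η → η ≤ 1 → z ∈ K →
      ContDiffAt ℝ ∞ (fun b => f (u b)) z →
      (∀ k, ‖iteratedFDeriv ℝ k (fun b => f (u b)) z‖ ≤ C k * η⁻¹ ^ (a * (k + 1))) →
      ∀ w : List (Fin N), ‖DW V w f (u z)‖ ≤ C' w.length * η⁻¹ ^ (a * (w.length + 1)) := by
  have hKc : IsCompact (u '' K) := hK.image_of_continuousOn (u.continuousOn.mono hKs)
  have hsym : ∀ x ∈ u '' K, ContMDiffAt (𝓡 2) 𝓘(ℝ, R2) ∞ u.symm x := by
    rintro x ⟨z, hz, rfl⟩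
    exact contMDiffAt_symm_of_target hu (u.map_source (hKs hz))
  choose B hB0 hB using fun n => exists_bdOn_of_isCompact hV hKc n hsym
  choose C' hC0 hC using fun n => exists_bdOn_comp_bound N n (B n) fun k => csum C k
  refine ⟨C', hC0, fun η f z h0 h1 hzK hf hb w => ?_⟩
  set n := w.length with hn
  set c : ℝ := η ^ (a * (n + 1)) with hc
  have hzs := hKs hzK
  have e : u.symm (u z) = z := u.left_inv hzs
  have hev : (fun y => c • f y) =ᶠ[𝓝 (u z)] fun y => c • f (u (u.symm y)) := by
    filter_upwards [u.open_target.mem_nhds (u.map_source hzs)] with y hy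
    rw [u.right_inv hy]
  have h := hC n (fun b => c • f (u b)) M V {u z} u.symm hV
    (fun y hy => by rw [mem_singleton_iff.1 hy]; exact hsym _ (mem_image_of_mem _ hzK))
    (fun y hy => by rw [mem_singleton_iff.1 hy, e]; exact hf.const_smul c)
    (fun k hk y hy => by
      rw [mem_singleton_iff.1 hy, e,
        iteratedFDeriv_const_smul_apply' (contDiffAt_infty.1 hf k), norm_smul, hc,
        Real.norm_of_nonneg (by positivity)]
      refine (mul_le_mul_of_nonneg_left (hb k) (by positivity)).trans ?_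
      rw [mul_left_comm]
      refine (mul_le_mul_of_nonneg_right (le_csum C le_rfl) (by positivity)).trans
        (mul_le_of_le_one_right (csum_nonneg C k) ?_)
      have := eta_pow_mul_inv_pow_le h0 h1 (p := a * (n + 1)) (q := a * (k + 1)) (r := 0)
        (Nat.mul_le_mul_left a (by omega))
      rwa [pow_zero] at this)
    (fun v _ hv y hy => by
      have := hB n v hv y (mem_singleton_iff.1 hy ▸ mem_image_of_mem _ hzK)
      rwa [mul_one] at this)
    w le_rfl (u z) rfl
  rw [← DW_congr hev w, DW_const_smul hV c w (contMDiffAt_of_comp hu hzs hf), norm_smul, hc,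
    Real.norm_of_nonneg (by positivity), mul_one] at h
  calc ‖DW V w f (u z)‖
      = η⁻¹ ^ (a * (n + 1)) * (η ^ (a * (n + 1)) * ‖DW V w f (u z)‖) := by
        rw [← mul_assoc, ← mul_pow, inv_mul_cancel₀ h0.ne', one_pow, one_mul]
    _ ≤ η⁻¹ ^ (a * (n + 1)) * C' n := mul_le_mul_of_nonneg_left h (by positivity)
    _ = _ := mul_comm _ _

/-- A function supported in a compact piece of coordinates. -/
theorem exists_polyBd_transfer (hV : FrameSmooth V) (u : OpenPartialHomeomorph R2 M)
    (hu : ContMDiffOn (𝓡 2) 𝓘(ℝ, R2) ∞ u.symm u.target) {K : Set R2} (hK : IsCompact K)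
    (hKs : K ⊆ u.source) (a : ℕ) (C : ℕ → ℝ) :
    ∃ C' : ℕ → ℝ, (∀ n, 0 ≤ C' n) ∧ ∀ (η : ℝ) (f : M → E), 0 < η → η ≤ 1 →
      tsupport f ⊆ u '' K → (∀ z ∈ K, ContDiffAt ℝ ∞ (fun b => f (u b)) z) →
      (∀ k, ∀ z ∈ K, ‖iteratedFDeriv ℝ k (fun b => f (u b)) z‖ ≤ C k * η⁻¹ ^ (a * (k + 1))) →
      PolyBd V η a C' f := by
  obtain ⟨C', hC0, hC⟩ := exists_DW_le_transfer (E := E) hV u hu hK hKs a C
  refine ⟨C', hC0, fun η f h0 h1 hsupp hf hb => polyBd_of_tsupport h0 hC0 fun w x hx => ?_⟩
  obtain ⟨z, hz, rfl⟩ := hsupp hx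
  exact hC η f z h0 h1 hz (hf z hz) (fun k => hb k z hz) w

end

end Vale.Agent.P205.Full.Start
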