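import Vale.Agent.P205.Full.Start.AssembleStmts
import Vale.Agent.P205.Full.Start.ProfileBounds
import Vale.Agent.P205.Full.Start.Transfer
import Vale.Agent.P205.Full.Start.FrameBounds
import Vale.Agent.P205.Full.Start.NormalSmooth

/-!
# P205 full, START A2: the anisotropic section `S_η`

Around each critical point the exact quadratic of the flattened section is replaced by the
anisotropic profile at scale `κ η⁸`. This proves `ModifyProp`.
-/

open scoped Manifold ContDiff RealInnerProductSpace Topology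
open Bundle Filter Set Metric

noncomputable section

namespace Vale.Agent.P205.Full.Start

namespace Mod

variable {M : Type} [TopologicalSpace M] [ChartedSpace R2 M] [IsManifold (𝓡 2) ∞ M]
variable {N : ℕ} {V : Frame M N} {g : Full.Metric M} {G S : M → R3} {p : M}

/-- A multiple of the normal, supported in a coordinate ball. -/
def bump (P : FlatPoint g G S p) (φ : R2 → ℝ) : M → R3 :=
  P.u.target.indicator fun x => φ (P.u.symm x) • P.n

/-- The half radius ball in the coordinates. -/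
def core (P : FlatPoint g G S p) : Set R2 := closedBall 0 (P.R / 2)

/-- A frame vector in the coordinates. -/
def cv (P : FlatPoint g G S p) (V : Frame M N) (i : Fin N) (z : R2) : R2 :=
  D V i (P.u.symm : M → R2) (P.u z)

variable (P : FlatPoint g G S p)

lemma core_subset : core P ⊆ P.u.source := by
  rw [P.source_eq]; exact closedBall_subset_ball (by linarith [P.R_pos])

lemma isCompact_image : IsCompact (P.u '' core P) :=
  (isCompact_closedBall _ _).image_of_continuousOn (P.u.continuousOn.mono (core_subset P))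

lemma smooth_symm_at {x : M} (hx : x ∈ P.u.target) :
    ContMDiffAt (𝓡 2) 𝓘(ℝ, R2) ∞ P.u.symm x :=
  P.smooth_symm.contMDiffAt (P.u.open_target.mem_nhds hx)

lemma symm_apply {z : R2} (hz : z ∈ P.u.source) : P.u.symm (P.u z) = z := P.u.left_inv hz

lemma bump_u (φ : R2 → ℝ) {z : R2} (hz : z ∈ P.u.source) : bump P φ (P.u z) = φ z • P.n := by
  rw [bump, indicator_of_mem (P.u.map_source hz), symm_apply P hz]

lemma bump_target (φ : R2 → ℝ) {x : M} (hx : x ∈ P.u.target) :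
    bump P φ =ᶠ[𝓝 x] fun y => φ (P.u.symm y) • P.n := by
  filter_upwards [P.u.open_target.mem_nhds hx] with y hy
  exact indicator_of_mem hy _

variable {φ : R2 → ℝ}

lemma bump_zero (hz : ∀ z, P.R / 2 ≤ ‖z‖ → φ z = 0) {x : M} (hx : x ∉ P.u '' core P) :
    bump P φ x = 0 := by
  by_cases h : x ∈ P.u.target
  · rw [bump, indicator_of_mem h]
    rw [hz _ (not_lt.1 fun hlt => hx ⟨P.u.symm x, by
      simpa [core] using hlt.le, P.u.right_inv h⟩), zero_smul]
  · exact indicator_of_notMem h _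

lemma nLine_n {z : R2} (hz : z ∈ P.u.source) (c : ℝ) :
    nLine G (P.u z) (c • P.n) = c • P.n := by
  rw [map_smul, P.nLine_eq z hz, real_inner_self_eq_norm_sq, P.norm_n]
  simp

lemma nLine_bump (φ : R2 → ℝ) (x : M) : nLine G x (bump P φ x) = bump P φ x := by
  by_cases h : x ∈ P.u.target
  · have e := bump_u P φ (P.u.map_target h)
    rw [P.u.right_inv h] at e
    rw [e, ← P.u.right_inv h]
    exact nLine_n P (P.u.map_target h) _
  · rw [bump, indicator_of_notMem h, map_zero]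

/-- Derivatives along the frame, read in the coordinates. -/
lemma D_param {E : Type} [NormedAddCommGroup E] [NormedSpace ℝ E] {f : M → E} {h : R2 → E}
    {z : R2} (hz : z ∈ P.u.source) (hf : ∀ᶠ w in 𝓝 z, f (P.u w) = h w)
    (hh : DifferentiableAt ℝ h z) (i : Fin N) :
    D V i f (P.u z) = fderiv ℝ h z (cv P V i z) := by
  have hx := P.u.map_source hz
  have e : f =ᶠ[𝓝 (P.u z)] fun y => h (P.u.symm y) := by
    have hc : ∀ᶠ y in 𝓝 (P.u z), f (P.u (P.u.symm y)) = h (P.u.symm y) :=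
      (P.u.continuousAt_symm hx).eventually (by rw [symm_apply P hz]; exact hf)
    filter_upwards [hc, P.u.open_target.mem_nhds hx] with y hy hy'
    rwa [P.u.right_inv hy'] at hy
  rw [D_congr e, D_comp (by rw [symm_apply P hz]; exact hh)
    (mdiffAt_of_smoothAt (smooth_symm_at P hx)), symm_apply P hz]
  rfl

lemma contDiff_smul_n (hφ : ContDiff ℝ ∞ φ) : ContDiff ℝ ∞ fun z => φ z • P.n :=
  hφ.smul contDiff_const

lemma D_bump (hφ : ContDiff ℝ ∞ φ) {z : R2} (hz : z ∈ P.u.source) (i : Fin N) :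
    D V i (bump P φ) (P.u z) = fderiv ℝ φ z (cv P V i z) • P.n := by
  rw [D_param P hz (eventually_of_mem (P.u.open_source.mem_nhds hz) fun w hw => bump_u P φ hw)
    ((contDiff_smul_n P hφ).differentiable (by simp) z) i,
    fderiv_smul_const (hφ.differentiable (by simp) z)]
  rfl

lemma DD_bump (hV : FrameSmooth V) (hφ : ContDiff ℝ ∞ φ) {z : R2} (hz : z ∈ P.u.source)
    (i k : Fin N) :
    D V i (D V k (bump P φ)) (P.u z) =
      (fderiv ℝ (fderiv ℝ φ) z (cv P V i z) (cv P V k z) +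
        fderiv ℝ φ z (DW V [i, k] (P.u.symm : M → R2) (P.u z))) • P.n := by
  have hx := P.u.map_source hz
  have hs := smooth_symm_at P hx
  have e : D V k (bump P φ) =ᶠ[𝓝 (P.u z)]
      fun y => fderiv ℝ φ (P.u.symm y) (D V k (P.u.symm : M → R2) y) • P.n := by
    filter_upwards [P.u.open_target.mem_nhds hx] with y hy
    have h := D_bump (V := V) P hφ (P.u.map_target hy) k
    rw [cv, P.u.right_inv hy] at h
    exact h
  have hdφ : ContDiff ℝ ∞ (fderiv ℝ φ) := hφ.fderiv_right (by simp)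
  have h1 : MDifferentiableAt (𝓡 2) 𝓘(ℝ, R2 →L[ℝ] ℝ)
      (fun y => fderiv ℝ φ (P.u.symm y)) (P.u z) :=
    mdiffAt_of_smoothAt (hdφ.contDiffAt.comp_contMDiffAt hs)
  have h2 := mdiffAt_of_smoothAt (contMDiffAt_D hV k hs)
  have h3 : MDifferentiableAt (𝓡 2) 𝓘(ℝ, ℝ)
      (fun y => fderiv ℝ φ (P.u.symm y) (D V k (P.u.symm : M → R2) y)) (P.u z) :=
    mdiffAt_of_smoothAt (ContMDiffAt.clm_apply (hdφ.contDiffAt.comp_contMDiffAt hs)
      (contMDiffAt_D hV k hs))
  have h4 := D_clm (V := V) (i := i) ((ContinuousLinearMap.id ℝ ℝ).smulRight P.n) h3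
  simp only [ContinuousLinearMap.smulRight_apply, ContinuousLinearMap.id_apply] at h4
  rw [D_congr e, h4]
  have h5 := D_bilin (V := V) (i := i) (ContinuousLinearMap.id ℝ (R2 →L[ℝ] ℝ)) h1 h2
  simp only [ContinuousLinearMap.id_apply] at h5
  rw [h5, D_comp (hdφ.differentiable (by simp) _) (mdiffAt_of_smoothAt hs), symm_apply P hz]
  rfl

lemma sum_cv_bound {B : ℝ} (hB : BdOn V (P.u '' core P) 2 B (fun _ => 1) (P.u.symm : M → R2))
    {z : R2} (hz : z ∈ core P) (i k : Fin N) :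
    ‖cv P V i z‖ ≤ B ∧ ‖DW V [i, k] (P.u.symm : M → R2) (P.u z)‖ ≤ B := by
  have h1 := hB [i] (by simp) (P.u z) (mem_image_of_mem _ hz)
  have h2 := hB [i, k] (by simp) (P.u z) (mem_image_of_mem _ hz)
  rw [mul_one] at h1 h2
  exact ⟨h1, h2⟩

section Compact

variable [T2Space M]

lemma isClosed_image : IsClosed (P.u '' core P) := (isCompact_image P).isClosed

lemma bump_eventually_zero (hz : ∀ z, P.R / 2 ≤ ‖z‖ → φ z = 0) {x : M}
    (hx : x ∉ P.u '' core P) : bump P φ =ᶠ[𝓝 x] fun _ => 0 := by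
  filter_upwards [(isClosed_image P).isOpen_compl.mem_nhds hx] with y hy
  exact bump_zero P hz hy

lemma tsupport_bump (hz : ∀ z, P.R / 2 ≤ ‖z‖ → φ z = 0) :
    tsupport (bump P φ) ⊆ P.u '' core P :=
  closure_minimal (fun x hx => by_contra fun h => hx (bump_zero P hz h)) (isClosed_image P)

lemma smooth_bump (hφ : ContDiff ℝ ∞ φ) (hz : ∀ z, P.R / 2 ≤ ‖z‖ → φ z = 0) :
    ContMDiff (𝓡 2) 𝓘(ℝ, R3) ∞ (bump P φ) := by
  intro x
  by_cases h : x ∈ P.u.target
  · exact ((contDiff_smul_n P hφ).contDiffAt.comp_contMDiffAt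
      (smooth_symm_at P h)).congr_of_eventuallyEq (bump_target P φ h)
  · have hx : x ∉ P.u '' core P := fun ⟨z, hzc, e⟩ => h (e ▸ P.u.map_source (core_subset P hzc))
    exact contMDiffAt_const.congr_of_eventuallyEq (bump_eventually_zero P hz hx)

lemma nLine_D_bump (hφ : ContDiff ℝ ∞ φ) (hz : ∀ z, P.R / 2 ≤ ‖z‖ → φ z = 0) (i : Fin N)
    (x : M) : nLine G x (D V i (bump P φ) x) = D V i (bump P φ) x := by
  by_cases h : x ∈ P.u.target
  · have e := D_bump (V := V) P hφ (P.u.map_target h) i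
    rw [P.u.right_inv h] at e
    rw [e, ← P.u.right_inv h]
    exact nLine_n P (P.u.map_target h) _
  · have hx : x ∉ P.u '' core P := fun ⟨z, hzc, e⟩ => h (e ▸ P.u.map_source (core_subset P hzc))
    rw [D_congr (bump_eventually_zero P hz hx), D_const, map_zero]

/-- Sup bounds of a bump and of its first two frame derivatives. -/
lemma bump_bounds (hV : FrameSmooth V) (hφ : ContDiff ℝ ∞ φ)
    (hz : ∀ z, P.R / 2 ≤ ‖z‖ → φ z = 0) {B e₀ e₁ e₂ : ℝ} (hB0 : 0 ≤ B)
    (hB : BdOn V (P.u '' core P) 2 B (fun _ => 1) (P.u.symm : M → R2))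
    (h₀ : ∀ z, |φ z| ≤ e₀) (h₁ : ∀ z, ‖fderiv ℝ φ z‖ ≤ e₁)
    (h₂ : ∀ z, ‖fderiv ℝ (fderiv ℝ φ) z‖ ≤ e₂) :
    (∀ x, ‖bump P φ x‖ ≤ e₀) ∧ (∀ i x, ‖D V i (bump P φ) x‖ ≤ e₁ * B) ∧
      ∀ i k x, ‖D V i (D V k (bump P φ)) x‖ ≤ e₂ * B * B + e₁ * B := by
  have p₀ : 0 ≤ e₀ := (abs_nonneg _).trans (h₀ 0)
  have p₁ : 0 ≤ e₁ := (norm_nonneg _).trans (h₁ 0)
  have p₂ : 0 ≤ e₂ := le_trans (norm_nonneg (fderiv ℝ (fderiv ℝ φ) 0) :) (h₂ 0)
  refine ⟨fun x => ?_, fun i x => ?_, fun i k x => ?_⟩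
  all_goals
    by_cases hx : x ∈ P.u '' core P
  · obtain ⟨z, hzc, rfl⟩ := hx
    rw [bump_u P φ (core_subset P hzc), norm_smul, P.norm_n, mul_one, Real.norm_eq_abs]
    exact h₀ z
  · rw [bump_zero P hz hx, norm_zero]; exact p₀
  · obtain ⟨z, hzc, rfl⟩ := hx
    rw [D_bump P hφ (core_subset P hzc), norm_smul, P.norm_n, mul_one]
    exact (ContinuousLinearMap.le_opNorm _ _).trans
      (mul_le_mul (h₁ z) (sum_cv_bound P hB hzc i i).1 (norm_nonneg _) p₁)
  · rw [D_congr (bump_eventually_zero P hz hx), D_const, norm_zero]; positivity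
  · obtain ⟨z, hzc, rfl⟩ := hx
    rw [DD_bump P hV hφ (core_subset P hzc), norm_smul, P.norm_n, mul_one]
    refine (norm_add_le _ _).trans (add_le_add ?_ ?_)
    · exact (ContinuousLinearMap.le_opNorm _ _).trans (mul_le_mul
        ((ContinuousLinearMap.le_opNorm _ _).trans
          (mul_le_mul (h₂ z) (sum_cv_bound P hB hzc i i).1 (norm_nonneg _) p₂))
        (sum_cv_bound P hB hzc k k).1 (norm_nonneg _) (by positivity))
    · exact (ContinuousLinearMap.le_opNorm _ _).trans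
        (mul_le_mul (h₁ z) (sum_cv_bound P hB hzc i k).2 (norm_nonneg _) p₁)
  · rw [D_congr (D_congr_eventually (V := V) (i := k) (bump_eventually_zero P hz hx)),
      show D V k (fun _ : M => (0 : R3)) = fun _ => 0 from funext fun y => D_const 0, D_const,
      norm_zero]
    positivity

variable [CompactSpace M]

/-- A linear form is controlled by its values on the frame read in the coordinates. -/
lemma exists_form_bound (hV : FrameSmooth V) (hs : FrameSpans V) :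
    ∃ C : ℝ, 0 ≤ C ∧ ∀ z ∈ core P, ∀ L : R2 →L[ℝ] ℝ,
      ‖L‖ ^ 2 ≤ C * ∑ i, L (cv P V i z) ^ 2 := by
  obtain ⟨Cm, hCm, hcoef, -, -, -⟩ := exists_metric_bounds g hV hs
  choose b hb using fun j : Fin 2 => (isCompact_closedBall (0 : R2) (P.R / 2)).exists_bound_of_continuousOn
    (((contDiffOn_gPull g P.u.open_source P.smooth_u (eb j) (eb j)).continuousOn).mono
      (core_subset P))
  set Bg := |b 0| + |b 1| with hBg
  refine ⟨(2 * Cm * Real.sqrt Bg) ^ 2, sq_nonneg _, fun z hz L => ?_⟩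
  have hzs := core_subset P hz
  set Q := ∑ i, L (cv P V i z) ^ 2 with hQ
  have key : ∀ j : Fin 2, |L (eb j)| ≤ Cm * Real.sqrt Bg * Real.sqrt Q := by
    intro j
    obtain ⟨c, hc, hcs⟩ := hcoef (P.u z) (mfderiv (𝓡 2) (𝓡 2) P.u z (eb j))
    set T : TangentSpace (𝓡 2) (P.u z) →L[ℝ] R2 := mfderiv (𝓡 2) 𝓘(ℝ, R2) P.u.symm (P.u z)
    have hid : T (mfderiv (𝓡 2) (𝓡 2) P.u z (eb j)) = eb j := by
      have h1 := mfderiv_comp (I := 𝓡 2) (I' := 𝓡 2) (I'' := 𝓘(ℝ, R2)) z
        (mdiffAt_of_smoothAt (smooth_symm_at P (P.u.map_source hzs)))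
        ((P.smooth_u.contMDiffAt (P.u.open_source.mem_nhds hzs)).mdifferentiableAt (by simp))
      have h2 : ((P.u.symm : M → R2) ∘ (P.u : R2 → M)) =ᶠ[𝓝 z] id :=
        P.u.eventually_left_inverse hzs
      rw [h2.mfderiv_eq, mfderiv_id] at h1
      exact (DFunLike.congr_fun h1 (eb j)).symm
    have e : L (eb j) = ∑ i, c i * L (cv P V i z) := by
      rw [← hid, hc, map_sum, map_sum]
      refine Finset.sum_congr rfl fun i _ => ?_
      rw [map_smul, map_smul, smul_eq_mul]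
      rfl
    have hg : Real.sqrt (g.inner (P.u z) (mfderiv (𝓡 2) (𝓡 2) P.u z (eb j))
        (mfderiv (𝓡 2) (𝓡 2) P.u z (eb j))) ≤ Real.sqrt Bg := by
      refine Real.sqrt_le_sqrt (((le_abs_self _).trans (hb j z hz)).trans ?_)
      refine (le_abs_self _).trans ?_
      fin_cases j <;> simp [hBg]
    rw [e]
    refine (Finset.abs_sum_le_sum_abs _ _).trans ?_
    calc ∑ i, |c i * L (cv P V i z)| ≤ ∑ i, |c i| * Real.sqrt Q := Finset.sum_le_sum fun i _ => by
          rw [abs_mul]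
          refine mul_le_mul_of_nonneg_left ?_ (abs_nonneg _)
          rw [← Real.sqrt_sq_eq_abs]
          exact Real.sqrt_le_sqrt (Finset.single_le_sum (f := fun i => L (cv P V i z) ^ 2)
            (fun i _ => sq_nonneg _) (Finset.mem_univ i))
      _ = (∑ i, |c i|) * Real.sqrt Q := (Finset.sum_mul _ _ _).symm
      _ ≤ _ := mul_le_mul_of_nonneg_right
          (hcs.trans (mul_le_mul_of_nonneg_left hg (by linarith))) (Real.sqrt_nonneg _)
  have hL : ‖L‖ ≤ 2 * Cm * Real.sqrt Bg * Real.sqrt Q := by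
    refine ContinuousLinearMap.opNorm_le_bound _ (by positivity) fun v => ?_
    rw [sum_eb v, map_add, map_smul, map_smul, ← sum_eb v, Real.norm_eq_abs, smul_eq_mul,
      smul_eq_mul]
    refine (abs_add_le _ _).trans ?_
    rw [abs_mul, abs_mul]
    have h0 := mul_le_mul (abs_px v) (key 0) (abs_nonneg _) (norm_nonneg v)
    have h1 := mul_le_mul (abs_py v) (key 1) (abs_nonneg _) (norm_nonneg v)
    linarith
  have h := pow_le_pow_left₀ (norm_nonneg L) hL 2
  rw [mul_pow _ (Real.sqrt Q), Real.sq_sqrt (Finset.sum_nonneg fun i _ => sq_nonneg _)] at h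
  exact h

end Compact

/-- The change of the section around one point, at scale `κ η⁸`. -/
def phiOf (κ η : ℝ) : R2 → ℝ := fun w =>
  profile P.a P.b (sgn P.a * η⁻¹ ^ 8) (sgn P.b * η ^ 8) (P.R / 2) (κ * η ^ 8) w - quad P.a P.b w

lemma smooth_phiOf (κ η : ℝ) : ContDiff ℝ ∞ (phiOf P κ η) :=
  (profile_smooth _ _ _ _ _ _).sub (quad_smooth _ _)

lemma phiOf_zero (κ η : ℝ) (z : R2) (hz : P.R / 2 ≤ ‖z‖) : phiOf P κ η z = 0 := by
  rw [phiOf, profile_outer (by linarith [P.R_pos]) hz, sub_self]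

lemma size_le {η : ℝ} (h0 : 0 < η) (h1 : η ≤ 1) :
    |P.a| + |P.b| + |sgn P.a * η⁻¹ ^ 8| + |sgn P.b * η ^ 8| ≤
      (|P.a| + |P.b| + 2) * η⁻¹ ^ 8 := by
  have h2 : (1 : ℝ) ≤ η⁻¹ ^ 8 := one_le_pow₀ ((one_le_inv₀ h0).2 h1)
  have h3 : η ^ 8 ≤ 1 := pow_le_one₀ h0.le h1
  rw [abs_mul, abs_mul, abs_sgn, abs_sgn, one_mul, one_mul, abs_of_pos (pow_pos h0 8),
    abs_of_pos (pow_pos (inv_pos.2 h0) 8)]
  nlinarith [mul_nonneg (add_nonneg (abs_nonneg P.a) (abs_nonneg P.b)) (sub_nonneg.2 h2)]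

/-- Derivatives of the change in the coordinates. -/
lemma exists_phi_bd : ∃ C : ℕ → ℝ, (∀ k, 0 ≤ C k) ∧ ∀ κ η : ℝ, 0 < κ → κ ≤ 1 → 0 < η → η ≤ 1 →
    ∀ k z, ‖iteratedFDeriv ℝ k (phiOf P κ η) z‖ ≤
      C k * η⁻¹ ^ 8 * ((κ * η ^ 8) ^ 2 * (κ * η ^ 8)⁻¹ ^ k) := by
  obtain ⟨C, hC0, hC⟩ := exists_profile_bd (r := P.R / 2) (by linarith [P.R_pos])
  refine ⟨fun k => C k * (|P.a| + |P.b| + 2), fun k => mul_nonneg (hC0 k) (by positivity),
    fun κ η hκ hκ1 h0 h1 k z => ?_⟩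
  refine (hC P.a P.b (sgn P.a * η⁻¹ ^ 8) (sgn P.b * η ^ 8) (κ * η ^ 8) (by positivity)
    (mul_le_one₀ hκ1 (by positivity) (pow_le_one₀ h0.le h1)) k z).trans ?_
  have := mul_le_mul_of_nonneg_left (size_le P h0 h1) (hC0 k)
  rw [mul_assoc _ ((κ * η ^ 8) ^ 2)]
  exact (mul_le_mul_of_nonneg_right this (by positivity)).trans_eq (by ring)

/-- The polynomial bound of the change in the coordinates. -/
lemma phi_poly {C : ℕ → ℝ} (hC0 : ∀ k, 0 ≤ C k) {κ η : ℝ} (hκ : 0 < κ) (hκ1 : κ ≤ 1)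
    (h0 : 0 < η) (h1 : η ≤ 1) (k : ℕ) :
    C k * η⁻¹ ^ 8 * ((κ * η ^ 8) ^ 2 * (κ * η ^ 8)⁻¹ ^ k) ≤
      C k * κ⁻¹ ^ k * η⁻¹ ^ (8 * (k + 1)) := by
  have h2 : (κ * η ^ 8) ^ 2 ≤ 1 := pow_le_one₀ (by positivity)
    (mul_le_one₀ hκ1 (by positivity) (pow_le_one₀ h0.le h1))
  have h3 : (κ * η ^ 8)⁻¹ ^ k = κ⁻¹ ^ k * η⁻¹ ^ (8 * k) := by
    rw [mul_inv, mul_pow, ← inv_pow, ← pow_mul]
  rw [h3, Nat.mul_succ, pow_add]
  have : 0 ≤ C k * η⁻¹ ^ 8 * (κ⁻¹ ^ k * η⁻¹ ^ (8 * k)) :=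
    mul_nonneg (mul_nonneg (hC0 k) (by positivity)) (by positivity)
  nlinarith [mul_le_mul_of_nonneg_right h2 this]

lemma norm_iter_bump {κ η : ℝ} {k : ℕ} {z : R2} (hz : z ∈ P.u.source) :
    ‖iteratedFDeriv ℝ k (fun b => bump P (phiOf P κ η) (P.u b)) z‖ ≤
      ‖iteratedFDeriv ℝ k (phiOf P κ η) z‖ := by
  set T : ℝ →L[ℝ] R3 := (ContinuousLinearMap.id ℝ ℝ).smulRight P.n
  have e : (fun b => bump P (phiOf P κ η) (P.u b)) =ᶠ[𝓝 z] (T ∘ phiOf P κ η) :=
    eventually_of_mem (P.u.open_source.mem_nhds hz) fun w hw => by simp [T, bump_u P _ hw]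
  rw [(e.iteratedFDeriv ℝ k).eq_of_nhds,
    T.iteratedFDeriv_comp_left (smooth_phiOf P κ η).contDiffAt (by exact_mod_cast le_top)]
  refine (ContinuousLinearMap.norm_compContinuousMultilinearMap_le _ _).trans ?_
  refine mul_le_of_le_one_left (norm_nonneg _) (ContinuousLinearMap.opNorm_le_bound _ zero_le_one
    fun t => ?_)
  simp [T, norm_smul, P.norm_n]

end Mod

open Vale.Agent.P205.Full.Start.Mod in
/-- The anisotropic section exists. -/
theorem modify : ModifyProp := by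
  intro M _ _ _ _ _ g N V G S Z P hV hspan hG hS hcrit hdisj ε hε
  classical
  set Q : (q : {p // p ∈ Z}) → FlatPoint g G S q.1 := fun q => P q.1 q.2 with hQdef
  obtain ⟨Cm, hCm, hcoef, -, -, -⟩ := exists_metric_bounds g hV hspan
  choose Cphi hCphi0 hCphi using fun q => exists_phi_bd (Q q)
  have hB := fun q => exists_bdOn_of_isCompact hV (isCompact_image (Q q)) 2
    (f := ((Q q).u.symm : M → R2)) (by
      rintro x ⟨z, hz, rfl⟩
      exact smooth_symm_at (Q q) ((Q q).u.map_source (core_subset (Q q) hz)))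
  choose B hB0 hB using hB
  choose CL hCL0 hCL using fun q => exists_form_bound (Q q) hV hspan
  obtain ⟨Cl, hCl, hlower⟩ := exists_profile_lower
  -- the slope of the change
  set Λ : ℝ := ∑ q : {p // p ∈ Z}, Cphi q 1 * B q with hΛ
  have hΛ0 : 0 ≤ Λ := Finset.sum_nonneg fun q _ => mul_nonneg (hCphi0 q 1) (hB0 q)
  refine ⟨min 1 (ε / (Cm * Λ + 1)), by positivity, fun κ hκ hκle => ?_⟩
  have hκ1 : κ ≤ 1 := hκle.trans (min_le_left _ _)
  have hκε : κ * (Cm * Λ + 1) ≤ ε :=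
    (le_div_iff₀ (by positivity)).1 (hκle.trans (min_le_right _ _))
  -- constants of the section
  have hdS : ∀ k, ContMDiff (𝓡 2) 𝓘(ℝ, R3) ∞ (dSec G V S k) := fun k =>
    (Sect.contMDiff_nLine hG).clm_apply (contMDiff_D hV k hS.1)
  obtain ⟨CS, hCS0, hCS⟩ := exists_polyBd_of_contMDiff hV hS.1
  choose H hH using fun q : Fin N × Fin N => isCompact_univ.exists_bound_of_continuousOn
    (contMDiff_D hV q.1 (hdS q.2)).continuous.continuousOn
  -- the lower bound away from the points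
  set U : Set M := (⋃ q : {p // p ∈ Z}, (Q q).u '' ball 0 ((Q q).R / 2))ᶜ with hU
  have hUc : IsCompact U := (isOpen_iUnion fun q =>
    (Q q).u.isOpen_image_of_subset_source isOpen_ball
      (ball_subset_closedBall.trans (core_subset (Q q)))).isClosed_compl.isCompact
  have hqc : Continuous (qS G V S) := continuous_finsetSum _ fun i _ =>
    ((hdS i).continuous.inner (hdS i).continuous)
  have hqpos : ∀ x ∈ U, 0 < qS G V S x := by
    intro x hx
    have hnn : ∀ i ∈ (Finset.univ : Finset (Fin N)), 0 ≤ dSecSq G V S i i x := fun i _ =>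
      real_inner_self_nonneg
    refine lt_of_le_of_ne (Finset.sum_nonneg hnn) fun h => ?_
    have hc : IsCrit G V S x := fun i => inner_self_eq_zero.1
      ((Finset.sum_eq_zero_iff_of_nonneg hnn).1 h.symm i (Finset.mem_univ i))
    exact hx (mem_iUnion.2 ⟨⟨x, (hcrit x).1 hc⟩, 0,
      mem_ball_self (by linarith [(Q ⟨x, (hcrit x).1 hc⟩).R_pos]), (Q _).u_zero⟩)
  obtain ⟨cU, hcU, hcUle⟩ : ∃ c : ℝ, 0 < c ∧ ∀ x ∈ U, c ≤ qS G V S x := by
    rcases U.eq_empty_or_nonempty with he | hne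
    · exact ⟨1, one_pos, fun x hx => by simp [he] at hx⟩
    · obtain ⟨x₀, hx₀, hmin⟩ := hUc.exists_isMinOn hne hqc.continuousOn
      exact ⟨_, hqpos x₀ hx₀, fun x hx => hmin hx⟩
  -- polynomial constants
  choose CT hCT0 hCT using fun q => exists_polyBd_transfer (E := R3) hV (Q q).u
    (Q q).smooth_symm (isCompact_closedBall (0 : R2) ((Q q).R / 2)) (core_subset (Q q)) 8
    (fun k => Cphi q k * κ⁻¹ ^ k)
  set C : ℕ → ℝ := fun n => CS n + ∑ q : {p // p ∈ Z}, CT q n with hC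
  set C₀ : ℝ := CS 0 + (∑ q : {p // p ∈ Z}, Cphi q 0) + (∑ q, |H q|) +
    (∑ q : {p // p ∈ Z}, (Cphi q 2 * B q * B q + Cphi q 1 * B q)) +
    (∑ q : {p // p ∈ Z}, 16 * CL q) + cU⁻¹ with hC₀
  have a1 : 0 ≤ ∑ q : {p // p ∈ Z}, Cphi q 0 := Finset.sum_nonneg fun q _ => hCphi0 q 0
  have a2 : 0 ≤ ∑ q, |H q| := Finset.sum_nonneg fun q _ => abs_nonneg _
  have a3 : 0 ≤ ∑ q : {p // p ∈ Z}, (Cphi q 2 * B q * B q + Cphi q 1 * B q) :=
    Finset.sum_nonneg fun q _ => add_nonneg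
      (mul_nonneg (mul_nonneg (hCphi0 q 2) (hB0 q)) (hB0 q)) (mul_nonneg (hCphi0 q 1) (hB0 q))
  have a4 : 0 ≤ ∑ q : {p // p ∈ Z}, 16 * CL q :=
    Finset.sum_nonneg fun q _ => mul_nonneg (by norm_num) (hCL0 q)
  have a5 : 0 ≤ CS 0 := hCS0 0
  have a6 : 0 < cU⁻¹ := inv_pos.2 hcU
  -- small parameters
  have hev : ∀ᶠ η in 𝓝 (0 : ℝ), η < 1 ∧ ∀ q : {p // p ∈ Z},
      16 * (κ * η ^ 8) < (Q q).R / 2 ∧ η ^ 8 < |(Q q).a| ∧ η ^ 8 < |(Q q).b| ∧
      Cl * κ ^ 2 * η ^ 8 * (|(Q q).a| + |(Q q).b| + 2) <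
        min |(Q q).a| |(Q q).b| * ((Q q).R / 2) ^ 2 := by
    refine ((tendsto_order.1 tendsto_id).2 _ one_pos).and (eventually_all.2 fun q => ?_)
    have hc : ∀ {f : ℝ → ℝ} {t : ℝ}, Continuous f → f 0 = 0 → 0 < t →
        ∀ᶠ η in 𝓝 (0 : ℝ), f η < t := by
      intro f t hf h0 ht
      exact hf.continuousAt.eventually (Iio_mem_nhds (by rw [h0]; exact ht))
    refine (hc (by fun_prop) (by simp) (by linarith [(Q q).R_pos])).and
      ((hc (by fun_prop) (by simp) (abs_pos.2 (Q q).a_ne)).and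
      ((hc (by fun_prop) (by simp) (abs_pos.2 (Q q).b_ne)).and
      (hc (by fun_prop) (by simp) ?_)))
    exact mul_pos (lt_min (abs_pos.2 (Q q).a_ne) (abs_pos.2 (Q q).b_ne))
      (pow_pos (by linarith [(Q q).R_pos]) 2)
  obtain ⟨δ, hδ, hδev⟩ := Metric.eventually_nhds_iff.1 hev
  refine ⟨8, C₀, C, min 1 (δ / 2), by positivity, min_le_left _ _, fun η h0 hηle => ?_⟩
  have h1 : η ≤ 1 := hηle.trans (min_le_left _ _)
  obtain ⟨-, hsm⟩ := hδev (show dist η 0 < δ by
    rw [Real.dist_eq, sub_zero, abs_of_pos h0]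
    exact lt_of_le_of_lt (hηle.trans (min_le_right _ _)) (by linarith))
  have he : (1 : ℝ) ≤ η⁻¹ ^ 8 := one_le_pow₀ (one_le_inv_eta h0 h1)
  set f : {p // p ∈ Z} → M → R3 := fun q => bump (Q q) (phiOf (Q q) κ η) with hf
  have hfs : ∀ q, ContMDiff (𝓡 2) 𝓘(ℝ, R3) ∞ (f q) := fun q =>
    smooth_bump (Q q) (smooth_phiOf _ _ _) (phiOf_zero _ _ _)
  set S' : M → R3 := fun x => S x + ∑ q, f q x with hS'
  have hsum : ContMDiff (𝓡 2) 𝓘(ℝ, R3) ∞ fun x => ∑ q, f q x :=
    contMDiff_finsetSum fun q _ => hfs q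
  have hbd : ∀ q, (∀ x, ‖f q x‖ ≤ Cphi q 0) ∧ (∀ i x, ‖D V i (f q) x‖ ≤ Cphi q 1 * κ * B q) ∧
      ∀ i k x, ‖D V i (D V k (f q)) x‖ ≤
        Cphi q 2 * η⁻¹ ^ 8 * B q * B q + Cphi q 1 * κ * B q := fun q => by
    refine bump_bounds (Q q) hV (smooth_phiOf _ _ _) (phiOf_zero _ _ _) (hB0 q) (hB q)
      (fun z => ?_) (fun z => ?_) (fun z => ?_)
    · have h := hCphi q κ η hκ hκ1 h0 h1 0 z
      rw [norm_iteratedFDeriv_zero, Real.norm_eq_abs] at h
      refine h.trans (le_of_eq_of_le (by rw [pow_zero, mul_one, mul_assoc])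
        (mul_le_of_le_one_right (hCphi0 q 0) ?_))
      have : η⁻¹ ^ 8 * (κ * η ^ 8) ^ 2 = κ ^ 2 * η ^ 8 := by field_simp
      rw [this]
      exact mul_le_one₀ (pow_le_one₀ hκ.le hκ1) (by positivity) (pow_le_one₀ h0.le h1)
    · have h := hCphi q κ η hκ hκ1 h0 h1 1 z
      rw [norm_iteratedFDeriv_one] at h
      exact h.trans_eq (by field_simp)
    · have h := hCphi q κ η hκ hκ1 h0 h1 2 z
      rw [← norm_iteratedFDeriv_fderiv, norm_iteratedFDeriv_one] at h
      exact h.trans_eq (by field_simp)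
  have hDS' : ∀ i, D V i S' = fun x => D V i S x + ∑ q, D V i (f q) x := fun i => funext fun x => by
    rw [hS', D_add (hS.1.mdifferentiable (by simp) x) (hsum.mdifferentiable (by simp) x),
      D_sum _ fun q _ => (hfs q).mdifferentiable (by simp) x]
  have hdSec : ∀ k, dSec G V S' k = fun x => dSec G V S k x + ∑ q, D V k (f q) x := fun k =>
    funext fun x => by
      show nLine G x (D V k S' x) = _
      rw [hDS' k, map_add, map_sum]
      exact congrArg (dSec G V S k x + ·) (Finset.sum_congr rfl fun q _ =>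
        nLine_D_bump (Q q) (smooth_phiOf _ _ _) (phiOf_zero _ _ _) k x)
  -- the section in the coordinates of a point
  have hloc : ∀ q : {p // p ∈ Z}, ∀ z ∈ (Q q).u.source,
      S' ((Q q).u z) = ((Q q).c₀ + profile (Q q).a (Q q).b (sgn (Q q).a * η⁻¹ ^ 8)
        (sgn (Q q).b * η ^ 8) ((Q q).R / 2) (κ * η ^ 8) z) • (Q q).n := by
    intro q z hz
    simp only [hS', hf]
    rw [(Q q).sec_eq z hz, Finset.sum_eq_single q (fun q' _ hq' => ?_) (by simp), bump_u _ _ hz,
      ← add_smul, phiOf, add_assoc, add_sub_cancel]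
    exact indicator_of_notMem (disjoint_right.1 (hdisj q'.1 q'.2 q.1 q.2
      fun e => hq' (Subtype.ext e)) ((Q q).u.map_source hz)) _
  refine ⟨S', ⟨⟨hS.1.add hsum, fun x => ?_⟩, ?_, fun x => ?_, fun p hp => ?_, fun x v => ?_,
    fun i k x => ?_, fun p hp z hz => ?_, fun x hx => ?_⟩⟩
  · simp only [hS', map_add, map_sum, hS.2 x]
    exact congrArg (S x + ·) (Finset.sum_congr rfl fun q _ => nLine_bump _ _ x)
  · -- polynomial bounds
    refine PolyBd.add hV hS.1 hsum ?_ ?_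
    · exact (hCS η).mono h0 h1 (Nat.zero_le 8) (fun _ => le_rfl) hCS0
    · refine PolyBd.sum hV _ (fun q _ => hfs q) fun q _ => ?_
      refine hCT q η (f q) h0 h1 (tsupport_bump _ (phiOf_zero _ _ _)) (fun z hz => ?_)
        fun k z hz => ?_
      · exact contMDiffAt_iff_contDiffAt.1 ((hfs q _).comp z
          ((Q q).smooth_u.contMDiffAt ((Q q).u.open_source.mem_nhds (core_subset (Q q) hz))))
      · exact (norm_iter_bump (Q q) (core_subset (Q q) hz)).trans
          ((hCphi q κ η hκ hκ1 h0 h1 k z).trans (phi_poly (hCphi0 q) hκ hκ1 h0 h1 k))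
  · have h := (hCS η).sup_le x
    rw [pow_zero, mul_one] at h
    have h2 : ‖∑ q, f q x‖ ≤ ∑ q : {p // p ∈ Z}, Cphi q 0 :=
      (norm_sum_le _ _).trans (Finset.sum_le_sum fun q _ => (hbd q).1 x)
    refine (norm_add_le _ _).trans ?_
    rw [hC₀]; linarith
  · refine ⟨(P p hp).c₀ + (κ * η ^ 8) ^ 2 * bigW 0 * ((sgn (P p hp).a * η⁻¹ ^ 8 - (P p hp).a) +
      (sgn (P p hp).b * η ^ 8 - (P p hp).b)), fun z hz hzn => ?_⟩
    have hρ : 0 < κ * η ^ 8 := by positivity
    have hR : 16 * (κ * η ^ 8) < (P p hp).R / 2 := (hsm ⟨p, hp⟩).1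
    refine (hloc ⟨p, hp⟩ z hz).trans ?_
    rw [profile_inner (by linarith [(Q ⟨p, hp⟩).R_pos]) hρ (by linarith)
      (by linarith [abs_px z]) (by linarith [abs_py z])]
    congr 1
    ring
  · obtain ⟨c, hc, hcs⟩ := hcoef x v
    have e1 : ∀ h : M → R3, (mfderiv (𝓡 2) 𝓘(ℝ, R3) h x v : R3) = ∑ i, c i • D V i h x :=
      fun h => by
        conv_lhs => rw [hc]
        rw [map_sum]
        exact Finset.sum_congr rfl fun i _ => map_smul _ _ _
    rw [e1 S', e1 S, map_sum, map_sum]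
    have e2 : ∀ i, nLine G x (c i • D V i S' x) =
        nLine G x (c i • D V i S x) + c i • ∑ q, D V i (f q) x := fun i => by
      rw [map_smul, map_smul, ← smul_add]
      exact congrArg (c i • ·) (congrFun (hdSec i) x)
    simp only [e2, Finset.sum_add_distrib]
    refine (norm_add_le _ _).trans (add_le_add_right ?_ _)
    calc ‖∑ i, c i • ∑ q, D V i (f q) x‖ ≤ ∑ i, |c i| * (κ * Λ) := by
          refine (norm_sum_le _ _).trans (Finset.sum_le_sum fun i _ => ?_)
          rw [norm_smul, Real.norm_eq_abs]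
          refine mul_le_mul_of_nonneg_left ((norm_sum_le _ _).trans ?_) (abs_nonneg _)
          rw [hΛ, Finset.mul_sum]
          exact Finset.sum_le_sum fun q _ => ((hbd q).2.1 i x).trans_eq (by ring)
      _ = (∑ i, |c i|) * (κ * Λ) := (Finset.sum_mul _ _ _).symm
      _ ≤ Cm * Real.sqrt (g.inner x v v) * (κ * Λ) :=
          mul_le_mul_of_nonneg_right hcs (by positivity)
      _ ≤ ε * Real.sqrt (g.inner x v v) := by
          have h : κ * (Cm * Λ) ≤ ε := by linarith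
          nlinarith [mul_le_mul_of_nonneg_right h (Real.sqrt_nonneg (g.inner x v v))]
  · rw [hdSec k, D_add ((hdS k).mdifferentiable (by simp) x)
      (mdiffAt_sum _ fun q _ => (contMDiff_D hV k (hfs q)).mdifferentiable (by simp) x),
      D_sum _ fun q _ => (contMDiff_D hV k (hfs q)).mdifferentiable (by simp) x]
    have hh : ‖D V i (dSec G V S k) x‖ ≤ ∑ q, |H q| := (hH (i, k) x (mem_univ x)).trans
      ((le_abs_self _).trans (Finset.single_le_sum (f := fun q => |H q|)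
        (fun q _ => abs_nonneg _) (Finset.mem_univ (i, k))))
    have h2 : ‖∑ q, D V i (D V k (f q)) x‖ ≤
        (∑ q : {p // p ∈ Z}, (Cphi q 2 * B q * B q + Cphi q 1 * B q)) * η⁻¹ ^ 8 := by
      rw [Finset.sum_mul]
      refine (norm_sum_le _ _).trans (Finset.sum_le_sum fun q _ => ((hbd q).2.2 i k x).trans ?_)
      have h3 : Cphi q 1 * κ * B q ≤ Cphi q 1 * B q * η⁻¹ ^ 8 :=
        (mul_le_mul_of_nonneg_right (mul_le_of_le_one_right (hCphi0 q 1) hκ1) (hB0 q)).trans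
          (le_mul_of_one_le_right (mul_nonneg (hCphi0 q 1) (hB0 q)) he)
      linarith
    refine (norm_add_le _ _).trans ?_
    rw [hC₀]
    nlinarith
  · -- lower bound in the balls
    set q : {p // p ∈ Z} := ⟨p, hp⟩
    have hzc : z ∈ core (Q q) := by simpa [core] using hz
    have hzs := core_subset (Q q) hzc
    set ψ := profile (Q q).a (Q q).b (sgn (Q q).a * η⁻¹ ^ 8) (sgn (Q q).b * η ^ 8)
      ((Q q).R / 2) (κ * η ^ 8)
    set L := fderiv ℝ ψ z
    have hd : ∀ k, dSec G V S' k ((Q q).u z) = L (cv (Q q) V k z) • (Q q).n := fun k => by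
      have hψ : DifferentiableAt ℝ ψ z := (profile_smooth _ _ _ _ _ _).differentiable (by simp) z
      show nLine G _ (D V k S' ((Q q).u z)) = _
      rw [D_param (Q q) hzs (eventually_of_mem ((Q q).u.open_source.mem_nhds hzs)
        fun w hw => hloc q w hw) ((hψ.const_add _).smul_const _) k,
        fderiv_smul_const (hψ.const_add _), fderiv_const_add]
      exact nLine_n (Q q) hzs _
    have hqS : qS G V S' ((Q q).u z) = ∑ k, L (cv (Q q) V k z) ^ 2 :=
      Finset.sum_congr rfl fun k _ => by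
        rw [dSecSq, hd k, real_inner_self_eq_norm_sq, norm_smul, (Q q).norm_n, mul_one,
          Real.norm_eq_abs, sq_abs]
    obtain ⟨s1, s2, s3, s4⟩ := hsm q
    have hsgn : ∀ t : ℝ, t ≠ 0 → 0 < t * sgn t := fun t ht => by
      unfold sgn
      split_ifs with h
      · linarith
      · have : t < 0 := lt_of_le_of_ne (not_lt.1 h) ht
        linarith
    have hlo := hlower (Q q).a (Q q).b (sgn (Q q).a * η⁻¹ ^ 8) (sgn (Q q).b * η ^ 8)
      ((Q q).R / 2) (κ * η ^ 8) (by linarith [(Q q).R_pos]) (by positivity) s1.le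
      (by rw [← mul_assoc]; exact mul_pos (hsgn _ (Q q).a_ne) (by positivity))
      (by rw [← mul_assoc]; exact mul_pos (hsgn _ (Q q).b_ne) (by positivity))
      (by
        refine (mul_le_mul_of_nonneg_left (size_le (Q q) h0 h1) (by positivity)).trans
          (le_of_eq_of_le ?_ s4.le)
        field_simp) z
    have hm : η ^ 8 ≤ min (min |(Q q).a| |(Q q).b|)
        (min |sgn (Q q).a * η⁻¹ ^ 8| |sgn (Q q).b * η ^ 8|) := by
      refine le_min (le_min s2.le s3.le) (le_min ?_ ?_)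
      · rw [abs_mul, abs_sgn, one_mul, abs_of_pos (by positivity)]
        exact (pow_le_one₀ h0.le h1).trans he
      · rw [abs_mul, abs_sgn, one_mul, abs_of_pos (by positivity)]
    have h5 : η ^ 8 * ‖z‖ ≤ 4 * ‖L‖ := (mul_le_mul_of_nonneg_right hm (norm_nonneg z)).trans hlo
    have h6 := pow_le_pow_left₀ (by positivity) h5 2
    have h7 := hCL q z hzc L
    rw [← hqS] at h7
    have h8 : 16 * CL q ≤ C₀ := (Finset.single_le_sum (f := fun q : {p // p ∈ Z} => 16 * CL q)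
      (fun q _ => mul_nonneg (by norm_num) (hCL0 q)) (Finset.mem_univ q)).trans
      (by rw [hC₀]; linarith)
    have hqn : 0 ≤ qS G V S' ((Q q).u z) := by rw [hqS]; positivity
    calc η ^ 16 * ‖z‖ ^ 2 = (η ^ 8 * ‖z‖) ^ 2 := by ring
      _ ≤ (4 * ‖L‖) ^ 2 := h6
      _ ≤ 16 * CL q * qS G V S' ((Q q).u z) := by nlinarith
      _ ≤ _ := mul_le_mul_of_nonneg_right h8 hqn
  · -- lower bound outside
    have hxU : x ∈ U := fun h => by
      obtain ⟨q, hq⟩ := mem_iUnion.1 h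
      exact hx q.1 q.2 (image_mono ball_subset_closedBall hq)
    have e : qS G V S' x = qS G V S x := Finset.sum_congr rfl fun k _ => by
      have e0 : ∀ q, D V k (f q) x = 0 := fun q => by
        rw [hf, D_congr (bump_eventually_zero (Q q) (phiOf_zero _ _ _) (hx q.1 q.2)), D_const]
      rw [dSecSq, dSecSq, hdSec k]
      simp [e0]
    rw [e]
    calc η ^ 16 ≤ 1 := pow_le_one₀ h0.le h1
      _ = cU⁻¹ * cU := (inv_mul_cancel₀ hcU.ne').symm
      _ ≤ C₀ * qS G V S x :=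
          mul_le_mul (by rw [hC₀]; linarith) (hcUle x hxU) hcU.le (by rw [hC₀]; linarith)

end Vale.Agent.P205.Full.Start
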