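import Vale.Agent.P205.Full.Start.Hessian

/-!
# P205 full, START A1: a section with finitely many nondegenerate critical points

`exists_morse_section`. Charts are treated one after another: a small linear perturbation makes
the section Morse on the next compact piece (Sard in dimension two) and keeps it Morse on the
pieces already treated (openness).
-/

open scoped Manifold ContDiff RealInnerProductSpace Topology
open Bundle Filter Set MeasureTheory

namespace Vale.Agent.P205.Full.Start.Sect

variable {M : Type} [TopologicalSpace M] [ChartedSpace R2 M] [IsManifold (𝓡 2) ∞ M]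
variable {G : M → R3}

/-- `S + a₀ T₀ + a₁ T₁`. -/
noncomputable def perturb (S : M → R3) (T : Fin 2 → M → R3) (a : R2) : M → R3 :=
  fun y => S y + a 0 • T 0 y + a 1 • T 1 y

omit [IsManifold (𝓡 2) ∞ M] in
theorem isSection_perturb {S : M → R3} {T : Fin 2 → M → R3} (hS : IsSection G S)
    (hT : ∀ i, IsSection G (T i)) (a : R2) : IsSection G (perturb S T a) := by
  have h0 : ContMDiff (𝓡 2) 𝓘(ℝ, R3) ∞ (fun y => a 0 • T 0 y) :=
    (contMDiff_const (I' := 𝓘(ℝ, ℝ)) (c := a 0)).smul (hT 0).1
  have h1 : ContMDiff (𝓡 2) 𝓘(ℝ, R3) ∞ (fun y => a 1 • T 1 y) :=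
    (contMDiff_const (I' := 𝓘(ℝ, ℝ)) (c := a 1)).smul (hT 1).1
  refine ⟨(hS.1.add h0).add h1, fun x => ?_⟩
  simp only [perturb, map_add, map_smul, hS.2, (hT 0).2, (hT 1).2]

/-- The gradient of the coefficient is affine in the perturbation, with its derivative. -/
theorem gr_perturb (hG : IsImm3 G) {S : M → R3} {T : Fin 2 → M → R3} (hS : IsSection G S)
    (hT : ∀ i, IsSection G (T i)) (c : M) {z : R2} (hz : z ∈ (chartAt R2 c).target) (a : R2) :
    gr (psi G (perturb S T a) c) z =
      gr (psi G S c) z + a 0 • gr (psi G (T 0) c) z + a 1 • gr (psi G (T 1) c) z ∧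
    fderiv ℝ (gr (psi G (perturb S T a) c)) z =
      fderiv ℝ (gr (psi G S c)) z + a 0 • fderiv ℝ (gr (psi G (T 0) c)) z +
        a 1 • fderiv ℝ (gr (psi G (T 1) c)) z := by
  have hd : ∀ (U : M → R3), IsSection G U → ∀ u ∈ (chartAt R2 c).target,
      HasFDerivAt (psi G U c) (fderiv ℝ (psi G U c) u) u := fun U hU u hu =>
    (((contDiffOn_psi hG hU.1 c).contDiffAt ((chartAt R2 c).open_target.mem_nhds hu)
      ).differentiableAt (by simp)).hasFDerivAt
  have hdd : ∀ (U : M → R3), IsSection G U →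
      HasFDerivAt (gr (psi G U c)) (fderiv ℝ (gr (psi G U c)) z) z := fun U hU =>
    (((gL.contDiff (n := ∞)).comp_contDiffOn ((contDiffOn_psi hG hU.1 c).fderiv_of_isOpen
      (chartAt R2 c).open_target (m := ∞) (by simp))).contDiffAt
      ((chartAt R2 c).open_target.mem_nhds hz) |>.differentiableAt (by simp)).hasFDerivAt
  have h1 : ∀ u ∈ (chartAt R2 c).target, gr (psi G (perturb S T a) c) u =
      gr (psi G S c) u + a 0 • gr (psi G (T 0) c) u + a 1 • gr (psi G (T 1) c) u := by
    intro u hu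
    have he : psi G (perturb S T a) c =
        fun v => psi G S c v + a 0 * psi G (T 0) c v + a 1 * psi G (T 1) c v := by
      funext v
      simp only [psi, perturb, inner_add_right, real_inner_smul_right]
    have h := ((hd S hS u hu).add ((hd _ (hT 0) u hu).const_mul (a 0))).add
      ((hd _ (hT 1) u hu).const_mul (a 1))
    simp only [gr, he]
    rw [show fderiv ℝ (fun v => psi G S c v + a 0 * psi G (T 0) c v + a 1 * psi G (T 1) c v) u = _
      from h.fderiv]
    simp only [map_add, map_smul]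
  refine ⟨h1 z hz, ?_⟩
  have he : gr (psi G (perturb S T a) c) =ᶠ[𝓝 z]
      fun u => gr (psi G S c) u + a 0 • gr (psi G (T 0) c) u + a 1 • gr (psi G (T 1) c) u := by
    filter_upwards [(chartAt R2 c).open_target.mem_nhds hz] with u hu using h1 u hu
  exact ((((hdd S hS).add ((hdd _ (hT 0)).const_smul (a 0))).add
    ((hdd _ (hT 1)).const_smul (a 1))).congr_of_eventuallyEq he).fderiv

theorem contDiffOn_gr (hG : IsImm3 G) {S : M → R3} (hS : IsSection G S) (c : M) :
    ContDiffOn ℝ ∞ (gr (psi G S c)) (chartAt R2 c).target :=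
  (gL.contDiff (n := ∞)).comp_contDiffOn ((contDiffOn_psi hG hS.1 c).fderiv_of_isOpen
    (chartAt R2 c).open_target (m := ∞) (by simp))

/-- `S` is Morse on a set of chart coordinates. -/
def MorseOn (G S : M → R3) (c : M) (s : Set R2) : Prop :=
  ∀ z ∈ s, gr (psi G S c) z = 0 → (fderiv ℝ (gr (psi G S c)) z).det ≠ 0

/-- Being Morse on a compact set is stable under small perturbations. -/
theorem eventually_morseOn (hG : IsImm3 G) {S : M → R3} {T : Fin 2 → M → R3}
    (hS : IsSection G S) (hT : ∀ i, IsSection G (T i)) (c : M) {s : Set R2} (hs : IsCompact s)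
    (hst : s ⊆ (chartAt R2 c).target) (h : MorseOn G S c s) :
    ∀ᶠ a in 𝓝 (0 : R2), MorseOn G (perturb S T a) c s := by
  refine hs.eventually_forall_of_forall_eventually fun z hz => ?_
  have hzt := hst hz
  have hnb : (chartAt R2 c).target ∈ 𝓝 z := (chartAt R2 c).open_target.mem_nhds hzt
  have hg : ∀ U, IsSection G U → ContinuousAt (fun p : R2 × R2 => gr (psi G U c) p.2) (0, z) :=
    fun U hU => ((contDiffOn_gr hG hU c).continuousOn.continuousAt hnb).comp'
      continuous_snd.continuousAt
  have hg' : ∀ U, IsSection G U →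
      ContinuousAt (fun p : R2 × R2 => fderiv ℝ (gr (psi G U c)) p.2) (0, z) :=
    fun U hU => (((contDiffOn_gr hG hU c).continuousOn_fderiv_of_isOpen
      (chartAt R2 c).open_target (by simp)).continuousAt hnb).comp' continuous_snd.continuousAt
  have hc : ∀ i : Fin 2, ContinuousAt (fun p : R2 × R2 => p.1 i) (0, z) := fun i =>
    ((EuclideanSpace.proj (𝕜 := ℝ) i).continuous.comp continuous_fst).continuousAt
  have hF : ContinuousAt (fun p : R2 × R2 =>
      (gr (psi G S c) p.2 + p.1 0 • gr (psi G (T 0) c) p.2 + p.1 1 • gr (psi G (T 1) c) p.2,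
        (fderiv ℝ (gr (psi G S c)) p.2 + p.1 0 • fderiv ℝ (gr (psi G (T 0) c)) p.2 +
          p.1 1 • fderiv ℝ (gr (psi G (T 1) c)) p.2).det)) (0, z) := by
    refine ContinuousAt.prodMk (((hg S hS).add ((hc 0).smul (hg _ (hT 0)))).add
      ((hc 1).smul (hg _ (hT 1)))) ?_
    exact ContinuousLinearMap.continuous_det.continuousAt.comp'
      (((hg' S hS).add ((hc 0).smul (hg' _ (hT 0)))).add ((hc 1).smul (hg' _ (hT 1))))
  have h0 := hF.eventually_ne (y := 0) (by
    intro h0
    simp at h0
    refine h z hz h0.1 ?_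
    have e : ∀ A B C : R2 →L[ℝ] R2, A + (0 : ℝ) • B + (0 : ℝ) • C = A := fun A B C => by
      ext u; simp
    exact (congrArg ContinuousLinearMap.det (e _ _ _)).symm.trans h0.2)
  filter_upwards [h0, (continuous_snd.continuousAt (x := ((0 : R2), z))).preimage_mem_nhds hnb]
    with p hp hpt hgr hdet
  obtain ⟨h1, h2⟩ := gr_perturb hG hS hT c (z := p.2) hpt p.1
  rw [h1] at hgr
  rw [h2] at hdet
  exact hp (Prod.mk_eq_zero.2 ⟨hgr, hdet⟩)

variable [T2Space M]

/-- The two perturbation sections of a chart. -/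
noncomputable def bumpSec (G : M → R3) (c : M) (f : SmoothBumpFunction (𝓡 2) c) (i : Fin 2) :
    M → R3 :=
  fun y => f y • (chartAt R2 c y i • nu G c (chartAt R2 c y))

theorem isSection_bumpSec (hG : IsImm3 G) (c : M) (f : SmoothBumpFunction (𝓡 2) c) (i : Fin 2) :
    IsSection G (bumpSec G c f i) := by
  refine ⟨f.contMDiff_smul ?_, fun x => ?_⟩
  · exact ((((EuclideanSpace.proj (𝕜 := ℝ) i).contDiff (n := ∞)).contDiffOn.smul
      (contDiffOn_nu hG c)).contMDiffOn).comp contMDiffOn_chart
      (fun y hy => (chartAt R2 c).map_source hy)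
  · by_cases hx : x ∈ (chartAt R2 c).source
    · have := nLine_chart hG c ((chartAt R2 c).map_source hx) (bumpSec G c f i x)
      rw [(chartAt R2 c).left_inv hx] at this
      rw [this]
      simp [bumpSec, real_inner_smul_right, norm_nu hG c ((chartAt R2 c).map_source hx),
        smul_smul]
    · have : f x = 0 := image_eq_zero_of_notMem_tsupport fun h =>
        hx (f.tsupport_subset_chartAt_source h)
      simp [bumpSec, this]

/-- One chart: a perturbation arbitrarily close to `0` makes `S` Morse where the bump is `1`. -/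
theorem exists_morse_step (hG : IsImm3 G) {S : M → R3} (hS : IsSection G S) (c : M)
    (f : SmoothBumpFunction (𝓡 2) c) {W : Set R2} (hWo : IsOpen W)
    (hWt : W ⊆ (chartAt R2 c).target) (hW1 : ∀ z ∈ W, f ((chartAt R2 c).symm z) = 1)
    {P : R2 → Prop} (hP : ∀ᶠ a in 𝓝 (0 : R2), P a) :
    ∃ a, P a ∧ MorseOn G (perturb S (bumpSec G c f) a) c W := by
  set bad := (fun z => -gr (psi G S c) z) ''
    {z ∈ W | (fderiv ℝ (gr (psi G S c)) z).det = 0}
  have hnull : (volume : Measure R2) bad = 0 := by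
    refine addHaar_image_eq_zero_of_det_fderivWithin_eq_zero (f' := fun z =>
      -fderiv ℝ (gr (psi G S c)) z) volume (fun z hz => ?_) fun z hz => ?_
    · exact ((((contDiffOn_gr hG hS c).contDiffAt
        ((chartAt R2 c).open_target.mem_nhds (hWt hz.1))).differentiableAt
        (by simp)).hasFDerivAt.neg).hasFDerivWithinAt
    · have h := LinearMap.det_smul (-1 : ℝ) (fderiv ℝ (gr (psi G S c)) z : R2 →ₗ[ℝ] R2)
      have h2 : (fderiv ℝ (gr (psi G S c)) z : R2 →ₗ[ℝ] R2).det = 0 := hz.2
      rw [h2, mul_zero, neg_one_smul] at h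
      exact h
  obtain ⟨U, hUP, hUo, hU0⟩ := eventually_nhds_iff.1 hP
  obtain ⟨a, haU, ha⟩ : ∃ a ∈ U, a ∉ bad := by
    by_contra hne
    push Not at hne
    exact (hUo.measure_pos volume ⟨0, hU0⟩).ne' (measure_mono_null (fun a ha => hne a ha) hnull)
  refine ⟨a, hUP a haU, fun z hz hgr hdet => ha ⟨z, ?_⟩⟩
  have hzt := hWt hz
  have hT : ∀ i, ∀ u ∈ W, gr (psi G (bumpSec G c f i) c) u = e2 i := by
    intro i u hu
    have he : psi G (bumpSec G c f i) c =ᶠ[𝓝 u] EuclideanSpace.proj (𝕜 := ℝ) i := by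
      filter_upwards [hWo.mem_nhds hu] with v hv
      simp only [psi, bumpSec, hW1 v hv, one_smul, (chartAt R2 c).right_inv (hWt hv)]
      rw [real_inner_smul_right, inner_nu_self hG c (hWt hv), mul_one]
      rfl
    rw [gr, he.fderiv_eq, ContinuousLinearMap.fderiv]
    ext j
    fin_cases i <;> fin_cases j <;> simp [gL_apply, e2]
  have hT0 : ∀ i, fderiv ℝ (gr (psi G (bumpSec G c f i) c)) z = 0 := by
    intro i
    have he : gr (psi G (bumpSec G c f i) c) =ᶠ[𝓝 z] fun _ => e2 i := by
      filter_upwards [hWo.mem_nhds hz] with u hu using hT i u hu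
    rw [he.fderiv_eq, fderiv_const_apply]
  obtain ⟨h1, h2⟩ := gr_perturb hG hS (isSection_bumpSec hG c f) c hzt a
  rw [hT 0 z hz, hT 1 z hz, hgr, add_assoc, ← e2_expand] at h1
  rw [hT0, hT0] at h2
  rw [h2] at hdet
  have e : ∀ A : R2 →L[ℝ] R2, A + a 0 • (0 : R2 →L[ℝ] R2) + a 1 • (0 : R2 →L[ℝ] R2) = A :=
    fun A => by ext u; simp
  exact ⟨⟨hz, (congrArg ContinuousLinearMap.det (e _)).symm.trans hdet⟩,
    (eq_neg_of_add_eq_zero_right h1.symm).symm⟩

variable [CompactSpace M] {N : ℕ} {V : Frame M N}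

/-- **A1.** A section of the normal line whose critical points are finitely many and
nondegenerate. -/
theorem exists_morse_section (hG : IsImm3 G) (hV : FrameSmooth V) (hs : FrameSpans V) :
    ∃ S : M → R3, IsSection G S ∧ {x | IsCrit G V S x}.Finite ∧
      ∀ x, IsCrit G V S x → IsNondegCrit G V S x := by
  classical
  have hK : ∀ c : M, ∃ (f : SmoothBumpFunction (𝓡 2) c) (K : Set M), IsCompact K ∧ K ∈ 𝓝 c ∧
      K ⊆ (chartAt R2 c).source ∩ interior {y | f y = 1} := by
    intro c
    obtain ⟨f⟩ : Nonempty (SmoothBumpFunction (𝓡 2) c) := inferInstance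
    obtain ⟨K, hKc, hcK, hKU⟩ := exists_compact_subset
      ((chartAt R2 c).open_source.inter isOpen_interior)
      (show c ∈ (chartAt R2 c).source ∩ interior {y | f y = 1} from
        ⟨mem_chart_source R2 c, mem_interior_iff_mem_nhds.2 f.eventuallyEq_one⟩)
    exact ⟨f, K, hKc, mem_interior_iff_mem_nhds.1 hcK, hKU⟩
  choose f K hKc hKn hKs using hK
  set W : M → Set R2 := fun c => (chartAt R2 c).target ∩
    (chartAt R2 c).symm ⁻¹' interior {y | f c y = 1}
  have hWo : ∀ c, IsOpen (W c) := fun c =>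
    (chartAt R2 c).continuousOn_symm.isOpen_inter_preimage (chartAt R2 c).open_target
      isOpen_interior
  have hW1 : ∀ c, ∀ z ∈ W c, f c ((chartAt R2 c).symm z) = 1 := fun c z hz =>
    (interior_subset hz.2 :)
  have hKW : ∀ c, chartAt R2 c '' K c ⊆ W c := by
    rintro c _ ⟨y, hy, rfl⟩
    exact ⟨(chartAt R2 c).map_source (hKs c hy).1, by
      simpa [(chartAt R2 c).left_inv (hKs c hy).1] using (hKs c hy).2⟩
  have hKI : ∀ c, IsCompact (chartAt R2 c '' K c) := fun c =>
    (hKc c).image_of_continuousOn ((chartAt R2 c).continuousOn.mono fun y hy => (hKs c hy).1)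
  have main : ∀ t : Finset M, ∃ S : M → R3, IsSection G S ∧
      ∀ c ∈ t, MorseOn G S c (chartAt R2 c '' K c) := by
    intro t
    induction t using Finset.induction_on with
    | empty => exact ⟨fun _ => 0, ⟨contMDiff_const, fun x => map_zero _⟩, by simp⟩
    | insert c t _ ih =>
      obtain ⟨S, hS, hm⟩ := ih
      have hT := isSection_bumpSec hG c (f c)
      have hP : ∀ᶠ a in 𝓝 (0 : R2), ∀ d ∈ t,
          MorseOn G (perturb S (bumpSec G c (f c)) a) d (chartAt R2 d '' K d) := by
        rw [eventually_all_finset]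
        exact fun d hd => eventually_morseOn hG hS hT d (hKI d)
          (fun z hz => (hKW d hz).1) (hm d hd)
      obtain ⟨a, ha, hmc⟩ := exists_morse_step hG hS c (f c) (hWo c)
        (fun z hz => hz.1) (hW1 c) hP
      refine ⟨perturb S (bumpSec G c (f c)) a, isSection_perturb hS hT a, fun d hd => ?_⟩
      rcases Finset.mem_insert.1 hd with rfl | hd
      · exact fun z hz => hmc z (hKW d hz)
      · exact ha d hd
  obtain ⟨t, -, ht⟩ := isCompact_univ.elim_nhds_subcover K (fun c _ => hKn c)
  obtain ⟨S, hS, hm⟩ := main t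
  have hcov : ∀ x, ∃ c ∈ t, x ∈ K c := fun x => by simpa using ht (Set.mem_univ x)
  refine ⟨S, hS, ?_, fun x hx => ?_⟩
  · have hfin : ∀ c ∈ t, {z ∈ chartAt R2 c '' K c | gr (psi G S c) z = 0}.Finite := by
      intro c hc
      set Z := {z ∈ chartAt R2 c '' K c | gr (psi G S c) z = 0}
      have hcont : ContinuousOn (gr (psi G S c)) (chartAt R2 c '' K c) :=
        (contDiffOn_gr hG hS c).continuousOn.mono fun z hz => (hKW c hz).1
      have hZ : IsCompact Z :=
        (hKI c).of_isClosed_subset (hcont.preimage_isClosed_of_isClosed (hKI c).isClosed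
          isClosed_singleton) (fun z hz => hz.1)
      have hiso : ∀ z ∈ Z, {u | gr (psi G S c) u = 0 → u = z} ∈ 𝓝 z := by
        intro z hz
        have hinj := LinearMap.ker_eq_bot.2 (injective_of_det_ne_zero (hm c hc z hz.1 hz.2))
        obtain ⟨C, -, hC⟩ := LinearMap.exists_antilipschitzWith _ hinj
        have hne := ((((contDiffOn_gr hG hS c).contDiffAt
          ((chartAt R2 c).open_target.mem_nhds (hKW c hz.1).1)).differentiableAt
          (by simp)).hasFDerivAt).eventually_ne (c := (0 : R2)) ⟨C, hC⟩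
        rw [eventually_nhdsWithin_iff] at hne
        filter_upwards [hne] with u hu h0
        by_contra hne'
        exact hu hne' h0
      obtain ⟨s, -, hsub⟩ := hZ.elim_nhds_subcover _ hiso
      refine s.finite_toSet.subset fun u hu => ?_
      obtain ⟨z, hz, hzu⟩ := Set.mem_iUnion₂.1 (hsub hu)
      exact (hzu hu.2) ▸ hz
    refine (t.finite_toSet.biUnion fun c hc => (hfin c hc).image (chartAt R2 c).symm).subset ?_
    intro x hx
    obtain ⟨c, hc, hxK⟩ := hcov x
    refine Set.mem_iUnion₂.2 ⟨c, hc, chartAt R2 c x, ⟨⟨x, hxK, rfl⟩, ?_⟩,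
      (chartAt R2 c).left_inv (hKs c hxK).1⟩
    refine (isCrit_iff hG hS hs c (V := V) ((chartAt R2 c).map_source (hKs c hxK).1)).1 ?_
    rwa [(chartAt R2 c).left_inv (hKs c hxK).1]
  · obtain ⟨c, hc, hxK⟩ := hcov x
    have hz : chartAt R2 c x ∈ W c := hKW c ⟨x, hxK, rfl⟩
    have hx' : IsCrit G V S ((chartAt R2 c).symm (chartAt R2 c x)) := by
      rwa [(chartAt R2 c).left_inv (hKs c hxK).1]
    have h0 := (isCrit_iff hG hS hs c hz.1).1 hx'
    have := isNondegCrit_of_chart hG hS hV hs c (hWo c) (fun z hz => hz.1) (hW1 c) hz h0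
      (hm c hc _ ⟨x, hxK, rfl⟩ h0)
    rwa [(chartAt R2 c).left_inv (hKs c hxK).1] at this

end Vale.Agent.P205.Full.Start.Sect
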