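import Vale.Agent.P205.Full.Start.Normal
import Vale.Agent.P205.Full.Stage.Plane
import Vale.Agent.P205.Full.Stage.Calculus

/-!
# P205 full, START A5: positive tensors as sums of `dψ ⊗ dψ` of fixed sections

`exists_tensor_decomp`: one finite list of sections works for all symmetric tensors of bounded
condition number with respect to `g`; the amplitudes are fixed smooth functions of an argument
that is affine in the tensor.

The twelve sections `nLine G eₐ`, `G_b • nLine G eₐ` have differentials spanning each cotangent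
space (the `N × 12` matrix `W`). A tensor `R` is `W * S * Wᵀ` with `S` positive definite of bounded
condition number, and such `S` are decomposed along finitely many fixed vectors.
-/

open scoped Manifold ContDiff RealInnerProductSpace Topology Matrix
open Bundle Filter Set

namespace Vale.Agent.P205.Full.Start.Tensor

open Matrix

noncomputable section

/-! ### Positive definite matrices -/

/-- A smooth positive function equal to the identity on `[m₀, ∞)`. -/
def clampPos (m₀ s : ℝ) : ℝ :=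
  Real.smoothTransition (2 * s / m₀ - 1) * s + (1 - Real.smoothTransition (2 * s / m₀ - 1)) * m₀

theorem clampPos_pos {m₀ : ℝ} (hm : 0 < m₀) (s : ℝ) : 0 < clampPos m₀ s := by
  unfold clampPos
  rcases le_or_gt s (m₀ / 2) with h | h
  · rw [Real.smoothTransition.zero_of_nonpos]
    · simpa using hm
    · rw [sub_nonpos, div_le_one hm]; linarith
  · set t := Real.smoothTransition (2 * s / m₀ - 1)
    have h0 : 0 ≤ t := Real.smoothTransition.nonneg _
    have h1 : t ≤ 1 := Real.smoothTransition.le_one _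
    nlinarith

theorem clampPos_eq {m₀ s : ℝ} (hm : 0 < m₀) (hs : m₀ ≤ s) : clampPos m₀ s = s := by
  unfold clampPos
  rw [Real.smoothTransition.one_of_one_le]
  · ring
  · rw [le_sub_iff_add_le, le_div_iff₀ hm]; linarith

theorem contDiff_sqrt_clampPos {E : Type} [NormedAddCommGroup E] [NormedSpace ℝ E] {m₀ : ℝ}
    (hm : 0 < m₀) {f : E → ℝ} (hf : ContDiff ℝ ∞ f) :
    ContDiff ℝ ∞ (fun z => Real.sqrt (clampPos m₀ (f z))) := by
  have ht : ContDiff ℝ ∞ (fun z => Real.smoothTransition (2 * f z / m₀ - 1)) :=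
    Real.smoothTransition.contDiff.comp (((contDiff_const.mul hf).div_const _).sub contDiff_const)
  exact ((ht.mul hf).add ((contDiff_const.sub ht).mul contDiff_const)).sqrt
    fun z => (clampPos_pos hm _).ne'

/-- Matrices near the identity along the vectors `e_a ± e_b`. -/
theorem near_one_decomp {J : Type} [Fintype J] [DecidableEq J] (δ : ℝ)
    (hδ : (Fintype.card J : ℝ) * δ = 1) (M : Matrix J J ℝ) (hM : Mᵀ = M) :
    M = ∑ t : J × J × Bool, ((δ + (if t.2.2 then 1 else -1) *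
        (M t.1 t.2.1 - (1 : Matrix J J ℝ) t.1 t.2.1)) / 4) •
      vecMulVec (Pi.single t.1 1 + (if t.2.2 then (1 : ℝ) else -1) • Pi.single t.2.1 1)
        (Pi.single t.1 1 + (if t.2.2 then (1 : ℝ) else -1) • Pi.single t.2.1 1) := by
  ext i k
  have hs : M k i = M i k := congrFun (congrFun hM i) k
  have h : ∀ a b : J, ∑ σ : Bool, ((δ + (if σ then 1 else -1) *
        (M a b - (1 : Matrix J J ℝ) a b)) / 4) *
      ((Pi.single a (1 : ℝ) + (if σ then (1 : ℝ) else -1) • Pi.single b 1 : J → ℝ) i *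
        (Pi.single a (1 : ℝ) + (if σ then (1 : ℝ) else -1) • Pi.single b 1 : J → ℝ) k) =
      δ / 2 * ((Pi.single a (1 : ℝ) : J → ℝ) i * (Pi.single a (1 : ℝ) : J → ℝ) k) +
      δ / 2 * ((Pi.single b (1 : ℝ) : J → ℝ) i * (Pi.single b (1 : ℝ) : J → ℝ) k) +
      ((M a b - (1 : Matrix J J ℝ) a b) / 2 * (Pi.single a (1 : ℝ) : J → ℝ) i) *
        (Pi.single b (1 : ℝ) : J → ℝ) k +
      ((M a b - (1 : Matrix J J ℝ) a b) / 2 * (Pi.single b (1 : ℝ) : J → ℝ) i) *
        (Pi.single a (1 : ℝ) : J → ℝ) k := by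
    intro a b
    simp [Pi.add_apply, Pi.smul_apply]
    ring
  simp only [Matrix.sum_apply, Matrix.smul_apply, vecMulVec_apply, smul_eq_mul]
  simp only [Fintype.sum_prod_type, h, Finset.sum_add_distrib]
  have hone : (1 : Matrix J J ℝ) k i = (1 : Matrix J J ℝ) i k := by
    simp [Matrix.one_apply, eq_comm]
  simp [Pi.single_apply, Finset.sum_ite_eq, mul_ite, ite_mul, ← Finset.mul_sum]
  rw [hs, hone]
  by_cases hik : i = k
  · subst hik; simp; linear_combination (-(1 : ℝ)) * hδ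
  · simp [hik, Ne.symm hik]

/-- Positive definite matrices of bounded condition number are smooth combinations of finitely
many fixed squares. -/
theorem exists_rankone (J : Type) [Fintype J] [DecidableEq J] (c C : ℝ) (hc : 0 < c) :
    ∃ (ι : Type) (_ : Fintype ι) (v : ι → J → ℝ) (φ : ι → (J → J → ℝ) → ℝ),
      (∀ t, ContDiff ℝ ∞ (φ t)) ∧ ∀ S : J → J → ℝ, (∀ a b, S a b = S b a) →
        (∀ z : J → ℝ, c * (z ⬝ᵥ z) ≤ z ⬝ᵥ Matrix.of S *ᵥ z ∧
          z ⬝ᵥ Matrix.of S *ᵥ z ≤ C * (z ⬝ᵥ z)) →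
        ∀ a b, S a b = ∑ t, φ t S ^ 2 * (v t a * v t b) := by
  classical
  rcases isEmpty_or_nonempty J with hJ | hJ
  · exact ⟨PEmpty, inferInstance, nofun, nofun, nofun, fun S _ _ a => hJ.elim a⟩
  set δ : ℝ := (Fintype.card J : ℝ)⁻¹ with hδ
  have hcard : (0 : ℝ) < Fintype.card J := by exact_mod_cast Fintype.card_pos
  have hδ0 : 0 < δ := inv_pos.2 hcard
  let K : Set (J → J → ℝ) := {S | (∀ a b, S a b = S b a) ∧
    ∀ z : J → ℝ, c * (z ⬝ᵥ z) ≤ z ⬝ᵥ Matrix.of S *ᵥ z ∧ z ⬝ᵥ Matrix.of S *ᵥ z ≤ C * (z ⬝ᵥ z)}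
  have hKc : IsCompact K := by
    have hq : ∀ z : J → ℝ, Continuous fun S : J → J → ℝ => z ⬝ᵥ Matrix.of S *ᵥ z := fun z => by
      simp only [dotProduct, Matrix.mulVec, Matrix.of_apply]; fun_prop
    refine Metric.isCompact_of_isClosed_isBounded ?_ (Metric.isBounded_closedBall
      (x := (0 : J → J → ℝ)) (r := 2 * |C|) |>.subset ?_)
    · simp only [K, Set.setOf_and, Set.setOf_forall]
      refine (isClosed_iInter fun a => isClosed_iInter fun b =>
        isClosed_eq (by fun_prop) (by fun_prop)).inter (isClosed_iInter fun z => ?_)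
      exact (isClosed_le continuous_const (hq z)).inter (isClosed_le (hq z) continuous_const)
    · intro S hS
      rw [mem_closedBall_zero_iff, pi_norm_le_iff_of_nonneg (by positivity)]
      intro a
      rw [pi_norm_le_iff_of_nonneg (by positivity)]
      intro b
      have ev : ∀ σ : ℝ, (Pi.single a 1 + σ • Pi.single b 1 : J → ℝ) ⬝ᵥ
          Matrix.of S *ᵥ (Pi.single a 1 + σ • Pi.single b 1) =
            S a a + σ * S a b + σ * S b a + σ ^ 2 * S b b := by
        intro σ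
        simp [Matrix.mulVec_add, Matrix.mulVec_smul, add_dotProduct, dotProduct_add]
        ring
      have p := hS.2 (Pi.single a 1 + (1 : ℝ) • Pi.single b 1)
      have q := hS.2 (Pi.single a 1 + (-1 : ℝ) • Pi.single b 1)
      rw [ev] at p q
      have ha := hS.2 (Pi.single a 1)
      have hb := hS.2 (Pi.single b 1)
      simp [dotProduct_add, add_dotProduct] at p q ha hb
      have hab : 0 ≤ ((Pi.single a (1 : ℝ) + Pi.single b 1 : J → ℝ) ⬝ᵥ
          (Pi.single a 1 + Pi.single b 1)) := Finset.sum_nonneg fun i _ => mul_self_nonneg _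
      rw [Real.norm_eq_abs, abs_le]
      have h2 := hS.1 a b
      by_cases hab' : a = b
      · subst hab'
        constructor <;> nlinarith [le_abs_self C, ha.1, ha.2]
      · simp [Pi.single_apply, hab', Ne.symm hab'] at p q
        constructor <;> nlinarith [le_abs_self C, ha.1, ha.2, hb.1, hb.2]
  -- a chart around each point of `K`
  have hloc : ∀ S₀ : K, ∃ (A B : Matrix J J ℝ) (r : ℝ), Aᵀ = A ∧ Bᵀ = B ∧ A * B = 1 ∧ B * A = 1 ∧
      0 < r ∧ ∀ S ∈ Metric.closedBall (S₀ : J → J → ℝ) r, ∀ a b,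
        |(B * Matrix.of S * B) a b - (1 : Matrix J J ℝ) a b| ≤ δ / 2 := by
    rintro ⟨S₀, hs, hb⟩
    open scoped MatrixOrder in
    have hpd : (Matrix.of S₀ : Matrix J J ℝ).PosDef := by
      refine Matrix.PosDef.of_dotProduct_mulVec_pos (Matrix.IsHermitian.ext fun a b => ?_) ?_
      · simp [hs b a]
      · intro z hz
        have hzz : 0 < z ⬝ᵥ z := lt_of_le_of_ne (Finset.sum_nonneg fun i _ => mul_self_nonneg _)
          fun h => hz (dotProduct_self_eq_zero.1 h.symm)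
        simpa using lt_of_lt_of_le (mul_pos hc hzz) (hb z).1
    open scoped MatrixOrder in
    obtain ⟨A, hAT, hAA⟩ : ∃ A : Matrix J J ℝ, Aᵀ = A ∧ A * A = Matrix.of S₀ :=
      ⟨CFC.sqrt (Matrix.of S₀ : Matrix J J ℝ), (CFC.sqrt_nonneg _).posSemidef.isHermitian,
        CFC.sqrt_mul_sqrt_self _ hpd.posSemidef.nonneg⟩
    have hdet : IsUnit A.det := by
      refine isUnit_iff_ne_zero.2 fun h => hpd.det_pos.ne' ?_
      rw [← hAA, Matrix.det_mul, h, zero_mul]
    have hBA : A⁻¹ * A = 1 := Matrix.nonsing_inv_mul _ hdet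
    have hAB : A * A⁻¹ = 1 := Matrix.mul_nonsing_inv _ hdet
    have hcont : ∀ a b, Continuous fun S : J → J → ℝ =>
        |(A⁻¹ * Matrix.of S * A⁻¹) a b - (1 : Matrix J J ℝ) a b| := fun a b => by
      simp only [Matrix.mul_apply, Matrix.of_apply]; fun_prop
    have hmem : ∀ᶠ S in 𝓝 S₀, ∀ a b,
        |(A⁻¹ * Matrix.of S * A⁻¹) a b - (1 : Matrix J J ℝ) a b| < δ / 2 := by
      refine Filter.eventually_all.2 fun a => Filter.eventually_all.2 fun b =>
        (hcont a b).continuousAt.eventually (gt_mem_nhds ?_)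
      show |(A⁻¹ * Matrix.of S₀ * A⁻¹) a b - (1 : Matrix J J ℝ) a b| < δ / 2
      rw [← hAA, ← Matrix.mul_assoc, hBA, Matrix.one_mul, hAB, sub_self, abs_zero]
      linarith
    obtain ⟨r, hr, hball⟩ := Metric.nhds_basis_closedBall.eventually_iff.1 hmem
    exact ⟨A, A⁻¹, r, hAT, by rw [Matrix.transpose_nonsing_inv, hAT], hAB, hBA, hr,
      fun S hS a b => (hball hS a b).le⟩
  choose A B r hA hB hAB hBA hr hball using hloc
  let f : ∀ S₀ : K, ContDiffBump (S₀ : J → J → ℝ) := fun S₀ =>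
    ⟨r S₀ / 2, r S₀, half_pos (hr S₀), half_lt_self (hr S₀)⟩
  obtain ⟨T, hT⟩ := hKc.elim_finite_subcover
    (fun S₀ : K => Metric.ball (S₀ : J → J → ℝ) (r S₀ / 2)) (fun _ => Metric.isOpen_ball)
    (fun S hS => Set.mem_iUnion.2 ⟨⟨S, hS⟩, Metric.mem_ball_self (half_pos (hr _))⟩)
  let F : (J → J → ℝ) → ℝ := fun S => ∑ k : T, f k.1 S ^ 2
  have hF : ContDiff ℝ ∞ F := ContDiff.sum fun k _ => ((f k.1).contDiff).pow 2
  have hF1 : ∀ S ∈ K, 1 ≤ F S := by
    intro S hS
    obtain ⟨k, hk, hSk⟩ := Set.mem_iUnion₂.1 (hT hS)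
    have : f k S = 1 := (f k).one_of_mem_closedBall (Metric.ball_subset_closedBall hSk)
    calc (1 : ℝ) = f k S ^ 2 := by rw [this, one_pow]
      _ ≤ F S := Finset.single_le_sum (f := fun j : T => f j.1 S ^ 2)
          (fun j _ => sq_nonneg _) (Finset.mem_univ ⟨k, hk⟩)
  let vec : J × J × Bool → J → ℝ := fun t =>
    Pi.single t.1 1 + (if t.2.2 then (1 : ℝ) else -1) • Pi.single t.2.1 1
  let wgt : T → J × J × Bool → (J → J → ℝ) → ℝ := fun k t S => (δ + (if t.2.2 then 1 else -1) *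
    ((B k.1 * Matrix.of S * B k.1) t.1 t.2.1 - (1 : Matrix J J ℝ) t.1 t.2.1)) / 4
  refine ⟨T × (J × J × Bool), inferInstance, fun t => A t.1.1 *ᵥ vec t.2,
    fun t S => f t.1.1 S * Real.sqrt (clampPos (δ / 8) (wgt t.1 t.2 S)) /
      Real.sqrt (clampPos 1 (F S)), fun t => ?_, fun S hs hb a b => ?_⟩
  · refine ((f t.1.1).contDiff.mul (contDiff_sqrt_clampPos (by positivity) ?_)).div
      (contDiff_sqrt_clampPos one_pos hF) fun S => (Real.sqrt_pos.2 (clampPos_pos one_pos _)).ne'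
    simp only [wgt, Matrix.mul_apply, Matrix.of_apply]
    fun_prop
  have hSK : S ∈ K := ⟨hs, hb⟩
  have hF0 : (0 : ℝ) < F S := lt_of_lt_of_le one_pos (hF1 S hSK)
  have key : ∀ k : T, f k.1 S ^ 2 • Matrix.of S = ∑ t : J × J × Bool,
      ((f k.1 S * Real.sqrt (clampPos (δ / 8) (wgt k t S))) ^ 2) •
        vecMulVec (A k.1 *ᵥ vec t) (A k.1 *ᵥ vec t) := by
    intro k
    by_cases h0 : f k.1 S = 0
    · simp [h0]
    have hmem : S ∈ Metric.closedBall (k.1 : J → J → ℝ) (r k.1) := by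
      by_contra hne
      exact h0 ((f k.1).zero_of_le_dist (le_of_lt (by simpa using hne)))
    have hw : ∀ t, δ / 8 ≤ wgt k t S := by
      intro t
      have := abs_le.1 (hball k.1 S hmem t.1 t.2.1)
      simp only [wgt]
      split_ifs <;> linarith
    have hsym : (B k.1 * Matrix.of S * B k.1)ᵀ = B k.1 * Matrix.of S * B k.1 := by
      have : (Matrix.of S : Matrix J J ℝ)ᵀ = Matrix.of S := by ext i j; exact hs j i
      simp [Matrix.transpose_mul, hB, this, Matrix.mul_assoc]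
    have hd := near_one_decomp δ (by rw [hδ, mul_inv_cancel₀ hcard.ne']) _ hsym
    have hSeq : (Matrix.of S : Matrix J J ℝ) =
        A k.1 * (B k.1 * Matrix.of S * B k.1) * A k.1 := by
      rw [Matrix.mul_assoc (B k.1), ← Matrix.mul_assoc (A k.1) (B k.1), hAB, Matrix.one_mul,
        Matrix.mul_assoc, hBA, Matrix.mul_one]
    conv_lhs => rw [hSeq, hd]
    simp only [Matrix.mul_sum, Matrix.sum_mul, Finset.smul_sum, Matrix.mul_smul, Matrix.smul_mul,
      smul_smul]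
    refine Finset.sum_congr rfl fun t _ => ?_
    rw [Matrix.mul_vecMulVec, Matrix.vecMulVec_mul, ← Matrix.mulVec_transpose, hA, mul_pow,
      clampPos_eq (by positivity) (hw t), Real.sq_sqrt ((by positivity : (0:ℝ) ≤ δ / 8).trans (hw t))]
  have hsum : F S * S a b = ∑ k : T, ∑ t : J × J × Bool,
      (f k.1 S * Real.sqrt (clampPos (δ / 8) (wgt k t S))) ^ 2 *
        ((A k.1 *ᵥ vec t) a * (A k.1 *ᵥ vec t) b) := by
    rw [Finset.sum_mul]
    refine Finset.sum_congr rfl fun k _ => ?_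
    have := congrFun (congrFun (key k) a) b
    simpa [Matrix.sum_apply, vecMulVec_apply] using this
  rw [Fintype.sum_prod_type]
  calc S a b = (F S * S a b) / F S := by field_simp
    _ = _ := by
      rw [hsum, Finset.sum_div]
      refine Finset.sum_congr rfl fun k _ => ?_
      rw [Finset.sum_div]
      refine Finset.sum_congr rfl fun t _ => ?_
      rw [div_pow, clampPos_eq one_pos (hF1 S hSK), Real.sq_sqrt hF0.le]
      ring

/-! ### The section matrix -/

section Point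

variable {N : ℕ} {J : Type} [Fintype J] [DecidableEq J]

theorem dotProduct_mulVec_self (Φ : Matrix (Fin N) (Fin 2) ℝ) (y : Fin N → ℝ) :
    y ⬝ᵥ (Φ * Φᵀ) *ᵥ y = (Φᵀ *ᵥ y) ⬝ᵥ (Φᵀ *ᵥ y) := by
  rw [← Matrix.mulVec_mulVec, dotProduct_mulVec, ← Matrix.mulVec_transpose]

/-- Forms on the image of a symmetric matrix of rank two are dominated by it. -/
theorem form_le {P X : Matrix (Fin N) (Fin N) ℝ} (hP : Pᵀ = P) (hc : 0 < Plane.tr2 P)
    (hpr : Plane.proj P * Plane.proj P = Plane.proj P)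
    (hXl : Plane.proj P * X = X) (hXr : X * Plane.proj P = X) (y : Fin N → ℝ) :
    y ⬝ᵥ X *ᵥ y ≤ (∑ i, ∑ k, |X i k|) * P.trace / Plane.tr2 P * (y ⬝ᵥ P *ᵥ y) := by
  set q := Plane.proj P with hq
  have hqT : qᵀ = q := by rw [hq, Plane.proj_transpose, hP]
  set z := q *ᵥ y with hz
  have hPP : P * P = P.trace • P - Plane.tr2 P • q := by
    rw [hq, Plane.proj, smul_smul, mul_inv_cancel₀ hc.ne', one_smul, sub_sub_cancel]
  have h2 : Plane.tr2 P * (z ⬝ᵥ z) ≤ P.trace * (y ⬝ᵥ P *ᵥ y) := by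
    have e1 : y ⬝ᵥ (P * P) *ᵥ y = (P *ᵥ y) ⬝ᵥ (P *ᵥ y) := by
      rw [← Matrix.mulVec_mulVec, dotProduct_mulVec, ← Matrix.mulVec_transpose, hP]
    have e2 : y ⬝ᵥ q *ᵥ y = z ⬝ᵥ z := by
      conv_lhs => rw [← hpr, ← Matrix.mulVec_mulVec, dotProduct_mulVec, ← Matrix.mulVec_transpose, hqT]
    rw [hPP, Matrix.sub_mulVec, dotProduct_sub, Matrix.smul_mulVec, Matrix.smul_mulVec,
      dotProduct_smul, dotProduct_smul, e2, smul_eq_mul, smul_eq_mul] at e1
    have : 0 ≤ (P *ᵥ y) ⬝ᵥ (P *ᵥ y) := Finset.sum_nonneg fun i _ => mul_self_nonneg _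
    linarith
  have h3 : y ⬝ᵥ X *ᵥ y = z ⬝ᵥ X *ᵥ z := by
    conv_lhs => rw [← hXl, ← hXr, ← Matrix.mulVec_mulVec, dotProduct_mulVec, ← Matrix.mulVec_transpose,
      hqT, ← Matrix.mulVec_mulVec, ← hz]
  have h4 : z ⬝ᵥ X *ᵥ z ≤ (∑ i, ∑ k, |X i k|) * (z ⬝ᵥ z) := by
    simp only [Finset.sum_mul]
    conv_lhs => simp only [Matrix.mulVec, dotProduct, Finset.mul_sum]
    refine Finset.sum_le_sum fun i _ => ?_
    refine Finset.sum_le_sum fun k _ => ?_
    have hzi : ∀ l, z l * z l ≤ z ⬝ᵥ z := fun l =>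
      Finset.single_le_sum (f := fun l => z l * z l) (fun _ _ => mul_self_nonneg _) (Finset.mem_univ l)
    calc z i * (X i k * z k) ≤ |X i k| * |z i * z k| := by
          rw [← abs_mul]; exact (le_abs_self _).trans_eq' (by ring)
      _ ≤ |X i k| * (z ⬝ᵥ z) := by
          refine mul_le_mul_of_nonneg_left ?_ (abs_nonneg _)
          rw [abs_le]
          constructor <;> nlinarith [hzi i, hzi k, sq_nonneg (z i + z k), sq_nonneg (z i - z k)]
  have hX : 0 ≤ ∑ i, ∑ k, |X i k| := by positivity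
  rw [h3]
  refine h4.trans ?_
  calc (∑ i, ∑ k, |X i k|) * (z ⬝ᵥ z)
      ≤ (∑ i, ∑ k, |X i k|) * (P.trace * (y ⬝ᵥ P *ᵥ y) / Plane.tr2 P) := by
        refine mul_le_mul_of_nonneg_left ?_ hX
        rw [le_div_iff₀ hc]; linarith
    _ = _ := by ring

/-- The section matrix `W = Φ Ξ` and the metric `Φ Φᵀ` at a point. -/
structure Pt (W : Matrix (Fin N) J ℝ) (Gm : Matrix (Fin N) (Fin N) ℝ) : Prop where
  ex : ∃ (Φ : Matrix (Fin N) (Fin 2) ℝ) (Ξ : Matrix (Fin 2) J ℝ),
    (Φᵀ * Φ).det ≠ 0 ∧ (Ξ * Ξᵀ).det ≠ 0 ∧ W = Φ * Ξ ∧ Gm = Φ * Φᵀ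

variable {W : Matrix (Fin N) J ℝ} {Gm : Matrix (Fin N) (Fin N) ℝ}

theorem det_gram_pos {m : Type} [Fintype m] {Φ : Matrix m (Fin 2) ℝ}
    (h : (Φᵀ * Φ).det ≠ 0) : 0 < (Φᵀ * Φ).det := by
  refine lt_of_le_of_ne ?_ (Ne.symm h)
  have := Finset.sum_mul_sq_le_sq_mul_sq Finset.univ (fun i => Φ i 0) (fun i => Φ i 1)
  simp [Matrix.det_fin_two, Matrix.mul_apply, sq] at this ⊢
  simp only [mul_comm (Φ _ 1) (Φ _ 0)]
  linarith

/-- The algebraic facts about `A = W Wᵀ`. -/
theorem Pt.facts (h : Pt W Gm) :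
    0 < Plane.tr2 (W * Wᵀ) ∧ 0 < Plane.tr2 Gm ∧
      Plane.proj (W * Wᵀ) * W = W ∧ Plane.proj (W * Wᵀ) * Gm = Gm ∧
      Plane.proj Gm * (W * Wᵀ) = W * Wᵀ ∧
      Plane.proj (W * Wᵀ) * Plane.proj (W * Wᵀ) = Plane.proj (W * Wᵀ) ∧
      Plane.proj Gm * Plane.proj Gm = Plane.proj Gm ∧
      (Plane.pinv (W * Wᵀ))ᵀ = Plane.pinv (W * Wᵀ) ∧
      W * Wᵀ * Plane.pinv (W * Wᵀ) = Plane.proj (W * Wᵀ) ∧
      Plane.pinv (W * Wᵀ) * (W * Wᵀ) = Plane.proj (W * Wᵀ) ∧
      Plane.pinv (W * Wᵀ) * Plane.proj (W * Wᵀ) = Plane.pinv (W * Wᵀ) := by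
  obtain ⟨Φ, Ξ, hΦ, hΞ, rfl, rfl⟩ := h.ex
  have hA : Φ * Ξ * (Φ * Ξ)ᵀ = Φ * (Ξ * Ξᵀ * Φᵀ) := by
    simp only [Matrix.transpose_mul, Matrix.mul_assoc]
  have hd : 0 < (Ξ * Ξᵀ * Φᵀ * Φ).det := by
    rw [Matrix.mul_assoc, Matrix.det_mul]
    have := det_gram_pos (Φ := Ξᵀ) (by rwa [Matrix.transpose_transpose])
    rw [Matrix.transpose_transpose] at this
    exact mul_pos this (det_gram_pos hΦ)
  have hAT : (Φ * Ξ * (Φ * Ξ)ᵀ)ᵀ = Φ * Ξ * (Φ * Ξ)ᵀ := by simp [Matrix.transpose_mul]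
  have hp := Plane.pinv_eq hd.ne'
  have hpm := Plane.proj_mul_proj hd.ne'
  have hl := Plane.proj_mul_left hd.ne'
  have hps := Plane.mul_pinv hd.ne'
  have hsp := Plane.pinv_mul hd.ne'
  have hselfr := Plane.mul_proj_self hd.ne'
  rw [← hA] at hp hpm hl hps hsp hselfr
  refine ⟨?_, ?_, ?_, ?_, ?_, hpm, Plane.proj_mul_proj hΦ, ?_, hps, hsp, ?_⟩
  · rw [hA, Plane.tr2_factor]; exact hd
  · rw [Plane.tr2_factor]; exact det_gram_pos hΦ
  · rw [← Matrix.mul_assoc, hl]
  · rw [← Matrix.mul_assoc, hl]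
  · rw [hA, ← Matrix.mul_assoc, Plane.proj_mul_left hΦ]
  · rw [hp]; simp [Plane.proj_transpose, hAT]
  · conv_lhs => rw [hp, Matrix.smul_mul, Matrix.sub_mul, Matrix.smul_mul, hpm, hselfr]
    rw [hp]

/-- The matrix `S` with `W S Wᵀ = R`. -/
def sMat (c : ℝ) (W : Matrix (Fin N) J ℝ) (R : Matrix (Fin N) (Fin N) ℝ) : Matrix J J ℝ :=
  c • 1 - c • (Wᵀ * Plane.pinv (W * Wᵀ) * W) +
    Wᵀ * (Plane.pinv (W * Wᵀ) * R * Plane.pinv (W * Wᵀ)) * W

theorem Pt.sMat_spec (h : Pt W Gm) {R : Matrix (Fin N) (Fin N) ℝ} (hR : Rᵀ = R) {κ c C : ℝ}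
    (hκ : 0 < κ) (hcC : c ≤ C)
    (hlo : ∀ y, κ * (y ⬝ᵥ Gm *ᵥ y) ≤ y ⬝ᵥ R *ᵥ y)
    (hhi : ∀ y, y ⬝ᵥ R *ᵥ y ≤ κ⁻¹ * (y ⬝ᵥ Gm *ᵥ y))
    (hc : ∀ y, c * (y ⬝ᵥ (W * Wᵀ) *ᵥ y) ≤ κ * (y ⬝ᵥ Gm *ᵥ y))
    (hC : ∀ y, κ⁻¹ * (y ⬝ᵥ Gm *ᵥ y) ≤ C * (y ⬝ᵥ (W * Wᵀ) *ᵥ y)) :
    (sMat c W R)ᵀ = sMat c W R ∧ W * sMat c W R * Wᵀ = R ∧
      ∀ z, c * (z ⬝ᵥ z) ≤ z ⬝ᵥ sMat c W R *ᵥ z ∧ z ⬝ᵥ sMat c W R *ᵥ z ≤ C * (z ⬝ᵥ z) := by
  obtain ⟨-, -, hl, hlG, -, hqq, -, hpT, hps, hsp, hpq⟩ := h.facts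
  set A := W * Wᵀ with hAdef
  set q := Plane.proj A with hq
  set p := Plane.pinv A with hp
  have hAT : Aᵀ = A := by simp [hAdef, Matrix.transpose_mul]
  have hqT : qᵀ = q := by rw [hq, Plane.proj_transpose, hAT]
  have hGT : Gmᵀ = Gm := by
    obtain ⟨Φ, Ξ, -, -, -, rfl⟩ := h.ex
    simp [Matrix.transpose_mul]
  have hGq : Gm * q = Gm := by
    have := congrArg Matrix.transpose hlG
    rwa [Matrix.transpose_mul, hGT, hqT] at this
  -- `R` lives on the image
  have hRq : R * q = R := by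
    have hker : ∀ y, Gm *ᵥ y = 0 → R *ᵥ y = 0 := by
      intro y hy
      have hy0 : y ⬝ᵥ R *ᵥ y = 0 := le_antisymm
        (by simpa [hy] using hhi y) (by simpa [hy] using hlo y)
      have hw : ∀ w, w ⬝ᵥ R *ᵥ y = 0 := by
        intro w
        have hsymm : y ⬝ᵥ R *ᵥ w = w ⬝ᵥ R *ᵥ y := by
          rw [dotProduct_mulVec, ← Matrix.mulVec_transpose, hR, dotProduct_comm]
        have hpos : ∀ t : ℝ, 0 ≤ w ⬝ᵥ R *ᵥ w + 2 * t * (w ⬝ᵥ R *ᵥ y) := by
          intro t
          have hG0 : 0 ≤ (w + t • y) ⬝ᵥ Gm *ᵥ (w + t • y) := by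
            obtain ⟨Φ, Ξ, -, -, -, rfl⟩ := h.ex
            rw [dotProduct_mulVec_self]
            exact Finset.sum_nonneg fun i _ => mul_self_nonneg _
          have := (mul_nonneg hκ.le hG0).trans (hlo (w + t • y))
          simp only [Matrix.mulVec_add, Matrix.mulVec_smul, dotProduct_add, add_dotProduct,
            smul_dotProduct, dotProduct_smul, smul_eq_mul, hsymm, hy0] at this
          linarith
        by_contra hne
        have := hpos (-(w ⬝ᵥ R *ᵥ w + 1) / (2 * (w ⬝ᵥ R *ᵥ y)))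
        field_simp at this
        linarith
      exact dotProduct_self_eq_zero.1 (hw _)
    refine Matrix.ext_iff_mulVec.2 fun y => ?_
    rw [← Matrix.mulVec_mulVec, ← sub_eq_zero, ← Matrix.mulVec_sub]
    refine hker _ ?_
    rw [Matrix.mulVec_sub, Matrix.mulVec_mulVec, hGq, sub_self]
  have hqR : q * R = R := by
    have := congrArg Matrix.transpose hRq
    rwa [Matrix.transpose_mul, hR, hqT] at this
  have hrec : W * sMat c W R * Wᵀ = R := by
    simp only [sMat, ← hAdef, ← hp, Matrix.mul_add, Matrix.mul_sub, Matrix.add_mul, Matrix.sub_mul,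
      Matrix.mul_smul, Matrix.smul_mul, Matrix.mul_one]
    rw [show W * (Wᵀ * p * W) * Wᵀ = A * p * A by simp only [hAdef, Matrix.mul_assoc],
      show W * (Wᵀ * (p * R * p) * W) * Wᵀ = A * p * R * (p * A) by
        simp only [hAdef, Matrix.mul_assoc],
      hps, hsp, hqR, hRq, show q * A = A by rw [hAdef, ← Matrix.mul_assoc, hl]]
    simp
  refine ⟨?_, hrec, fun z => ?_⟩
  · have hpT' : (Plane.pinv (W * Wᵀ))ᵀ = Plane.pinv (W * Wᵀ) := hpT
    simp only [sMat, Matrix.transpose_add, Matrix.transpose_sub, Matrix.transpose_smul,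
      Matrix.transpose_one, Matrix.transpose_mul, Matrix.transpose_transpose, hpT', hR,
      Matrix.mul_assoc]
  set P := Wᵀ * p * W with hP
  set y := p *ᵥ (W *ᵥ z) with hy
  have hPT : Pᵀ = P := by simp [hP, Matrix.transpose_mul, hpT, Matrix.mul_assoc]
  have hPP : P * P = P := by
    rw [hP, show Wᵀ * p * W * (Wᵀ * p * W) = Wᵀ * (p * A * p) * W by
      simp only [hAdef, Matrix.mul_assoc], Matrix.mul_assoc p, hps, hpq]
  have hquad : ∀ X : Matrix (Fin N) (Fin N) ℝ,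
      z ⬝ᵥ (Wᵀ * (p * X * p) * W) *ᵥ z = y ⬝ᵥ X *ᵥ y := by
    intro X
    rw [hy, show Wᵀ * (p * X * p) * W = (p * W)ᵀ * (X * (p * W)) by
      simp only [Matrix.transpose_mul, hpT, Matrix.mul_assoc], ← Matrix.mulVec_mulVec,
      ← Matrix.mulVec_mulVec, dotProduct_mulVec, ← Matrix.mulVec_transpose,
      Matrix.transpose_transpose]
    simp only [Matrix.mulVec_mulVec, Matrix.mul_assoc]
  have e1 : z ⬝ᵥ P *ᵥ z = y ⬝ᵥ A *ᵥ y := by
    rw [← hquad A, Matrix.mul_assoc p, hps, hpq]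
  have e2 := hquad R
  have e3 : z ⬝ᵥ P *ᵥ z ≤ z ⬝ᵥ z := by
    have h1 : z ⬝ᵥ P *ᵥ z = (P *ᵥ z) ⬝ᵥ (P *ᵥ z) := by
      conv_lhs => rw [← hPP, ← Matrix.mulVec_mulVec, dotProduct_mulVec, ← Matrix.mulVec_transpose, hPT]
    have h2 : 0 ≤ (z - P *ᵥ z) ⬝ᵥ (z - P *ᵥ z) := Finset.sum_nonneg fun i _ => mul_self_nonneg _
    simp only [sub_dotProduct, dotProduct_sub, dotProduct_comm (P *ᵥ z) z] at h2
    linarith
  have es : z ⬝ᵥ sMat c W R *ᵥ z = c * (z ⬝ᵥ z) - c * (y ⬝ᵥ A *ᵥ y) + y ⬝ᵥ R *ᵥ y := by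
    simp only [sMat, ← hAdef, ← hp, ← hP, Matrix.add_mulVec, Matrix.sub_mulVec, Matrix.smul_mulVec,
      Matrix.one_mulVec, dotProduct_add, dotProduct_sub, dotProduct_smul, smul_eq_mul, e1, e2]
  rw [es]
  have h1 := hlo y
  have h2 := hhi y
  have h3 := hc y
  have h4 := hC y
  rw [e1] at e3
  have : (C - c) * (y ⬝ᵥ A *ᵥ y) ≤ (C - c) * (z ⬝ᵥ z) :=
    mul_le_mul_of_nonneg_left e3 (sub_nonneg.2 hcC)
  constructor <;> linarith

end Point

/-! ### Sections -/

section Sections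

variable {M : Type} [TopologicalSpace M] [ChartedSpace R2 M] [IsManifold (𝓡 2) ∞ M]
variable {G : M → R3} {N : ℕ} {V : Frame M N}

/-- The projection on the normal line preserves smoothness. -/
theorem contMDiff_nLine_apply (hG : IsImm3 G) {v : M → R3}
    (hv : ContMDiff (𝓡 2) 𝓘(ℝ, R3) ∞ v) :
    ContMDiff (𝓡 2) 𝓘(ℝ, R3) ∞ (fun x => nLine G x (v x)) := by
  intro x
  have hn : ContMDiffAt (𝓡 2) 𝓘(ℝ, R3) ∞ (fun y => Sect.nu G x (chartAt R2 x y)) x :=
    (((Sect.contDiffOn_nu hG x).contDiffAt ((chartAt R2 x).open_target.mem_nhds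
      ((chartAt R2 x).map_source (mem_chart_source R2 x)))).contMDiffAt).comp x
      ((contMDiffOn_chart (n := ∞) (x := x)).contMDiffAt
        ((chartAt R2 x).open_source.mem_nhds (mem_chart_source R2 x)))
  refine ((contMDiffAt_inner_fun hn hv.contMDiffAt).smul hn).congr_of_eventuallyEq ?_
  filter_upwards [(chartAt R2 x).open_source.mem_nhds (mem_chart_source R2 x)] with y hy
  have := Sect.nLine_chart hG x ((chartAt R2 x).map_source hy) (v y)
  rwa [(chartAt R2 x).left_inv hy] at this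

theorem contMDiff_dSec (hV : FrameSmooth V) (hG : IsImm3 G) {S : M → R3}
    (hS : ContMDiff (𝓡 2) 𝓘(ℝ, R3) ∞ S) (i : Fin N) :
    ContMDiff (𝓡 2) 𝓘(ℝ, R3) ∞ (dSec G V S i) :=
  contMDiff_nLine_apply hG (contMDiff_D hV i hS)

/-- A unit normal at one point. -/
theorem exists_unit_normal (hG : IsImm3 G) (x : M) :
    ∃ ν : R3, ‖ν‖ = 1 ∧ ∀ v, nLine G x v = ⟪ν, v⟫ • ν := by
  have hz := (chartAt R2 x).map_source (mem_chart_source R2 x)
  refine ⟨Sect.nu G x (chartAt R2 x x), Sect.norm_nu hG x hz, fun v => ?_⟩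
  have := Sect.nLine_chart hG x hz v
  rwa [(chartAt R2 x).left_inv (mem_chart_source R2 x)] at this

/-- Twelve sections whose differentials span every cotangent space. -/
theorem exists_sections (hG : IsImm3 G) :
    ∃ (m : ℕ) (σ : Fin m → M → R3), (∀ j, IsSection G (σ j)) ∧
      ∀ {N : ℕ} (V : Frame M N) (x : M) (c : Fin N → ℝ),
        (∀ j, ∑ i, c i • dSec G V (σ j) i x = 0) → ∑ i, c i • V i x = 0 := by
  let e : Fin 3 → R3 := fun a => EuclideanSpace.single a 1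
  let σ₀ : Fin 3 × Option (Fin 3) → M → R3 := fun p x =>
    (p.2.elim 1 fun b => G x b) • nLine G x (e p.1)
  have hsm : ∀ a, ContMDiff (𝓡 2) 𝓘(ℝ, R3) ∞ (fun x => nLine G x (e a)) :=
    fun a => contMDiff_nLine_apply hG contMDiff_const
  have hGb : ∀ b, ContMDiff (𝓡 2) 𝓘(ℝ, ℝ) ∞ (fun x => G x b) := fun b =>
    (EuclideanSpace.proj (𝕜 := ℝ) b).contMDiff.comp hG.1
  have hidem : ∀ x v, nLine G x (nLine G x v) = nLine G x v := fun x v =>
    Submodule.starProjection_eq_self_iff.2 (Submodule.starProjection_apply_mem _ v)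
  have hsec : ∀ p, IsSection G (σ₀ p) := by
    rintro ⟨a, _ | b⟩ <;> refine ⟨?_, fun x => ?_⟩
    · simpa [σ₀] using hsm a
    · simp [σ₀, hidem]
    · exact (hGb b).smul (hsm a)
    · simp [σ₀, hidem]
  let eqv := (Fintype.equivFin (Fin 3 × Option (Fin 3))).symm
  refine ⟨_, fun j => σ₀ (eqv j), fun j => hsec _, ?_⟩
  intro N V x c hc
  obtain ⟨ν, hν, hnl⟩ := exists_unit_normal hG x
  have hc' : ∀ p, ∑ i, c i • dSec G V (σ₀ p) i x = 0 := fun p => by
    simpa using hc (eqv.symm p)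
  obtain ⟨a, ha⟩ : ∃ a, ⟪ν, e a⟫ ≠ 0 := by
    by_contra hall
    push Not at hall
    have : ν = 0 := by
      ext a
      simpa [e, EuclideanSpace.inner_single_right] using hall a
    simp [this] at hν
  have hDG : ∀ b, ∑ i, c i * D V i (fun y => G y b) x = 0 := by
    intro b
    have h0 := hc' (a, none)
    have h1 := hc' (a, some b)
    have hd : ∀ i, dSec G V (σ₀ (a, some b)) i x =
        D V i (fun y => G y b) x • nLine G x (e a) + G x b • dSec G V (σ₀ (a, none)) i x := by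
      intro i
      simp only [dSec, σ₀, Option.elim_some, Option.elim_none, one_smul]
      rw [D_smul ((hGb b).mdifferentiable (by simp) x) ((hsm a).mdifferentiable (by simp) x),
        map_add, map_smul, map_smul, hidem]
    simp only [hd, smul_add, smul_smul, Finset.sum_add_distrib] at h1
    simp_rw [mul_comm (c _) (G x b), ← smul_smul (G x b)] at h1
    rw [← Finset.smul_sum, h0, smul_zero, add_zero, ← Finset.sum_smul, smul_eq_zero] at h1
    refine h1.resolve_right fun h => ha ?_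
    rw [hnl] at h
    exact (smul_eq_zero.1 h).resolve_right fun h' => by simp [h'] at hν
  refine hG.2 x ?_
  rw [map_sum, map_zero]
  simp only [map_smul]
  have hb : ∀ b i, D V i (fun y => G y b) x = (D V i G x) b := fun b i =>
    D_clm (EuclideanSpace.proj (𝕜 := ℝ) b) (hG.1.mdifferentiable (by simp) x)
  have : ∑ i, c i • D V i G x = 0 := by
    ext b
    simpa [hb] using hDG b
  exact this

end Sections

/-! ### The decomposition -/

section Main

variable {M : Type} [TopologicalSpace M] [ChartedSpace R2 M] [IsManifold (𝓡 2) ∞ M]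
variable {G : M → R3} {N : ℕ} {V : Frame M N}

/-- All entries are smooth. -/
def SmoothMat {ι κ : Type} (A : M → Matrix ι κ ℝ) : Prop :=
  ∀ i k, ContMDiff (𝓡 2) 𝓘(ℝ, ℝ) ∞ (fun x => A x i k)

variable {A B : M → Matrix (Fin N) (Fin N) ℝ}

theorem SmoothMat.mul (hA : SmoothMat A) (hB : SmoothMat B) :
    SmoothMat (fun x => A x * B x) := fun i k => by
  simp only [Matrix.mul_apply]
  exact ContMDiff.sum fun j _ => (hA i j).mul (hB j k)

theorem SmoothMat.trace (hA : SmoothMat A) :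
    ContMDiff (𝓡 2) 𝓘(ℝ, ℝ) ∞ (fun x => (A x).trace) := by
  simp only [Matrix.trace, Matrix.diag]
  exact ContMDiff.sum fun j _ => hA j j

theorem SmoothMat.tr2 (hA : SmoothMat A) :
    ContMDiff (𝓡 2) 𝓘(ℝ, ℝ) ∞ (fun x => Plane.tr2 (A x)) :=
  (((hA.trace.mul hA.trace).sub (hA.mul hA).trace).mul (contMDiff_const (c := (1 / 2 : ℝ)))).congr
    fun x => by simp only [Plane.tr2, Pi.mul_apply, Pi.sub_apply]; ring

theorem SmoothMat.proj (hA : SmoothMat A) (hd : ∀ x, Plane.tr2 (A x) ≠ 0) :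
    SmoothMat (fun x => Plane.proj (A x)) := fun i k => by
  simp only [Plane.proj, Matrix.smul_apply, Matrix.sub_apply, smul_eq_mul]
  exact (hA.tr2.inv₀ hd).mul ((hA.trace.mul (hA i k)).sub (hA.mul hA i k))

theorem SmoothMat.pinv (hA : SmoothMat A) (hd : ∀ x, Plane.tr2 (A x) ≠ 0) :
    SmoothMat (fun x => Plane.pinv (A x)) := fun i k => by
  have h1 : SmoothMat (fun x => (A x).trace • (1 : Matrix (Fin N) (Fin N) ℝ) - A x) := fun a b => by
    simp only [Matrix.sub_apply, Matrix.smul_apply, smul_eq_mul]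
    exact (hA.trace.mul contMDiff_const).sub (hA a b)
  simp only [Plane.pinv, Matrix.smul_apply, smul_eq_mul]
  exact (hA.tr2.inv₀ hd).mul (h1.mul (hA.proj hd) i k)

/-- Uniform comparison of two smooth families of forms with the same image. -/
theorem exists_form_le [CompactSpace M] (hA : SmoothMat A) (hB : SmoothMat B)
    (h : ∀ x, (A x)ᵀ = A x ∧ 0 < Plane.tr2 (A x) ∧
      Plane.proj (A x) * Plane.proj (A x) = Plane.proj (A x) ∧
      Plane.proj (A x) * B x = B x ∧ B x * Plane.proj (A x) = B x)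
    (hpos : ∀ x y, 0 ≤ y ⬝ᵥ A x *ᵥ y) :
    ∃ c : ℝ, 0 < c ∧ ∀ x y, y ⬝ᵥ B x *ᵥ y ≤ c * (y ⬝ᵥ A x *ᵥ y) := by
  have hf : Continuous fun x => (∑ i, ∑ k, |B x i k|) * (A x).trace / Plane.tr2 (A x) :=
    ((continuous_finsetSum _ fun i _ => continuous_finsetSum _ fun k _ => (hB i k).continuous.abs).mul
      hA.trace.continuous).div hA.tr2.continuous fun x => (h x).2.1.ne'
  obtain ⟨C, hC⟩ := (isCompact_range hf).bddAbove
  refine ⟨max C 1, lt_of_lt_of_le one_pos (le_max_right _ _), fun x y => ?_⟩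
  exact (form_le (h x).1 (h x).2.1 (h x).2.2.1 (h x).2.2.2.1 (h x).2.2.2.2 y).trans
    (mul_le_mul_of_nonneg_right ((hC ⟨x, rfl⟩).trans (le_max_left _ _)) (hpos x y))

variable [T2Space M] [CompactSpace M]

/-- Symmetric tensors of bounded condition number are sums of squares of differentials of one
finite list of sections, with amplitudes smooth in an argument affine in the tensor. -/
theorem exists_tensor_decomp (g : Metric M) (hV : FrameSmooth V) (hs : FrameSpans V)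
    (hG : IsImm3 G) {κ : ℝ} (hκ : 0 < κ) :
    ∃ (m Q : ℕ) (S : Fin Q → M → R3) (φ : Fin Q → (Fin m → Fin m → ℝ) → ℝ)
      (p₀ : Fin m → Fin m → M → ℝ) (p : Fin N → Fin N → Fin m → Fin m → M → ℝ),
      (∀ t, IsSection G (S t)) ∧ (∀ t, ContDiff ℝ ∞ (φ t)) ∧
      (∀ j l, ContMDiff (𝓡 2) 𝓘(ℝ, ℝ) ∞ (p₀ j l)) ∧
      (∀ a b j l, ContMDiff (𝓡 2) 𝓘(ℝ, ℝ) ∞ (p a b j l)) ∧
      ∀ (x : M) (R : Fin N → Fin N → ℝ), (∀ i k, R i k = R k i) →
        (∀ y : Fin N → ℝ, κ * ∑ i, ∑ k, y i * gV g V i k x * y k ≤ ∑ i, ∑ k, y i * R i k * y k ∧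
          ∑ i, ∑ k, y i * R i k * y k ≤ κ⁻¹ * ∑ i, ∑ k, y i * gV g V i k x * y k) →
        ∀ i k, R i k = ∑ t, φ t (fun j l => p₀ j l x + ∑ a, ∑ b, R a b * p a b j l x) ^ 2 *
          dSecSq G V (S t) i k x := by
  classical
  obtain ⟨m, σ, hσ, hspan⟩ := exists_sections hG
  let Am : M → Matrix (Fin N) (Fin N) ℝ := fun x =>
    Matrix.of fun i k => ∑ j, dSecSq G V (σ j) i k x
  let Gm : M → Matrix (Fin N) (Fin N) ℝ := fun x => Matrix.of fun i k => gV g V i k x
  let cross : Fin m → Fin m → Fin N → Fin N → M → ℝ := fun j l i k x =>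
    ⟪dSec G V (σ j) i x, dSec G V (σ l) k x⟫
  have hcross : ∀ j l i k, ContMDiff (𝓡 2) 𝓘(ℝ, ℝ) ∞ (cross j l i k) := fun j l i k x =>
    contMDiffAt_inner_fun (contMDiff_dSec hV hG (hσ j).1 i).contMDiffAt
      (contMDiff_dSec hV hG (hσ l).1 k).contMDiffAt
  have hAm : SmoothMat Am := fun i k => by
    simp only [Am, Matrix.of_apply, dSecSq]
    exact ContMDiff.sum fun j _ => hcross j j i k
  have hGm : SmoothMat Gm := fun i k => contMDiff_gV g hV i k
  -- the point structure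
  have hpt : ∀ x, ∃ (ν : R3) (W : Matrix (Fin N) (Fin m) ℝ), ‖ν‖ = 1 ∧ Pt W (Gm x) ∧
      (∀ j i, dSec G V (σ j) i x = W i j • ν) ∧ Am x = W * Wᵀ := by
    intro x
    obtain ⟨ν, hν, hnl⟩ := exists_unit_normal hG x
    let ℓ : Fin m → R2 →ₗ[ℝ] ℝ := fun j =>
      (innerSL ℝ ν).toLinearMap.comp (mfderiv (𝓡 2) 𝓘(ℝ, R3) (σ j) x).toLinearMap
    let W : Matrix (Fin N) (Fin m) ℝ := Matrix.of fun i j => ℓ j (Plane.frameAt V x i)
    have hW : ∀ j i, dSec G V (σ j) i x = W i j • ν := fun j i => hnl _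
    obtain ⟨b, hb, hexp, hdet, hgram⟩ := Plane.exists_coord g V hs x
    refine ⟨ν, W, hν, ⟨⟨_, Matrix.of fun α j => ℓ j (b α), hdet, ?_, ?_, hgram⟩⟩, hW, ?_⟩
    · have key := Plane.det_gram_ne_zero (Φ := (Matrix.of fun α j => ℓ j (b α))ᵀ) (fun z hz => by
        obtain ⟨cf, hcf⟩ := (Submodule.mem_span_range_iff_exists_fun ℝ).1
          (show (∑ α, z α • b α) ∈ Submodule.span ℝ (Set.range (Plane.frameAt V x)) by
            rw [show Submodule.span ℝ (Set.range (Plane.frameAt V x)) = ⊤ from hs x]; trivial)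
        have h0 : ∑ i, cf i • Plane.frameAt V x i = 0 := hspan V x cf fun j => by
          simp only [hW, smul_smul, ← Finset.sum_smul]
          have : ∑ i, cf i * W i j = ℓ j (∑ α, z α • b α) := by
            rw [← hcf, map_sum]
            simp [W]
          have hzj := congrFun hz j
          simp [Matrix.mulVec, dotProduct, Fin.sum_univ_two] at hzj
          rw [this, map_sum]
          simp [Fin.sum_univ_two, mul_comm (z _), hzj]
        rw [h0] at hcf
        funext α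
        have := congrArg (fun v => Plane.metricForm g x v (b α)) hcf
        fin_cases α <;> simpa [map_sum, hb] using this.symm)
      rwa [Matrix.transpose_transpose] at key
    · ext i j
      simpa [W, Matrix.mul_apply, Matrix.mulVec, dotProduct] using
        congrFun (Plane.coord_lin hexp (Plane.frameAt V x) (ℓ j)) i
    · ext i k
      simp [Am, dSecSq, hW, Matrix.mul_apply, real_inner_smul_left, real_inner_smul_right, hν, mul_comm]
  choose ν W hν hPt hW hA using hpt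
  have hsym : ∀ x, (Am x)ᵀ = Am x ∧ (Gm x)ᵀ = Gm x := fun x => by
    refine ⟨by rw [hA, Matrix.transpose_mul, Matrix.transpose_transpose], ?_⟩
    ext i k; exact congrFun (gV_comm g k i) x
  have hposA : ∀ x y, 0 ≤ y ⬝ᵥ Am x *ᵥ y := fun x y => by
    rw [hA, ← Matrix.mulVec_mulVec, dotProduct_mulVec, ← Matrix.mulVec_transpose]
    exact Finset.sum_nonneg fun i _ => mul_self_nonneg _
  have hposG : ∀ x y, 0 ≤ y ⬝ᵥ Gm x *ᵥ y := fun x y => by
    obtain ⟨Φ, Ξ, -, -, -, h⟩ := (hPt x).ex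
    rw [h, dotProduct_mulVec_self]
    exact Finset.sum_nonneg fun i _ => mul_self_nonneg _
  have hf := fun x => (hPt x).facts
  have hAdet : ∀ x, Plane.tr2 (Am x) ≠ 0 := fun x => by rw [hA]; exact (hf x).1.ne'
  obtain ⟨α, hα, hGA⟩ := exists_form_le hAm hGm (fun x => by
    obtain ⟨h1, -, -, h4, -, h6, -⟩ := hf x
    rw [← hA x] at h1 h4 h6
    refine ⟨(hsym x).1, h1, h6, h4, ?_⟩
    have := congrArg Matrix.transpose h4
    rwa [Matrix.transpose_mul, Plane.proj_transpose, (hsym x).1, (hsym x).2] at this) hposA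
  obtain ⟨β, hβ, hAG⟩ := exists_form_le hGm hAm (fun x => by
    obtain ⟨-, h2, -, -, h5, -, h7, -⟩ := hf x
    rw [← hA x] at h5
    refine ⟨(hsym x).2, h2, h7, h5, ?_⟩
    have := congrArg Matrix.transpose h5
    rwa [Matrix.transpose_mul, Plane.proj_transpose, (hsym x).1, (hsym x).2] at this) hposG
  set c : ℝ := κ / β with hc
  set C : ℝ := max (κ⁻¹ * α) c with hC
  obtain ⟨ι, _, v, φ, hφ, hdec⟩ := exists_rankone (Fin m) c C (div_pos hκ hβ)
  let e := (Fintype.equivFin ι).symm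
  refine ⟨m, _, fun t x => ∑ j, v (e t) j • σ j x, fun t => φ (e t),
    fun j l x => c * (if j = l then 1 else 0) -
      c * ∑ i, ∑ k, cross j l i k x * Plane.pinv (Am x) i k,
    fun a b j l x => ∑ i, ∑ k, cross j l i k x *
      (Plane.pinv (Am x) i a * Plane.pinv (Am x) b k),
    ?_, fun t => hφ _, ?_, ?_, ?_⟩
  · intro t
    refine ⟨ContMDiff.sum fun j _ => (contMDiff_const (I' := 𝓘(ℝ, ℝ)) (c := v (e t) j)).smul (hσ j).1, fun x => ?_⟩
    simp only [map_sum, map_smul, (hσ _).2 x]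
  · intro j l
    exact contMDiff_const.sub (contMDiff_const.mul (ContMDiff.sum fun i _ =>
      ContMDiff.sum fun k _ => (hcross j l i k).mul (hAm.pinv hAdet i k)))
  · intro a b j l
    exact ContMDiff.sum fun i _ => ContMDiff.sum fun k _ =>
      (hcross j l i k).mul ((hAm.pinv hAdet i a).mul (hAm.pinv hAdet b k))
  intro x R hRs hb i k
  have hq : ∀ (X : Fin N → Fin N → ℝ) (y : Fin N → ℝ),
      y ⬝ᵥ Matrix.of X *ᵥ y = ∑ i, ∑ k, y i * X i k * y k := fun X y => by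
    simp [dotProduct, Matrix.mulVec, Finset.mul_sum, mul_assoc]
  obtain ⟨hST, hSR, hSb⟩ := (hPt x).sMat_spec (R := Matrix.of R) (κ := κ) (c := c) (C := C)
    (by ext i k; exact hRs k i) hκ (le_max_right _ _)
    (fun y => by rw [hq]; exact (hq _ y).symm ▸ (hb y).1)
    (fun y => by rw [hq]; exact (hq _ y).symm ▸ (hb y).2)
    (fun y => by
      rw [← hA x]
      calc c * (y ⬝ᵥ Am x *ᵥ y) ≤ c * (β * (y ⬝ᵥ Gm x *ᵥ y)) :=
            mul_le_mul_of_nonneg_left (hAG x y) (div_pos hκ hβ).le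
        _ = κ * (y ⬝ᵥ Gm x *ᵥ y) := by rw [hc]; field_simp)
    (fun y => by
      rw [← hA x]
      calc κ⁻¹ * (y ⬝ᵥ Gm x *ᵥ y) ≤ κ⁻¹ * (α * (y ⬝ᵥ Am x *ᵥ y)) :=
            mul_le_mul_of_nonneg_left (hGA x y) (inv_pos.2 hκ).le
        _ ≤ C * (y ⬝ᵥ Am x *ᵥ y) := by
            rw [← mul_assoc]
            exact mul_le_mul_of_nonneg_right (le_max_left _ _) (hposA x y))
  have harg : (fun j l => c * (if j = l then 1 else 0) -
      c * (∑ i, ∑ k, cross j l i k x * Plane.pinv (Am x) i k) +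
      ∑ a, ∑ b, R a b * ∑ i, ∑ k, cross j l i k x *
        (Plane.pinv (Am x) i a * Plane.pinv (Am x) b k)) =
      fun j l => sMat c (W x) (Matrix.of R) j l := by
    funext j l
    have hcr : ∀ i k, cross j l i k x = W x i j * W x k l := fun i k => by
      simp [cross, hW, real_inner_smul_left, real_inner_smul_right, hν, mul_comm]
    simp only [sMat, ← hA, Matrix.add_apply, Matrix.sub_apply, Matrix.smul_apply, Matrix.one_apply,
      Matrix.mul_apply, Matrix.transpose_apply, Matrix.of_apply, smul_eq_mul, hcr, Finset.mul_sum,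
      Finset.sum_mul]
    congr 1
    · congr 1
      rw [Finset.sum_comm]
      exact Finset.sum_congr rfl fun i _ => Finset.sum_congr rfl fun k _ => by ring
    · conv_rhs => rw [Finset.sum_comm]; arg 2; ext i; rw [Finset.sum_comm]; arg 2; ext k; rw [Finset.sum_comm]
      rw [Finset.sum_comm]
      conv_lhs => arg 2; ext b; rw [Finset.sum_comm]; arg 2; ext i; rw [Finset.sum_comm]
      simp only [mul_comm, mul_assoc, mul_left_comm]
      rw [Finset.sum_comm]
      refine Finset.sum_congr rfl fun i _ => Finset.sum_congr rfl fun b _ => ?_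
      rw [Finset.sum_comm]
      exact Finset.sum_congr rfl fun a _ => Finset.sum_congr rfl fun d _ => by ring
  have hd := hdec (fun j l => sMat c (W x) (Matrix.of R) j l)
    (fun j l => congrFun (congrFun hST l) j) hSb
  have hRik : R i k = ∑ j, ∑ l, W x i j * sMat c (W x) (Matrix.of R) j l * W x k l := by
    conv_lhs => rw [show R i k = (Matrix.of R : Matrix (Fin N) (Fin N) ℝ) i k from rfl, ← hSR]
    simp only [Matrix.mul_apply, Matrix.transpose_apply, Finset.sum_mul]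
    exact Finset.sum_comm
  rw [hRik, harg]
  have hdS : ∀ t i, dSec G V (fun y => ∑ j, v (e t) j • σ j y) i x =
      (∑ j, v (e t) j * W x i j) • ν x := by
    intro t i
    have hmd : ∀ j, MDifferentiableAt (𝓡 2) 𝓘(ℝ, R3) (σ j) x := fun j =>
      (hσ j).1.mdifferentiable (by simp) x
    simp only [dSec]
    rw [D_sum (u := fun j y => v (e t) j • σ j y) Finset.univ
      (fun j _ => (hmd j).const_smul _), map_sum, Finset.sum_smul]
    refine Finset.sum_congr rfl fun j _ => ?_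
    rw [D_const_smul _ (hmd j), map_smul, show nLine G x (D V i (σ j) x) = _ from hW x j i,
      smul_smul]
  have hsq : ∀ t, dSecSq G V (fun y => ∑ j, v (e t) j • σ j y) i k x =
      (∑ j, v (e t) j * W x i j) * ∑ j, v (e t) j * W x k j := fun t => by
    simp only [dSecSq, hdS, real_inner_smul_left, real_inner_smul_right,
      real_inner_self_eq_norm_sq, hν, one_pow, mul_one]
    ring
  simp only [hsq]
  rw [e.sum_comp (fun s => φ s (fun j l => sMat c (W x) (Matrix.of R) j l) ^ 2 *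
    ((∑ j, v s j * W x i j) * ∑ j, v s j * W x k j))]
  obtain ⟨w, hw⟩ : ∃ w : ι → ℝ,
      ∀ s, φ s (fun j l => sMat c (W x) (Matrix.of R) j l) ^ 2 = w s := ⟨_, fun _ => rfl⟩
  simp only [hw] at hd ⊢
  simp only [hd, Finset.mul_sum, Finset.sum_mul]
  rw [Finset.sum_comm]
  refine (Finset.sum_congr rfl fun l _ => Finset.sum_comm).trans ?_
  rw [Finset.sum_comm]
  refine Finset.sum_congr rfl fun s _ => Finset.sum_congr rfl fun j _ =>
    Finset.sum_congr rfl fun l _ => by ring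

end Main

end

end Vale.Agent.P205.Full.Start.Tensor
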