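import Vale.Agent.P205.Full.Start.Interface

/-!
# P205 full, START A1: the normal line of an immersion in `ℝ³`, read in a chart

In each chart the normal line is spanned by a smooth unit field `nu`; a section is `psi • nu`,
and its differential in the normal line is `dpsi • nu`.
-/

open scoped Manifold ContDiff RealInnerProductSpace Matrix Topology
open Bundle Filter Set

namespace Vale.Agent.P205.Full.Start.Sect

variable {M : Type} [TopologicalSpace M] [ChartedSpace R2 M]

/-- A map read in the chart centred at `c`. -/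
noncomputable def inChart {E : Type} (f : M → E) (c : M) : R2 → E :=
  f ∘ (chartAt R2 c).symm

/-- Basis of `R2`. -/
noncomputable def e2 (i : Fin 2) : R2 := EuclideanSpace.single i (1 : ℝ)

/-- Cross product on `R3`. -/
noncomputable def cr (u v : R3) : R3 :=
  WithLp.toLp 2 (crossProduct (WithLp.ofLp u) (WithLp.ofLp v))

/-- The unit normal in the chart centred at `c`. -/
noncomputable def nu (G : M → R3) (c : M) (z : R2) : R3 :=
  ‖cr (fderiv ℝ (inChart G c) z (e2 0)) (fderiv ℝ (inChart G c) z (e2 1))‖⁻¹ •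
    cr (fderiv ℝ (inChart G c) z (e2 0)) (fderiv ℝ (inChart G c) z (e2 1))

/-- The coefficient of a section along `nu`. -/
noncomputable def psi (G S : M → R3) (c : M) (z : R2) : ℝ :=
  ⟪nu G c z, S ((chartAt R2 c).symm z)⟫

theorem inner_cr_left (u v : R3) : ⟪cr u v, u⟫ = 0 := by
  simp [cr, PiLp.inner_apply, Fin.sum_univ_three, cross_apply]
  ring

theorem inner_cr_right (u v : R3) : ⟪cr u v, v⟫ = 0 := by
  simp [cr, PiLp.inner_apply, Fin.sum_univ_three, cross_apply]
  ring

theorem cr_ne_zero {u v : R3} (h : LinearIndependent ℝ ![u, v]) : cr u v ≠ 0 := by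
  intro h0
  have h1 : LinearIndependent ℝ ![WithLp.ofLp u, WithLp.ofLp v] := by
    rw [LinearIndependent.pair_iff] at h ⊢
    intro s t hst
    refine h s t ((WithLp.equiv 2 (Fin 3 → ℝ)).injective ?_)
    simpa using hst
  apply crossProduct_ne_zero_iff_linearIndependent.2 h1
  have := congrArg WithLp.ofLp h0
  simpa [cr] using this

section

variable [IsManifold (𝓡 2) ∞ M]

theorem contMDiffOn_symm (c : M) :
    ContMDiffOn (𝓡 2) (𝓡 2) ∞ (chartAt R2 c).symm (chartAt R2 c).target :=
  contMDiffOn_chart_symm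

theorem contDiffOn_inChart {E : Type} [NormedAddCommGroup E] [NormedSpace ℝ E] {f : M → E}
    (hf : ContMDiff (𝓡 2) 𝓘(ℝ, E) ∞ f) (c : M) :
    ContDiffOn ℝ ∞ (inChart f c) (chartAt R2 c).target :=
  contMDiffOn_iff_contDiffOn.1 (hf.comp_contMDiffOn (contMDiffOn_symm c))

theorem fderiv_inChart {E : Type} [NormedAddCommGroup E] [NormedSpace ℝ E] {f : M → E}
    (hf : ContMDiff (𝓡 2) 𝓘(ℝ, E) ∞ f) (c : M) {z : R2} (hz : z ∈ (chartAt R2 c).target)
    (u : R2) :
    fderiv ℝ (inChart f c) z u =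
      mfderiv (𝓡 2) 𝓘(ℝ, E) f ((chartAt R2 c).symm z)
        (mfderiv (𝓡 2) (𝓡 2) (chartAt R2 c).symm z u) := by
  have h1 : MDifferentiableAt (𝓡 2) (𝓡 2) (chartAt R2 c).symm z :=
    mdifferentiableAt_atlas_symm (chart_mem_atlas R2 c) hz
  have h2 : MDifferentiableAt (𝓡 2) 𝓘(ℝ, E) f ((chartAt R2 c).symm z) :=
    hf.mdifferentiable (by simp) _
  have h3 := mfderiv_comp z h2 h1
  rw [mfderiv_eq_fderiv] at h3
  exact DFunLike.congr_fun h3 u

theorem bijective_symm (c : M) {z : R2} (hz : z ∈ (chartAt R2 c).target) :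
    Function.Bijective (mfderiv (𝓡 2) (𝓡 2) (chartAt R2 c).symm z) :=
  (mdifferentiable_chart (I := 𝓡 2) c).symm.mfderiv_bijective hz

variable {G S : M → R3}

theorem fderiv_G_injective (hG : IsImm3 G) (c : M) {z : R2} (hz : z ∈ (chartAt R2 c).target) :
    Function.Injective (fderiv ℝ (inChart G c) z) := by
  intro u v h
  rw [fderiv_inChart hG.1 c hz, fderiv_inChart hG.1 c hz] at h
  exact (bijective_symm c hz).1 (hG.2 _ h)

theorem range_chart (hG : IsImm3 G) (c : M) {z : R2} (hz : z ∈ (chartAt R2 c).target) :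
    (LinearMap.range (mfderiv (𝓡 2) 𝓘(ℝ, R3) G ((chartAt R2 c).symm z)).toLinearMap : Submodule ℝ R3) = LinearMap.range (fderiv ℝ (inChart G c) z).toLinearMap := by
  ext w
  constructor
  · rintro ⟨v, rfl⟩
    obtain ⟨u, rfl⟩ := (bijective_symm c hz).2 v
    exact ⟨u, fderiv_inChart hG.1 c hz u⟩
  · rintro ⟨u, rfl⟩
    exact ⟨_, (fderiv_inChart hG.1 c hz u).symm⟩

theorem nu_ne_aux (hG : IsImm3 G) (c : M) {z : R2} (hz : z ∈ (chartAt R2 c).target) :
    cr (fderiv ℝ (inChart G c) z (e2 0)) (fderiv ℝ (inChart G c) z (e2 1)) ≠ 0 := by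
  refine cr_ne_zero (LinearIndependent.pair_iff.2 fun s t hst => ?_)
  have h : fderiv ℝ (inChart G c) z (s • e2 0 + t • e2 1) = fderiv ℝ (inChart G c) z 0 := by
    simpa using hst
  have h' := fderiv_G_injective hG c hz h
  refine ⟨?_, ?_⟩
  · simpa [e2] using congrArg (fun v : R2 => v 0) h'
  · simpa [e2] using congrArg (fun v : R2 => v 1) h'

theorem norm_nu (hG : IsImm3 G) (c : M) {z : R2} (hz : z ∈ (chartAt R2 c).target) :
    ‖nu G c z‖ = 1 :=
  norm_smul_inv_norm (𝕜 := ℝ) (nu_ne_aux hG c hz)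

theorem inner_nu_self (hG : IsImm3 G) (c : M) {z : R2} (hz : z ∈ (chartAt R2 c).target) :
    ⟪nu G c z, nu G c z⟫ = 1 := by
  rw [real_inner_self_eq_norm_sq, norm_nu hG c hz, one_pow]

omit [IsManifold (𝓡 2) ∞ M] in
theorem inner_nu_fderiv (c : M) (z u : R2) :
    ⟪nu G c z, fderiv ℝ (inChart G c) z u⟫ = 0 := by
  have hu : u = u 0 • e2 0 + u 1 • e2 1 := by
    ext i
    fin_cases i <;> simp [e2]
  rw [hu, map_add, map_smul, map_smul, inner_add_right, real_inner_smul_right,
    real_inner_smul_right, nu, real_inner_smul_left, real_inner_smul_left, inner_cr_left,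
    inner_cr_right]
  ring

theorem orth_eq_span (hG : IsImm3 G) (c : M) {z : R2} (hz : z ∈ (chartAt R2 c).target) :
    ((LinearMap.range (mfderiv (𝓡 2) 𝓘(ℝ, R3) G ((chartAt R2 c).symm z)).toLinearMap : Submodule ℝ R3))ᗮ = ℝ ∙ nu G c z := by
  have hne : nu G c z ≠ 0 := fun h => by simpa [h] using norm_nu hG c hz
  have hle : (ℝ ∙ nu G c z) ≤ ((LinearMap.range (mfderiv (𝓡 2) 𝓘(ℝ, R3) G ((chartAt R2 c).symm z)).toLinearMap : Submodule ℝ R3))ᗮ := by
    rw [Submodule.span_singleton_le_iff_mem, Submodule.mem_orthogonal]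
    rw [range_chart hG c hz]
    rintro w ⟨u, rfl⟩
    rw [real_inner_comm]
    exact inner_nu_fderiv c z u
  refine (Submodule.eq_of_le_of_finrank_eq hle ?_).symm
  have h2 : Module.finrank ℝ ((LinearMap.range (mfderiv (𝓡 2) 𝓘(ℝ, R3) G ((chartAt R2 c).symm z)).toLinearMap : Submodule ℝ R3)) = 2 := by
    rw [range_chart hG c hz, LinearMap.finrank_range_of_inj (fderiv_G_injective hG c hz),
      finrank_euclideanSpace_fin]
  have h3 := Submodule.finrank_add_finrank_orthogonal ((LinearMap.range (mfderiv (𝓡 2) 𝓘(ℝ, R3) G ((chartAt R2 c).symm z)).toLinearMap : Submodule ℝ R3))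
  rw [h2, finrank_euclideanSpace_fin] at h3
  rw [finrank_span_singleton hne]
  omega

theorem nLine_chart (hG : IsImm3 G) (c : M) {z : R2} (hz : z ∈ (chartAt R2 c).target) (v : R3) :
    nLine G ((chartAt R2 c).symm z) v = ⟪nu G c z, v⟫ • nu G c z := by
  refine Submodule.eq_starProjection_of_mem_of_inner_eq_zero ?_ ?_
  · rw [orth_eq_span hG c hz]
    exact Submodule.smul_mem _ _ (Submodule.mem_span_singleton_self _)
  · intro w hw
    rw [orth_eq_span hG c hz] at hw
    obtain ⟨a, rfl⟩ := Submodule.mem_span_singleton.1 hw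
    rw [real_inner_smul_right, inner_sub_left, real_inner_smul_left, inner_nu_self hG c hz,
      real_inner_comm]
    ring

theorem contDiffOn_nu (hG : IsImm3 G) (c : M) :
    ContDiffOn ℝ ∞ (nu G c) (chartAt R2 c).target := by
  have hD : ContDiffOn ℝ ∞ (fderiv ℝ (inChart G c)) (chartAt R2 c).target :=
    (contDiffOn_inChart hG.1 c).fderiv_of_isOpen (chartAt R2 c).open_target (by simp)
  have hd : ∀ i, ContDiffOn ℝ ∞ (fun z => fderiv ℝ (inChart G c) z (e2 i))
      (chartAt R2 c).target := fun i => hD.clm_apply contDiffOn_const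
  have hc : ∀ i j, ContDiffOn ℝ ∞ (fun z => fderiv ℝ (inChart G c) z (e2 i) j)
      (chartAt R2 c).target := fun i j => (contDiff_piLp_apply (p := 2)).comp_contDiffOn (hd i)
  have hn : ContDiffOn ℝ ∞ (fun z => cr (fderiv ℝ (inChart G c) z (e2 0))
      (fderiv ℝ (inChart G c) z (e2 1))) (chartAt R2 c).target := by
    rw [contDiffOn_piLp]
    intro j
    fin_cases j <;> simp only [cr, cross_apply] <;>
      exact ((hc _ _).mul (hc _ _)).sub ((hc _ _).mul (hc _ _))
  exact ((hn.norm ℝ fun z hz => nu_ne_aux hG c hz).inv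
    fun z hz => norm_ne_zero_iff.2 (nu_ne_aux hG c hz)).smul hn

theorem contDiffOn_psi (hG : IsImm3 G) (hS : ContMDiff (𝓡 2) 𝓘(ℝ, R3) ∞ S) (c : M) :
    ContDiffOn ℝ ∞ (psi G S c) (chartAt R2 c).target :=
  (contDiffOn_nu hG c).inner ℝ (contDiffOn_inChart hS c)

theorem section_eq (hG : IsImm3 G) (hS : IsSection G S) (c : M) {z : R2}
    (hz : z ∈ (chartAt R2 c).target) :
    inChart S c z = psi G S c z • nu G c z := by
  show S _ = _
  rw [psi, ← nLine_chart hG c hz, hS.2]

/-- Normal part of the derivative of a section. -/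
theorem nLine_fderiv (hG : IsImm3 G) (hS : IsSection G S) (c : M) {z : R2}
    (hz : z ∈ (chartAt R2 c).target) (u : R2) :
    nLine G ((chartAt R2 c).symm z) (fderiv ℝ (inChart S c) z u) =
      fderiv ℝ (psi G S c) z u • nu G c z := by
  have ht : (chartAt R2 c).target ∈ 𝓝 z := (chartAt R2 c).open_target.mem_nhds hz
  have he : inChart S c =ᶠ[𝓝 z] fun w => psi G S c w • nu G c w := by
    filter_upwards [ht] with w hw using section_eq hG hS c hw
  have hp : HasFDerivAt (psi G S c) (fderiv ℝ (psi G S c) z) z :=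
    (((contDiffOn_psi hG hS.1 c).contDiffAt ht).differentiableAt (by simp)).hasFDerivAt
  have hn : HasFDerivAt (nu G c) (fderiv ℝ (nu G c) z) z :=
    (((contDiffOn_nu hG c).contDiffAt ht).differentiableAt (by simp)).hasFDerivAt
  have h := ((hp.smul hn).congr_of_eventuallyEq he).fderiv
  have h1 : ∀ u, ⟪nu G c z, fderiv ℝ (nu G c) z u⟫ = 0 := by
    intro u
    have hc : (fun w => ⟪nu G c w, nu G c w⟫) =ᶠ[𝓝 z] fun _ => (1 : ℝ) := by
      filter_upwards [ht] with w hw using inner_nu_self hG c hw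
    have := DFunLike.congr_fun (hc.fderiv_eq (𝕜 := ℝ)) u
    rw [fderiv_inner_apply ℝ hn.differentiableAt hn.differentiableAt, fderiv_const_apply,
      real_inner_comm (nu G c z)] at this
    simp at this
    linarith
  simp only [h, nLine_chart hG c hz]
  simp [inner_add_right, real_inner_smul_right, h1 u, norm_nu hG c hz]

theorem mfderiv_chart_symm (c : M) {z : R2} (hz : z ∈ (chartAt R2 c).target) (u : R2) :
    mfderiv (𝓡 2) (𝓡 2) (chartAt R2 c) ((chartAt R2 c).symm z)
      (mfderiv (𝓡 2) (𝓡 2) (chartAt R2 c).symm z u) = u :=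
  DFunLike.congr_fun ((mdifferentiable_chart (I := 𝓡 2) c).comp_symm_deriv hz) u

end

end Vale.Agent.P205.Full.Start.Sect
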