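import Vale.Agent.P205.Full.Start.SpiralDefs
import Vale.Agent.P205.Full.Start.Normal
import Vale.Agent.P205.Full.Stage.Calculus

/-!
# P205 full, START A6: exact pointwise identities of the last spiral (helper4)

On the domain `U` of a local unit normal `ν` the section is `ψ • ν` with `ψ = lpsi S ν`, the spin
field is `eFld`, and all derivatives of the spiral map are explicit.
-/

open scoped Manifold ContDiff RealInnerProductSpace Topology
open Bundle Filter Set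

namespace Vale.Agent.P205.Full.Start

variable {M : Type} [TopologicalSpace M] [ChartedSpace R2 M] [IsManifold (𝓡 2) ∞ M]
variable {N : ℕ} {V : Frame M N} {G S ν : M → R3} {F : M → R4} {U : Set M} {y : M}

/-! ## Covering by local normals -/

/-- Finitely many local unit normals whose domains cover the surface. -/
theorem exists_locNormal_cover [T2Space M] [CompactSpace M] (hG : IsImm3 G) :
    ∃ (J : ℕ) (U : Fin J → Set M) (ν : Fin J → M → R3),
      (∀ j, LocNormal G (U j) (ν j)) ∧ ∀ x, ∃ j, x ∈ U j := by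
  have h : ∀ c : M, ∃ (U : Set M) (ν : M → R3), LocNormal G U ν ∧ c ∈ U := by
    intro c
    obtain ⟨f⟩ : Nonempty (SmoothBumpFunction (𝓡 2) c) := inferInstance
    refine ⟨(chartAt R2 c).source ∩ interior {z | f z = 1},
      fun z => f z • Sect.nu G c (chartAt R2 c z),
      ⟨(chartAt R2 c).open_source.inter isOpen_interior, f.contMDiff_smul ?_, fun z hz => ?_⟩,
      mem_chart_source R2 c, mem_interior_iff_mem_nhds.2 f.eventuallyEq_one⟩
    · exact (Sect.contDiffOn_nu hG c).contMDiffOn.comp contMDiffOn_chart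
        fun z hz => (chartAt R2 c).map_source hz
    · have h1 : f z = 1 := (interior_subset hz.2 :)
      have hn := Sect.norm_nu hG c ((chartAt R2 c).map_source hz.1)
      refine ⟨by simp [h1, hn], fun v => ?_⟩
      have := Sect.nLine_chart hG c ((chartAt R2 c).map_source hz.1) v
      rw [(chartAt R2 c).left_inv hz.1] at this
      simpa [h1] using this
  choose U ν hL hc using h
  obtain ⟨t, -, ht⟩ := isCompact_univ.elim_nhds_subcover U
    fun c _ => (hL c).isOpen.mem_nhds (hc c)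
  refine ⟨t.card, fun j => U (t.equivFin.symm j).1, fun j => ν (t.equivFin.symm j).1,
    fun j => hL _, fun x => ?_⟩
  obtain ⟨c, hct, hx⟩ := Set.mem_iUnion₂.1 (ht (Set.mem_univ x))
  exact ⟨t.equivFin ⟨c, hct⟩, by simpa using hx⟩

/-! ## Smoothness -/

omit [IsManifold (𝓡 2) ∞ M] in
theorem contMDiff_oddN (nd : NormalData G F) (hν : ContMDiff (𝓡 2) 𝓘(ℝ, R3) ∞ ν) :
    ContMDiff (𝓡 2) 𝓘(ℝ, R4) ∞ (oddN nd ν) :=
  nd.smooth_O.clm_apply hν

theorem contMDiff_lpsi (hS : ContMDiff (𝓡 2) 𝓘(ℝ, R3) ∞ S)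
    (hν : ContMDiff (𝓡 2) 𝓘(ℝ, R3) ∞ ν) : ContMDiff (𝓡 2) 𝓘(ℝ, ℝ) ∞ (lpsi S ν) :=
  fun x => contMDiffAt_inner_fun (hν x) (hS x)

omit [IsManifold (𝓡 2) ∞ M] in
theorem contMDiff_cos_phase {p : M → ℝ} (hp : ContMDiff (𝓡 2) 𝓘(ℝ, ℝ) ∞ p) (Lam : ℝ) :
    ContMDiff (𝓡 2) 𝓘(ℝ, ℝ) ∞ (fun x => Real.cos (Lam * p x)) :=
  ((Real.contDiff_cos.comp (contDiff_const.mul contDiff_id)).contMDiff).comp hp

omit [IsManifold (𝓡 2) ∞ M] in
theorem contMDiff_sin_phase {p : M → ℝ} (hp : ContMDiff (𝓡 2) 𝓘(ℝ, ℝ) ∞ p) (Lam : ℝ) :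
    ContMDiff (𝓡 2) 𝓘(ℝ, ℝ) ∞ (fun x => Real.sin (Lam * p x)) :=
  ((Real.contDiff_sin.comp (contDiff_const.mul contDiff_id)).contMDiff).comp hp

variable (nd : NormalData G F) (Lam : ℝ)

theorem contMDiff_eFld (hS : IsSection G S) (hν : ContMDiff (𝓡 2) 𝓘(ℝ, R3) ∞ ν) :
    ContMDiff (𝓡 2) 𝓘(ℝ, R4) ∞ (eFld nd S ν Lam) :=
  ((contMDiff_cos_phase (contMDiff_lpsi hS.1 hν) Lam).smul nd.smooth_n1).add
    ((contMDiff_sin_phase (contMDiff_lpsi hS.1 hν) Lam).smul (contMDiff_oddN nd hν))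

theorem contMDiff_uFld (hS : IsSection G S) (hν : ContMDiff (𝓡 2) 𝓘(ℝ, R3) ∞ ν) :
    ContMDiff (𝓡 2) 𝓘(ℝ, R4) ∞ (uFld nd S ν Lam) :=
  ((contMDiff_sin_phase (contMDiff_lpsi hS.1 hν) Lam).neg.smul nd.smooth_n1).add
    ((contMDiff_cos_phase (contMDiff_lpsi hS.1 hν) Lam).smul (contMDiff_oddN nd hν))

theorem contMDiff_omFld (hV : FrameSmooth V) (hS : IsSection G S)
    (hν : ContMDiff (𝓡 2) 𝓘(ℝ, R3) ∞ ν) (i : Fin N) :
    ContMDiff (𝓡 2) 𝓘(ℝ, R4) ∞ (omFld V nd S ν Lam i) :=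
  ((contMDiff_cos_phase (contMDiff_lpsi hS.1 hν) Lam).smul (contMDiff_D hV i nd.smooth_n1)).add
    ((contMDiff_sin_phase (contMDiff_lpsi hS.1 hν) Lam).smul
      (contMDiff_D hV i (contMDiff_oddN nd hν)))

/-! ## The section on `U` -/

omit [IsManifold (𝓡 2) ∞ M] in
theorem LocNormal.inner_self (hL : LocNormal G U ν) (hy : y ∈ U) : ⟪ν y, ν y⟫ = 1 := by
  rw [real_inner_self_eq_norm_sq, (hL.spec y hy).1, one_pow]

omit [IsManifold (𝓡 2) ∞ M] in
theorem LocNormal.nLine_self (hL : LocNormal G U ν) (hy : y ∈ U) : nLine G y (ν y) = ν y := by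
  rw [(hL.spec y hy).2, hL.inner_self hy, one_smul]

omit [IsManifold (𝓡 2) ∞ M] in
theorem LocNormal.section_eq (hL : LocNormal G U ν) (hS : IsSection G S) (hy : y ∈ U) :
    S y = lpsi S ν y • ν y := by
  rw [lpsi, ← (hL.spec y hy).2, hS.2]

omit [IsManifold (𝓡 2) ∞ M] in
theorem norm_section (hS : IsSection G S) (hL : LocNormal G U ν) (hy : y ∈ U) :
    ‖S y‖ = |lpsi S ν y| := by
  conv_lhs => rw [hL.section_eq hS hy]
  rw [norm_smul, (hL.spec y hy).1, mul_one, Real.norm_eq_abs]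

theorem LocNormal.inner_D (hL : LocNormal G U ν) (hy : y ∈ U) (i : Fin N) :
    ⟪ν y, D V i ν y⟫ = 0 := by
  have h0 : (fun z => ⟪ν z, ν z⟫) =ᶠ[𝓝 y] fun _ => (1 : ℝ) := by
    filter_upwards [hL.isOpen.mem_nhds hy] with z hz using hL.inner_self hz
  have h := D_congr (V := V) (i := i) h0
  rw [D_const, D_inner (mdiffAt_of_smoothAt (hL.smooth y)) (mdiffAt_of_smoothAt (hL.smooth y)),
    real_inner_comm (ν y) (D V i ν y)] at h
  linarith

theorem nLine_D_smul (hL : LocNormal G U ν) {a : M → ℝ}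
    (ha : MDifferentiableAt (𝓡 2) 𝓘(ℝ, ℝ) a y) (hy : y ∈ U) (i : Fin N) :
    nLine G y (D V i (fun z => a z • ν z) y) = D V i a y • ν y := by
  rw [D_smul ha (mdiffAt_of_smoothAt (hL.smooth y)), map_add, map_smul, map_smul,
    hL.nLine_self hy, (hL.spec y hy).2, hL.inner_D hy]
  simp

theorem dSec_eq (hS : IsSection G S) (hL : LocNormal G U ν) (hy : y ∈ U) (i : Fin N) :
    dSec G V S i y = D V i (lpsi S ν) y • ν y := by
  have he : S =ᶠ[𝓝 y] fun z => lpsi S ν z • ν z := by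
    filter_upwards [hL.isOpen.mem_nhds hy] with z hz using hL.section_eq hS hz
  show nLine G y (D V i S y) = _
  rw [D_congr he]
  exact nLine_D_smul hL (mdiffAt_of_smoothAt (contMDiff_lpsi hS.1 hL.smooth y)) hy i

theorem dSecSq_eq (hS : IsSection G S) (hL : LocNormal G U ν) (hy : y ∈ U) (i k : Fin N) :
    dSecSq G V S i k y = D V i (lpsi S ν) y * D V k (lpsi S ν) y := by
  rw [dSecSq, dSec_eq hS hL hy, dSec_eq hS hL hy, real_inner_smul_left, real_inner_smul_right,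
    hL.inner_self hy, mul_one]

theorem sum_dSecSq_eq (hS : IsSection G S) (hL : LocNormal G U ν) (hy : y ∈ U) :
    ∑ i, dSecSq G V S i i y = ∑ i, D V i (lpsi S ν) y ^ 2 :=
  Finset.sum_congr rfl fun i _ => by rw [dSecSq_eq hS hL hy, sq]

theorem nLine_D_dSec (hV : FrameSmooth V) (hS : IsSection G S) (hL : LocNormal G U ν)
    (hy : y ∈ U) (i k : Fin N) :
    nLine G y (D V i (dSec G V S k) y) = D V i (D V k (lpsi S ν)) y • ν y := by
  have he : dSec G V S k =ᶠ[𝓝 y] fun z => D V k (lpsi S ν) z • ν z := by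
    filter_upwards [hL.isOpen.mem_nhds hy] with z hz using dSec_eq hS hL hz k
  rw [D_congr he]
  exact nLine_D_smul hL
    (mdiffAt_of_smoothAt (contMDiff_D hV k (contMDiff_lpsi hS.1 hL.smooth) y)) hy i

theorem abs_DD_lpsi_eq (hV : FrameSmooth V) (hS : IsSection G S) (hL : LocNormal G U ν)
    (hy : y ∈ U) (i k : Fin N) :
    |D V i (D V k (lpsi S ν)) y| = ‖nLine G y (D V i (dSec G V S k) y)‖ := by
  rw [nLine_D_dSec hV hS hL hy, norm_smul, (hL.spec y hy).1, mul_one, Real.norm_eq_abs]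

theorem abs_DD_lpsi_le (hV : FrameSmooth V) (hS : IsSection G S) (hL : LocNormal G U ν)
    (hy : y ∈ U) (i k : Fin N) :
    |D V i (D V k (lpsi S ν)) y| ≤ ‖D V i (dSec G V S k) y‖ := by
  rw [abs_DD_lpsi_eq hV hS hL hy]
  exact Submodule.norm_starProjection_apply_le _ _

/-! ## The normal data on `U` -/

omit [IsManifold (𝓡 2) ∞ M] in
theorem norm_oddN (hL : LocNormal G U ν) (hy : y ∈ U) : ‖oddN nd ν y‖ = 1 := by
  rw [oddN, nd.iso_O, hL.nLine_self hy, (hL.spec y hy).1]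

omit [IsManifold (𝓡 2) ∞ M] in
theorem inner_n1_oddN : ⟪nd.n1 y, oddN nd ν y⟫ = 0 := (nd.normal_O y (ν y)).2

omit [IsManifold (𝓡 2) ∞ M] in
theorem oddN_normal : oddN nd ν y ∈ (tanPlane F y)ᗮ := (nd.normal_O y (ν y)).1

theorem inner_DF_n1 (i : Fin N) : ⟪D V i F y, nd.n1 y⟫ = 0 :=
  Submodule.inner_right_of_mem_orthogonal (K := tanPlane F y) ⟨V i y, rfl⟩ (nd.normal_n1 y)

theorem inner_DF_oddN (i : Fin N) : ⟪D V i F y, oddN nd ν y⟫ = 0 :=
  Submodule.inner_right_of_mem_orthogonal (K := tanPlane F y) ⟨V i y, rfl⟩ (oddN_normal nd)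

theorem inner_DF_eFld (i : Fin N) : ⟪D V i F y, eFld nd S ν Lam y⟫ = 0 := by
  simp [eFld, inner_add_right, real_inner_smul_right, inner_DF_n1, inner_DF_oddN]

theorem inner_DF_uFld (i : Fin N) : ⟪D V i F y, uFld nd S ν Lam y⟫ = 0 := by
  simp [uFld, inner_add_right, real_inner_smul_right, inner_DF_n1, inner_DF_oddN]

omit [IsManifold (𝓡 2) ∞ M] in
theorem inner_pair (hL : LocNormal G U ν) (hy : y ∈ U) (a b a' b' : ℝ) :
    ⟪a • nd.n1 y + b • oddN nd ν y, a' • nd.n1 y + b' • oddN nd ν y⟫ = a * a' + b * b' := by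
  simp only [inner_add_left, inner_add_right, real_inner_smul_left, real_inner_smul_right,
    real_inner_self_eq_norm_sq, nd.unit_n1, norm_oddN nd hL hy, inner_n1_oddN nd,
    real_inner_comm (nd.n1 y) (oddN nd ν y)]
  ring

omit [IsManifold (𝓡 2) ∞ M] in
theorem norm_eFld (hL : LocNormal G U ν) (hy : y ∈ U) : ‖eFld nd S ν Lam y‖ = 1 := by
  have h : ‖eFld nd S ν Lam y‖ ^ 2 = 1 := by
    rw [← real_inner_self_eq_norm_sq]
    refine (inner_pair nd hL hy _ _ _ _).trans ?_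
    nlinarith [Real.sin_sq_add_cos_sq (Lam * lpsi S ν y)]
  nlinarith [norm_nonneg (eFld nd S ν Lam y)]

omit [IsManifold (𝓡 2) ∞ M] in
theorem norm_uFld (hL : LocNormal G U ν) (hy : y ∈ U) : ‖uFld nd S ν Lam y‖ = 1 := by
  have h : ‖uFld nd S ν Lam y‖ ^ 2 = 1 := by
    rw [← real_inner_self_eq_norm_sq]
    refine (inner_pair nd hL hy _ _ _ _).trans ?_
    nlinarith [Real.sin_sq_add_cos_sq (Lam * lpsi S ν y)]
  nlinarith [norm_nonneg (uFld nd S ν Lam y)]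

omit [IsManifold (𝓡 2) ∞ M] in
theorem inner_eFld_uFld (hL : LocNormal G U ν) (hy : y ∈ U) :
    ⟪eFld nd S ν Lam y, uFld nd S ν Lam y⟫ = 0 := by
  refine (inner_pair nd hL hy _ _ _ _).trans ?_
  ring

/-! ## The spiral on `U` -/

theorem sinc_abs_mul (t : ℝ) : Real.sinc |t| * t = Real.sin t := by
  have h : Real.sinc |t| = Real.sinc t := by
    rcases abs_choice t with h | h <;> rw [h]
    exact Real.sinc_neg t
  rw [h]
  rcases eq_or_ne t 0 with rfl | ht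
  · simp
  · rw [Real.sinc_of_ne_zero ht, div_mul_cancel₀ _ ht]

omit [IsManifold (𝓡 2) ∞ M] in
theorem spin_eq_eFld (hS : IsSection G S) (hL : LocNormal G U ν) (hy : y ∈ U) :
    spin nd (fun z => Lam • S z) y = eFld nd S ν Lam y := by
  show Real.cos ‖Lam • S y‖ • nd.n1 y + Real.sinc ‖Lam • S y‖ • nd.O y (Lam • S y) = _
  have hn : ‖Lam • S y‖ = |Lam * lpsi S ν y| := by
    rw [norm_smul, norm_section hS hL hy, Real.norm_eq_abs, abs_mul]
  rw [hn, Real.cos_abs, hL.section_eq hS hy, smul_smul, map_smul, smul_smul, sinc_abs_mul]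
  rfl

omit [IsManifold (𝓡 2) ∞ M] in
theorem spiralMap_eventuallyEq (hS : IsSection G S) (hL : LocNormal G U ν) (hy : y ∈ U) (α : ℝ) :
    spiralMap nd S α Lam =ᶠ[𝓝 y] fun z => α • (F z + Lam⁻¹ • eFld nd S ν Lam z) := by
  filter_upwards [hL.isOpen.mem_nhds hy] with z hz
  rw [spiralMap, spin_eq_eFld nd Lam hS hL hz]

theorem contMDiff_spiralMap [T2Space M] [CompactSpace M] (hG : IsImm3 G)
    (hF : ContMDiff (𝓡 2) 𝓘(ℝ, R4) ∞ F) (hS : IsSection G S) (α : ℝ) :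
    ContMDiff (𝓡 2) 𝓘(ℝ, R4) ∞ (spiralMap nd S α Lam) := by
  obtain ⟨J, U, ν, hL, hc⟩ := exists_locNormal_cover hG
  intro x
  obtain ⟨j, hj⟩ := hc x
  refine (ContMDiff.contMDiffAt ?_).congr_of_eventuallyEq
    (spiralMap_eventuallyEq nd Lam hS (hL j) hj α)
  exact (contMDiff_const (I' := 𝓘(ℝ, ℝ)) (c := α)).smul
    (hF.add ((contMDiff_const (I' := 𝓘(ℝ, ℝ)) (c := Lam⁻¹)).smul
      (contMDiff_eFld nd Lam hS (hL j).smooth)))

variable {nd Lam}

theorem D_cos_phase {p : M → ℝ} (hp : MDifferentiableAt (𝓡 2) 𝓘(ℝ, ℝ) p y) (Lam : ℝ)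
    (i : Fin N) :
    D V i (fun z => Real.cos (Lam * p z)) y = -Real.sin (Lam * p y) * (Lam * D V i p y) := by
  have h : HasDerivAt (fun t : ℝ => Real.cos (Lam * t))
      (-Real.sin (Lam * p y) * (Lam * 1)) (p y) := ((hasDerivAt_id (p y)).const_mul Lam).cos
  rw [D_comp (φ := fun t : ℝ => Real.cos (Lam * t)) h.differentiableAt hp, h.hasFDerivAt.fderiv]
  show D V i p y * _ = _
  ring

theorem D_sin_phase {p : M → ℝ} (hp : MDifferentiableAt (𝓡 2) 𝓘(ℝ, ℝ) p y) (Lam : ℝ)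
    (i : Fin N) :
    D V i (fun z => Real.sin (Lam * p z)) y = Real.cos (Lam * p y) * (Lam * D V i p y) := by
  have h : HasDerivAt (fun t : ℝ => Real.sin (Lam * t))
      (Real.cos (Lam * p y) * (Lam * 1)) (p y) := ((hasDerivAt_id (p y)).const_mul Lam).sin
  rw [D_comp (φ := fun t : ℝ => Real.sin (Lam * t)) h.differentiableAt hp, h.hasFDerivAt.fderiv]
  show D V i p y * _ = _
  ring

/-- Derivative of `cos • f + sin • f'`. -/
theorem D_rot {p : M → ℝ} {f f' : M → R4} (hp : ContMDiff (𝓡 2) 𝓘(ℝ, ℝ) ∞ p)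
    (hf : ContMDiff (𝓡 2) 𝓘(ℝ, R4) ∞ f) (hf' : ContMDiff (𝓡 2) 𝓘(ℝ, R4) ∞ f') (Lam : ℝ)
    (i : Fin N) (y : M) :
    D V i (fun z => Real.cos (Lam * p z) • f z + Real.sin (Lam * p z) • f' z) y =
      (Lam * D V i p y) • (-Real.sin (Lam * p y) • f y + Real.cos (Lam * p y) • f' y) +
        (Real.cos (Lam * p y) • D V i f y + Real.sin (Lam * p y) • D V i f' y) := by
  have hc := mdiffAt_of_smoothAt (contMDiff_cos_phase hp Lam y)
  have hs := mdiffAt_of_smoothAt (contMDiff_sin_phase hp Lam y)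
  have h1 := mdiffAt_of_smoothAt (hf y)
  have h2 := mdiffAt_of_smoothAt (hf' y)
  have hp' := mdiffAt_of_smoothAt (hp y)
  have hA : MDifferentiableAt (𝓡 2) 𝓘(ℝ, R4) (fun z => Real.cos (Lam * p z) • f z) y := hc.smul h1
  have hB : MDifferentiableAt (𝓡 2) 𝓘(ℝ, R4) (fun z => Real.sin (Lam * p z) • f' z) y := hs.smul h2
  rw [D_add hA hB,
    D_smul hc h1, D_smul hs h2, D_cos_phase hp', D_sin_phase hp']
  module

theorem D_eFld (hS : IsSection G S) (hν : ContMDiff (𝓡 2) 𝓘(ℝ, R3) ∞ ν) (i : Fin N) (y : M) :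
    D V i (eFld nd S ν Lam) y =
      (Lam * D V i (lpsi S ν) y) • uFld nd S ν Lam y + omFld V nd S ν Lam i y :=
  D_rot (contMDiff_lpsi hS.1 hν) nd.smooth_n1 (contMDiff_oddN nd hν) Lam i y

theorem D_uFld (hS : IsSection G S) (hν : ContMDiff (𝓡 2) 𝓘(ℝ, R3) ∞ ν) (i : Fin N) (y : M) :
    D V i (uFld nd S ν Lam) y =
      -(Lam * D V i (lpsi S ν) y) • eFld nd S ν Lam y +
        (-Real.sin (Lam * lpsi S ν y) • D V i nd.n1 y +
          Real.cos (Lam * lpsi S ν y) • D V i (oddN nd ν) y) := by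
  have he : uFld nd S ν Lam = fun z => Real.cos (Lam * lpsi S ν z) • oddN nd ν z +
      Real.sin (Lam * lpsi S ν z) • -nd.n1 z := by
    funext z
    simp only [uFld, neg_smul, smul_neg]
    abel
  rw [he, D_rot (contMDiff_lpsi hS.1 hν) (contMDiff_oddN nd hν) nd.smooth_n1.neg Lam i y,
    D_neg (mdiffAt_of_smoothAt (nd.smooth_n1 y))]
  simp only [eFld]
  module

theorem D_omFld (hV : FrameSmooth V) (hS : IsSection G S)
    (hν : ContMDiff (𝓡 2) 𝓘(ℝ, R3) ∞ ν) (i k : Fin N) (y : M) :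
    D V i (omFld V nd S ν Lam k) y =
      (Lam * D V i (lpsi S ν) y) • (-Real.sin (Lam * lpsi S ν y) • D V k nd.n1 y +
          Real.cos (Lam * lpsi S ν y) • D V k (oddN nd ν) y) +
        (Real.cos (Lam * lpsi S ν y) • D V i (D V k nd.n1) y +
          Real.sin (Lam * lpsi S ν y) • D V i (D V k (oddN nd ν)) y) :=
  D_rot (contMDiff_lpsi hS.1 hν) (contMDiff_D hV k nd.smooth_n1)
    (contMDiff_D hV k (contMDiff_oddN nd hν)) Lam i y

theorem D_spiralMap (hF : ContMDiff (𝓡 2) 𝓘(ℝ, R4) ∞ F) (hS : IsSection G S)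
    (hL : LocNormal G U ν) (hy : y ∈ U) (hLam : Lam ≠ 0) (α : ℝ) (i : Fin N) :
    D V i (spiralMap nd S α Lam) y =
      α • (D V i F y + D V i (lpsi S ν) y • uFld nd S ν Lam y +
        Lam⁻¹ • omFld V nd S ν Lam i y) := by
  have he := contMDiff_eFld nd Lam hS hL.smooth
  have hsm : ContMDiff (𝓡 2) 𝓘(ℝ, R4) ∞ (fun z => Lam⁻¹ • eFld nd S ν Lam z) :=
    (contMDiff_const (I' := 𝓘(ℝ, ℝ)) (c := Lam⁻¹)).smul he
  have hsum : ContMDiff (𝓡 2) 𝓘(ℝ, R4) ∞ (fun z => F z + Lam⁻¹ • eFld nd S ν Lam z) := hF.add hsm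
  rw [D_congr (spiralMap_eventuallyEq nd Lam hS hL hy α),
    D_const_smul _ (mdiffAt_of_smoothAt (hsum y)),
    D_add (mdiffAt_of_smoothAt (hF y)) (mdiffAt_of_smoothAt (hsm y)),
    D_const_smul _ (mdiffAt_of_smoothAt (he y)), D_eFld hS hL.smooth]
  match_scalars <;> field_simp

theorem D_spiralMap_eventuallyEq (hF : ContMDiff (𝓡 2) 𝓘(ℝ, R4) ∞ F) (hS : IsSection G S)
    (hL : LocNormal G U ν) (hy : y ∈ U) (hLam : Lam ≠ 0) (α : ℝ) (i : Fin N) :
    D V i (spiralMap nd S α Lam) =ᶠ[𝓝 y] fun z =>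
      α • (D V i F z + D V i (lpsi S ν) z • uFld nd S ν Lam z +
        Lam⁻¹ • omFld V nd S ν Lam i z) := by
  filter_upwards [hL.isOpen.mem_nhds hy] with z hz using D_spiralMap hF hS hL hz hLam α i

theorem DD_spiralMap (hV : FrameSmooth V) (hF : ContMDiff (𝓡 2) 𝓘(ℝ, R4) ∞ F)
    (hS : IsSection G S) (hL : LocNormal G U ν) (hy : y ∈ U) (hLam : Lam ≠ 0) (α : ℝ)
    (i k : Fin N) :
    D V i (D V k (spiralMap nd S α Lam)) y =
      α • (D V i (D V k F) y + D V i (D V k (lpsi S ν)) y • uFld nd S ν Lam y +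
        D V k (lpsi S ν) y • D V i (uFld nd S ν Lam) y +
          Lam⁻¹ • D V i (omFld V nd S ν Lam k) y) := by
  have h1 := contMDiff_D hV k hF
  have hp := contMDiff_D hV k (contMDiff_lpsi hS.1 hL.smooth)
  have hu := contMDiff_uFld nd Lam hS hL.smooth
  have ho := contMDiff_omFld nd Lam hV hS hL.smooth k
  have hos : ContMDiff (𝓡 2) 𝓘(ℝ, R4) ∞ (fun z => Lam⁻¹ • omFld V nd S ν Lam k z) :=
    (contMDiff_const (I' := 𝓘(ℝ, ℝ)) (c := Lam⁻¹)).smul ho
  have hpu : ContMDiff (𝓡 2) 𝓘(ℝ, R4) ∞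
      (fun z => D V k (lpsi S ν) z • uFld nd S ν Lam z) := hp.smul hu
  have h12 : ContMDiff (𝓡 2) 𝓘(ℝ, R4) ∞
      (fun z => D V k F z + D V k (lpsi S ν) z • uFld nd S ν Lam z) := h1.add hpu
  have hall : ContMDiff (𝓡 2) 𝓘(ℝ, R4) ∞ (fun z => D V k F z +
      D V k (lpsi S ν) z • uFld nd S ν Lam z + Lam⁻¹ • omFld V nd S ν Lam k z) := h12.add hos
  rw [D_congr (D_spiralMap_eventuallyEq hF hS hL hy hLam α k),
    D_const_smul _ (mdiffAt_of_smoothAt (hall y)),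
    D_add (mdiffAt_of_smoothAt (h12 y)) (mdiffAt_of_smoothAt (hos y)),
    D_add (mdiffAt_of_smoothAt (h1 y)) (mdiffAt_of_smoothAt (hpu y)),
    D_smul (mdiffAt_of_smoothAt (hp y)) (mdiffAt_of_smoothAt (hu y)),
    D_const_smul _ (mdiffAt_of_smoothAt (ho y))]
  abel_nf

end Vale.Agent.P205.Full.Start
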