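import Vale.Agent.P205.Full.Start.Interface
import Vale.Agent.P205.Full.Stage.Calculus

/-!
# START A5, basics: calculus of derivatives along vectors, projection on the normal plane

Everything is local; no orientation and no global frame of the normal plane is used.
-/

open scoped Manifold ContDiff RealInnerProductSpace Topology
open Bundle

namespace Vale.Agent.P205.Full.Start.Twist

noncomputable section

variable {M : Type} [TopologicalSpace M] [ChartedSpace R2 M] [IsManifold (𝓡 2) ∞ M]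
variable {E E' E'' : Type} [NormedAddCommGroup E] [NormedSpace ℝ E]
  [NormedAddCommGroup E'] [NormedSpace ℝ E'] [NormedAddCommGroup E''] [NormedSpace ℝ E'']
variable {N : ℕ}

/-- Derivative along one tangent vector. -/
def dv (f : M → E) (x : M) (v : TangentSpace (𝓡 2) x) : E := mfderiv (𝓡 2) 𝓘(ℝ, E) f x v

omit [IsManifold (𝓡 2) ∞ M] in
lemma dv_add_vec (f : M → E) (x : M) (v w : TangentSpace (𝓡 2) x) :
    dv f x (v + w) = dv f x v + dv f x w := map_add _ v w

omit [IsManifold (𝓡 2) ∞ M] in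
lemma dv_smul_vec (f : M → E) (x : M) (a : ℝ) (v : TangentSpace (𝓡 2) x) :
    dv f x (a • v) = a • dv f x v := map_smul _ a v

omit [IsManifold (𝓡 2) ∞ M] in
lemma dv_congr {f g : M → E} {x : M} (h : f =ᶠ[𝓝 x] g) (v : TangentSpace (𝓡 2) x) :
    dv f x v = dv g x v := by
  show mfderiv (𝓡 2) 𝓘(ℝ, E) f x v = mfderiv (𝓡 2) 𝓘(ℝ, E) g x v
  rw [h.mfderiv_eq]
  rfl

/-- Smooth at a point, as a map to a normed space. -/
abbrev SmAt (f : M → E) (x : M) : Prop := ContMDiffAt (𝓡 2) 𝓘(ℝ, E) ∞ f x

/-- The map written in the chart at `x`. -/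
def inChart (x : M) (f : M → E) : R2 → E := f ∘ (extChartAt (𝓡 2) x).symm

lemma differentiableAt_inChart {f : M → E} {x : M} (hf : SmAt f x) :
    DifferentiableAt ℝ (inChart x f) (extChartAt (𝓡 2) x x) := by
  have h1 : ContMDiffAt 𝓘(ℝ, R2) (𝓡 2) ∞ (extChartAt (𝓡 2) x).symm (extChartAt (𝓡 2) x x) := by
    have h := contMDiffWithinAt_extChartAt_symm_range_self (I := 𝓡 2) (n := ∞) x
    rwa [ModelWithCorners.range_eq_univ, contMDiffWithinAt_univ] at h
  exact (contMDiffAt_iff_contDiffAt.1 ((hf.comp_of_eq h1 (by simp)))).differentiableAt (by simp)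

/-- The derivative is the Fréchet derivative in the chart at the same point. -/
lemma dv_eq {f : M → E} {x : M} (hf : SmAt f x) (v : TangentSpace (𝓡 2) x) :
    dv f x v = fderiv ℝ (inChart x f) (extChartAt (𝓡 2) x x) v := by
  show mfderiv (𝓡 2) 𝓘(ℝ, E) f x v = _
  rw [(hf.mdifferentiableAt (by simp)).mfderiv]
  simp [inChart, writtenInExtChartAt]
  rfl

omit [IsManifold (𝓡 2) ∞ M] in
lemma dv_const (c : E) (x : M) (v : TangentSpace (𝓡 2) x) : dv (fun _ => c) x v = 0 := by
  show mfderiv (𝓡 2) 𝓘(ℝ, E) (fun _ => c) x v = 0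
  rw [mfderiv_const]
  rfl

lemma dv_comp {φ : E → E'} {f : M → E} {x : M} (hφ : ContDiffAt ℝ ∞ φ (f x)) (hf : SmAt f x)
    (v : TangentSpace (𝓡 2) x) :
    dv (fun y => φ (f y)) x v = fderiv ℝ φ (f x) (dv f x v) := by
  have hx : inChart x f (extChartAt (𝓡 2) x x) = f x := by simp [inChart]
  have h : SmAt (fun y => φ (f y)) x := hφ.contMDiffAt.comp x hf
  rw [dv_eq h, dv_eq hf,
    show inChart x (fun y => φ (f y)) = φ ∘ inChart x f from rfl,
    fderiv_comp _ (hx ▸ hφ.differentiableAt (by simp)) (differentiableAt_inChart hf), hx]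
  rfl

lemma dv_add {f g : M → E} {x : M} (hf : SmAt f x) (hg : SmAt g x) (v : TangentSpace (𝓡 2) x) :
    dv (fun y => f y + g y) x v = dv f x v + dv g x v := by
  have h : SmAt (fun y => f y + g y) x := hf.add hg
  rw [dv_eq h, dv_eq hf, dv_eq hg,
    show inChart x (fun y => f y + g y) = fun z => inChart x f z + inChart x g z from rfl,
    fderiv_fun_add (differentiableAt_inChart hf) (differentiableAt_inChart hg)]
  rfl

lemma dv_bilin (B : E →L[ℝ] E' →L[ℝ] E'') {f : M → E} {g : M → E'} {x : M} (hf : SmAt f x)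
    (hg : SmAt g x) (v : TangentSpace (𝓡 2) x) :
    dv (fun y => B (f y) (g y)) x v = B (f x) (dv g x v) + B (dv f x v) (g x) := by
  have h : SmAt (fun y => B (f y) (g y)) x :=
    ((contMDiffAt_const (c := B)).clm_apply hf).clm_apply hg
  have hxf : inChart x f (extChartAt (𝓡 2) x x) = f x := by simp [inChart]
  have hxg : inChart x g (extChartAt (𝓡 2) x x) = g x := by simp [inChart]
  rw [dv_eq h, dv_eq hf, dv_eq hg,
    show inChart x (fun y => B (f y) (g y)) = fun z => B (inChart x f z) (inChart x g z) from rfl,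
    B.fderiv_of_bilinear (differentiableAt_inChart hf) (differentiableAt_inChart hg), hxf, hxg]
  rfl

lemma dv_smul {f : M → ℝ} {g : M → E} {x : M} (hf : SmAt f x) (hg : SmAt g x)
    (v : TangentSpace (𝓡 2) x) :
    dv (fun y => f y • g y) x v = f x • dv g x v + dv f x v • g x :=
  dv_bilin (ContinuousLinearMap.lsmul ℝ ℝ) hf hg v

lemma dv_inner {f g : M → R4} {x : M} (hf : SmAt f x) (hg : SmAt g x)
    (v : TangentSpace (𝓡 2) x) :
    dv (fun y => ⟪f y, g y⟫) x v = ⟪f x, dv g x v⟫ + ⟪dv f x v, g x⟫ :=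
  dv_bilin (innerSL ℝ) hf hg v

/-- Smoothness of the derivative along a field. -/
lemma contMDiffOn_D {V : Frame M N} (hV : FrameSmooth V) {f : M → E} {U : Set M} (hU : IsOpen U)
    (hf : ContMDiffOn (𝓡 2) 𝓘(ℝ, E) ∞ f U) (i : Fin N) :
    ContMDiffOn (𝓡 2) 𝓘(ℝ, E) ∞ (D V i f) U := by
  have h1 := hf.contMDiffOn_tangentMapWithin (m := ∞) le_rfl hU.uniqueMDiffOn
  have h2 := h1.comp (hV i).contMDiffOn (fun x hx => by exact hx)
  refine ((contMDiff_snd_tangentBundle_modelSpace E 𝓘(ℝ, E)).comp_contMDiffOn h2).congr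
    fun x hx => ?_
  show mfderiv (𝓡 2) 𝓘(ℝ, E) f x (V i x) = mfderivWithin (𝓡 2) 𝓘(ℝ, E) f U x (V i x)
  rw [mfderivWithin_of_isOpen hU hx]

omit [IsManifold (𝓡 2) ∞ M] in
lemma finrank_tangent (x : M) : Module.finrank ℝ (TangentSpace (𝓡 2) x) = 2 :=
  finrank_euclideanSpace_fin (𝕜 := ℝ) (n := 2)

lemma finiteDimensional_tangent (x : M) : FiniteDimensional ℝ (TangentSpace (𝓡 2) x) :=
  inferInstanceAs (FiniteDimensional ℝ R2)

/-- Two members of a spanning frame that form a basis. -/
lemma exists_pair {V : Frame M N} (hs : FrameSpans V) (x : M) :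
    ∃ i j, LinearIndependent ℝ ![V i x, V j x] := by
  by_contra h
  push Not at h
  have hne : ∃ i, V i x ≠ 0 := by
    by_contra h0
    push Not at h0
    have := hs x
    have e : (Set.range fun i => V i x) ⊆ {0} := by rintro _ ⟨i, rfl⟩; simp [h0 i]
    have h2 := (Submodule.span_mono (R := ℝ) e)
    rw [this, Submodule.span_zero_singleton, top_le_iff] at h2
    have := finrank_tangent x
    rw [← finrank_top (R := ℝ) (M := TangentSpace (𝓡 2) x), ← h2] at this
    simp at this
  obtain ⟨i, hi⟩ := hne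
  have hall : ∀ j, V j x ∈ ℝ ∙ V i x := fun j => by
    by_contra hj
    refine h i j ?_
    rw [linearIndependent_fin2]
    refine ⟨fun h0 => hj (by simp at h0; simp [h0]), fun a ha => ?_⟩
    simp only [Matrix.cons_val_zero, Matrix.cons_val_one] at ha
    have ha0 : a ≠ 0 := fun h0 => hi (by simp [← ha, h0])
    exact hj (Submodule.mem_span_singleton.2 ⟨a⁻¹, by rw [← ha, inv_smul_smul₀ ha0]⟩)
  have htop : (ℝ ∙ V i x) = ⊤ := top_le_iff.1 (by
    rw [← hs x, Submodule.span_le]
    rintro _ ⟨j, rfl⟩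
    exact hall j)
  have := finrank_tangent x
  rw [← finrank_top, ← htop, finrank_span_singleton hi] at this
  omega

lemma exists_comb {V : Frame M N} {i j : Fin N} {x : M}
    (h : LinearIndependent ℝ ![V i x, V j x]) (v : TangentSpace (𝓡 2) x) :
    ∃ a b : ℝ, v = a • V i x + b • V j x := by
  haveI := finiteDimensional_tangent x
  have ht : Submodule.span ℝ (Set.range ![V i x, V j x]) = ⊤ :=
    h.span_eq_top_of_card_eq_finrank' (by rw [finrank_tangent, Fintype.card_fin])
  have hv : v ∈ Submodule.span ℝ (Set.range ![V i x, V j x]) := by rw [ht]; trivial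
  obtain ⟨c, hc⟩ := (Submodule.mem_span_range_iff_exists_fun ℝ).1 hv
  exact ⟨c 0, c 1, by rw [← hc, Fin.sum_univ_two]; rfl⟩

/-- Every vector is a combination of the frame with coefficients controlled by the metric. -/
lemma exists_coef [CompactSpace M] (g : Metric M) {V : Frame M N} (hV : FrameSmooth V)
    (hs : FrameSpans V) :
    ∃ K, 0 ≤ K ∧ ∀ x v, ∃ c : Fin N → ℝ, v = ∑ i, c i • V i x ∧
      ∑ i, |c i| ≤ K * Real.sqrt (g.inner x v v) := by
  have hloc : ∀ x₀, ∃ K, ∀ᶠ x in 𝓝 x₀, ∀ v, ∃ c : Fin N → ℝ, v = ∑ i, c i • V i x ∧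
      ∑ i, |c i| ≤ K * Real.sqrt (g.inner x v v) := by
    intro x₀
    obtain ⟨i, j, hij⟩ := exists_pair hs x₀
    set d : M → ℝ := fun x => gV g V i i x * gV g V j j x - gV g V i j x ^ 2 with hd
    set num : M → ℝ := fun x =>
      |gV g V j j x| * Real.sqrt |gV g V i i x| + |gV g V i j x| * Real.sqrt |gV g V j j x| +
        (|gV g V i i x| * Real.sqrt |gV g V j j x| + |gV g V i j x| * Real.sqrt |gV g V i i x|)
      with hnum
    have hc : ∀ k l, Continuous (gV g V k l) := fun k l => (contMDiff_gV g hV k l).continuous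
    have hdc : Continuous d := by
      have := hc i i; have := hc j j; have := hc i j
      simp only [hd]; fun_prop
    have hnc : Continuous num := by
      have := hc i i; have := hc j j; have := hc i j
      simp only [hnum]; fun_prop
    have hd0 : 0 < d x₀ := by
      set A := V i x₀ with hA
      set B := V j x₀ with hB
      have haa : 0 < g.inner x₀ A A := g.pos x₀ A (by simpa using hij.ne_zero 0)
      have hne : g.inner x₀ A A • B + (-g.inner x₀ A B) • A ≠ 0 := fun h0 => by
        have h2 := LinearIndependent.pair_iff.1 hij _ _ ((add_comm _ _).trans h0)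
        exact haa.ne' h2.2
      have hp := g.pos x₀ _ hne
      have e : g.inner x₀ (g.inner x₀ A A • B + (-g.inner x₀ A B) • A)
          (g.inner x₀ A A • B + (-g.inner x₀ A B) • A) = g.inner x₀ A A * d x₀ := by
        simp only [map_add, map_smul, add_apply, smul_apply, smul_eq_mul, hd, gV, ← hA, ← hB,
          g.symm x₀ B A]
        ring
      rw [e] at hp
      exact (pos_iff_pos_of_mul_pos hp).1 haa
    refine ⟨|num x₀ / d x₀| + 1, ?_⟩
    filter_upwards [hdc.continuousAt.eventually_const_lt hd0,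
      (hnc.continuousAt.div hdc.continuousAt hd0.ne').eventually_lt_const
        (show num x₀ / d x₀ < |num x₀ / d x₀| + 1 by linarith [le_abs_self (num x₀ / d x₀)])]
      with x hdx hlt v
    have hind : LinearIndependent ℝ ![V i x, V j x] := by
      rw [LinearIndependent.pair_iff]
      intro a b hab
      have e1 : g.inner x (V i x) (a • V i x + b • V j x) = 0 := by rw [hab, map_zero]
      have e2 : g.inner x (V j x) (a • V i x + b • V j x) = 0 := by rw [hab, map_zero]
      simp only [map_add, map_smul, smul_eq_mul, g.symm x (V j x) (V i x)] at e1 e2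
      simp only [hd, gV] at hdx
      constructor
      · refine (mul_eq_zero.1 (?_ : a * (g.inner x (V i x) (V i x) * g.inner x (V j x) (V j x) -
          g.inner x (V i x) (V j x) ^ 2) = 0)).resolve_right hdx.ne'
        linear_combination g.inner x (V j x) (V j x) * e1 - g.inner x (V i x) (V j x) * e2
      · refine (mul_eq_zero.1 (?_ : b * (g.inner x (V i x) (V i x) * g.inner x (V j x) (V j x) -
          g.inner x (V i x) (V j x) ^ 2) = 0)).resolve_right hdx.ne'
        linear_combination g.inner x (V i x) (V i x) * e2 - g.inner x (V i x) (V j x) * e1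
    obtain ⟨a, b, rfl⟩ := exists_comb hind v
    classical
    refine ⟨fun k => (if k = i then a else 0) + if k = j then b else 0, ?_, ?_⟩
    · simp [add_smul, Finset.sum_add_distrib, ite_smul]
    set w := a • V i x + b • V j x with hw
    have hgw : ∀ k, |g.inner x (V k x) w| ≤
        Real.sqrt |gV g V k k x| * Real.sqrt (g.inner x w w) := by
      intro k
      have h0 : ∀ u : TangentSpace (𝓡 2) x, 0 ≤ g.inner x u u := fun u => by
        rcases eq_or_ne u 0 with rfl | hu
        · simp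
        · exact (g.pos x u hu).le
      have hq : ∀ t : ℝ, 0 ≤ g.inner x w w * (t * t) + 2 * g.inner x (V k x) w * t +
          g.inner x (V k x) (V k x) := fun t => by
        have h := h0 (V k x + t • w)
        simp only [map_add, map_smul, add_apply, smul_apply, smul_eq_mul, g.symm x w (V k x)] at h
        linarith
      have hd2 := discrim_le_zero hq
      rw [gV, abs_of_nonneg (h0 _), ← Real.sqrt_mul (h0 _)]
      refine Real.abs_le_sqrt ?_
      rw [discrim] at hd2
      linarith
    have ha : a * d x = gV g V j j x * g.inner x (V i x) w - gV g V i j x * g.inner x (V j x) w := by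
      simp only [hd, gV, hw, map_add, map_smul, smul_eq_mul, g.symm x (V j x) (V i x)]
      ring
    have hb : b * d x = gV g V i i x * g.inner x (V j x) w - gV g V i j x * g.inner x (V i x) w := by
      simp only [hd, gV, hw, map_add, map_smul, smul_eq_mul, g.symm x (V j x) (V i x)]
      ring
    have hab : ∀ p q r : ℝ, ∀ k l, p * d x = q * g.inner x (V k x) w - r * g.inner x (V l x) w →
        |p| * d x ≤ (|q| * Real.sqrt |gV g V k k x| + |r| * Real.sqrt |gV g V l l x|) *
          Real.sqrt (g.inner x w w) := fun p q r k l h => by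
      rw [← abs_of_pos hdx, ← abs_mul, h]
      refine (abs_sub _ _).trans ?_
      rw [abs_mul, abs_mul, add_mul, mul_assoc, mul_assoc]
      gcongr
      · exact hgw k
      · exact hgw l
    have hsum : ∑ k, |(if k = i then a else 0) + if k = j then b else 0| ≤ |a| + |b| := by
      refine (Finset.sum_le_sum fun k _ => abs_add_le _ _).trans ?_
      have e : ∀ (l : Fin N) (r : ℝ), ∑ k, |if k = l then r else 0| = |r| := fun l r => by
        rw [Finset.sum_eq_single_of_mem l (Finset.mem_univ l) fun k _ hk => by simp [hk], if_pos rfl]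
      rw [Finset.sum_add_distrib, e, e]
    refine hsum.trans (le_trans ?_ (mul_le_mul_of_nonneg_right hlt.le (Real.sqrt_nonneg _)))
    rw [Pi.div_apply, div_mul_eq_mul_div, le_div_iff₀ hdx, add_mul]
    exact (add_le_add (hab _ _ _ _ _ ha) (hab _ _ _ _ _ hb)).trans
      (le_of_eq (by simp only [hnum]; ring))
  obtain ⟨K, hK⟩ : ∃ C, ∀ x ∈ (Set.univ : Set M), ∀ v, ∃ c : Fin N → ℝ,
      v = ∑ i, c i • V i x ∧ ∑ i, |c i| ≤ C * Real.sqrt (g.inner x v v) := by
    refine isCompact_univ.induction_on (p := fun s => ∃ C, ∀ x ∈ s, ∀ v, ∃ c : Fin N → ℝ,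
      v = ∑ i, c i • V i x ∧ ∑ i, |c i| ≤ C * Real.sqrt (g.inner x v v)) ⟨0, by simp⟩ ?_ ?_ ?_
    · exact fun s t hst ⟨C, hC⟩ => ⟨C, fun x hx => hC x (hst hx)⟩
    · rintro s t ⟨C, hC⟩ ⟨C', hC'⟩
      refine ⟨max C C', fun x hx v => ?_⟩
      rcases hx with hx | hx
      · obtain ⟨c, h1, h2⟩ := hC x hx v
        exact ⟨c, h1, h2.trans (by gcongr; exact le_max_left _ _)⟩
      · obtain ⟨c, h1, h2⟩ := hC' x hx v
        exact ⟨c, h1, h2.trans (by gcongr; exact le_max_right _ _)⟩
    · intro x₀ _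
      obtain ⟨C, hC⟩ := hloc x₀
      exact ⟨_, mem_nhdsWithin_of_mem_nhds hC, C, fun x hx => hx⟩
  refine ⟨max K 0, le_max_right _ _, fun x v => ?_⟩
  obtain ⟨c, h1, h2⟩ := hK x trivial v
  exact ⟨c, h1, h2.trans (by gcongr; exact le_max_left _ _)⟩

/-- A differential is bounded by its values on the frame. -/
lemma norm_dv_le {V : Frame M N} {f : M → E} {x : M} {v : TangentSpace (𝓡 2) x} {c : Fin N → ℝ}
    (hc : v = ∑ i, c i • V i x) {B : ℝ} (hB : ∀ i, ‖D V i f x‖ ≤ B) :
    ‖dv f x v‖ ≤ (∑ i, |c i|) * B := by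
  let L : TangentSpace (𝓡 2) x →ₗ[ℝ] E :=
    { toFun := dv f x
      map_add' := dv_add_vec f x
      map_smul' := dv_smul_vec f x }
  show ‖L v‖ ≤ _
  rw [hc, map_sum, Finset.sum_mul]
  simp only [map_smul]
  refine (norm_sum_le _ _).trans (Finset.sum_le_sum fun i _ => ?_)
  exact (norm_smul_le _ _).trans (mul_le_mul_of_nonneg_left (hB i) (norm_nonneg _))

/-- A smooth immersion in `ℝ⁴`. -/
def IsImm4 (F : M → R4) : Prop :=
  ContMDiff (𝓡 2) 𝓘(ℝ, R4) ∞ F ∧ ∀ x, Function.Injective (mfderiv (𝓡 2) 𝓘(ℝ, R4) F x)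

variable {F : M → R4} {V : Frame M N}

lemma eq_zero_of_dv (hF : IsImm4 F) {x : M} {v : TangentSpace (𝓡 2) x} (h : dv F x v = 0) :
    v = 0 := by
  have h' : mfderiv (𝓡 2) 𝓘(ℝ, R4) F x v = mfderiv (𝓡 2) 𝓘(ℝ, R4) F x 0 := by
    rw [map_zero]; exact h
  exact hF.2 x h'

/-- Gram determinant of two derivatives of `F`. -/
def gdet (F : M → R4) (V : Frame M N) (i j : Fin N) (x : M) : ℝ :=
  ⟪D V i F x, D V i F x⟫ * ⟪D V j F x, D V j F x⟫ - ⟪D V i F x, D V j F x⟫ ^ 2

lemma gdet_pos_of_indep (hF : IsImm4 F) {i j : Fin N} {x : M}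
    (h : LinearIndependent ℝ ![V i x, V j x]) : 0 < gdet F V i j x := by
  set A := D V i F x with hA
  set B := D V j F x with hB
  have hA0 : A ≠ 0 := fun h0 => by
    have := eq_zero_of_dv hF (x := x) (v := V i x) h0
    exact h.ne_zero 0 this
  have haa : 0 < ⟪A, A⟫ := real_inner_self_pos.2 hA0
  have hw : ⟪A, A⟫ • B - ⟪A, B⟫ • A ≠ 0 := fun h0 => by
    have hv : dv F x (⟪A, A⟫ • V j x + (-⟪A, B⟫) • V i x) = 0 := by
      rw [dv_add_vec, dv_smul_vec, dv_smul_vec, neg_smul, ← sub_eq_add_neg]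
      exact h0
    have h2 := LinearIndependent.pair_iff.1 h _ _
      ((add_comm _ _).trans (eq_zero_of_dv hF hv))
    exact haa.ne' h2.2
  have hpos := real_inner_self_pos.2 hw
  have e : ⟪⟪A, A⟫ • B - ⟪A, B⟫ • A, ⟪A, A⟫ • B - ⟪A, B⟫ • A⟫ = ⟪A, A⟫ * gdet F V i j x := by
    simp only [inner_sub_left, inner_sub_right, real_inner_smul_left, real_inner_smul_right,
      gdet, ← hA, ← hB, real_inner_comm A B]
    ring
  rw [e] at hpos
  exact (pos_iff_pos_of_mul_pos hpos).1 haa

lemma indep_of_gdet {i j : Fin N} {x : M} (h : 0 < gdet F V i j x) :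
    LinearIndependent ℝ ![V i x, V j x] := by
  rw [LinearIndependent.pair_iff]
  intro a b hab
  have e : a • D V i F x + b • D V j F x = 0 := by
    show a • dv F x (V i x) + b • dv F x (V j x) = 0
    rw [← dv_smul_vec, ← dv_smul_vec, ← dv_add_vec, hab]
    exact map_zero _
  have e1 := congrArg (fun z => ⟪D V i F x, z⟫) e
  have e2 := congrArg (fun z => ⟪D V j F x, z⟫) e
  simp only [inner_add_right, real_inner_smul_right, inner_zero_right,
    real_inner_comm (D V i F x) (D V j F x)] at e1 e2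
  unfold gdet at h
  constructor
  · refine (mul_eq_zero.1 (?_ : a * gdet F V i j x = 0)).resolve_right h.ne'
    unfold gdet
    linear_combination ⟪D V j F x, D V j F x⟫ * e1 - ⟪D V i F x, D V j F x⟫ * e2
  · refine (mul_eq_zero.1 (?_ : b * gdet F V i j x = 0)).resolve_right h.ne'
    unfold gdet
    linear_combination ⟪D V i F x, D V i F x⟫ * e2 - ⟪D V i F x, D V j F x⟫ * e1

/-- Near every point two derivatives of an immersion stay independent. -/
lemma exists_gram (hV : FrameSmooth V) (hs : FrameSpans V) (hF : IsImm4 F) (x₀ : M) :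
    ∃ i j, ∀ᶠ x in 𝓝 x₀, 0 < gdet F V i j x := by
  obtain ⟨i, j, h⟩ := exists_pair hs x₀
  have hc : Continuous (gdet F V i j) := by
    have h1 := (contMDiff_D hV i hF.1).continuous
    have h2 := (contMDiff_D hV j hF.1).continuous
    unfold gdet; fun_prop
  exact ⟨i, j, hc.continuousAt.eventually_const_lt (gdet_pos_of_indep hF h)⟩

/-- Projection on the normal plane. -/
def nProj (F : M → R4) (x : M) : R4 →L[ℝ] R4 := ((tanPlane F x)ᗮ : Submodule ℝ R4).starProjection

omit [IsManifold (𝓡 2) ∞ M] in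
lemma mem_normal {x : M} {w : R4} : w ∈ (tanPlane F x)ᗮ ↔ ∀ v, ⟪dv F x v, w⟫ = 0 := by
  rw [Submodule.mem_orthogonal]
  refine ⟨fun h v => h _ ⟨v, rfl⟩, ?_⟩
  rintro h _ ⟨v, rfl⟩
  exact h v

/-- The rank one map `w ↦ ⟪A, w⟫ u`. -/
def rankOne' (A u : R4) : R4 →L[ℝ] R4 :=
  (innerSL ℝ A).smulRight u

lemma rankOne'_apply (A u w : R4) : rankOne' A u w = ⟪A, w⟫ • u := rfl

/-- The formula for the projection on the normal plane in a pair of derivatives. -/
def projFormula (F : M → R4) (V : Frame M N) (i j : Fin N) (x : M) : R4 →L[ℝ] R4 :=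
  ContinuousLinearMap.id ℝ R4 - (gdet F V i j x)⁻¹ •
    (rankOne' (⟪D V j F x, D V j F x⟫ • D V i F x - ⟪D V i F x, D V j F x⟫ • D V j F x) (D V i F x) +
      rankOne' (⟪D V i F x, D V i F x⟫ • D V j F x - ⟪D V i F x, D V j F x⟫ • D V i F x) (D V j F x))

lemma nProj_eq {i j : Fin N} {x : M} (h : 0 < gdet F V i j x) :
    nProj F x = projFormula F V i j x := by
  refine ContinuousLinearMap.ext fun w => ?_
  set A := D V i F x with hA
  set B := D V j F x with hB
  set p := (gdet F V i j x)⁻¹ • ((⟪B, B⟫ * ⟪A, w⟫ - ⟪A, B⟫ * ⟪B, w⟫) • A +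
    (⟪A, A⟫ * ⟪B, w⟫ - ⟪A, B⟫ * ⟪A, w⟫) • B) with hp
  have hpm : p ∈ tanPlane F x :=
    Submodule.smul_mem _ _ (add_mem (Submodule.smul_mem _ _ ⟨V i x, rfl⟩)
      (Submodule.smul_mem _ _ ⟨V j x, rfl⟩))
  have hd := h.ne'
  have hrest : w - p ∈ (tanPlane F x)ᗮ := by
    rw [mem_normal]
    intro v
    obtain ⟨a, b, rfl⟩ := exists_comb (indep_of_gdet h) v
    rw [dv_add_vec, dv_smul_vec, dv_smul_vec]
    show ⟪a • A + b • B, w - p⟫ = 0
    have e1 : ⟪A, w - p⟫ = 0 := by
      simp only [hp, inner_sub_right, real_inner_smul_right, inner_add_right,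
        real_inner_comm A B]
      field_simp
      simp only [gdet, ← hA, ← hB]
      ring
    have e2 : ⟪B, w - p⟫ = 0 := by
      simp only [hp, inner_sub_right, real_inner_smul_right, inner_add_right,
        real_inner_comm A B]
      field_simp
      simp only [gdet, ← hA, ← hB]
      ring
    rw [inner_add_left, real_inner_smul_left, real_inner_smul_left, e1, e2]
    ring
  have hK : (tanPlane F x).starProjection w = p :=
    Submodule.eq_starProjection_of_mem_orthogonal' hpm hrest (by abel)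
  rw [nProj, Submodule.starProjection_orthogonal_val, hK]
  simp only [projFormula, hp, ← hA, ← hB, ContinuousLinearMap.coe_id', id_eq,
    rankOne'_apply, inner_sub_left, real_inner_smul_left, sub_apply, smul_apply, add_apply]

lemma smAt_rankOne' {A u : M → R4} {x : M} (hA : SmAt A x) (hu : SmAt u x) :
    SmAt (fun y => rankOne' (A y) (u y)) x := by
  have h : ContDiff ℝ ∞ fun p : R4 × R4 => rankOne' p.1 p.2 := by
    refine contDiff_clm_apply_iff.2 fun w => ?_
    simp only [rankOne'_apply]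
    exact (contDiff_fst.inner ℝ contDiff_const).smul contDiff_snd
  have h1 : ContMDiffAt (𝓡 2) 𝓘(ℝ, R4 × R4) ∞ (fun y => (A y, u y)) x := hA.prodMk_space hu
  exact ContDiffAt.comp_contMDiffAt (g := fun p : R4 × R4 => rankOne' p.1 p.2)
    (f := fun y => (A y, u y)) (x := x) h.contDiffAt h1

lemma smAt_inner {A B : M → R4} {x : M} (hA : SmAt A x) (hB : SmAt B x) :
    SmAt (fun y => ⟪A y, B y⟫) x :=
  (contDiff_inner.contDiffAt).comp_contMDiffAt (hA.prodMk_space hB)

/-- The projection on the normal plane is smooth. -/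
lemma smAt_nProj (hV : FrameSmooth V) (hs : FrameSpans V) (hF : IsImm4 F) (x : M) :
    SmAt (nProj F) x := by
  obtain ⟨i, j, h⟩ := exists_gram hV hs hF x
  refine ContMDiffAt.congr_of_eventuallyEq ?_ (h.mono fun y hy => nProj_eq hy)
  have hA : ∀ k, SmAt (D V k F) x := fun k => contMDiff_D hV k hF.1 x
  have hg : SmAt (gdet F V i j) x :=
    ((smAt_inner (hA i) (hA i)).mul (smAt_inner (hA j) (hA j))).sub
      ((smAt_inner (hA i) (hA j)).pow 2)
  exact contMDiffAt_const.sub ((hg.inv₀ h.self_of_nhds.ne').smul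
    ((smAt_rankOne' (((smAt_inner (hA j) (hA j)).smul (hA i)).sub
      ((smAt_inner (hA i) (hA j)).smul (hA j))) (hA i)).add
    (smAt_rankOne' (((smAt_inner (hA i) (hA i)).smul (hA j)).sub
      ((smAt_inner (hA i) (hA j)).smul (hA i))) (hA j))))

lemma finrank_normal (hF : IsImm4 F) (x : M) :
    Module.finrank ℝ ((tanPlane F x)ᗮ : Submodule ℝ R4) = 2 := by
  haveI := finiteDimensional_tangent x
  have h1 : Module.finrank ℝ (tanPlane F x) = 2 := by
    let L : TangentSpace (𝓡 2) x →ₗ[ℝ] R4 :=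
      { toFun := dv F x
        map_add' := dv_add_vec F x
        map_smul' := dv_smul_vec F x }
    show Module.finrank ℝ (LinearMap.range L) = 2
    rw [LinearMap.finrank_range_of_inj (f := L) (hF.2 x)]
    exact finrank_tangent x
  have h2 := (tanPlane F x).finrank_add_finrank_orthogonal
  rw [finrank_euclideanSpace_fin, h1] at h2
  omega

/-- An orthonormal pair of normals spans the normal plane. -/
lemma normal_expand (hF : IsImm4 F) {x : M} {n m w : R4} (hn : n ∈ (tanPlane F x)ᗮ)
    (hm : m ∈ (tanPlane F x)ᗮ) (hw : w ∈ (tanPlane F x)ᗮ) (hn1 : ‖n‖ = 1) (hm1 : ‖m‖ = 1)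
    (hnm : ⟪n, m⟫ = 0) : w = ⟪n, w⟫ • n + ⟪m, w⟫ • m := by
  by_contra hne
  set z := w - (⟪n, w⟫ • n + ⟪m, w⟫ • m) with hz
  have hz0 : z ≠ 0 := sub_ne_zero.2 hne
  have hzmem : z ∈ (tanPlane F x)ᗮ :=
    sub_mem hw (add_mem (Submodule.smul_mem _ _ hn) (Submodule.smul_mem _ _ hm))
  have hzn : ⟪n, z⟫ = 0 := by
    simp [hz, inner_sub_right, inner_add_right, real_inner_smul_right, hn1, hnm]
  have hzm : ⟪m, z⟫ = 0 := by
    have hmn : ⟪m, n⟫ = 0 := by rw [real_inner_comm]; exact hnm
    simp [hz, inner_sub_right, inner_add_right, real_inner_smul_right, hm1, hmn]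
  set b : Fin 3 → ((tanPlane F x)ᗮ : Submodule ℝ R4) := ![⟨n, hn⟩, ⟨m, hm⟩, ⟨z, hzmem⟩] with hb
  have hli : LinearIndependent ℝ b := by
    refine linearIndependent_of_ne_zero_of_inner_eq_zero (𝕜 := ℝ) ?_ ?_
    · intro k
      have hn0 : n ≠ 0 := fun h => by simp [h] at hn1
      have hm0 : m ≠ 0 := fun h => by simp [h] at hm1
      fin_cases k <;> simp [hb, Subtype.ext_iff, hn0, hm0, hz0]
    · intro k l hkl
      have c1 : ⟪m, n⟫ = 0 := by rw [real_inner_comm]; exact hnm
      have c2 : ⟪z, n⟫ = 0 := by rw [real_inner_comm]; exact hzn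
      have c3 : ⟪z, m⟫ = 0 := by rw [real_inner_comm]; exact hzm
      fin_cases k <;> fin_cases l <;>
        first | exact absurd rfl hkl | simp [hb, Submodule.coe_inner, hnm, hzn, hzm, c1, c2, c3]
  have := hli.fintype_card_le_finrank
  rw [finrank_normal hF x, Fintype.card_fin] at this
  omega

end

end Vale.Agent.P205.Full.Start.Twist
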