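import Vale.Agent.P205.Full.Start.TransferPoly
import Vale.Agent.P205.Full.Start.TwistBasic

/-!
# START A5: families with monomial bounds

`UP V η s f`: the functions `f p` are smooth on `s p` and all their derivatives obey one set of
monomial bounds in `η p`. Exponents and constants never need to be named.
-/

open scoped Manifold ContDiff RealInnerProductSpace Topology
open Bundle Filter Set

set_option linter.unusedSectionVars false

namespace Vale.Agent.P205.Full.Start.Twist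

noncomputable section

variable {M : Type} [TopologicalSpace M] [ChartedSpace R2 M] [IsManifold (𝓡 2) ∞ M]
variable {E E' E'' : Type} [NormedAddCommGroup E] [NormedSpace ℝ E]
  [NormedAddCommGroup E'] [NormedSpace ℝ E'] [NormedAddCommGroup E''] [NormedSpace ℝ E'']
variable {N : ℕ} {ι : Type*}

/-- The parameter lies in `(0, 1]`. -/
def Unit01 (η : ι → ℝ) : Prop := ∀ p, 0 < η p ∧ η p ≤ 1

/-- Uniform monomial bounds for a family of functions. -/
def UP (V : Frame M N) (η : ι → ℝ) (s : ι → Set M) (f : ι → M → E) : Prop :=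
  ∃ (a : ℕ) (C : ℕ → ℝ), (∀ n, 0 ≤ C n) ∧
    ∀ p, (∀ x ∈ s p, SmAt (f p) x) ∧ PolyBdOn V (η p) a C (s p) (f p)

variable {V : Frame M N} {η : ι → ℝ} {s t : ι → Set M} {f g : ι → M → E}

lemma UP.smAt (h : UP V η s f) (p : ι) {x : M} (hx : x ∈ s p) : SmAt (f p) x := by
  obtain ⟨a, C, -, h⟩ := h
  exact (h p).1 x hx

lemma UP.smooth (h : UP V η (fun _ => univ) f) (p : ι) :
    ContMDiff (𝓡 2) 𝓘(ℝ, E) ∞ (f p) :=
  fun x => h.smAt p (mem_univ x)

/-- Entrance from bounds with given exponent and constants. -/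
lemma up_of_polyBd (hη : Unit01 η) {a : ℕ} {C : ℕ → ℝ}
    (hs : ∀ p, ContMDiff (𝓡 2) 𝓘(ℝ, E) ∞ (f p)) (h : ∀ p, PolyBd V (η p) a C (f p)) :
    UP V η s f :=
  ⟨a, fun n => |C n|, fun n => abs_nonneg _, fun p =>
    ⟨fun x _ => hs p x, ((h p).mono_exp (hη p).1 (hη p).2 le_rfl).polyBdOn _⟩⟩

/-- Exit to global bounds. -/
lemma UP.exists_polyBd (h : UP V η (fun _ => univ) f) :
    ∃ (a : ℕ) (C : ℕ → ℝ), (∀ n, 0 ≤ C n) ∧ ∀ p, PolyBd V (η p) a C (f p) := by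
  obtain ⟨a, C, h0, h⟩ := h
  exact ⟨a, C, h0, fun p => polyBdOn_univ.1 (h p).2⟩

/-- A function independent of the parameter. -/
lemma up_fixed [CompactSpace M] (hV : FrameSmooth V) (hη : Unit01 η) {u : M → E}
    (hu : ContMDiff (𝓡 2) 𝓘(ℝ, E) ∞ u) : UP V η s (fun _ => u) := by
  obtain ⟨C, -, hC⟩ := exists_polyBd_of_contMDiff hV hu
  exact up_of_polyBd hη (fun _ => hu) fun p => hC (η p)

/-- Constants bounded by a monomial. -/
lemma up_const (hη : Unit01 η) {c : ι → E} {C₀ : ℝ} {e : ℕ}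
    (h : ∀ p, ‖c p‖ ≤ C₀ * (η p)⁻¹ ^ e) : UP V η s (fun p _ => c p) :=
  ⟨e, fun _ => |C₀|, fun _ => abs_nonneg _, fun p => ⟨fun _ _ => contMDiffAt_const,
    fun w x _ => by
      have h1 := bdOn_const_one (V := V) (s := (univ : Set M)) (K := w.length) (c p) w le_rfl x
        (mem_univ x)
      rw [mul_one] at h1
      refine h1.trans ((h p).trans (mul_le_mul (le_abs_self _) ?_
        (pow_nonneg (inv_nonneg.2 (hη p).1.le) _) (abs_nonneg _)))
      exact pow_le_pow_right₀ (one_le_inv_eta (hη p).1 (hη p).2)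
        (Nat.le_mul_of_pos_right e (Nat.succ_pos _))⟩⟩

lemma UP.mono_set (h : UP V η s f) (hts : ∀ p, t p ⊆ s p) : UP V η t f := by
  obtain ⟨a, C, h0, h⟩ := h
  exact ⟨a, C, h0, fun p => ⟨fun x hx => (h p).1 x (hts p hx), (h p).2.mono_set (hts p)⟩⟩

lemma UP.congr (h : UP V η s f) (hfg : ∀ p, ∀ x ∈ s p, f p =ᶠ[𝓝 x] g p) : UP V η s g := by
  obtain ⟨a, C, h0, h⟩ := h
  exact ⟨a, C, h0, fun p => ⟨fun x hx => ((h p).1 x hx).congr_of_eventuallyEq (hfg p x hx).symm,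
    (h p).2.congr (hfg p)⟩⟩

lemma UP.congr_eq (h : UP V η s f) (hfg : ∀ p x, f p x = g p x) : UP V η s g :=
  h.congr fun p _ _ => Eventually.of_forall (hfg p)

lemma UP.of_tsupport (hη : Unit01 η) (h : UP V η (fun p => tsupport (f p)) f) :
    UP V η s f := by
  obtain ⟨a, C, h0, h⟩ := h
  refine ⟨a, C, h0, fun p => ⟨fun x _ => ?_,
    ((h p).2.polyBd_of_tsupport (hη p).1 h0).polyBdOn _⟩⟩
  by_cases hx : x ∈ tsupport (f p)
  · exact (h p).1 x hx
  · exact (contMDiffAt_const (c := (0 : E))).congr_of_eventuallyEq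
      (notMem_tsupport_iff_eventuallyEq.1 hx)

/-- Gluing over finitely many sets. -/
lemma up_of_cover (hη : Unit01 η) {J : Type*} [Fintype J] {u : J → ι → Set M}
    (h : ∀ j, UP V η (u j) f) (hc : ∀ p, ∀ x ∈ s p, ∃ j, x ∈ u j p) : UP V η s f := by
  choose a C h0 h using h
  refine ⟨∑ j, a j, fun n => ∑ j, C j n, fun n => Finset.sum_nonneg fun j _ => h0 j n, fun p =>
    ⟨fun x hx => ?_, fun w x hx => ?_⟩⟩
  · obtain ⟨j, hj⟩ := hc p x hx
    exact (h j p).1 x hj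
  · obtain ⟨j, hj⟩ := hc p x hx
    have hm : a j ≤ ∑ k, a k := Finset.single_le_sum (fun k _ => Nat.zero_le _) (Finset.mem_univ j)
    have hC : ∀ n, C j n ≤ ∑ k, C k n := fun n =>
      Finset.single_le_sum (fun k _ => h0 k n) (Finset.mem_univ j)
    exact ((h j p).2.mono (hη p).1 (hη p).2 hm hC
      fun n => Finset.sum_nonneg fun k _ => h0 k n) w x hj

lemma up_level (hη : Unit01 η) {a₁ a₂ : ℕ} {C : ℕ → ℝ} (ha : a₁ ≤ a₂) (h0 : ∀ n, 0 ≤ C n)
    {p : ι} {u : M → E} (h : PolyBdOn V (η p) a₁ C (s p) u) : PolyBdOn V (η p) a₂ C (s p) u :=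
  h.mono (hη p).1 (hη p).2 ha (fun _ => le_rfl) h0

lemma UP.add (hV : FrameSmooth V) (hη : Unit01 η) (hf : UP V η s f) (hg : UP V η s g) :
    UP V η s (fun p y => f p y + g p y) := by
  obtain ⟨a, C, c0, hf⟩ := hf
  obtain ⟨b, D, d0, hg⟩ := hg
  exact ⟨a + b, _, fun n => add_nonneg (c0 n) (d0 n), fun p =>
    ⟨fun x hx => ((hf p).1 x hx).add ((hg p).1 x hx),
      (up_level hη (Nat.le_add_right a b) c0 (hf p).2).add hV (hf p).1 (hg p).1
        (up_level hη (Nat.le_add_left b a) d0 (hg p).2)⟩⟩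

lemma UP.sub (hV : FrameSmooth V) (hη : Unit01 η) (hf : UP V η s f) (hg : UP V η s g) :
    UP V η s (fun p y => f p y - g p y) := by
  obtain ⟨a, C, c0, hf⟩ := hf
  obtain ⟨b, D, d0, hg⟩ := hg
  exact ⟨a + b, _, fun n => add_nonneg (c0 n) (d0 n), fun p =>
    ⟨fun x hx => ((hf p).1 x hx).sub ((hg p).1 x hx),
      (up_level hη (Nat.le_add_right a b) c0 (hf p).2).sub hV (hf p).1 (hg p).1
        (up_level hη (Nat.le_add_left b a) d0 (hg p).2)⟩⟩

lemma UP.sum (hV : FrameSmooth V) (hη : Unit01 η) {K : Type*} (T : Finset K)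
    {u : K → ι → M → E} (h : ∀ k ∈ T, UP V η s (u k)) :
    UP V η s (fun p y => ∑ k ∈ T, u k p y) := by
  classical
  induction T using Finset.induction_on with
  | empty =>
    exact (up_const (V := V) (c := fun _ => (0 : E)) (C₀ := 0) (e := 0) hη
      fun p => by simp).congr_eq fun p x => by simp
  | @insert k T hk ih =>
    exact ((h k (Finset.mem_insert_self k T)).add hV hη
      (ih fun l hl => h l (Finset.mem_insert_of_mem hl))).congr_eq
        fun p x => by rw [Finset.sum_insert hk]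

lemma UP.bilin (hV : FrameSmooth V) (hη : Unit01 η) (T : E →L[ℝ] E' →L[ℝ] E'')
    {g : ι → M → E'} (hf : UP V η s f) (hg : UP V η s g) :
    UP V η s (fun p y => T (f p y) (g p y)) := by
  obtain ⟨a, C, -, hf⟩ := hf
  obtain ⟨b, D, -, hg⟩ := hg
  refine ⟨a + b, fun n => 2 ^ n * ‖T‖ * csum C n * csum D n, fun n => ?_, fun p => ⟨fun x hx =>
    ((contMDiffAt_const (c := T)).clm_apply ((hf p).1 x hx)).clm_apply ((hg p).1 x hx),
    (hf p).2.bilin hV (hη p).1 (hη p).2 T (fun u v => T.le_opNorm₂ u v) (norm_nonneg T)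
      (hf p).1 (hg p).1 (hg p).2⟩⟩
  have := csum_nonneg C n
  have := csum_nonneg D n
  positivity

lemma UP.smul (hV : FrameSmooth V) (hη : Unit01 η) {c : ι → M → ℝ}
    (hc : UP V η s c) (hf : UP V η s f) : UP V η s (fun p y => c p y • f p y) :=
  UP.bilin hV hη (ContinuousLinearMap.lsmul ℝ ℝ : ℝ →L[ℝ] E →L[ℝ] E) hc hf

lemma UP.mul (hV : FrameSmooth V) (hη : Unit01 η) {c d : ι → M → ℝ}
    (hc : UP V η s c) (hd : UP V η s d) : UP V η s (fun p y => c p y * d p y) :=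
  UP.bilin hV hη (ContinuousLinearMap.mul ℝ ℝ) hc hd

lemma UP.inner {H : Type} [NormedAddCommGroup H] [InnerProductSpace ℝ H] (hV : FrameSmooth V)
    (hη : Unit01 η) {u v : ι → M → H} (hu : UP V η s u) (hv : UP V η s v) :
    UP V η s (fun p y => ⟪u p y, v p y⟫) :=
  UP.bilin hV hη (innerSL ℝ : H →L[ℝ] H →L[ℝ] ℝ) hu hv

lemma UP.apply (hV : FrameSmooth V) (hη : Unit01 η) {L : ι → M → (E →L[ℝ] E')}
    (hL : UP V η s L) (hf : UP V η s f) : UP V η s (fun p y => L p y (f p y)) :=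
  UP.bilin hV hη (ContinuousLinearMap.id ℝ (E →L[ℝ] E')) hL hf

lemma UP.deriv (hV : FrameSmooth V) (hη : Unit01 η) (hf : UP V η s f) (i : Fin N) :
    UP V η s (fun p => D V i (f p)) := by
  obtain ⟨a, C, -, hf⟩ := hf
  exact ⟨2 * a, fun n => |C (n + 1)|, fun n => abs_nonneg _, fun p =>
    ⟨fun x hx => contMDiffAt_D hV i ((hf p).1 x hx), (hf p).2.deriv (hη p).1 (hη p).2 i⟩⟩

lemma UP.comp_ball (hV : FrameSmooth V) (hη : Unit01 η) [ProperSpace E] {φ : E → E'}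
    (hφ : ContDiff ℝ ∞ φ) {R : ℝ} (hf : UP V η s f) (hR : ∀ p, ∀ x ∈ s p, ‖f p x‖ ≤ R) :
    UP V η s (fun p y => φ (f p y)) := by
  obtain ⟨a, C, -, hf⟩ := hf
  obtain ⟨C', h0, hC⟩ := exists_polyBdOn_comp_ball N a C R hφ
  exact ⟨2 * a, C', h0, fun p => ⟨fun x hx => hφ.contDiffAt.comp_contMDiffAt ((hf p).1 x hx),
    hC M V (η p) (s p) (f p) hV (hη p).1 (hη p).2 (hf p).1 (hR p) (hf p).2⟩⟩

lemma UP.cos_sin (hV : FrameSmooth V) (hη : Unit01 η) {u : ι → M → ℝ} (hu : UP V η s u) :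
    UP V η s (fun p y => Real.cos (u p y)) ∧ UP V η s (fun p y => Real.sin (u p y)) := by
  obtain ⟨a, C, -, hu⟩ := hu
  obtain ⟨C', h0, hC⟩ := exists_polyBdOn_cos_sin N a C
  exact ⟨⟨2 * a, C', h0, fun p =>
      ⟨fun x hx => Real.contDiff_cos.contDiffAt.comp_contMDiffAt ((hu p).1 x hx),
        (hC M V (η p) (s p) (u p) hV (hη p).1 (hη p).2 (hu p).1 (hu p).2).1⟩⟩,
    ⟨2 * a, C', h0, fun p =>
      ⟨fun x hx => Real.contDiff_sin.contDiffAt.comp_contMDiffAt ((hu p).1 x hx),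
        (hC M V (η p) (s p) (u p) hV (hη p).1 (hη p).2 (hu p).1 (hu p).2).2⟩⟩⟩

lemma UP.inv (hV : FrameSmooth V) (hη : Unit01 η) {u : ι → M → ℝ} (b : ℕ) (hu : UP V η s u)
    (hlow : ∀ p, ∀ x ∈ s p, η p ^ b ≤ u p x) : UP V η s (fun p y => (u p y)⁻¹) := by
  obtain ⟨a, C, -, hu⟩ := hu
  obtain ⟨C', h0, hC⟩ := exists_polyBdOn_inv N a b C
  exact ⟨(a + b) * 3, C', h0, fun p =>
    ⟨fun x hx => ((hu p).1 x hx).inv₀ ((pow_pos (hη p).1 b).trans_le (hlow p x hx)).ne',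
      hC M V (η p) (s p) (u p) hV (hη p).1 (hη p).2 (hu p).1 (hlow p) (hu p).2⟩⟩

lemma UP.sqrt (hV : FrameSmooth V) (hη : Unit01 η) {u : ι → M → ℝ} (b : ℕ) (hu : UP V η s u)
    (hlow : ∀ p, ∀ x ∈ s p, η p ^ b ≤ u p x) : UP V η s (fun p y => Real.sqrt (u p y)) := by
  obtain ⟨a, C, -, hu⟩ := hu
  obtain ⟨C', h0, hC⟩ := exists_polyBdOn_sqrt N a b C
  exact ⟨(a + b) * 3, C', h0, fun p =>
    ⟨fun x hx => (Real.contDiffAt_sqrt
      ((pow_pos (hη p).1 b).trans_le (hlow p x hx)).ne').comp_contMDiffAt ((hu p).1 x hx),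
      hC M V (η p) (s p) (u p) hV (hη p).1 (hη p).2 (hu p).1 (hlow p) (hu p).2⟩⟩

end

end Vale.Agent.P205.Full.Start.Twist
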