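import Vale.Agent.P205.Full.Start.TwistStep
import Vale.Agent.P205.Full.Start.TwistPoly
import Vale.Agent.P205.Full.Start.SpiralId

/-!
# START A5: one twist with monomial bounds

For `ν` a high power of `η⁻¹` the twisted map and its normal data keep monomial bounds, the metric
is right up to any power of `η`, and the first derivatives stay comparable with the old ones.
-/

open scoped Manifold ContDiff RealInnerProductSpace Topology
open Bundle Filter Set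

set_option linter.unusedSectionVars false

namespace Vale.Agent.P205.Full.Start.Twist

noncomputable section

variable {M : Type} [TopologicalSpace M] [ChartedSpace R2 M] [IsManifold (𝓡 2) ∞ M]
variable {N : ℕ} {G : M → R3} {F F' : M → R4} {V : Frame M N}

/-! ## Gram determinants -/

/-- Gram determinant of two frame fields in the metric. -/
def gdetg (g : Metric M) (V : Frame M N) (i j : Fin N) (x : M) : ℝ :=
  gV g V i i x * gV g V j j x - gV g V i j x ^ 2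

lemma continuous_gdetg (g : Metric M) (hV : FrameSmooth V) (i j : Fin N) :
    Continuous (gdetg g V i j) := by
  have h1 := (contMDiff_gV g hV i i).continuous
  have h2 := (contMDiff_gV g hV j j).continuous
  have h3 := (contMDiff_gV g hV i j).continuous
  unfold gdetg; fun_prop

lemma inner_self_nonneg' (g : Metric M) (x : M) (u : TangentSpace (𝓡 2) x) :
    0 ≤ g.inner x u u := by
  rcases eq_or_ne u 0 with rfl | hu
  · simp
  · exact (g.pos x u hu).le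

lemma gdetg_pos_of_indep (g : Metric M) {i j : Fin N} {x : M}
    (h : LinearIndependent ℝ ![V i x, V j x]) : 0 < gdetg g V i j x := by
  set A := V i x with hA
  set B := V j x with hB
  have haa : 0 < g.inner x A A := g.pos x A (by simpa using h.ne_zero 0)
  have hne : g.inner x A A • B + (-g.inner x A B) • A ≠ 0 := fun h0 => by
    have h2 := LinearIndependent.pair_iff.1 h _ _ ((add_comm _ _).trans h0)
    exact haa.ne' h2.2
  have hp := g.pos x _ hne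
  have e : g.inner x (g.inner x A A • B + (-g.inner x A B) • A)
      (g.inner x A A • B + (-g.inner x A B) • A) = g.inner x A A * gdetg g V i j x := by
    simp only [map_add, map_smul, add_apply, smul_apply, smul_eq_mul, gdetg, gV, ← hA, ← hB,
      g.symm x B A]
    ring
  rw [e] at hp
  exact (pos_iff_pos_of_mul_pos hp).1 haa

/-- Finitely many pairs, each uniformly independent on its set, cover the surface. -/
lemma exists_gdetg_cover [CompactSpace M] (g : Metric M) (hV : FrameSmooth V)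
    (hs : FrameSpans V) : ∃ τ, 0 < τ ∧ ∀ x, ∃ i j, τ ≤ gdetg g V i j x := by
  set f : M → ℝ := fun x => ∑ p : Fin N × Fin N, max (gdetg g V p.1 p.2 x) 0 with hf
  have hc : Continuous f :=
    continuous_finsetSum _ fun p _ => (continuous_gdetg g hV p.1 p.2).max continuous_const
  have hpos : ∀ x, 0 < f x := fun x => by
    obtain ⟨i, j, h⟩ := exists_pair hs x
    exact lt_of_lt_of_le ((gdetg_pos_of_indep g h).trans_le (le_max_left _ (0 : ℝ)))
      (Finset.single_le_sum (f := fun p : Fin N × Fin N => max (gdetg g V p.1 p.2 x) 0)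
        (fun p _ => le_max_right _ _) (Finset.mem_univ (i, j)))
  obtain ⟨m, hm0, hm⟩ := isCompact_univ.exists_forall_le' hc.continuousOn (fun x _ => hpos x)
  refine ⟨m / (Fintype.card (Fin N × Fin N) + 1), by positivity, fun x => ?_⟩
  by_contra h
  push Not at h
  have h1 : f x ≤ ∑ _p : Fin N × Fin N, m / (Fintype.card (Fin N × Fin N) + 1 : ℝ) :=
    Finset.sum_le_sum fun p _ => max_le (h p.1 p.2).le (by positivity)
  rw [Finset.sum_const, Finset.card_univ, nsmul_eq_mul] at h1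
  have h2 : (Fintype.card (Fin N × Fin N) : ℝ) * (m / (Fintype.card (Fin N × Fin N) + 1)) < m := by
    rw [mul_div_assoc', div_lt_iff₀ (by positivity)]
    linarith
  linarith [hm x (mem_univ x)]

/-- A lower bound on `dF` bounds its Gram determinants from below. -/
lemma gdetg_le (g : Metric M) {C₀ : ℝ} (hC : 0 < C₀) {x : M}
    (hlow : ∀ v, g.inner x v v ≤ C₀ * ‖dv F x v‖ ^ 2) {i j : Fin N} (hd : 0 < gdetg g V i j x) :
    gdetg g V i j x ≤ C₀ ^ 2 * gdet F V i j x := by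
  set A := D V i F x with hA
  set B := D V j F x with hB
  have hgi : 0 < gV g V i i x := by
    refine (inner_self_nonneg' g x (V i x)).lt_of_ne' fun h => ?_
    have e : gV g V i i x = 0 := h
    simp only [gdetg, e, zero_mul] at hd
    linarith [sq_nonneg (gV g V i j x)]
  have hgA : gV g V i i x ≤ C₀ * ⟪A, A⟫ := by
    rw [real_inner_self_eq_norm_sq]; exact hlow (V i x)
  have haa : 0 < ⟪A, A⟫ := pos_of_mul_pos_right (hgi.trans_le hgA) hC.le
  set v : TangentSpace (𝓡 2) x := (-⟪A, B⟫) • V i x + ⟪A, A⟫ • V j x with hv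
  have hdv : ‖dv F x v‖ ^ 2 = ⟪A, A⟫ * gdet F V i j x := by
    rw [← real_inner_self_eq_norm_sq, hv, dv_add_vec, dv_smul_vec, dv_smul_vec]
    show ⟪(-⟪A, B⟫) • A + ⟪A, A⟫ • B, (-⟪A, B⟫) • A + ⟪A, A⟫ • B⟫ = _
    simp only [inner_add_left, inner_add_right, real_inner_smul_left, real_inner_smul_right,
      gdet, ← hA, ← hB, real_inner_comm A B]
    ring
  have hgv : ⟪A, A⟫ ^ 2 * gdetg g V i j x ≤ gV g V i i x * g.inner x v v := by
    have e : gV g V i i x * g.inner x v v =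
        ((-⟪A, B⟫) * gV g V i i x + ⟪A, A⟫ * gV g V i j x) ^ 2 +
          ⟪A, A⟫ ^ 2 * gdetg g V i j x := by
      simp only [hv, map_add, map_smul, add_apply, smul_apply, smul_eq_mul, gdetg, gV,
        g.symm x (V j x) (V i x)]
      ring
    rw [e]
    linarith [sq_nonneg ((-⟪A, B⟫) * gV g V i i x + ⟪A, A⟫ * gV g V i j x)]
  have h2 : gV g V i i x * g.inner x v v ≤ C₀ * ⟪A, A⟫ * (C₀ * (⟪A, A⟫ * gdet F V i j x)) :=
    mul_le_mul hgA ((hlow v).trans (by rw [hdv])) (inner_self_nonneg' g x v)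
      (mul_nonneg hC.le haa.le)
  exact le_of_mul_le_mul_left ((hgv.trans h2).trans (le_of_eq (by ring))) (pow_pos haa 2)

/-! ## The projection of old normals -/

/-- An old normal keeps a definite part of its length in the new normal plane. -/
lemma norm_le_nProj {K : ℝ} (hK : 0 ≤ K)
    (hinner : ∀ x v, 1 / 2 * ‖dv F x v‖ ^ 2 ≤ ⟪dv F x v, dv F' x v⟫)
    (hup : ∀ x v, ‖dv F' x v‖ ≤ K * ‖dv F x v‖) {x : M} {w : R4}
    (hw : w ∈ (tanPlane F x)ᗮ) : ‖w‖ ≤ (1 + 2 * K) * ‖nProj F' x w‖ := by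
  set p := nProj F' x w with hp
  have hpm : p ∈ (tanPlane F' x)ᗮ := Submodule.starProjection_apply_mem _ _
  have hwp : w - p ∈ tanPlane F' x := mem_tan_of_nProj_zero (by
    rw [map_sub, nProj_self hpm, hp, sub_self])
  obtain ⟨v, hv⟩ := hwp
  have hv' : dv F' x v = w - p := hv
  have h1 := hinner x v
  rw [hv', inner_sub_right, mem_normal.1 hw v, zero_sub] at h1
  have h2 := (neg_le_abs ⟪dv F x v, p⟫).trans (abs_real_inner_le_norm (dv F x v) p)
  have h3 : ‖dv F x v‖ ≤ 2 * ‖p‖ := by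
    rcases (norm_nonneg (dv F x v)).eq_or_lt with h0 | h0
    · rw [← h0]; positivity
    · refine le_of_mul_le_mul_left ?_ h0
      nlinarith
  have h4 := (hup x v).trans (mul_le_mul_of_nonneg_left h3 hK)
  rw [hv'] at h4
  have h5 := norm_le_norm_sub_add w p
  linarith

lemma norm_preO_le (nd : NormalData G F) (F' : M → R4) (x : M) (v : R3) :
    ‖preO nd F' x v‖ ≤ ‖v‖ * sizeO nd F' x := by
  set b := EuclideanSpace.basisFun (Fin 3) ℝ with hb
  have h1 : ‖preO nd F' x v‖ ≤ ∑ c, |⟪b c, v⟫| * ‖preO nd F' x (b c)‖ := by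
    conv_lhs => rw [← b.sum_repr v]
    rw [map_sum]
    refine (norm_sum_le _ _).trans (Finset.sum_le_sum fun c _ => ?_)
    rw [map_smul, norm_smul, b.repr_apply_apply, Real.norm_eq_abs]
  refine h1.trans (le_trans ?_ (le_of_eq (show
    Real.sqrt (∑ c, |⟪b c, v⟫| ^ 2) * sizeO nd F' x = ‖v‖ * sizeO nd F' x by
      simp only [sq_abs]
      simp only [real_inner_comm v]
      rw [b.sum_sq_inner_left, Real.sqrt_sq (norm_nonneg v)])))
  exact Real.sum_mul_le_sqrt_mul_sqrt _ _ _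

/-- Lower bounds for the two normalising factors. -/
lemma size_lower (hG : IsImm3 G) (hF : IsImm4 F) (nd : NormalData G F) {K : ℝ} (hK : 0 ≤ K)
    (hinner : ∀ x v, 1 / 2 * ‖dv F x v‖ ^ 2 ≤ ⟪dv F x v, dv F' x v⟫)
    (hup : ∀ x v, ‖dv F' x v‖ ≤ K * ‖dv F x v‖) (x : M) :
    1 ≤ (1 + 2 * K) * ‖nProj F' x (nd.n1 x)‖ ∧ 1 ≤ (1 + 2 * K) * sizeO nd F' x := by
  have h1 := norm_le_nProj hK hinner hup (nd.normal_n1 x)
  rw [nd.unit_n1] at h1
  refine ⟨h1, ?_⟩
  obtain ⟨U, N3, N4, hx, c⟩ := exists_chart hG hF nd x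
  have h2 := norm_preO_le nd F' x (N3 x)
  rw [c.unit3 x hx, one_mul] at h2
  set k := ⟪newN nd F' x, N4 x⟫ * ‖nProj F' x (nd.n1 x)‖⁻¹ with hk
  have hON : nd.O x (N3 x) = N4 x := by
    rw [c.O_eq x hx, real_inner_self_eq_norm_sq, c.unit3 x hx, one_pow, one_smul]
  have hQ : preO nd F' x (N3 x) = nProj F' x (N4 x - k • nd.n1 x) := by
    simp only [preO, ContinuousLinearMap.comp_apply, hON, sub_apply, rankOne'_apply, map_sub,
      map_smul]
    rw [hk, newN, smul_smul]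
  have h3 := norm_le_nProj hK hinner hup
    (sub_mem (c.normal4 x hx) (Submodule.smul_mem _ k (nd.normal_n1 x)))
  rw [← hQ] at h3
  have h4 := abs_real_inner_le_norm (N4 x) (N4 x - k • nd.n1 x)
  rw [inner_sub_right, real_inner_smul_right, real_inner_comm (nd.n1 x) (N4 x), c.orth4 x hx,
    real_inner_self_eq_norm_sq, c.unit4 x hx, mul_zero, sub_zero, one_pow, abs_one, one_mul] at h4
  exact (h4.trans h3).trans (mul_le_mul_of_nonneg_left h2 (by linarith))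

/-! ## One step -/

/-- Input of one twist. -/
structure StepIn (g : Metric M) (G : M → R3) (V : Frame M N) (η : ℝ) (a : ℕ) (C₀ : ℝ)
    (C : ℕ → ℝ) (F : M → R4) (nd : NormalData G F) (amp : M → ℝ) : Prop where
  smooth_F : ContMDiff (𝓡 2) 𝓘(ℝ, R4) ∞ F
  smooth_amp : ContMDiff (𝓡 2) 𝓘(ℝ, ℝ) ∞ amp
  poly_F : PolyBd V η a C F
  poly_n1 : PolyBd V η a C nd.n1
  poly_O : PolyBd V η a C nd.O
  poly_amp : PolyBd V η a C amp
  bd_amp : ∀ x, |amp x| ≤ C₀
  bd_dF : ∀ i x, ‖D V i F x‖ ≤ C₀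
  lower_F : ∀ x v, g.inner x v v ≤ C₀ * ‖dv F x v‖ ^ 2

/-- Output of one twist. -/
structure StepOut (g : Metric M) (G : M → R3) (V : Frame M N) (η : ℝ) (a b : ℕ) (C₀ : ℝ)
    (C : ℕ → ℝ) (F : M → R4) (nd : NormalData G F) (amp : M → ℝ) (S : M → R3)
    (F' : M → R4) (nd' : NormalData G F') : Prop where
  smooth_F : ContMDiff (𝓡 2) 𝓘(ℝ, R4) ∞ F'
  poly_F : PolyBd V η a C F'
  poly_n1 : PolyBd V η a C nd'.n1
  poly_O : PolyBd V η a C nd'.O
  bd_dF : ∀ i x, ‖D V i F' x‖ ≤ C₀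
  lower_F : ∀ x v, g.inner x v v ≤ C₀ * ‖dv F' x v‖ ^ 2
  close : ∀ x, ‖F' x - F x‖ ≤ η ^ 2
  res : ∀ i k x, |pullV F' V i k x - (pullV F V i k x + amp x ^ 2 * dSecSq G V S i k x)| ≤ η ^ b
  off : ∀ x ∉ tsupport amp, F' =ᶠ[𝓝 x] F ∧ nd'.n1 x = nd.n1 x ∧ nd'.O x = nd.O x

lemma isImm4_of_lower (g : Metric M) {C₀ : ℝ} (hF : ContMDiff (𝓡 2) 𝓘(ℝ, R4) ∞ F)
    (h : ∀ x v, g.inner x v v ≤ C₀ * ‖dv F x v‖ ^ 2) : IsImm4 F := by
  refine ⟨hF, fun x => ?_⟩
  rw [injective_iff_map_eq_zero]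
  intro v hv
  by_contra hv0
  have h1 := h x v
  rw [show dv F x v = 0 from hv, norm_zero] at h1
  have h2 := g.pos x v hv0
  linarith [zero_pow (M₀ := ℝ) (two_ne_zero)]

/-- An admissible point of the parameter space. -/
structure StepPt (g : Metric M) (G : M → R3) (V : Frame M N) (a : ℕ) (C₀ : ℝ) (C : ℕ → ℝ)
    (η' : ℝ) where
  η : ℝ
  pos : 0 < η
  small : η ≤ η'
  F : M → R4
  nd : NormalData G F
  amp : M → ℝ
  hin : StepIn g G V η a C₀ C F nd amp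

/-- What one twist gives at one parameter. -/
lemma step_facts [CompactSpace M] (g : Metric M) (hG : IsImm3 G) {S : M → R3}
    (hS : IsSection G S) {K Bs : ℝ} (hK0 : 0 ≤ K)
    (hK : ∀ x v, ∃ c : Fin N → ℝ, v = ∑ i, c i • V i x ∧
      ∑ i, |c i| ≤ K * Real.sqrt (g.inner x v v))
    (hBs0 : 0 ≤ Bs) (hBs : ∀ i x, ‖D V i S x‖ ≤ Bs) {η : ℝ} {a b e : ℕ} {C₀ : ℝ} {C : ℕ → ℝ}
    (hC₀ : 1 ≤ C₀) {L₁ L₀ : ℝ} (hL₁ : L₁ = C₀ * K * Bs * C₀)
    (hL₀ : L₀ = L₁ + C₀ * K * |C 1| * (1 + 2 * C₀) + 1) (he : e = 4 * a + b + 3)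
    (he0 : 0 < η) (he1 : η ≤ 1)
    (hs1 : η * (2 * L₀) ≤ 1) (hs2 : η * C₀ ≤ 1) (hs3 : η * (5 * L₀ ^ 2 * C₀ ^ 2) ≤ 1)
    {F : M → R4} {nd : NormalData G F} {amp : M → ℝ} (h : StepIn g G V η a C₀ C F nd amp) :
    IsImm4 F ∧ IsImm4 (spiral nd (η⁻¹ ^ e) amp S) ∧ Forward F (spiral nd (η⁻¹ ^ e) amp S) ∧
      (∀ x v, 1 / 2 * ‖dv F x v‖ ^ 2 ≤ ⟪dv F x v, dv (spiral nd (η⁻¹ ^ e) amp S) x v⟫) ∧
      (∀ x v, ‖dv (spiral nd (η⁻¹ ^ e) amp S) x v‖ ≤ (2 + L₁) * ‖dv F x v‖) ∧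
      (∀ x v, g.inner x v v ≤ 4 * C₀ * ‖dv (spiral nd (η⁻¹ ^ e) amp S) x v‖ ^ 2) ∧
      (∀ x, ‖spiral nd (η⁻¹ ^ e) amp S x - F x‖ ≤ η ^ 2) ∧
      (∀ i k x, |pullV (spiral nd (η⁻¹ ^ e) amp S) V i k x -
          (pullV F V i k x + amp x ^ 2 * dSecSq G V S i k x)| ≤ η ^ b) ∧
      ∀ x ∉ tsupport amp, spiral nd (η⁻¹ ^ e) amp S =ᶠ[𝓝 x] F := by
  subst he
  have hC0' : (0 : ℝ) ≤ C₀ := zero_le_one.trans hC₀
  have hL₁0 : 0 ≤ L₁ := by rw [hL₁]; positivity
  have hpos : 0 ≤ C₀ * K * |C 1| * (1 + 2 * C₀) := by positivity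
  have hL₀1 : 1 ≤ L₀ := by linarith
  have hF := isImm4_of_lower g h.smooth_F h.lower_F
  have hi : (1 : ℝ) ≤ η⁻¹ := one_le_inv_eta he0 he1
  set ν : ℝ := η⁻¹ ^ (4 * a + b + 3) with hν
  set L : ℝ := L₀ * η⁻¹ ^ (2 * a) with hL
  have hi2 : (1 : ℝ) ≤ η⁻¹ ^ (2 * a) := one_le_pow₀ hi
  have hL1 : 1 ≤ L := one_le_mul_of_one_le_of_one_le hL₀1 hi2
  have hLL : L₁ ≤ L := le_trans (by linarith) (le_mul_of_one_le_right (by linarith) hi2)
  have hν1 : 1 ≤ ν := one_le_pow₀ hi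
  have hν0 : 0 < ν := by linarith
  have hdiv : ∀ r : ℝ, r / ν = r * η ^ (4 * a + b + 3) := fun r => by
    rw [div_eq_iff hν0.ne', hν, mul_assoc, ← mul_pow, mul_inv_cancel₀ he0.ne', one_pow, mul_one]
  have hLν : L / ν ≤ 1 / 2 := by
    rw [hdiv]
    have h1 : η ^ (4 * a + b + 3) * η⁻¹ ^ (2 * a) ≤ η ^ 1 :=
      eta_pow_mul_inv_pow_le he0 he1 (by omega)
    rw [pow_one] at h1
    calc L * η ^ (4 * a + b + 3) = L₀ * (η ^ (4 * a + b + 3) * η⁻¹ ^ (2 * a)) := by rw [hL]; ring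
      _ ≤ L₀ * η := mul_le_mul_of_nonneg_left h1 (by linarith)
      _ ≤ 1 / 2 := by linarith
  have hd1 : ∀ {E : Type} [NormedAddCommGroup E] [NormedSpace ℝ E] (f : M → E) (B : ℝ),
      (∀ i x, ‖D V i f x‖ ≤ B) → ∀ x v, 0 ≤ B → ‖dv f x v‖ ≤ K * C₀ * B * ‖dv F x v‖ := by
    intro E _ _ f B hB x v hB0
    obtain ⟨c, hc, hsum⟩ := hK x v
    refine (norm_dv_le hc fun i => hB i x).trans ?_
    have h1 : Real.sqrt (g.inner x v v) ≤ C₀ * ‖dv F x v‖ := by
      rw [Real.sqrt_le_iff]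
      refine ⟨by positivity, (h.lower_F x v).trans ?_⟩
      rw [mul_pow]
      exact mul_le_mul_of_nonneg_right (le_self_pow₀ hC₀ two_ne_zero) (sq_nonneg _)
    calc (∑ i, |c i|) * B ≤ K * (C₀ * ‖dv F x v‖) * B :=
          mul_le_mul_of_nonneg_right (hsum.trans (mul_le_mul_of_nonneg_left h1 hK0)) hB0
      _ = _ := by ring
  have hder : ∀ {E : Type} [NormedAddCommGroup E] [NormedSpace ℝ E] (f : M → E),
      PolyBd V η a C f → ∀ i x, ‖D V i f x‖ ≤ |C 1| * (η)⁻¹ ^ (2 * a) :=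
    fun f hf i x => (hf.deriv he0 he1 i).sup_le x
  have hBd0 : 0 ≤ |C 1| * (η)⁻¹ ^ (2 * a) := by positivity
  obtain ⟨himm, hfw, hinn, -, hupp, hclose, hres, hoff⟩ :=
    step_bounds (V := V) hG hF nd h.smooth_amp hS (ν := ν) (L₁ := L₁) (L := L) (B := C₀)
      hν1 (by linarith) ((div_lt_one hν0).1 (lt_of_le_of_lt hLν one_half_lt_one)) h.bd_dF hLL (fun x v => by
        have d1 := hd1 S Bs hBs x v hBs0
        have d2 := hd1 amp _ (hder _ h.poly_amp) x v hBd0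
        have d3 := hd1 nd.n1 _ (hder _ h.poly_n1) x v hBd0
        have d4 := hd1 nd.O _ (hder _ h.poly_O) x v hBd0
        have ha := h.bd_amp x
        refine ⟨(mul_le_mul ha d1 (norm_nonneg _) hC0').trans (le_of_eq (by rw [hL₁]; ring)), ?_⟩
        refine (add_le_add d2 (mul_le_mul ha (add_le_add d3 d4) (by positivity) hC0')).trans ?_
        have hn := norm_nonneg (dv F x v)
        calc K * C₀ * (|C 1| * (η)⁻¹ ^ (2 * a)) * ‖dv F x v‖ +
              C₀ * (K * C₀ * (|C 1| * (η)⁻¹ ^ (2 * a)) * ‖dv F x v‖ +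
                K * C₀ * (|C 1| * (η)⁻¹ ^ (2 * a)) * ‖dv F x v‖)
            = C₀ * K * |C 1| * (1 + 2 * C₀) * (η)⁻¹ ^ (2 * a) * ‖dv F x v‖ := by ring
          _ ≤ _ := mul_le_mul_of_nonneg_right
              (mul_le_mul_of_nonneg_right (by linarith) (by positivity)) hn)
  have hhalf : ∀ x v, 1 / 2 * ‖dv F x v‖ ^ 2 ≤ ⟪dv F x v, dv (spiral nd ν amp S) x v⟫ :=
    fun x v => (mul_le_mul_of_nonneg_right (by linarith) (sq_nonneg _)).trans (hinn x v)
  refine ⟨hF, himm, hfw, hhalf, fun x v => (hupp x v).trans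
    (mul_le_mul_of_nonneg_right (by linarith) (norm_nonneg _)), fun x v => ?_,
    fun x => (hclose x).trans ?_, fun i k x => (hres i k x).trans ?_, hoff⟩
  · refine (h.lower_F x v).trans ?_
    have h1 : ‖dv F x v‖ ≤ 2 * ‖dv (spiral nd ν amp S) x v‖ := by
      rcases (norm_nonneg (dv F x v)).eq_or_lt with h0 | h0
      · rw [← h0]; positivity
      · refine le_of_mul_le_mul_left ?_ h0
        nlinarith [hhalf x v, real_inner_le_norm (dv F x v) (dv (spiral nd ν amp S) x v)]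
    calc C₀ * ‖dv F x v‖ ^ 2 ≤ C₀ * (2 * ‖dv (spiral nd ν amp S) x v‖) ^ 2 :=
          mul_le_mul_of_nonneg_left (pow_le_pow_left₀ (norm_nonneg _) h1 2) hC0'
      _ = 4 * C₀ * ‖dv (spiral nd ν amp S) x v‖ ^ 2 := by ring
  · rw [hdiv]
    calc |amp x| * η ^ (4 * a + b + 3) ≤ C₀ * η ^ 3 :=
          mul_le_mul (h.bd_amp x) (pow_le_pow_of_le_one he0.le he1 (by omega)) (by positivity) hC0'
      _ = η * C₀ * η ^ 2 := by ring
      _ ≤ η ^ 2 := mul_le_of_le_one_left (sq_nonneg _) hs2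
  · rw [hdiv]
    have h1 : η ^ (4 * a + b + 3) * η⁻¹ ^ (4 * a) ≤ η ^ (b + 1) :=
      eta_pow_mul_inv_pow_le he0 he1 (by omega)
    calc (2 * (1 + L) + L) * L * C₀ * C₀ * η ^ (4 * a + b + 3)
        ≤ 5 * L * L * C₀ * C₀ * η ^ (4 * a + b + 3) := by gcongr; linarith
      _ = 5 * L₀ ^ 2 * C₀ ^ 2 * (η ^ (4 * a + b + 3) * η⁻¹ ^ (4 * a)) := by
          rw [hL, show 4 * a = 2 * a + 2 * a by omega, pow_add]; ring
      _ ≤ 5 * L₀ ^ 2 * C₀ ^ 2 * η ^ (b + 1) := mul_le_mul_of_nonneg_left h1 (by positivity)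
      _ = η * (5 * L₀ ^ 2 * C₀ ^ 2) * η ^ b := by ring
      _ ≤ η ^ b := mul_le_of_le_one_left (by positivity) hs3

section Families

variable {ι : Type*} {η : ι → ℝ} {Ff F'f : ι → M → R4}

/-- The rank one maps, as a bilinear map. -/
def rankOneL : R4 →L[ℝ] R4 →L[ℝ] (R4 →L[ℝ] R4) :=
  (ContinuousLinearMap.smulRightL ℝ R4 R4).comp (innerSL ℝ : R4 →L[ℝ] R4 →L[ℝ] ℝ)

lemma up_spiral [T2Space M] [CompactSpace M] (hV : FrameSmooth V) (hη : Unit01 η) (hG : IsImm3 G)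
    {S : M → R3} (hS : IsSection G S) (nd : ∀ p, NormalData G (Ff p)) {amp : ι → M → ℝ} (e : ℕ)
    (uF : UP V η (fun _ => univ) Ff) (un1 : UP V η (fun _ => univ) (fun p => (nd p).n1))
    (uO : UP V η (fun _ => univ) (fun p => (nd p).O)) (uamp : UP V η (fun _ => univ) amp) :
    UP V η (fun _ => univ) (fun p => spiral (nd p) ((η p)⁻¹ ^ e) (amp p) S) := by
  obtain ⟨J, U, N3, hN3, hcov⟩ := exists_locNormal_cover hG
  have hone : ∀ p, ‖(η p)⁻¹ ^ e‖ ≤ 1 * (η p)⁻¹ ^ e := fun p => by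
    rw [one_mul, Real.norm_of_nonneg (pow_nonneg (inv_nonneg.2 (hη p).1.le) _)]
  have uspin : UP V η (fun _ => univ) (fun p => spin (nd p) (phS ((η p)⁻¹ ^ e) S)) := by
    refine up_of_cover hη (u := fun j _ => U j) (fun j => ?_) fun p x _ => hcov x
    have uph : UP V η (fun _ => U j) (fun p y => (η p)⁻¹ ^ e * lpsi S (N3 j) y) :=
      (up_const hη hone).mul hV hη (up_fixed hV hη (contMDiff_lpsi hS.1 (hN3 j).smooth))
    obtain ⟨uc, us⟩ := uph.cos_sin hV hη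
    have uodd : UP V η (fun _ => U j) (fun p y => (nd p).O y (N3 j y)) :=
      (uO.mono_set fun _ => subset_univ _).apply hV hη (up_fixed hV hη (hN3 j).smooth)
    refine ((uc.smul hV hη (un1.mono_set fun _ => subset_univ _)).add hV hη
      (us.smul hV hη uodd)).congr fun p x hx => ?_
    filter_upwards [(hN3 j).isOpen.mem_nhds hx] with y hy
    exact (spin_eq_eFld (nd p) ((η p)⁻¹ ^ e) hS (hN3 j) hy).symm
  have hc : ∀ p, ‖((η p)⁻¹ ^ e)⁻¹‖ ≤ 1 * (η p)⁻¹ ^ 0 := fun p => by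
    rw [pow_zero, mul_one, norm_inv, Real.norm_of_nonneg (pow_nonneg (inv_nonneg.2 (hη p).1.le) _)]
    exact inv_le_one_of_one_le₀ (one_le_pow₀ (one_le_inv_eta (hη p).1 (hη p).2))
  exact uF.add hV hη (((up_const hη hc).mul hV hη uamp).smul hV hη uspin)

lemma up_nProj [CompactSpace M] (g : Metric M) (hV : FrameSmooth V) (hη : Unit01 η) {τ : ℝ}
    (hτ : ∀ x, ∃ i j, τ ≤ gdetg g V i j x) (uF' : UP V η (fun _ => univ) F'f)
    (hgd : ∀ p i j x, τ ≤ gdetg g V i j x → η p ≤ gdet (F'f p) V i j x) :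
    UP V η (fun _ => univ) (fun p => nProj (F'f p)) := by
  have uA : ∀ i, UP V η (fun _ => univ) (fun p => D V i (F'f p)) := uF'.deriv hV hη
  refine up_of_cover hη (u := fun (q : Fin N × Fin N) _ => {x | τ ≤ gdetg g V q.1 q.2 x})
    (fun q => ?_) fun p x _ => ⟨((hτ x).choose, (hτ x).choose_spec.choose),
      (hτ x).choose_spec.choose_spec⟩
  obtain ⟨i, j⟩ := q
  have hA : ∀ k, UP V η (fun _ => {x | τ ≤ gdetg g V i j x}) (fun p => D V k (F'f p)) :=
    fun k => (uA k).mono_set fun _ => subset_univ _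
  have hij : ∀ k l, UP V η (fun _ => {x | τ ≤ gdetg g V i j x})
      (fun p y => ⟪D V k (F'f p) y, D V l (F'f p) y⟫) := fun k l => (hA k).inner hV hη (hA l)
  have hgu : UP V η (fun _ => {x | τ ≤ gdetg g V i j x}) (fun p => gdet (F'f p) V i j) :=
    (((hij i i).mul hV hη (hij j j)).sub hV hη ((hij i j).mul hV hη (hij i j))).congr_eq
      fun p x => by simp only [gdet]; ring
  have hinv := hgu.inv hV hη 1 fun p x hx => by rw [pow_one]; exact hgd p i j x hx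
  have hid : UP V η (fun _ => {x | τ ≤ gdetg g V i j x})
      (fun _ _ => ContinuousLinearMap.id ℝ R4) := up_fixed hV hη contMDiff_const
  refine (hid.sub hV hη (hinv.smul hV hη
    ((UP.bilin hV hη rankOneL (((hij j j).smul hV hη (hA i)).sub hV hη
        ((hij i j).smul hV hη (hA j))) (hA i)).add hV hη
      (UP.bilin hV hη rankOneL (((hij i i).smul hV hη (hA j)).sub hV hη
        ((hij i j).smul hV hη (hA i))) (hA j))))).congr fun p x hx => ?_
  have hc : Continuous (gdet (F'f p) V i j) := by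
    have h1 := (contMDiff_D hV i (uF'.smooth p)).continuous
    have h2 := (contMDiff_D hV j (uF'.smooth p)).continuous
    unfold gdet; fun_prop
  filter_upwards [hc.continuousAt.eventually_const_lt
    ((hη p).1.trans_le (hgd p i j x hx))] with y hy
  exact (nProj_eq hy).symm

lemma eta_le_sqrt (hη : Unit01 η) (p : ι) {y : ℝ} (h : η p ^ 1 ≤ y) : η p ^ 1 ≤ Real.sqrt y :=
  Real.le_sqrt_of_sq_le ((pow_le_of_le_one (pow_nonneg (hη p).1.le _)
    (by rw [pow_one]; exact (hη p).2) two_ne_zero).trans h)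

lemma up_newN (hV : FrameSmooth V) (hη : Unit01 η) (nd : ∀ p, NormalData G (Ff p))
    (uproj : UP V η (fun _ => univ) (fun p => nProj (F'f p)))
    (un1 : UP V η (fun _ => univ) (fun p => (nd p).n1))
    (hl : ∀ p x, η p ^ 1 ≤ ‖nProj (F'f p) x ((nd p).n1 x)‖ ^ 2) :
    UP V η (fun _ => univ) (fun p => newN (nd p) (F'f p)) := by
  have uP := uproj.apply hV hη un1
  have hl' : ∀ p, ∀ x ∈ (univ : Set M),
      η p ^ 1 ≤ ⟪nProj (F'f p) x ((nd p).n1 x), nProj (F'f p) x ((nd p).n1 x)⟫ := fun p x _ => by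
    rw [real_inner_self_eq_norm_sq]; exact hl p x
  have h3 := ((uP.inner hV hη uP).sqrt hV hη 1 hl').inv hV hη 1
    fun p x hx => eta_le_sqrt hη p (hl' p x hx)
  exact (h3.smul hV hη uP).congr_eq fun p x => by simp only [newN, norm_eq_sqrt_real_inner]

lemma up_newO [CompactSpace M] (hV : FrameSmooth V) (hη : Unit01 η)
    (nd : ∀ p, NormalData G (Ff p)) (uproj : UP V η (fun _ => univ) (fun p => nProj (F'f p)))
    (unN : UP V η (fun _ => univ) (fun p => newN (nd p) (F'f p)))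
    (uO : UP V η (fun _ => univ) (fun p => (nd p).O))
    (hl : ∀ p x, η p ^ 1 ≤ sizeO (nd p) (F'f p) x ^ 2) :
    UP V η (fun _ => univ) (fun p => newO (nd p) (F'f p)) := by
  have upre : UP V η (fun _ => univ) (fun p => preO (nd p) (F'f p)) :=
    UP.bilin hV hη (ContinuousLinearMap.compL ℝ R3 R4 R4)
      (uproj.sub hV hη (UP.bilin hV hη rankOneL unN unN)) uO
  have hc : ∀ c : Fin 3, UP V η (fun _ => univ)
      (fun p y => preO (nd p) (F'f p) y (EuclideanSpace.basisFun (Fin 3) ℝ c)) := fun c =>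
    upre.apply hV hη (up_fixed hV hη contMDiff_const)
  have h2 : UP V η (fun _ => univ) (fun p y => ∑ c,
      ⟪preO (nd p) (F'f p) y (EuclideanSpace.basisFun (Fin 3) ℝ c),
        preO (nd p) (F'f p) y (EuclideanSpace.basisFun (Fin 3) ℝ c)⟫) :=
    UP.sum hV hη Finset.univ fun c _ => (hc c).inner hV hη (hc c)
  have hl' : ∀ p, ∀ x ∈ (univ : Set M), η p ^ 1 ≤ ∑ c,
      ⟪preO (nd p) (F'f p) x (EuclideanSpace.basisFun (Fin 3) ℝ c),
        preO (nd p) (F'f p) x (EuclideanSpace.basisFun (Fin 3) ℝ c)⟫ := fun p x _ => by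
    have h := hl p x
    rw [sizeO, Real.sq_sqrt (Finset.sum_nonneg fun c _ => sq_nonneg _)] at h
    simpa only [real_inner_self_eq_norm_sq] using h
  have h3 := (h2.sqrt hV hη 1 hl').inv hV hη 1 fun p x hx => eta_le_sqrt hη p (hl' p x hx)
  exact (h3.smul hV hη upre).congr_eq fun p x => by
    simp only [newO, sizeO, real_inner_self_eq_norm_sq]

end Families

/-- **One twist with bounds.** -/
theorem twist_step [T2Space M] [CompactSpace M] (g : Metric M) (hV : FrameSmooth V)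
    (hs : FrameSpans V) (hG : IsImm3 G) {S : M → R3} (hS : IsSection G S) (a b : ℕ) {C₀ : ℝ}
    (hC₀ : 1 ≤ C₀) (C : ℕ → ℝ) :
    ∃ (a' : ℕ) (C₀' : ℝ) (C' : ℕ → ℝ) (η' : ℝ), 0 < η' ∧ 1 ≤ C₀' ∧ ∀ η : ℝ, 0 < η → η ≤ η' →
      ∀ (F : M → R4) (nd : NormalData G F) (amp : M → ℝ), StepIn g G V η a C₀ C F nd amp →
        ∃ (F' : M → R4) (nd' : NormalData G F'),
          StepOut g G V η a' b C₀' C' F nd amp S F' nd' := by
  obtain ⟨K, hK0, hK⟩ := exists_coef g hV hs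
  obtain ⟨τ, hτ0, hτ⟩ := exists_gdetg_cover g hV hs
  obtain ⟨Bs, hBs0, hBs'⟩ := exists_bd_of_contMDiff hV 1 hS.1
  have hBs : ∀ i x, ‖D V i S x‖ ≤ Bs := fun i x => by
    simpa [DW] using hBs' [i] le_rfl x (mem_univ x)
  have hC0' : (0 : ℝ) ≤ C₀ := zero_le_one.trans hC₀
  set L₁ : ℝ := C₀ * K * Bs * C₀ with hL₁
  set L₀ : ℝ := L₁ + C₀ * K * |C 1| * (1 + 2 * C₀) + 1 with hL₀
  have hL₁0 : 0 ≤ L₁ := by positivity
  have hpos : 0 ≤ C₀ * K * |C 1| * (1 + 2 * C₀) := by positivity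
  have hL₀1 : 1 ≤ L₀ := by linarith
  set K₂ : ℝ := 2 + L₁ with hK₂
  have hK₂0 : 0 < K₂ := by linarith
  set C₁ : ℝ := max (4 * C₀) (K₂ * C₀) with hC₁
  have hC₁1 : 1 ≤ C₁ := le_trans (by linarith) (le_max_left _ _)
  -- the smallness of `η`
  set big : ℝ := 1 + 2 * L₀ + 5 * L₀ ^ 2 * C₀ ^ 2 + C₀ + (1 + 2 * K₂) ^ 2 + C₁ ^ 2 / τ with hbig
  have hsq1 : 0 ≤ 5 * L₀ ^ 2 * C₀ ^ 2 := by positivity
  have hsq2 : 0 ≤ (1 + 2 * K₂) ^ 2 := sq_nonneg _
  have hsq3 : 0 ≤ C₁ ^ 2 / τ := by positivity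
  have hbig1 : 1 ≤ big := by linarith
  have hb0 : 0 < big := by linarith
  let ι := StepPt g G V a C₀ C big⁻¹
  let e := 4 * a + b + 3
  let η : ι → ℝ := fun p => p.η
  have hη : Unit01 η := fun p => ⟨p.pos, p.small.trans ((inv_le_one₀ hb0).2 hbig1)⟩
  have hsmall : ∀ (p : ι) (y : ℝ), 0 ≤ y → y ≤ big → p.η * y ≤ 1 := fun p y hy0 hy => by
    calc p.η * y ≤ big⁻¹ * big := mul_le_mul p.small hy hy0 (inv_nonneg.2 hb0.le)
      _ = 1 := inv_mul_cancel₀ hb0.ne'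
  let F' : ι → M → R4 := fun p => spiral p.nd ((p.η)⁻¹ ^ e) p.amp S
  have hstep := fun p : ι => step_facts g hG hS hK0 hK hBs0 hBs (b := b) (e := e) hC₀ hL₁ hL₀ rfl
    p.pos (hη p).2 (hsmall p _ (by linarith) (by linarith))
    (hsmall p _ hC0' (by linarith)) (hsmall p _ hsq1 (by linarith)) p.hin
  have hdata : ∀ p : ι, ∃ nd' : NormalData G (F' p), nd'.n1 = newN p.nd (F' p) ∧
      nd'.O = newO p.nd (F' p) ∧
      ∀ x, F' p =ᶠ[𝓝 x] p.F → nd'.n1 x = p.nd.n1 x ∧ nd'.O x = p.nd.O x := fun p => by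
    obtain ⟨hF, hF', hfw, -⟩ := hstep p
    exact newData_exists hV hs hG hF hF' p.nd hfw
  have hlower : ∀ (p : ι) x v, g.inner x v v ≤ C₁ * ‖dv (F' p) x v‖ ^ 2 := fun p x v => by
    obtain ⟨-, -, -, -, -, hl, -⟩ := hstep p
    exact (hl x v).trans (mul_le_mul_of_nonneg_right (le_max_left _ _) (sq_nonneg _))
  have hbd : ∀ (p : ι) i x, ‖D V i (F' p) x‖ ≤ C₁ := fun p i x => by
    obtain ⟨-, -, -, -, hu, -⟩ := hstep p
    exact ((hu x (V i x)).trans (mul_le_mul_of_nonneg_left (p.hin.bd_dF i x) hK₂0.le)).trans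
      (le_max_right _ _)
  have hgd : ∀ (p : ι) i j x, τ ≤ gdetg g V i j x → η p ≤ gdet (F' p) V i j x := by
    intro p i j x hx
    have h1 := hx.trans (gdetg_le g (zero_lt_one.trans_le hC₁1) (hlower p x) (hτ0.trans_le hx))
    have h2 := hsmall p (C₁ ^ 2 / τ) hsq3 (by linarith)
    rw [mul_div_assoc', div_le_one hτ0] at h2
    exact le_of_mul_le_mul_right ((h2.trans h1).trans (le_of_eq (mul_comm _ _))) (by positivity)
  have hlow2 : ∀ (p : ι) (y : ℝ), 1 ≤ (1 + 2 * K₂) * y → η p ^ 1 ≤ y ^ 2 := fun p y hy => by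
    have h1 : 1 ≤ (1 + 2 * K₂) ^ 2 * y ^ 2 := by rw [← mul_pow]; exact one_le_pow₀ hy
    have h2 := hsmall p ((1 + 2 * K₂) ^ 2) hsq2 (by linarith)
    rw [pow_one]
    exact le_of_mul_le_mul_right ((h2.trans h1).trans (le_of_eq (mul_comm _ _))) (by positivity)
  have hsize : ∀ (p : ι) x, η p ^ 1 ≤ ‖nProj (F' p) x (p.nd.n1 x)‖ ^ 2 ∧
      η p ^ 1 ≤ sizeO p.nd (F' p) x ^ 2 := fun p x => by
    obtain ⟨hF, -, -, hh, hu, -⟩ := hstep p
    have h := size_lower hG hF p.nd hK₂0.le hh hu x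
    exact ⟨hlow2 p _ h.1, hlow2 p _ h.2⟩
  have un1 : UP V η (fun _ => univ) (fun p : ι => p.nd.n1) :=
    up_of_polyBd hη (fun p => p.nd.smooth_n1) fun p => p.hin.poly_n1
  have uO : UP V η (fun _ => univ) (fun p : ι => p.nd.O) :=
    up_of_polyBd hη (fun p => p.nd.smooth_O) fun p => p.hin.poly_O
  have uF' : UP V η (fun _ => univ) F' :=
    up_spiral hV hη hG hS (fun p => p.nd) e
      (up_of_polyBd hη (fun p => p.hin.smooth_F) fun p => p.hin.poly_F) un1 uO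
      (up_of_polyBd hη (fun p => p.hin.smooth_amp) fun p => p.hin.poly_amp)
  have uproj := up_nProj g hV hη hτ uF' hgd
  have unN := up_newN hV hη (fun p : ι => p.nd) uproj un1 fun p x => (hsize p x).1
  have unO := up_newO hV hη (fun p : ι => p.nd) uproj unN uO fun p x => (hsize p x).2
  obtain ⟨a₁, D₁, hD₁, hb₁⟩ := uF'.exists_polyBd
  obtain ⟨a₂, D₂, hD₂, hb₂⟩ := unN.exists_polyBd
  obtain ⟨a₃, D₃, hD₃, hb₃⟩ := unO.exists_polyBd
  refine ⟨a₁ + a₂ + a₃, C₁, fun n => D₁ n + D₂ n + D₃ n, big⁻¹, inv_pos.2 hb0, hC₁1,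
    fun η₁ h0 h1 F nd amp hin => ?_⟩
  let p : ι := ⟨η₁, h0, h1, F, nd, amp, hin⟩
  obtain ⟨nd', hn, hO, hkeep⟩ := hdata p
  obtain ⟨-, hF', -, -, -, -, hcl, hres, hoff⟩ := hstep p
  have hD0 : ∀ n, 0 ≤ D₁ n + D₂ n + D₃ n := fun n =>
    add_nonneg (add_nonneg (hD₁ n) (hD₂ n)) (hD₃ n)
  exact ⟨F' p, nd', hF'.1,
    (hb₁ p).mono h0 (hη p).2 (by omega) (fun n => by linarith [hD₂ n, hD₃ n]) hD0,
    hn ▸ (hb₂ p).mono h0 (hη p).2 (by omega) (fun n => by linarith [hD₁ n, hD₃ n]) hD0,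
    hO ▸ (hb₃ p).mono h0 (hη p).2 (by omega) (fun n => by linarith [hD₁ n, hD₂ n]) hD0,
    hbd p, hlower p, hcl, hres, fun x hx => ⟨hoff x hx, hkeep x (hoff x hx)⟩⟩

end

end Vale.Agent.P205.Full.Start.Twist
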