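import Vale.Agent.P205.Full.Start.TwistDefs
import Vale.Agent.P205.Full.Start.TwistOne
import Vale.Agent.P205.Full.Start.TensorDecomp

/-!
# START A5: the twists

The pinched tensor `χ² R` is a sum of `a_t² dψ_t ⊗ dψ_t` with monomially bounded amplitudes;
one spiral for each term gives it up to any power of `η`.
-/

open scoped Manifold ContDiff RealInnerProductSpace Topology
open Bundle Filter Set

set_option linter.unusedSectionVars false

namespace Vale.Agent.P205.Full.Start.Twist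

noncomputable section

variable {M : Type} [TopologicalSpace M] [ChartedSpace R2 M] [IsManifold (𝓡 2) ∞ M]
variable {N : ℕ} {G : M → R3} {V : Frame M N}

/-! ## Algebra of the pinching -/

lemma quad_single (r : Fin N → Fin N → ℝ) (a b : Fin N) :
    ∑ i, ∑ k, (Pi.single a (1 : ℝ) + Pi.single b 1 : Fin N → ℝ) i *
        (Pi.single a (1 : ℝ) + Pi.single b 1 : Fin N → ℝ) k * r i k =
      r a a + r a b + (r b a + r b b) := by
  simp only [Pi.add_apply, add_mul, mul_add, Finset.sum_add_distrib, Pi.single_apply, ite_mul,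
    mul_ite, one_mul, mul_one, zero_mul, mul_zero, Finset.sum_ite_eq', Finset.mem_univ, if_true,
    Finset.sum_const_zero]
  ring

lemma quad_basis (r : Fin N → Fin N → ℝ) (a : Fin N) :
    ∑ i, ∑ k, (Pi.single a (1 : ℝ) : Fin N → ℝ) i * (Pi.single a (1 : ℝ) : Fin N → ℝ) k * r i k =
      r a a := by
  simp [Pi.single_apply]

/-- Entries of a form between `0` and `K` times a bounded form. -/
lemma entry_bound {r s : Fin N → Fin N → ℝ} {K B : ℝ} (hK : 0 ≤ K) (hr : ∀ i k, r i k = r k i)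
    (hs : ∀ i k, |s i k| ≤ B)
    (h0 : ∀ y : Fin N → ℝ, 0 ≤ ∑ i, ∑ k, y i * y k * r i k)
    (h1 : ∀ y : Fin N → ℝ, ∑ i, ∑ k, y i * y k * r i k ≤ K * ∑ i, ∑ k, y i * y k * s i k)
    (a b : Fin N) : |r a b| ≤ 2 * (K * B) := by
  have hd : ∀ c, 0 ≤ r c c ∧ r c c ≤ K * B := fun c => by
    have e0 := h0 (Pi.single c 1)
    have e1 := h1 (Pi.single c 1)
    rw [quad_basis] at e0 e1
    rw [quad_basis] at e1
    exact ⟨e0, e1.trans (mul_le_mul_of_nonneg_left ((le_abs_self _).trans (hs c c)) hK)⟩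
  have e0 := h0 (Pi.single a 1 + Pi.single b 1)
  have e1 := h1 (Pi.single a 1 + Pi.single b 1)
  rw [quad_single, hr b a] at e0 e1
  rw [quad_single] at e1
  have hsum : s a a + s a b + (s b a + s b b) ≤ 4 * B := by
    linarith [(abs_le.1 (hs a a)).2, (abs_le.1 (hs a b)).2, (abs_le.1 (hs b a)).2,
      (abs_le.1 (hs b b)).2]
  have e2 := e1.trans (mul_le_mul_of_nonneg_left hsum hK)
  obtain ⟨ha0, ha1⟩ := hd a
  obtain ⟨hb0, hb1⟩ := hd b
  rw [abs_le]
  constructor <;> linarith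

lemma quad_gV_nonneg (g : Metric M) (x : M) (y : Fin N → ℝ) :
    0 ≤ ∑ i, ∑ k, y i * y k * gV g V i k x := by
  refine (inner_self_nonneg' g x (∑ i, y i • V i x)).trans (le_of_eq ?_)
  simp only [map_sum, map_smul, sum_apply, smul_apply, smul_eq_mul, gV, Finset.mul_sum]
  rw [Finset.sum_comm]
  exact Finset.sum_congr rfl fun i _ => Finset.sum_congr rfl fun k _ => by ring

/-- Trace of the metric in the frame. -/
def trV (g : Metric M) (V : Frame M N) (x : M) : ℝ := ∑ i, gV g V i i x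

lemma trV_pos (g : Metric M) (hs : FrameSpans V) (x : M) : 0 < trV g V x := by
  obtain ⟨i, j, h⟩ := exists_pair hs x
  have hi : V i x ≠ 0 := by simpa using h.ne_zero 0
  exact lt_of_lt_of_le (g.pos x _ hi)
    (Finset.single_le_sum (f := fun k => gV g V k k x)
      (fun k _ => inner_self_nonneg' g x (V k x)) (Finset.mem_univ i))

/-- The mean size of a tensor. -/
def size (g : Metric M) (V : Frame M N) (R : Fin N → Fin N → M → ℝ) (x : M) : ℝ :=
  (∑ i, R i i x) * (trV g V x)⁻¹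

/-- At a pinched point. -/
lemma pinch_facts (g : Metric M) (hs : FrameSpans V) {R : Fin N → Fin N → M → ℝ} {η C₀ t : ℝ}
    {c : ℕ} {x : M} (hη : 0 < η) (hηC : η * C₀ ≤ 1) (hC : 1 ≤ C₀) (ht0 : η ^ c ≤ t) (ht1 : t ≤ C₀)
    (h : ∀ y : Fin N → ℝ,
      t / C₀ * (∑ i, ∑ k, y i * y k * gV g V i k x) ≤ ∑ i, ∑ k, y i * y k * R i k x ∧
        ∑ i, ∑ k, y i * y k * R i k x ≤ C₀ * t * ∑ i, ∑ k, y i * y k * gV g V i k x) :
    η ^ (c + 1) ≤ size g V R x ∧ size g V R x ≤ C₀ ^ 2 ∧
      ∀ y : Fin N → ℝ,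
        (C₀ ^ 2)⁻¹ * (∑ i, ∑ k, y i * y k * gV g V i k x) ≤
            ∑ i, ∑ k, y i * y k * ((size g V R x)⁻¹ * R i k x) ∧
          ∑ i, ∑ k, y i * y k * ((size g V R x)⁻¹ * R i k x) ≤
            C₀ ^ 2 * ∑ i, ∑ k, y i * y k * gV g V i k x := by
  have hC0 : 0 < C₀ := zero_lt_one.trans_le hC
  have ht : 0 < t := (pow_pos hη c).trans_le ht0
  have hT := trV_pos g hs x
  have hdiag : ∀ i, t / C₀ * gV g V i i x ≤ R i i x ∧ R i i x ≤ C₀ * t * gV g V i i x := fun i => by
    have h' := h (Pi.single i 1)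
    rwa [quad_basis (fun i k => R i k x), quad_basis (fun i k => gV g V i k x)] at h'
  have hs1 : t / C₀ ≤ size g V R x := by
    rw [size, ← div_eq_mul_inv, le_div_iff₀ hT, trV, Finset.mul_sum]
    exact Finset.sum_le_sum fun i _ => (hdiag i).1
  have hs2 : size g V R x ≤ C₀ * t := by
    rw [size, ← div_eq_mul_inv, div_le_iff₀ hT, trV, Finset.mul_sum]
    exact Finset.sum_le_sum fun i _ => (hdiag i).2
  have hspos : 0 < size g V R x := (div_pos ht hC0).trans_le hs1
  refine ⟨?_, hs2.trans (by rw [sq]; exact mul_le_mul_of_nonneg_left ht1 hC0.le), fun y => ?_⟩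
  · refine le_trans ?_ hs1
    rw [le_div_iff₀ hC0, pow_succ, mul_assoc]
    exact (mul_le_of_le_one_right (pow_nonneg hη.le c) hηC).trans ht0
  · have hq := quad_gV_nonneg (V := V) g x y
    set Qg := ∑ i, ∑ k, y i * y k * gV g V i k x
    set s := size g V R x
    have e : ∑ i, ∑ k, y i * y k * (s⁻¹ * R i k x) = s⁻¹ * ∑ i, ∑ k, y i * y k * R i k x := by
      simp only [Finset.mul_sum, mul_left_comm]
    rw [e]
    obtain ⟨h1, h2⟩ := h y
    constructor
    · rw [le_inv_mul_iff₀ hspos]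
      calc s * ((C₀ ^ 2)⁻¹ * Qg) ≤ C₀ * t * ((C₀ ^ 2)⁻¹ * Qg) :=
            mul_le_mul_of_nonneg_right hs2 (by positivity)
        _ = t / C₀ * Qg := by field_simp
        _ ≤ _ := h1
    · rw [inv_mul_le_iff₀ hspos]
      calc _ ≤ C₀ * t * Qg := h2
        _ = t / C₀ * (C₀ ^ 2 * Qg) := by field_simp
        _ ≤ s * (C₀ ^ 2 * Qg) := mul_le_mul_of_nonneg_right hs1 (by positivity)

/-- The two ways of measuring `dF` agree. -/
lemma lower_dv (g : Metric M) {F : M → R4} {C₀ : ℝ}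
    (h : ∀ x (v : TangentSpace (𝓡 2) x),
      g.inner x v v ≤ C₀ * ‖(mfderiv (𝓡 2) 𝓘(ℝ, R4) F x v : R4)‖ ^ 2)
    (x : M) (v : TangentSpace (𝓡 2) x) : g.inner x v v ≤ C₀ * ‖dv F x v‖ ^ 2 := by
  simpa [dv, norm_tangentSpace_vectorSpace] using h x v

lemma dv_lower (g : Metric M) {F : M → R4} {C₀ : ℝ}
    (h : ∀ x v, g.inner x v v ≤ C₀ * ‖dv F x v‖ ^ 2) (x : M) (v : TangentSpace (𝓡 2) x) :
    g.inner x v v ≤ C₀ * ‖(mfderiv (𝓡 2) 𝓘(ℝ, R4) F x v : R4)‖ ^ 2 := by
  simpa [dv, norm_tangentSpace_vectorSpace] using h x v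

/-! ## The amplitudes -/

section Amp

variable {m Q : ℕ}

/-- The amplitude of one term. -/
def ampF (g : Metric M) (V : Frame M N) (φ : (Fin m → Fin m → ℝ) → ℝ)
    (p₀ : Fin m → Fin m → M → ℝ) (p : Fin N → Fin N → Fin m → Fin m → M → ℝ)
    (χ : M → ℝ) (R : Fin N → Fin N → M → ℝ) (x : M) : ℝ :=
  χ x * (Real.sqrt (size g V R x) *
    φ (fun j l => p₀ j l x + ∑ a, ∑ b, (size g V R x)⁻¹ * R a b x * p a b j l x))

lemma tsupport_ampF (g : Metric M) (φ : (Fin m → Fin m → ℝ) → ℝ)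
    (p₀ : Fin m → Fin m → M → ℝ) (p : Fin N → Fin N → Fin m → Fin m → M → ℝ)
    (χ : M → ℝ) (R : Fin N → Fin N → M → ℝ) :
    tsupport (ampF g V φ p₀ p χ R) ⊆ tsupport χ :=
  tsupport_mul_subset_left (f := χ)

/-- A family of functions with values in a product, from its entries. -/
lemma up_matrix [CompactSpace M] {ι : Type*} {η : ι → ℝ} {s : ι → Set M} (hV : FrameSmooth V)
    (hη : Unit01 η) {u : Fin m → Fin m → ι → M → ℝ} (hu : ∀ j l, UP V η s (u j l)) :
    UP V η s (fun p y => fun j l => u j l p y) := by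
  refine (UP.sum hV hη Finset.univ (u := fun (q : Fin m × Fin m) p y =>
    u q.1 q.2 p y • (Pi.single q.1 (Pi.single q.2 1) : Fin m → Fin m → ℝ))
    fun q _ => (hu q.1 q.2).smul hV hη (up_fixed hV hη contMDiff_const)).congr_eq fun p x => ?_
  funext j l
  simp only [Finset.sum_apply, Pi.smul_apply, smul_eq_mul, Fintype.sum_prod_type]
  rw [Finset.sum_eq_single j (fun i _ hi => by simp [Pi.single_eq_of_ne (Ne.symm hi)]) (by simp)]
  simp [Pi.single_apply]

end Amp

/-- An admissible point of the parameter space. -/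
structure TwistPt (g : Metric M) (G : M → R3) (V : Frame M N) (a c : ℕ) (C₀ : ℝ) (C : ℕ → ℝ)
    (η' : ℝ) where
  η : ℝ
  pos : 0 < η
  small : η ≤ η'
  F : M → R4
  nd : NormalData G F
  χ : M → ℝ
  R : Fin N → Fin N → M → ℝ
  hin : TwistIn g G V η a c C₀ C F nd χ R

/-- Uniformly bounded amplitudes with `χ² R = ∑ a_t² dψ_t ⊗ dψ_t`. -/
lemma exists_amp [T2Space M] [CompactSpace M] (g : Metric M) (hV : FrameSmooth V)
    (hs : FrameSpans V) (hG : IsImm3 G) (a c : ℕ) (C₀ : ℝ) (C : ℕ → ℝ) :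
    ∃ (Q : ℕ) (S : Fin Q → M → R3) (η' : ℝ) (a' : ℕ) (B : ℝ) (C' : ℕ → ℝ), 0 < η' ∧ η' ≤ 1 ∧
      (∀ t, IsSection G (S t)) ∧ ∀ P : TwistPt g G V a c C₀ C η', ∃ amp : Fin Q → M → ℝ,
        (∀ t, ContMDiff (𝓡 2) 𝓘(ℝ, ℝ) ∞ (amp t)) ∧ (∀ t, PolyBd V P.η a' C' (amp t)) ∧
        (∀ t x, |amp t x| ≤ B) ∧ (∀ t, tsupport (amp t) ⊆ tsupport P.χ) ∧
        ∀ i k x, P.χ x ^ 2 * P.R i k x = ∑ t, amp t x ^ 2 * dSecSq G V (S t) i k x := by
  set K : ℝ := max C₀ 1 with hK
  have hK1 : 1 ≤ K := le_max_right _ _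
  have hK0 : 0 < K := zero_lt_one.trans_le hK1
  have hκ : (0 : ℝ) < (K ^ 2)⁻¹ := inv_pos.2 (pow_pos hK0 2)
  obtain ⟨m, Q, S, φ, p₀, p, hS, hφ, hp₀, hp, hdec⟩ := Tensor.exists_tensor_decomp g hV hs hG hκ
  obtain ⟨B₀, hB₀⟩ := isCompact_univ.exists_bound_of_continuousOn
    (f := fun x j l => p₀ j l x)
    (continuous_pi fun j => continuous_pi fun l => (hp₀ j l).continuous).continuousOn
  obtain ⟨B₁, hB₁⟩ := isCompact_univ.exists_bound_of_continuousOn
    (f := fun x a b j l => p a b j l x)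
    (continuous_pi fun a => continuous_pi fun b => continuous_pi fun j => continuous_pi fun l =>
      (hp a b j l).continuous).continuousOn
  obtain ⟨Bg, hBg⟩ := isCompact_univ.exists_bound_of_continuousOn
    (f := fun x i k => gV g V i k x)
    (continuous_pi fun i => continuous_pi fun k => (contMDiff_gV g hV i k).continuous).continuousOn
  set W : ℝ := 2 * (K ^ 2 * |Bg|) with hW
  set Rb : ℝ := |B₀| + (N : ℝ) * ((N : ℝ) * (W * |B₁|)) with hRb
  have hRb0 : 0 ≤ Rb := by positivity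
  choose Φ hΦ using fun t => (isCompact_closedBall (0 : Fin m → Fin m → ℝ) Rb).exists_bound_of_continuousOn
    (hφ t).continuous.continuousOn
  -- the parameter space
  let ι := TwistPt g G V a c C₀ C K⁻¹
  let η : ι → ℝ := fun P => P.η
  have hKi : K⁻¹ ≤ 1 := inv_le_one_of_one_le₀ hK1
  have hη : Unit01 η := fun P => ⟨P.pos, P.small.trans hKi⟩
  have hηK : ∀ P : ι, P.η * K ≤ 1 := fun P =>
    (mul_le_mul_of_nonneg_right P.small hK0.le).trans (le_of_eq (inv_mul_cancel₀ hK0.ne'))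
  have hpin : ∀ P : ι, ∀ x ∈ tsupport P.χ, P.η ^ (c + 1) ≤ size g V P.R x ∧
      size g V P.R x ≤ K ^ 2 ∧ ∀ y : Fin N → ℝ,
        (K ^ 2)⁻¹ * (∑ i, ∑ k, y i * y k * gV g V i k x) ≤
            ∑ i, ∑ k, y i * y k * ((size g V P.R x)⁻¹ * P.R i k x) ∧
          ∑ i, ∑ k, y i * y k * ((size g V P.R x)⁻¹ * P.R i k x) ≤
            K ^ 2 * ∑ i, ∑ k, y i * y k * gV g V i k x := by
    intro P x hx
    obtain ⟨t, ht0, ht1, ht⟩ := P.hin.pinch x hx
    have htp : 0 < t := (pow_pos P.pos c).trans_le ht0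
    have hC₀ : 0 < C₀ := htp.trans_le ht1
    refine pinch_facts g hs P.pos (hηK P) hK1 ht0 (ht1.trans (le_max_left _ _)) fun y => ?_
    have hq := quad_gV_nonneg (V := V) g x y
    exact ⟨(mul_le_mul_of_nonneg_right
        (div_le_div_of_nonneg_left htp.le hC₀ (le_max_left _ _)) hq).trans (ht y).1,
      (ht y).2.trans (mul_le_mul_of_nonneg_right
        (mul_le_mul_of_nonneg_right (le_max_left _ _) htp.le) hq)⟩
  have hargR : ∀ P : ι, ∀ x ∈ tsupport P.χ,
      ‖fun j l => p₀ j l x + ∑ a, ∑ b, (size g V P.R x)⁻¹ * P.R a b x * p a b j l x‖ ≤ Rb := by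
    intro P x hx
    obtain ⟨-, -, hq⟩ := hpin P x hx
    refine (pi_norm_le_iff_of_nonneg hRb0).2 fun j => (pi_norm_le_iff_of_nonneg hRb0).2 fun l => ?_
    have e0 : ‖p₀ j l x‖ ≤ |B₀| := (norm_le_pi_norm (fun l => p₀ j l x) l).trans
      ((norm_le_pi_norm (fun j l => p₀ j l x) j).trans ((hB₀ x (mem_univ x)).trans (le_abs_self _)))
    have e1 : ∀ a b, ‖p a b j l x‖ ≤ |B₁| := fun a b =>
      (norm_le_pi_norm (fun l => p a b j l x) l).trans ((norm_le_pi_norm (fun j l => p a b j l x) j).trans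
        ((norm_le_pi_norm (fun b j l => p a b j l x) b).trans
          ((norm_le_pi_norm (fun a b j l => p a b j l x) a).trans
            ((hB₁ x (mem_univ x)).trans (le_abs_self _)))))
    have eg : ∀ i k, |gV g V i k x| ≤ |Bg| := fun i k =>
      (norm_le_pi_norm (fun k => gV g V i k x) k).trans
        ((norm_le_pi_norm (fun i k => gV g V i k x) i).trans ((hBg x (mem_univ x)).trans (le_abs_self _)))
    have eR : ∀ a b, |(size g V P.R x)⁻¹ * P.R a b x| ≤ W :=
      entry_bound (sq_nonneg K) (fun i k => by rw [P.hin.symm_R i k x]) eg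
        (fun y => (mul_nonneg hκ.le (quad_gV_nonneg g x y)).trans (hq y).1) fun y => (hq y).2
    refine (norm_add_le _ _).trans (add_le_add e0 ?_)
    calc ‖∑ a, ∑ b, (size g V P.R x)⁻¹ * P.R a b x * p a b j l x‖
        ≤ ∑ _a : Fin N, ∑ _b : Fin N, W * |B₁| :=
          (norm_sum_le _ _).trans (Finset.sum_le_sum fun a _ => (norm_sum_le _ _).trans
            (Finset.sum_le_sum fun b _ => (norm_mul_le _ _).trans
              (mul_le_mul (eR a b) (e1 a b) (norm_nonneg _) (by positivity))))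
      _ = _ := by simp
  -- bounds on the support of the cutoff
  let sp : ι → Set M := fun P => tsupport P.χ
  have uR : ∀ i k, UP V η sp (fun P => P.R i k) := fun i k =>
    up_of_polyBd hη (fun P => P.hin.smooth_R i k) fun P => P.hin.poly_R i k
  have usize : UP V η sp (fun P => size g V P.R) :=
    (UP.sum hV hη Finset.univ fun i _ => uR i i).mul hV hη (up_fixed hV hη
      ((ContMDiff.sum fun i _ => contMDiff_gV g hV i i).inv₀ fun x => (trV_pos g hs x).ne'))
  have uinv := usize.inv hV hη (c + 1) fun P x hx => (hpin P x hx).1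
  have uarg : UP V η sp (fun P x => fun j l =>
      p₀ j l x + ∑ a, ∑ b, (size g V P.R x)⁻¹ * P.R a b x * p a b j l x) :=
    up_matrix hV hη fun j l => (up_fixed hV hη (hp₀ j l)).add hV hη
      (UP.sum hV hη Finset.univ fun a _ => UP.sum hV hη Finset.univ fun b _ =>
        (uinv.mul hV hη (uR a b)).mul hV hη (up_fixed hV hη (hp a b j l)))
  have uamp : ∀ t, UP V η (fun _ => univ) (fun P : ι => ampF g V (φ t) p₀ p P.χ P.R) := by
    intro t
    have uχ : UP V η sp (fun P => P.χ) :=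
      up_of_polyBd hη (fun P => P.hin.smooth_χ) fun P => P.hin.poly_χ
    have h : UP V η sp (fun P : ι => ampF g V (φ t) p₀ p P.χ P.R) :=
      uχ.mul hV hη ((usize.sqrt hV hη (c + 1) fun P x hx => (hpin P x hx).1).mul hV hη
        (uarg.comp_ball hV hη (hφ t) hargR))
    exact (h.mono_set fun P => tsupport_ampF g (φ t) p₀ p P.χ P.R).of_tsupport hη
  choose a' C' hC'0 hC' using fun t => (uamp t).exists_polyBd
  have hKsq : 0 ≤ K ^ 2 := sq_nonneg K
  refine ⟨Q, S, K⁻¹, ∑ t, a' t, ∑ t, K * (K * |Φ t|), fun n => ∑ t, C' t n, inv_pos.2 hK0, hKi, hS,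
    fun P => ⟨fun t => ampF g V (φ t) p₀ p P.χ P.R, fun t => (uamp t).smooth P, fun t =>
      (hC' t P).mono P.pos (hη P).2 (Finset.single_le_sum (fun u _ => Nat.zero_le _) (Finset.mem_univ t))
        (fun n => Finset.single_le_sum (fun u _ => hC'0 u n) (Finset.mem_univ t))
        (fun n => Finset.sum_nonneg fun u _ => hC'0 u n),
      fun t x => ?_, fun t => tsupport_ampF g (φ t) p₀ p P.χ P.R, fun i k x => ?_⟩⟩
  · refine le_trans ?_ (Finset.single_le_sum (f := fun u => K * (K * |Φ u|))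
      (fun u _ => by positivity) (Finset.mem_univ t))
    by_cases hx : x ∈ tsupport P.χ
    · simp only [ampF, abs_mul]
      refine mul_le_mul ((P.hin.bd_χ x).trans (le_max_left _ _))
        (mul_le_mul ?_ ?_ (abs_nonneg _) hK0.le) (by positivity) hK0.le
      · rw [abs_of_nonneg (Real.sqrt_nonneg _)]
        exact Real.sqrt_le_iff.2 ⟨hK0.le, (hpin P x hx).2.1⟩
      · exact (hΦ t _ (mem_closedBall_zero_iff.2 (hargR P x hx))).trans (le_abs_self _)
    · simp only [ampF, image_eq_zero_of_notMem_tsupport hx, zero_mul, abs_zero]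
      positivity
  · by_cases hx : x ∈ tsupport P.χ
    · obtain ⟨h1, -, h3⟩ := hpin P x hx
      have hspos : 0 < size g V P.R x := (pow_pos P.pos _).trans_le h1
      have e : ∀ (f : Fin N → Fin N → ℝ) (y : Fin N → ℝ),
          ∑ i, ∑ k, y i * f i k * y k = ∑ i, ∑ k, y i * y k * f i k := fun f y =>
        Finset.sum_congr rfl fun i _ => Finset.sum_congr rfl fun k _ => by ring
      have hd := hdec x (fun i k => (size g V P.R x)⁻¹ * P.R i k x)
        (fun i k => by rw [P.hin.symm_R i k x])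
        (fun y => by
          rw [inv_inv, e (fun i k => gV g V i k x),
            e (fun i k => (size g V P.R x)⁻¹ * P.R i k x)]
          exact h3 y) i k
      have hR : P.R i k x = size g V P.R x * ((size g V P.R x)⁻¹ * P.R i k x) := by
        rw [mul_inv_cancel_left₀ hspos.ne']
      rw [hR, hd, Finset.mul_sum, Finset.mul_sum]
      refine Finset.sum_congr rfl fun t _ => ?_
      simp only [ampF, mul_pow, Real.sq_sqrt hspos.le]
      ring
    · simp [ampF, image_eq_zero_of_notMem_tsupport hx]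

/-- The state after the twists in `T`. -/
structure Partial (g : Metric M) (G : M → R3) (V : Frame M N) (η : ℝ) (a b : ℕ) (C₀ : ℝ)
    (C : ℕ → ℝ) (n : ℕ) (F : M → R4) (nd : NormalData G F) (χ : M → ℝ)
    (inc : Fin N → Fin N → M → ℝ) (F' : M → R4) (nd' : NormalData G F') : Prop where
  smooth_F : ContMDiff (𝓡 2) 𝓘(ℝ, R4) ∞ F'
  poly_F : PolyBd V η a C F'
  poly_n1 : PolyBd V η a C nd'.n1
  poly_O : PolyBd V η a C nd'.O
  bd_dF : ∀ i x, ‖D V i F' x‖ ≤ C₀
  lower_F : ∀ x v, g.inner x v v ≤ C₀ * ‖dv F' x v‖ ^ 2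
  close : ∀ x, ‖F' x - F x‖ ≤ n * η ^ 2
  res : ∀ i k x, |pullV F' V i k x - pullV F V i k x - inc i k x| ≤ n * η ^ (b + 1)
  off : ∀ x ∉ tsupport χ, F' =ᶠ[𝓝 x] F ∧ nd'.n1 x = nd.n1 x ∧ nd'.O x = nd.O x

end

end Vale.Agent.P205.Full.Start.Twist

namespace Vale.Agent.P205.Full.Start

open Twist in
/-- **A5: the twists.** -/
theorem twist : TwistProp := by
  intro M _ _ _ _ _ g N V hV hs G hG a c b C₀ C
  classical
  obtain ⟨Q, S, η₁, aA, B, CA, hη₁, hη₁1, hS, hamp⟩ := exists_amp g hV hs hG a c C₀ C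
  choose amp hsm hpoly hbd hsupp hsum using hamp
  have key : ∀ T : Finset (Fin Q), ∃ (a' : ℕ) (C₀' : ℝ) (C' : ℕ → ℝ) (η' : ℝ),
      0 < η' ∧ 1 ≤ C₀' ∧ ∀ P : TwistPt g G V a c C₀ C η₁, P.η ≤ η' →
        ∃ (F' : M → R4) (nd' : NormalData G F'), Partial g G V P.η a' b C₀' C' T.card P.F P.nd P.χ
          (fun i k x => ∑ t ∈ T, amp P t x ^ 2 * dSecSq G V (S t) i k x) F' nd' := by
    intro T
    induction T using Finset.induction_on with
    | empty =>
      refine ⟨a, max C₀ 1, fun n => |C n|, 1, one_pos, le_max_right _ _, fun P _ => ⟨P.F, P.nd, ?_⟩⟩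
      have he := hη₁1.trans' P.small
      exact ⟨P.hin.smooth_F, P.hin.poly_F.mono_exp P.pos he le_rfl,
        P.hin.poly_n1.mono_exp P.pos he le_rfl, P.hin.poly_O.mono_exp P.pos he le_rfl,
        fun i x => (P.hin.bd_dF i x).trans (le_max_left _ _),
        fun x v => (lower_dv g P.hin.lower_F x v).trans
          (mul_le_mul_of_nonneg_right (le_max_left _ _) (sq_nonneg _)),
        fun x => by simp, fun i k x => by simp, fun x _ => ⟨EventuallyEq.rfl, rfl, rfl⟩⟩
    | @insert t T ht ih =>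
      obtain ⟨a', C₀', C', η', hη', hC₀', ih⟩ := ih
      obtain ⟨a₂, C₂, D, η₂, hη₂, hC₂, hstep⟩ := twist_step g hV hs hG (hS t) (a' + aA) (b + 1)
        (C₀ := C₀' + |B|) (by linarith [abs_nonneg B]) (fun n => |C' n| + |CA n|)
      refine ⟨a₂, C₂, D, min η' η₂, lt_min hη' hη₂, hC₂, fun P hP => ?_⟩
      obtain ⟨F', nd', h⟩ := ih P (hP.trans (min_le_left _ _))
      have he := hη₁1.trans' P.small
      have hn : ∀ n, 0 ≤ |C' n| + |CA n| := fun n => by positivity
      obtain ⟨F'', nd'', o⟩ := hstep P.η P.pos (hP.trans (min_le_right _ _)) F' nd' (amp P t)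
        ⟨h.smooth_F, hsm P t,
          h.poly_F.mono P.pos he (Nat.le_add_right _ _)
            (fun n => (le_abs_self _).trans (le_add_of_nonneg_right (abs_nonneg _))) hn,
          h.poly_n1.mono P.pos he (Nat.le_add_right _ _)
            (fun n => (le_abs_self _).trans (le_add_of_nonneg_right (abs_nonneg _))) hn,
          h.poly_O.mono P.pos he (Nat.le_add_right _ _)
            (fun n => (le_abs_self _).trans (le_add_of_nonneg_right (abs_nonneg _))) hn,
          (hpoly P t).mono P.pos he (Nat.le_add_left _ _)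
            (fun n => (le_abs_self _).trans (le_add_of_nonneg_left (abs_nonneg _))) hn,
          fun x => (hbd P t x).trans (by linarith [le_abs_self B]),
          fun i x => (h.bd_dF i x).trans (by linarith [abs_nonneg B]),
          fun x v => (h.lower_F x v).trans
            (mul_le_mul_of_nonneg_right (by linarith [abs_nonneg B]) (sq_nonneg _))⟩
      refine ⟨F'', nd'', o.smooth_F, o.poly_F, o.poly_n1, o.poly_O, o.bd_dF, o.lower_F,
        fun x => ?_, fun i k x => ?_, fun x hx => ?_⟩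
      · rw [Finset.card_insert_of_notMem ht, Nat.cast_succ, add_mul, one_mul, add_comm]
        refine (le_trans ?_ (add_le_add (o.close x) (h.close x)))
        exact norm_sub_le_norm_sub_add_norm_sub _ _ _
      · rw [Finset.card_insert_of_notMem ht, Nat.cast_succ, add_mul, one_mul]
        simp only [Finset.sum_insert ht]
        have h1 := abs_le.1 (h.res i k x)
        have h2 := abs_le.1 (o.res i k x)
        rw [abs_le]
        constructor <;> linarith
      · obtain ⟨o1, o2, o3⟩ := o.off x fun hc => hx (hsupp P t hc)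
        obtain ⟨h1, h2, h3⟩ := h.off x hx
        exact ⟨o1.trans h1, o2.trans h2, o3.trans h3⟩
  obtain ⟨a', C₀', C', η', hη', -, hkey⟩ := key Finset.univ
  have hQ : (0 : ℝ) < Q + 1 := by positivity
  refine ⟨a', C₀', C', min η₁ (min η' (1 / (Q + 1 : ℝ))),
    lt_min hη₁ (lt_min hη' (by positivity)), fun η h0 h1 F nd χ R hin => ?_⟩
  let P : Twist.TwistPt g G V a c C₀ C η₁ := ⟨η, h0, h1.trans (min_le_left _ _), F, nd, χ, R, hin⟩
  obtain ⟨F₁, nd₁, h⟩ := hkey P (h1.trans ((min_le_right _ _).trans (min_le_left _ _)))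
  have hm : (Finset.univ : Finset (Fin Q)).card * η ≤ (1 : ℝ) := by
    rw [Finset.card_univ, Fintype.card_fin]
    calc (Q : ℝ) * η ≤ (Q + 1) * (1 / (Q + 1)) :=
          mul_le_mul (by linarith) (h1.trans ((min_le_right _ _).trans (min_le_right _ _))) h0.le hQ.le
      _ = 1 := by field_simp
  refine ⟨F₁, nd₁, h.smooth_F, (isImm4_of_lower g h.smooth_F h.lower_F).2, h.poly_F, h.poly_n1,
    h.poly_O, h.bd_dF, fun x v => dv_lower g h.lower_F x v, fun x => (h.close x).trans ?_, fun i k x => ?_, h.off⟩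
  · rw [sq, ← mul_assoc]
    exact mul_le_of_le_one_left h0.le hm
  · rw [hsum P i k x]
    refine (h.res i k x).trans ?_
    rw [pow_succ, ← mul_assoc, mul_right_comm]
    exact mul_le_of_le_one_left (pow_nonneg h0.le b) hm

end Vale.Agent.P205.Full.Start
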