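import Vale.Agent.P205.Full.Start.AssembleBase
import Vale.Agent.P205.Full.Start.AssembleSlack
import Vale.Agent.P205.Full.Start.AssembleTwist
import Vale.Agent.P205.Full.Start.AssembleInner
import Vale.Agent.P205.Full.Start.AssemblePre
import Vale.Agent.P205.Full.Start.Section
import Vale.Agent.P205.Full.Start.Flatten
import Vale.Agent.P205.Full.Start.Modify
import Vale.Agent.P205.Full.Start.Twist

/-!
# P205 full, START: the data for the last spiral from A1 to A5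

`baseData` flattens a Morse section at its critical points, makes it anisotropic at scale
`η⁸`, changes `G × 0` near the points by the base map and fills the rest of the metric up to
the slack by the twists.
-/

open scoped Manifold ContDiff RealInnerProductSpace Topology
open Bundle Filter Set Metric

noncomputable section

namespace Vale.Agent.P205.Full.Start

variable {M : Type} [TopologicalSpace M] [T2Space M] [CompactSpace M] [ChartedSpace R2 M]
  [IsManifold (𝓡 2) ∞ M] {g : Full.Metric M} {N : ℕ} {V : Frame M N}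

omit [T2Space M] [CompactSpace M] in
/-- Larger constants are allowed in `InCore`. -/
lemma InCore.mono {G : M → R3} {F : M → R4} {nd : NormalData G F} {S : M → R3} {sq : M → ℝ}
    {η C₀ C₁ : ℝ} {x : M} (h : InCore g G V F nd S sq η C₀ x) (hC : C₀ ≤ C₁) :
    InCore g G V F nd S sq η C₁ x where
  ddF i k := (h.ddF i k).trans hC
  dn1 i := (h.dn1 i).trans hC
  dO i := (h.dO i).trans hC
  dres i j k := (h.dres i j k).trans (mul_le_mul_of_nonneg_right hC (Real.sqrt_nonneg _))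
  ddres i j l k := (h.ddres i j l k).trans hC
  hess := h.hess.trans (mul_le_mul_of_nonneg_right hC
    (Finset.sum_nonneg fun i _ => Finset.sum_nonneg fun k _ => norm_nonneg _))

omit [T2Space M] [CompactSpace M] in
/-- The metric form of the frame is nonnegative. -/
lemma gV_form_nonneg (g : Full.Metric M) (y : Fin N → ℝ) (x : M) :
    0 ≤ ∑ i, ∑ k, y i * y k * gV g V i k x := by
  simp only [gV]
  rw [sum_bilin_form (F := TangentSpace (𝓡 2) x) (g.inner x) y fun i => V i x]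
  rcases eq_or_ne (∑ i, y i • V i x) 0 with h | h
  · simp [h]
  · exact (g.pos x _ h).le

theorem Setup.exists_baseData (σ : Setup g) (hS : IsSection σ.G σ.S)
    (hcrit : ∀ x, IsCrit σ.G V σ.S x ↔ x ∈ σ.Z) (hV : FrameSmooth V) (hs : FrameSpans V) :
    ∃ (a c : ℕ) (C₀ : ℝ) (C : ℕ → ℝ) (η₀ : ℝ), 0 < η₀ ∧
      ∀ η : ℝ, 0 < η → η ≤ η₀ → Nonempty (BaseData g σ.G V η a c C₀ C) := by
  obtain ⟨κ₀, hκ, hmod⟩ := modify M g N V σ.G σ.S σ.Z σ.P hV hs σ.imm hS hcrit σ.disj (1 / 4)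
    (by norm_num)
  obtain ⟨am, Cm, Cp, ηm, hηm, hηm1, hmod⟩ := hmod κ₀ hκ le_rfl
  obtain ⟨rad, ab, C₀b, Cb, ηb, hrad, hrd, hrk, hηb, -, hrd', hchart⟩ := σ.exists_charts hκ
  obtain ⟨a1, K1, C1, hbase⟩ := σ.exists_base_bounds hV hs ab C₀b Cb
  obtain ⟨as, Cs, ηs, hηs, hslack⟩ := σ.exists_slack_polyBd hV
  set aR := a1 + am + as
  set CR : ℕ → ℝ := fun n => |C1 n| + |Cp n| + |Cs n|
  obtain ⟨a2, C2, hres⟩ := σ.exists_res_polyBd hV aR CR
  obtain ⟨K2, ηp, hK2, hηp, hpinch⟩ := σ.exists_pinch (V := V) κ₀ Cm am Cp ab C₀b Cb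
  set aT := aR + a2
  set CT : ℕ → ℝ := fun n => CR n + |C2 n| + ‖axis4‖
  set KT := |K1| + K2 + 1
  obtain ⟨a3, K3, C3, ηT, hηT, htw⟩ := twist M g N V hV hs σ.G σ.imm aT 85 86 KT CT
  obtain ⟨KS, ηk, hηk, hsl⟩ := σ.exists_slack_bounds hV κ₀ (1 / 4) Cm am Cp
  obtain ⟨KI, ηi, hηi, hinn⟩ := Setup.exists_inCore (σ := σ) hV hs κ₀ (1 / 4) Cm hκ am Cp ab C₀b Cb
  obtain ⟨KD, hdS⟩ := σ.exists_dSec_bound hV hs
  obtain ⟨KR, ηr, hηr, hcore⟩ := σ.exists_core_res hV hs κ₀ (1 / 4) Cm hκ am Cp ab C₀b Cb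
  obtain ⟨ηc, hηc, hηc1, hsmall⟩ := σ.exists_core_small
  refine ⟨aT + a3, 85, |K1| + |K3| + |Cm| + |KS| + |KI| + |KD| + |KR| + 2,
    fun n => CT n + |C3 n|, min (min (min ηm ηb) (min ηs ηp)) (min (min (min ηT ηk) (min ηi ηr))
      (min ηc (1 / 16))), by positivity, fun η hη hle => ?_⟩
  simp only [le_min_iff] at hle
  obtain ⟨⟨⟨lm, lb⟩, ⟨ls, lp⟩⟩, ⟨⟨lT, lk⟩, ⟨li, lr⟩⟩, ⟨lc, l16⟩⟩ := hle
  have hη1 : η ≤ 1 := l16.trans (by norm_num)
  obtain ⟨S', hS'⟩ := hmod η hη lm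
  obtain ⟨Fl, hch⟩ := hchart η hη lb
  have hrd' := hrd' η hη lb
  have hl := hch.loc hrad hη hrd'
  obtain ⟨hpF, hpO, hbF, hbdF, hlowF⟩ := hbase η rad Fl hη hη1 hrad hrd' hch
  obtain ⟨hpq, hpχ⟩ := hslack η hη ls
  have hFs := hl.contMDiff_mapF
  have hqs := σ.contMDiff_slack η
  have hCR0 : ∀ n, 0 ≤ CR n := fun n => by positivity
  have c1 : ∀ n, C1 n ≤ CR n := fun n => by
    linarith [le_abs_self (C1 n), abs_nonneg (Cp n), abs_nonneg (Cs n)]
  have c2 : ∀ n, Cp n ≤ CR n := fun n => by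
    linarith [le_abs_self (Cp n), abs_nonneg (C1 n), abs_nonneg (Cs n)]
  have c3 : ∀ n, Cs n ≤ CR n := fun n => by
    linarith [le_abs_self (Cs n), abs_nonneg (Cp n), abs_nonneg (C1 n)]
  have pF := hpF.mono hη hη1 (show a1 ≤ aR by omega) c1 hCR0
  have pO := hpO.mono hη hη1 (show a1 ≤ aR by omega) c1 hCR0
  have pS := hS'.poly.mono hη hη1 (show am ≤ aR by omega) c2 hCR0
  have pq := hpq.mono hη hη1 (show as ≤ aR by omega) c3 hCR0
  have pχ := hpχ.mono hη hη1 (show as ≤ aR by omega) c3 hCR0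
  have hR := hres η (σ.mapF Fl) S' (σ.slack η) hη hη1 hFs hS'.sec.1 hqs pF pS pq
  set R := baseRes g σ.G V (σ.mapF Fl) S' (σ.slack η)
  have hCT0 : ∀ n, 0 ≤ CT n := fun n => by positivity
  have t1 : ∀ n, CR n ≤ CT n := fun n => by
    linarith [abs_nonneg (C2 n), norm_nonneg axis4]
  have t2 : ∀ n, C2 n ≤ CT n := fun n => by
    linarith [le_abs_self (C2 n), norm_nonneg axis4, hCR0 n]
  have t3 : ∀ n, ‖axis4‖ ≤ CT n := fun n => by linarith [abs_nonneg (C2 n), hCR0 n]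
  have hKT : K1 ≤ KT ∧ K2 ≤ KT ∧ 1 ≤ KT := by
    refine ⟨?_, ?_, ?_⟩ <;> linarith [le_abs_self K1, abs_nonneg K1]
  have hin : TwistIn g σ.G V η aT 85 KT CT (σ.mapF Fl) hl.normal (σ.chi η) R :=
    { smooth_F := hFs
      smooth_χ := σ.contMDiff_chi hη (hsmall η hη lc)
      smooth_R := fun i k => (hR i k).1
      poly_F := pF.mono hη hη1 (show aR ≤ aT by omega) t1 hCT0
      poly_n1 := (polyBd_const hη hη1 axis4 aT).mono hη hη1 le_rfl t3 hCT0
      poly_O := pO.mono hη hη1 (show aR ≤ aT by omega) t1 hCT0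
      poly_χ := pχ.mono hη hη1 (show aR ≤ aT by omega) t1 hCT0
      poly_R := fun i k => (hR i k).2.mono hη hη1 (show a2 ≤ aT by omega) t2 hCT0
      symm_R := fun i k x => baseRes_symm _ _ _ i k x
      bd_χ := fun x => by
        rw [abs_of_nonneg (σ.chi_mem η x).1]
        exact (σ.chi_mem η x).2.trans hKT.2.2
      bd_dF := fun i x => (hbdF i x).trans hKT.1
      lower_F := fun x v => (hlowF x v).trans
        (mul_le_mul_of_nonneg_right hKT.1 (by positivity))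
      pinch := fun x hx => by
        obtain ⟨t, ht, htK, hy⟩ := hpinch η hη lp rad Fl S' hrad hl hrd hrk hch hS' x
          (σ.tsupport_chi hη (hsmall η hη lc) hx)
        refine ⟨t, ht, htK.trans hKT.2.1, fun y => ?_⟩
        have hg : 0 ≤ ∑ i, ∑ k, y i * y k * gV g V i k x := gV_form_nonneg g y x
        have ht0 : 0 ≤ t := le_trans (by positivity) ht
        refine ⟨le_trans ?_ (hy y).1, (hy y).2.trans ?_⟩
        · gcongr; exact hKT.2.1
        · gcongr; exact hKT.2.1 }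
  obtain ⟨F₁, nd₁, ho⟩ := htw η hη lT _ _ _ _ hin
  obtain ⟨hsq, hdsq, hddsq, hout⟩ := hsl η hη lk S' hS'
  set K := |K1| + |K3| + |Cm| + |KS| + |KI| + |KD| + |KR| + 2 with hKdef
  have e1 : ∀ x : ℝ, x = K1 ∨ x = K3 ∨ x = Cm ∨ x = KS ∨ x = KI ∨ x = KD → x ≤ K := by
    intro x hx
    have h2 := hKdef
    have hx0 := le_abs_self x
    rcases hx with e | e | e | e | e | e <;> rw [e] at hx0 ⊢ <;>
      linarith [abs_nonneg K1, abs_nonneg K3, abs_nonneg Cm, abs_nonneg KS, abs_nonneg KI,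
        abs_nonneg KD, abs_nonneg KR]
  have f0 : ∀ n, 0 ≤ CT n + |C3 n| := fun n => by positivity
  have f3 : ∀ n, C3 n ≤ CT n + |C3 n| := fun n => by linarith [le_abs_self (C3 n), hCT0 n]
  have fR : ∀ n, CR n ≤ CT n + |C3 n| := fun n => by linarith [abs_nonneg (C3 n), t1 n]
  refine ⟨{
    F := F₁
    nd := nd₁
    S := S'
    sq := σ.slack η
    smooth_F := ho.smooth_F
    sec_S := hS'.sec
    smooth_sq := hqs
    poly_F := ho.poly_F.mono hη hη1 (Nat.le_add_left _ _) f3 f0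
    poly_n1 := ho.poly_n1.mono hη hη1 (Nat.le_add_left _ _) f3 f0
    poly_O := ho.poly_O.mono hη hη1 (Nat.le_add_left _ _) f3 f0
    poly_S := pS.mono hη hη1 (by omega) fR f0
    poly_sq := pq.mono hη hη1 (by omega) fR f0
    bd_S := fun x => (hS'.sup x).trans (e1 _ (by simp))
    bd_F := fun x => ?_
    bd_dF := fun i x => (ho.bd_dF i x).trans (e1 _ (by simp))
    bd_dS := fun i x => (hdS κ₀ η Cm am Cp S' hS' i x).trans (e1 _ (by simp))
    bd_ddS := fun i k x => (hS'.hess_le i k x).trans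
      (mul_le_mul_of_nonneg_right (e1 _ (by simp)) (by positivity))
    sq_nonneg := σ.slack_nonneg hη
    sq_le := fun x => (hsq x).trans ?_
    bd_dsq := fun i x => (hdsq i x).trans
      (mul_le_mul_of_nonneg_right (e1 _ (by simp)) (Real.sqrt_nonneg _))
    bd_ddsq := fun i k x => (hddsq i k x).trans (e1 _ (by simp))
    res_le := fun i k x => ?_
    region := fun x => ?_ }⟩
  · calc ‖F₁ x‖ ≤ ‖σ.mapF Fl x‖ + ‖F₁ x - σ.mapF Fl x‖ := norm_le_norm_add_norm_sub' _ _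
      _ ≤ K1 + 1 := add_le_add (hbF x) ((ho.close x).trans hη1)
      _ ≤ K := by linarith [le_abs_self K1, abs_nonneg K3, abs_nonneg Cm, abs_nonneg KS,
          abs_nonneg KI, abs_nonneg KD, abs_nonneg KR]
  · have hq0 : 0 ≤ qS σ.G V S' x := qS_nonneg _ _ _
    gcongr
    exact e1 _ (by simp)
  · refine (σ.res_twist_le hη hη1 (hsmall η hη lc) le_rfl (σ.slack_nonneg hη) ho
      (hcore η hη lr rad Fl S' hl hch hS') (fun x hx => (hout x hx).2) i k x).trans ?_
    gcongr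
    · exact σ.slack_nonneg hη x
    · linarith [hKdef, abs_nonneg K1, abs_nonneg K3, abs_nonneg Cm, abs_nonneg KS,
        abs_nonneg KI, abs_nonneg KD]
  · by_cases hx : ∀ q z, ‖z‖ ≤ σ.rd q → σ.U q z = x → η ^ 30 / 4 ≤ ‖z‖
    · exact Or.inl (hout x hx)
    · right
      refine InCore.mono (σ.inCore_twist hη (hsmall η hη lc) ho hx ?_) (e1 KI (by simp))
      push Not at hx
      obtain ⟨q, z, hz, rfl, hzl⟩ := hx
      exact hinn η hη li rad Fl S' hl hch hS' (fun i k => (hR i k).1) q z hzl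

/-- A1 to A5 give the data of the last spiral. -/
theorem baseData : BaseDataProp := by
  intro M _ _ _ _ _ hImm g N V hV hs
  obtain ⟨G₀, hG₀, hG₀i⟩ := hImm
  obtain ⟨S₀, hS₀, hfin, hnd⟩ := Sect.exists_morse_section (G := G₀) ⟨hG₀, hG₀i⟩ hV hs
  obtain ⟨G, S, Z, P, hG, hS, hcrit, hd, hsG, hsS, -⟩ :=
    flatten M g N V G₀ S₀ hV hs ⟨hG₀, hG₀i⟩ hS₀ hfin hnd (1 / 16) (by norm_num)
  let σ : Setup g := ⟨G, S, Z, P, hG, hd, hsG, hsS⟩
  obtain ⟨a, c, C₀, C, η₀, hη₀, h⟩ := σ.exists_baseData hS hcrit hV hs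
  exact ⟨G, a, c, C₀, C, η₀, hG, hη₀, h⟩

end Vale.Agent.P205.Full.Start
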