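import Vale.Agent.P205.Full.Start.AssembleCoord
import Vale.Agent.P205.Full.Start.BaseChartDef
import Vale.Agent.P205.Full.Open.Chart

/-!
# P205 full, START: algebra and plane estimates used by the assembly

Embeddings `ℝ³ → ℝ⁴`, the unit normal of a map `ℝ² → ℝ³`, the fixed slack profile, and second
frame derivatives in coordinates.
-/

open scoped Manifold ContDiff RealInnerProductSpace Topology
open Bundle Filter Set Metric

noncomputable section

namespace Vale.Agent.P205.Full.Start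

/-- The inclusion `ℝ³ → ℝ³ × 0 ⊆ ℝ⁴`. -/
def emb34 : R3 →L[ℝ] R4 :=
  ∑ i : Fin 3, (EuclideanSpace.proj (𝕜 := ℝ) i).smulRight (EuclideanSpace.single i.castSucc 1)

/-- The last axis of `ℝ⁴`. -/
def axis4 : R4 := EuclideanSpace.single 3 1

/-- The last axis of `ℝ³`. -/
def axis3 : R3 := EuclideanSpace.single 2 1

/-- The linear map sending the standard frame of `ℝ³` to `J e₀, J e₁, n`. -/
def rot3 (J : R2 →ₗᵢ[ℝ] R3) (n : R3) : R3 →L[ℝ] R3 :=
  (EuclideanSpace.proj (𝕜 := ℝ) 0).smulRight (J (eb 0)) +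
    (EuclideanSpace.proj (𝕜 := ℝ) 1).smulRight (J (eb 1)) +
    (EuclideanSpace.proj (𝕜 := ℝ) 2).smulRight n

lemma emb34_apply (w : R3) : emb34 w = w 0 • EuclideanSpace.single 0 1 +
    w 1 • EuclideanSpace.single 1 1 + w 2 • EuclideanSpace.single 2 1 := by
  simp [emb34, Fin.sum_univ_three, PiLp.proj_apply]

lemma inner_emb34 (v w : R3) : ⟪emb34 v, emb34 w⟫ = ⟪v, w⟫ := by
  simp only [emb34_apply]
  simp only [inner_add_left, inner_add_right, real_inner_smul_left, real_inner_smul_right,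
    EuclideanSpace.inner_single_left, PiLp.single_apply, map_one, one_mul]
  rw [PiLp.inner_apply, Fin.sum_univ_three]
  simp [mul_comm]

lemma norm_emb34 (v : R3) : ‖emb34 v‖ = ‖v‖ := by
  rw [norm_eq_sqrt_real_inner, norm_eq_sqrt_real_inner (x := v), inner_emb34]

lemma inner_axis4_emb34 (v : R3) : ⟪axis4, emb34 v⟫ = 0 := by
  simp [axis4, emb34_apply, inner_add_right, real_inner_smul_right,
    EuclideanSpace.inner_single_left]

lemma norm_axis4 : ‖axis4‖ = 1 := by simp [axis4]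

lemma norm_axis3 : ‖axis3‖ = 1 := by simp [axis3]

section Rot

variable (J : R2 →ₗᵢ[ℝ] R3) {n : R3}

lemma inner_rot3 (hn : ‖n‖ = 1) (ho : ∀ v, ⟪n, J v⟫ = 0) (v w : R3) :
    ⟪rot3 J n v, rot3 J n w⟫ = ⟪v, w⟫ := by
  have h00 : ⟪J (eb 0), J (eb 0)⟫ = (1 : ℝ) := by
    rw [J.inner_map_map, inner_eb, eb_apply]; simp
  have h11 : ⟪J (eb 1), J (eb 1)⟫ = (1 : ℝ) := by
    rw [J.inner_map_map, inner_eb, eb_apply]; simp
  have h01 : ⟪J (eb 0), J (eb 1)⟫ = (0 : ℝ) := by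
    rw [J.inner_map_map, inner_eb, eb_apply]; simp
  have h10 : ⟪J (eb 1), J (eb 0)⟫ = (0 : ℝ) := by
    rw [J.inner_map_map, inner_eb, eb_apply]; simp
  have hnn : ⟪n, n⟫ = (1 : ℝ) := by rw [real_inner_self_eq_norm_sq, hn, one_pow]
  have hn' : ∀ v, ⟪J v, n⟫ = 0 := fun v => by rw [real_inner_comm]; exact ho v
  simp only [rot3, add_apply, ContinuousLinearMap.smulRight_apply, PiLp.proj_apply,
    inner_add_left, inner_add_right, real_inner_smul_left, real_inner_smul_right, h00, h11, h01,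
    h10, hnn, ho, hn']
  rw [PiLp.inner_apply, Fin.sum_univ_three]
  simp only [RCLike.inner_apply, conj_trivial]
  ring

lemma norm_rot3 (hn : ‖n‖ = 1) (ho : ∀ v, ⟪n, J v⟫ = 0) (v : R3) : ‖rot3 J n v‖ = ‖v‖ := by
  rw [norm_eq_sqrt_real_inner, norm_eq_sqrt_real_inner (x := v), inner_rot3 J hn ho]

lemma rot3_flat3 (z : R2) : rot3 J n (flat3 z) = J z := by
  conv_rhs => rw [sum_eb z]
  simp [rot3, flat3, PiLp.proj_apply, map_add, map_smul, px, py]

lemma rot3_axis3 : rot3 J n axis3 = n := by simp [rot3, axis3, PiLp.proj_apply]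

end Rot

/-! ## The cross product -/

/-- The cross product as a bilinear map. -/
def crossL : R3 →L[ℝ] R3 →L[ℝ] R3 :=
  LinearMap.toContinuousLinearMap
    ((LinearMap.toContinuousLinearMap : (R3 →ₗ[ℝ] R3) ≃ₗ[ℝ] (R3 →L[ℝ] R3)).toLinearMap.comp
      (LinearMap.mk₂ ℝ Sect.cr (fun a b c => by simp [Sect.cr])
        (fun s a b => by simp [Sect.cr]) (fun a b c => by simp [Sect.cr])
        (fun s a b => by simp [Sect.cr])))

lemma crossL_apply (a b : R3) : crossL a b = Sect.cr a b := rfl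

lemma norm_cross_sq (a b : R3) : ‖Sect.cr a b‖ ^ 2 = ‖a‖ ^ 2 * ‖b‖ ^ 2 - ⟪a, b⟫ ^ 2 := by
  simp [Sect.cr, EuclideanSpace.real_norm_sq_eq, PiLp.inner_apply, Fin.sum_univ_three, cross_apply]
  ring

lemma norm_cross_le (a b : R3) : ‖Sect.cr a b‖ ≤ ‖a‖ * ‖b‖ := by
  refine (pow_le_pow_iff_left₀ (norm_nonneg _) (by positivity) two_ne_zero).1 ?_
  rw [norm_cross_sq, mul_pow]
  linarith [sq_nonneg ⟪a, b⟫]

lemma cross_flat (μ : ℝ) :
    Sect.cr (μ • flat3 (eb 0)) (μ • flat3 (eb 1)) = μ ^ 2 • axis3 := by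
  ext i
  fin_cases i <;> simp [Sect.cr, flat3, axis3, px, py, eb, cross_apply, sq]

/-- An immersion with lower bound `1/C` has a normal of size at least `1/C²`. -/
lemma norm_cross_ge {C : ℝ} (hC : 0 < C) (L : R2 →L[ℝ] R3) (h : ∀ v, ‖v‖ ≤ C * ‖L v‖) :
    1 ≤ C ^ 2 * ‖Sect.cr (L (eb 0)) (L (eb 1))‖ := by
  set a := L (eb 0)
  set b := L (eb 1)
  have key : ∀ v : R2, ‖v‖ ^ 2 ≤ C ^ 2 * ‖L v‖ ^ 2 := fun v => by
    rw [← mul_pow]; exact pow_le_pow_left₀ (norm_nonneg v) (h v) 2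
  have hb : 1 ≤ C ^ 2 * ‖b‖ ^ 2 := by
    have := key (eb 1)
    simpa [b, eb] using this
  have hb0 : 0 < ‖b‖ ^ 2 := by
    rcases (sq_nonneg ‖b‖).eq_or_lt with h0 | h0
    · rw [← h0] at hb; linarith
    · exact h0
  set t := ⟪a, b⟫ / ‖b‖ ^ 2 with ht
  have hv : 1 ≤ C ^ 2 * ‖a - t • b‖ ^ 2 := by
    have := key (eb 0 - t • eb 1)
    rw [map_sub, map_smul, norm_sq_eq] at this
    refine le_trans ?_ this
    simp [px, py, eb, sq_nonneg]
  have e : ‖Sect.cr a b‖ ^ 2 = ‖b‖ ^ 2 * ‖a - t • b‖ ^ 2 := by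
    rw [norm_cross_sq, norm_sub_sq_real, real_inner_smul_right, norm_smul, mul_pow, Real.norm_eq_abs,
      sq_abs, ht]
    have hne : ‖b‖ ≠ 0 := fun h0 => by simp [h0] at hb0
    field_simp
    ring
  refine (pow_le_pow_iff_left₀ zero_le_one (by positivity) two_ne_zero).1 ?_
  rw [one_pow, mul_pow, e]
  calc (1 : ℝ) ≤ (C ^ 2 * ‖b‖ ^ 2) * (C ^ 2 * ‖a - t • b‖ ^ 2) := one_le_mul_of_one_le_of_one_le hb hv
    _ = _ := by ring

/-- The unit vector of a nonzero vector. -/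
def unit3 (w : R3) : R3 := ‖w‖⁻¹ • w

lemma norm_unit3 {w : R3} (hw : w ≠ 0) : ‖unit3 w‖ = 1 := norm_smul_inv_norm (𝕜 := ℝ) hw

lemma contDiffOn_unit3 : ContDiffOn ℝ ∞ unit3 {w | w ≠ 0} := fun w hw =>
  ((((contDiffAt_id (𝕜 := ℝ)).norm ℝ hw).inv (norm_ne_zero_iff.2 hw)).smul
    contDiffAt_id).contDiffWithinAt

lemma unit3_smul_axis {c : ℝ} (hc : 0 < c) : unit3 (c • axis3) = axis3 := by
  rw [unit3, norm_smul, norm_axis3, mul_one, Real.norm_of_nonneg hc.le, smul_smul,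
    inv_mul_cancel₀ hc.ne', one_smul]

/-! ## Iterated derivatives -/

/-- Partial derivatives inherit bounds one order up. -/
lemma norm_iteratedFDeriv_partial {E : Type*} [NormedAddCommGroup E] [NormedSpace ℝ E]
    {F : R2 → E} (hF : ContDiff ℝ ∞ F) (v : R2) (k : ℕ) (z : R2) :
    ‖iteratedFDeriv ℝ k (fun a => fderiv ℝ F a v) z‖ ≤
      ‖v‖ * ‖iteratedFDeriv ℝ (k + 1) F z‖ := by
  have hd : ContDiff ℝ ∞ (fderiv ℝ F) := hF.fderiv_right (m := ∞) le_rfl
  have h := (ContinuousLinearMap.apply ℝ E v).norm_iteratedFDeriv_comp_left (n := k)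
    hd.contDiffAt (x := z) (by exact_mod_cast le_top)
  refine (le_of_eq (by rfl)).trans (h.trans ?_)
  rw [norm_iteratedFDeriv_fderiv]
  refine mul_le_mul_of_nonneg_right ?_ (norm_nonneg _)
  exact ContinuousLinearMap.opNorm_le_bound _ (norm_nonneg v) fun L => by
    rw [mul_comm]; exact L.le_opNorm v

/-- Bounds of the radial cutoff. -/
lemma exists_cutR_iterated :
    ∃ C : ℕ → ℝ, ∀ (r : ℝ), 0 < r → ∀ (k : ℕ) (z : R2),
      ‖iteratedFDeriv ℝ k (cutR r) z‖ ≤ C k * r⁻¹ ^ k := by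
  have hsupp : HasCompactSupport cut1 :=
    HasCompactSupport.intro (isCompact_closedBall (0 : R2) 1) fun z hz =>
      cut1_zero (by simp only [mem_closedBall, dist_zero_right, not_le] at hz; exact hz.le)
  have h : ∀ k : ℕ, ∃ C, ∀ z, ‖iteratedFDeriv ℝ k cut1 z‖ ≤ C := fun k =>
    (cut1_smooth.continuous_iteratedFDeriv (by exact_mod_cast le_top)).bounded_above_of_compact_support
      (hsupp.iteratedFDeriv k)
  choose C hC using h
  refine ⟨C, fun r hr k z => ?_⟩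
  set L : R2 →L[ℝ] R2 := r⁻¹ • ContinuousLinearMap.id ℝ R2
  have e : cutR r = cut1 ∘ L := rfl
  have hL : ‖L‖ ≤ r⁻¹ := ContinuousLinearMap.opNorm_le_bound _ (inv_nonneg.2 hr.le) fun v => by
    simp [L, norm_smul, abs_of_pos hr]
  rw [e, L.iteratedFDeriv_comp_right cut1_smooth _ (by exact_mod_cast le_top)]
  refine (ContinuousMultilinearMap.norm_compContinuousLinearMap_le _ _).trans ?_
  rw [Finset.prod_const, Finset.card_univ, Fintype.card_fin]
  exact mul_le_mul (hC k _) (pow_le_pow_left₀ (norm_nonneg _) hL k) (by positivity)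
    ((norm_nonneg _).trans (hC k z))

/-! ## The fixed slack profile -/

/-- The local change of the slack profile. -/
def qloc (r : ℝ) (z : R2) : ℝ := cutR (r / 2) z * (‖z‖ ^ 2 - 1)

lemma qloc_smooth (r : ℝ) : ContDiff ℝ ∞ (qloc r) :=
  (cutR_smooth _).mul ((contDiff_norm_sq ℝ).sub contDiff_const)

lemma qloc_zero {r : ℝ} (hr : 0 < r) {z : R2} (h : r / 2 ≤ ‖z‖) : qloc r z = 0 := by
  simp [qloc, cutR_zero (half_pos hr) h]

lemma qloc_inner {r : ℝ} (hr : 0 < r) {z : R2} (h : ‖z‖ ≤ r / 4) : 1 + qloc r z = ‖z‖ ^ 2 := by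
  rw [qloc, cutR_one (half_pos hr) (by linarith)]; ring

lemma qloc_mem {r : ℝ} (hr : 0 < r) (hr1 : r ≤ 1) (z : R2) (hz : ‖z‖ ≤ r) :
    ‖z‖ ^ 2 ≤ 1 + qloc r z ∧ 1 + qloc r z ≤ 1 := by
  have h0 := cutR_nonneg (r / 2) z
  have h1 := cutR_le_one (r / 2) z
  have h2 : ‖z‖ ^ 2 ≤ 1 := pow_le_one₀ (norm_nonneg z) (hz.trans hr1)
  unfold qloc
  constructor <;> nlinarith

lemma exists_qloc_deriv {r : ℝ} (hr : 0 < r) :
    ∃ C : ℝ, 0 ≤ C ∧ ∀ z, ‖z‖ ≤ r → ‖fderiv ℝ (qloc r) z‖ ≤ C * ‖z‖ := by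
  obtain ⟨B, hB⟩ := (isCompact_closedBall (0 : R2) r).exists_bound_of_continuousOn
    ((qloc_smooth r).continuous_fderiv (by simp)).continuousOn
  refine ⟨2 + 4 * |B| / r, by positivity, fun z hz => ?_⟩
  rcases lt_or_ge ‖z‖ (r / 4) with h | h
  · have he : qloc r =ᶠ[𝓝 z] fun a => ‖a‖ ^ 2 - 1 := by
      filter_upwards [(isOpen_lt continuous_norm continuous_const).mem_nhds h] with a ha
      have ha' : ‖a‖ < r / 4 := ha
      simp [qloc, cutR_one (half_pos hr) (show ‖a‖ ≤ r / 2 / 2 by linarith)]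
    rw [he.fderiv_eq, fderiv_sub_const, fderiv_norm_sq_apply, two_nsmul]
    refine (norm_add_le _ _).trans ?_
    rw [innerSL_apply_norm]
    have : 0 ≤ 4 * |B| / r * ‖z‖ := by positivity
    linarith
  · refine ((hB z (mem_closedBall_zero_iff.2 hz)).trans (le_abs_self B)).trans ?_
    have h1 : |B| ≤ 4 * |B| / r * ‖z‖ := by
      rw [div_mul_eq_mul_div, le_div_iff₀ hr]
      nlinarith [abs_nonneg B]
    have : 0 ≤ 2 * ‖z‖ := by positivity
    linarith

/-! ## Second frame derivatives in coordinates -/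

section

variable {M : Type} [TopologicalSpace M] [ChartedSpace R2 M] [IsManifold (𝓡 2) ∞ M]
variable {E : Type} [NormedAddCommGroup E] [NormedSpace ℝ E]
variable {N : ℕ} {V : Frame M N}
variable {u : OpenPartialHomeomorph R2 M} (hu : ContMDiffOn (𝓡 2) (𝓡 2) ∞ u u.source)
  (hus : ContMDiffOn (𝓡 2) (𝓡 2) ∞ u.symm u.target)

include hu hus in
lemma D_D_param (hV : FrameSmooth V) {f : M → E} {φ : R2 → E} {z : R2} (hz : z ∈ u.source)
    (hf : ContMDiff (𝓡 2) 𝓘(ℝ, E) ∞ f) (hφ : ContDiffAt ℝ ∞ φ z)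
    (h : ∀ᶠ a in 𝓝 z, f (u a) = φ a) (j l : Fin N) :
    D V j (D V l f) (u z) = fderiv ℝ (fderiv ℝ φ) z (cvf V u j z) (cvf V u l z) +
      fderiv ℝ φ z (fderiv ℝ (cvf V u l) z (cvf V u j z)) := by
  have hev : ∀ᶠ a in 𝓝 z, D V l f (u a) = fderiv ℝ φ a (cvf V u l a) := by
    filter_upwards [eventually_eventually_nhds.2 h, u.open_source.mem_nhds hz] with a ha has
    exact D_param_congr hu hus has (hf.mdifferentiableAt (by simp)) ha l
  rw [D_param_congr hu hus hz ((Full.contMDiff_D hV l hf).mdifferentiableAt (by simp)) hev j]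
  have h1 : HasFDerivAt (fderiv ℝ φ) (fderiv ℝ (fderiv ℝ φ) z) z :=
    ((hφ.fderiv_right (m := 1) (WithTop.coe_le_coe.2 le_top)).differentiableAt
      one_ne_zero).hasFDerivAt
  have h2 : HasFDerivAt (cvf V u l) (fderiv ℝ (cvf V u l) z) z :=
    (((contDiffOn_cvf hu hus hV l).contDiffAt (u.open_source.mem_nhds hz)).differentiableAt
      (by simp)).hasFDerivAt
  rw [(h1.clm_apply h2).fderiv]
  simp [add_comm]

include hu hus in
/-- Uniform bounds of frame derivatives by coordinate derivatives on a compact set. -/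
lemma exists_D_param_bounds (hV : FrameSmooth V) {K : Set R2} (hK : IsCompact K)
    (hKs : K ⊆ u.source) :
    ∃ C : ℝ, 1 ≤ C ∧ ∀ z ∈ K, (∀ i, ‖cvf V u i z‖ ≤ C) ∧ (∀ i, ‖fderiv ℝ (cvf V u i) z‖ ≤ C) ∧
      ∀ (f : M → E) (φ : R2 → E), ContMDiff (𝓡 2) 𝓘(ℝ, E) ∞ f → ContDiffAt ℝ ∞ φ z →
        (∀ᶠ a in 𝓝 z, f (u a) = φ a) →
        (∀ j, ‖D V j f (u z)‖ ≤ C * ‖fderiv ℝ φ z‖) ∧
        ∀ j l, ‖D V j (D V l f) (u z)‖ ≤
          C * (‖fderiv ℝ (fderiv ℝ φ) z‖ + ‖fderiv ℝ φ z‖) := by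
  choose b hb using fun i => hK.exists_bound_of_continuousOn
    ((contDiffOn_cvf (V := V) hu hus hV i).continuousOn.mono hKs)
  choose d hd using fun i => hK.exists_bound_of_continuousOn
    (((contDiffOn_cvf (V := V) hu hus hV i).continuousOn_fderiv_of_isOpen u.open_source
      (by simp)).mono hKs)
  set c := 1 + ∑ i, (|b i| + |d i|) with hc
  have hc1 : 1 ≤ c := le_add_of_nonneg_right (Finset.sum_nonneg fun i _ => by positivity)
  have hbc : ∀ i, |b i| + |d i| ≤ c := fun i =>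
    (Finset.single_le_sum (f := fun i => |b i| + |d i|) (fun j _ => by positivity)
      (Finset.mem_univ i)).trans (le_add_of_nonneg_left zero_le_one)
  have hcb : ∀ i, ∀ z ∈ K, ‖cvf V u i z‖ ≤ c := fun i z hz =>
    (hb i z hz).trans (by linarith [le_abs_self (b i), abs_nonneg (d i), hbc i])
  have hcd : ∀ i, ∀ z ∈ K, ‖fderiv ℝ (cvf V u i) z‖ ≤ c := fun i z hz =>
    (hd i z hz).trans (by linarith [le_abs_self (d i), abs_nonneg (b i), hbc i])
  have hcc : c ≤ c ^ 2 := by nlinarith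
  refine ⟨c ^ 2, hc1.trans hcc, fun z hz => ⟨fun i => (hcb i z hz).trans hcc,
    fun i => (hcd i z hz).trans hcc, fun f φ hf hφ h => ⟨fun j => ?_, fun j l => ?_⟩⟩⟩
  · rw [D_param_congr hu hus (hKs hz) (hf.mdifferentiableAt (by simp)) h j, mul_comm]
    exact ((fderiv ℝ φ z).le_opNorm _).trans
      (mul_le_mul_of_nonneg_left ((hcb j z hz).trans hcc) (norm_nonneg _))
  · rw [D_D_param hu hus hV (hKs hz) hf hφ h j l]
    refine (norm_add_le _ _).trans ?_
    have e1 : ‖fderiv ℝ (fderiv ℝ φ) z (cvf V u j z) (cvf V u l z)‖ ≤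
        ‖fderiv ℝ (fderiv ℝ φ) z‖ * c * c :=
      ((fderiv ℝ (fderiv ℝ φ) z).le_opNorm₂ _ _).trans (by gcongr <;> exact hcb _ z hz)
    have e2 : ‖fderiv ℝ φ z (fderiv ℝ (cvf V u l) z (cvf V u j z))‖ ≤
        ‖fderiv ℝ φ z‖ * (c * c) :=
      ((fderiv ℝ φ z).le_opNorm _).trans (mul_le_mul_of_nonneg_left
        (((fderiv ℝ (cvf V u l) z).le_opNorm _).trans
          (mul_le_mul (hcd l z hz) (hcb j z hz) (norm_nonneg _) (by linarith))) (norm_nonneg _))
    linarith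

end

end Vale.Agent.P205.Full.Start
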