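import Vale.Agent.P205.Full.Start.TransferPolyOn

/-!
# P205 full, START: calculus of the monomial bounds `PolyBd`

All constants are independent of `η`, of the surface and of the functions.
-/

open scoped Manifold ContDiff RealInnerProductSpace Topology
open Bundle Filter Set

set_option linter.unusedSectionVars false

namespace Vale.Agent.P205.Full.Start

section

variable {M : Type} [TopologicalSpace M] [ChartedSpace R2 M] [IsManifold (𝓡 2) ∞ M]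
variable {E F G : Type} [NormedAddCommGroup E] [NormedSpace ℝ E]
  [NormedAddCommGroup F] [NormedSpace ℝ F] [NormedAddCommGroup G] [NormedSpace ℝ G]
variable {N : ℕ} {V : Frame M N} {η : ℝ} {a a₁ a₂ : ℕ} {C C₁ C₂ : ℕ → ℝ} {f g : M → E}

theorem PolyBd.sup_le (h : PolyBd V η a C f) (x : M) : ‖f x‖ ≤ C 0 * η⁻¹ ^ a := by
  have h' := h [] x
  simpa only [List.length_nil, Nat.zero_add, mul_one, DW_nil] using h'

theorem PolyBd.mono (h : PolyBd V η a₁ C₁ f) (h0 : 0 < η) (h1 : η ≤ 1) (ha : a₁ ≤ a₂)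
    (hC : ∀ n, C₁ n ≤ C₂ n) (hC₂ : ∀ n, 0 ≤ C₂ n) : PolyBd V η a₂ C₂ f := fun w x =>
  (h w x).trans <| (mul_le_mul_of_nonneg_right (hC _) (by positivity)).trans <|
    mul_le_mul_of_nonneg_left
      (pow_le_pow_right₀ (one_le_inv_eta h0 h1) (Nat.mul_le_mul_right _ ha)) (hC₂ _)

theorem PolyBd.mono_exp (h : PolyBd V η a₁ C f) (h0 : 0 < η) (h1 : η ≤ 1) (ha : a₁ ≤ a₂) :
    PolyBd V η a₂ (fun n => |C n|) f :=
  h.mono h0 h1 ha (fun n => le_abs_self (C n)) fun n => abs_nonneg (C n)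

theorem PolyBd.bd (h : PolyBd V η a C f) (h0 : 0 < η) (h1 : η ≤ 1) (n : ℕ) :
    Bd V n (csum C n) (fun _ => η⁻¹ ^ (a * (n + 1))) f := fun w hw x _ =>
  (h w x).trans <| mul_le_mul (le_csum C hw)
    (pow_le_pow_right₀ (one_le_inv_eta h0 h1) (Nat.mul_le_mul_left a (by omega))) (by positivity)
    (csum_nonneg C n)

theorem polyBd_of_bd (h : ∀ n, Bd V n (C n) (fun _ => η⁻¹ ^ (a * (n + 1))) f) :
    PolyBd V η a C f :=
  fun w x => h w.length w le_rfl x (mem_univ x)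

theorem PolyBd.congr (h : PolyBd V η a C f) (hfg : f = g) : PolyBd V η a C g := hfg ▸ h

/-- A bound may be checked with locally equal functions. -/
theorem polyBd_of_local (h : ∀ x, ∃ g : M → E, f =ᶠ[𝓝 x] g ∧
    ∀ w : List (Fin N), ‖DW V w g x‖ ≤ C w.length * η⁻¹ ^ (a * (w.length + 1))) :
    PolyBd V η a C f := fun w x => by
  obtain ⟨g, hg, hb⟩ := h x
  rw [DW_congr hg w]
  exact hb w

theorem polyBd_of_tsupport (h0 : 0 < η) (hC : ∀ n, 0 ≤ C n)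
    (h : ∀ (w : List (Fin N)), ∀ x ∈ tsupport f,
      ‖DW V w f x‖ ≤ C w.length * η⁻¹ ^ (a * (w.length + 1))) :
    PolyBd V η a C f := fun w x => by
  by_cases hx : x ∈ tsupport f
  · exact h w x hx
  · rw [DW_eq_zero_of_notMem_tsupport w hx, norm_zero]
    exact mul_nonneg (hC _) (by positivity)

theorem polyBd_const (h0 : 0 < η) (h1 : η ≤ 1) (c : E) (a : ℕ) :
    PolyBd V η a (fun _ => ‖c‖) (fun _ : M => c) := fun w x => by
  have h := bdOn_const_one (V := V) (s := (univ : Set M)) (K := w.length) c w le_rfl x (mem_univ x)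
  rw [mul_one] at h
  exact h.trans (le_mul_of_one_le_right (norm_nonneg c) (one_le_pow₀ (one_le_inv_eta h0 h1)))

/-- Functions not depending on `η` have exponent zero. -/
theorem exists_polyBd_of_contMDiff [CompactSpace M] (hV : FrameSmooth V)
    (hf : ContMDiff (𝓡 2) 𝓘(ℝ, E) ∞ f) :
    ∃ C : ℕ → ℝ, (∀ n, 0 ≤ C n) ∧ ∀ η : ℝ, PolyBd V η 0 C f := by
  choose C hC0 hC using fun n => exists_bd_of_contMDiff hV n hf
  refine ⟨C, hC0, fun η => polyBd_of_bd fun n => ?_⟩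
  simpa only [Nat.zero_mul, pow_zero] using hC n

theorem PolyBd.add (hV : FrameSmooth V) (hf : ContMDiff (𝓡 2) 𝓘(ℝ, E) ∞ f)
    (hg : ContMDiff (𝓡 2) 𝓘(ℝ, E) ∞ g) (h₁ : PolyBd V η a C₁ f) (h₂ : PolyBd V η a C₂ g) :
    PolyBd V η a (fun n => C₁ n + C₂ n) (fun y => f y + g y) := fun w x => by
  rw [DW_add hV w (hf x) (hg x), add_mul]
  exact norm_add_le_of_le (h₁ w x) (h₂ w x)

theorem PolyBd.sub (hV : FrameSmooth V) (hf : ContMDiff (𝓡 2) 𝓘(ℝ, E) ∞ f)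
    (hg : ContMDiff (𝓡 2) 𝓘(ℝ, E) ∞ g) (h₁ : PolyBd V η a C₁ f) (h₂ : PolyBd V η a C₂ g) :
    PolyBd V η a (fun n => C₁ n + C₂ n) (fun y => f y - g y) := fun w x => by
  rw [DW_sub hV w (hf x) (hg x), add_mul]
  exact (norm_sub_le _ _).trans (add_le_add (h₁ w x) (h₂ w x))

theorem PolyBd.neg (hV : FrameSmooth V) (hf : ContMDiff (𝓡 2) 𝓘(ℝ, E) ∞ f)
    (h : PolyBd V η a C f) : PolyBd V η a C (fun y => -f y) := fun w x => by
  rw [DW_neg hV w (hf x), norm_neg]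
  exact h w x

theorem PolyBd.sum (hV : FrameSmooth V) {ι : Type*} (t : Finset ι) {u : ι → M → E}
    {c : ι → ℕ → ℝ} (hu : ∀ k ∈ t, ContMDiff (𝓡 2) 𝓘(ℝ, E) ∞ (u k))
    (h : ∀ k ∈ t, PolyBd V η a (c k) (u k)) :
    PolyBd V η a (fun n => ∑ k ∈ t, c k n) (fun y => ∑ k ∈ t, u k y) := fun w x => by
  rw [DW_sum hV t w (fun k hk => hu k hk x), Finset.sum_mul]
  exact (norm_sum_le _ _).trans (Finset.sum_le_sum fun k hk => h k hk w x)

theorem PolyBd.clm (hV : FrameSmooth V) (T : E →L[ℝ] F) (hf : ContMDiff (𝓡 2) 𝓘(ℝ, E) ∞ f)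
    (h : PolyBd V η a C f) : PolyBd V η a (fun n => ‖T‖ * C n) (fun y => T (f y)) :=
  fun w x => by
    rw [DW_clm hV T w (hf x), mul_assoc]
    exact (T.le_opNorm _).trans (mul_le_mul_of_nonneg_left (h w x) (norm_nonneg T))

/-- Multiplication by a number bounded by a monomial. -/
theorem PolyBd.const_smul (hV : FrameSmooth V) (h0 : 0 < η) (h1 : η ≤ 1) {c c₀ : ℝ} {b : ℕ}
    (hc : |c| ≤ c₀ * η⁻¹ ^ b) (hf : ContMDiff (𝓡 2) 𝓘(ℝ, E) ∞ f) (h : PolyBd V η a C f) :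
    PolyBd V η (b + a) (fun n => |c₀| * |C n|) (fun y => c • f y) := fun w x => by
  rw [DW_const_smul hV c w (hf x), norm_smul, Real.norm_eq_abs]
  have hexp : η⁻¹ ^ (b + a * (w.length + 1)) ≤ η⁻¹ ^ ((b + a) * (w.length + 1)) := by
    refine pow_le_pow_right₀ (one_le_inv_eta h0 h1) ?_
    rw [Nat.add_mul]
    exact Nat.add_le_add_right (Nat.le_mul_of_pos_right b (Nat.succ_pos _)) _
  calc |c| * ‖DW V w f x‖
      ≤ (|c₀| * η⁻¹ ^ b) * (|C w.length| * η⁻¹ ^ (a * (w.length + 1))) :=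
        mul_le_mul (hc.trans (mul_le_mul_of_nonneg_right (le_abs_self c₀) (by positivity)))
          ((h w x).trans (mul_le_mul_of_nonneg_right (le_abs_self _) (by positivity)))
          (norm_nonneg _) (by positivity)
    _ = |c₀| * |C w.length| * η⁻¹ ^ (b + a * (w.length + 1)) := by rw [pow_add]; ring
    _ ≤ _ := mul_le_mul_of_nonneg_left hexp (by positivity)

theorem PolyBd.deriv (h : PolyBd V η a C f) (h0 : 0 < η) (h1 : η ≤ 1) (i : Fin N) :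
    PolyBd V η (2 * a) (fun n => |C (n + 1)|) (D V i f) := fun w x => by
  have h' := h (w ++ [i]) x
  rw [DW_snoc, List.length_append, List.length_singleton] at h'
  refine h'.trans (mul_le_mul (le_abs_self _) ?_ (by positivity) (abs_nonneg _))
  refine pow_le_pow_right₀ (one_le_inv_eta h0 h1) ?_
  calc a * (w.length + 1 + 1) ≤ a * (2 * (w.length + 1)) := Nat.mul_le_mul_left a (by omega)
    _ = 2 * a * (w.length + 1) := by ring

theorem PolyBd.prodMk (hV : FrameSmooth V) {g : M → F} (hf : ContMDiff (𝓡 2) 𝓘(ℝ, E) ∞ f)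
    (hg : ContMDiff (𝓡 2) 𝓘(ℝ, F) ∞ g) (h0 : 0 < η)
    (h₁ : PolyBd V η a C₁ f) (h₂ : PolyBd V η a C₂ g) :
    PolyBd V η a (fun n => max (C₁ n) (C₂ n)) (fun y => (f y, g y)) := fun w x => by
  have hp := (hf x).prodMk_space (hg x)
  have e1 : DW V w f x = (DW V w (fun y => (f y, g y)) x).1 :=
    DW_clm hV (ContinuousLinearMap.fst ℝ E F) w hp
  have e2 : DW V w g x = (DW V w (fun y => (f y, g y)) x).2 :=
    DW_clm hV (ContinuousLinearMap.snd ℝ E F) w hp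
  rw [Prod.norm_def, ← e1, ← e2]
  exact max_le ((h₁ w x).trans (mul_le_mul_of_nonneg_right (le_max_left _ _) (by positivity)))
    ((h₂ w x).trans (mul_le_mul_of_nonneg_right (le_max_right _ _) (by positivity)))

/-- Products: exponents add. -/
theorem PolyBd.bilin (hV : FrameSmooth V) (h0 : 0 < η) (h1 : η ≤ 1) (T : E →L[ℝ] F →L[ℝ] G)
    {b : ℝ} (hT : ∀ u v, ‖T u v‖ ≤ b * ‖u‖ * ‖v‖) (hb : 0 ≤ b) {f : M → E} {g : M → F}
    (hf : ContMDiff (𝓡 2) 𝓘(ℝ, E) ∞ f) (hg : ContMDiff (𝓡 2) 𝓘(ℝ, F) ∞ g)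
    (h₁ : PolyBd V η a₁ C₁ f) (h₂ : PolyBd V η a₂ C₂ g) :
    PolyBd V η (a₁ + a₂) (fun n => 2 ^ n * b * csum C₁ n * csum C₂ n)
      (fun y => T (f y) (g y)) :=
  polyBd_of_bd fun n => by
    have h := BdOn.bilin hV T hT hb (fun x _ => hf x) (fun x _ => hg x) (h₁.bd h0 h1 n)
      (h₂.bd h0 h1 n)
    refine h.mono_bound fun x _ => le_of_eq ?_
    rw [Nat.add_mul, pow_add]

theorem PolyBd.smul (hV : FrameSmooth V) (h0 : 0 < η) (h1 : η ≤ 1) {c : M → ℝ}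
    (hc : ContMDiff (𝓡 2) 𝓘(ℝ, ℝ) ∞ c) (hf : ContMDiff (𝓡 2) 𝓘(ℝ, E) ∞ f)
    (h₁ : PolyBd V η a₁ C₁ c) (h₂ : PolyBd V η a₂ C₂ f) :
    PolyBd V η (a₁ + a₂) (fun n => 2 ^ n * 1 * csum C₁ n * csum C₂ n) (fun y => c y • f y) :=
  PolyBd.bilin hV h0 h1 (ContinuousLinearMap.lsmul ℝ ℝ : ℝ →L[ℝ] E →L[ℝ] E)
    (fun u v => by rw [ContinuousLinearMap.lsmul_apply, norm_smul, one_mul]) zero_le_one
    hc hf h₁ h₂

theorem PolyBd.mul (hV : FrameSmooth V) (h0 : 0 < η) (h1 : η ≤ 1) {c d : M → ℝ}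
    (hc : ContMDiff (𝓡 2) 𝓘(ℝ, ℝ) ∞ c) (hd : ContMDiff (𝓡 2) 𝓘(ℝ, ℝ) ∞ d)
    (h₁ : PolyBd V η a₁ C₁ c) (h₂ : PolyBd V η a₂ C₂ d) :
    PolyBd V η (a₁ + a₂) (fun n => 2 ^ n * 1 * csum C₁ n * csum C₂ n) (fun y => c y * d y) :=
  PolyBd.smul hV h0 h1 hc hd h₁ h₂

theorem PolyBd.inner {H : Type} [NormedAddCommGroup H] [InnerProductSpace ℝ H]
    (hV : FrameSmooth V) (h0 : 0 < η) (h1 : η ≤ 1) {u v : M → H}
    (hu : ContMDiff (𝓡 2) 𝓘(ℝ, H) ∞ u) (hv : ContMDiff (𝓡 2) 𝓘(ℝ, H) ∞ v)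
    (h₁ : PolyBd V η a₁ C₁ u) (h₂ : PolyBd V η a₂ C₂ v) :
    PolyBd V η (a₁ + a₂) (fun n => 2 ^ n * 1 * csum C₁ n * csum C₂ n) (fun y => ⟪u y, v y⟫) :=
  PolyBd.bilin hV h0 h1 (innerSL ℝ : H →L[ℝ] H →L[ℝ] ℝ)
    (fun p q => by
      rw [one_mul]
      exact (Real.norm_eq_abs _).trans_le (abs_real_inner_le_norm p q))
    zero_le_one hu hv h₁ h₂

end

/-! ## Composition -/

/-- Composition with a map whose derivatives are bounded at the values of the inner map. -/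
theorem exists_polyBd_comp (N a : ℕ) (C Cφ : ℕ → ℝ) : ∃ C' : ℕ → ℝ, (∀ n, 0 ≤ C' n) ∧
    ∀ {E E' : Type} [NormedAddCommGroup E] [NormedSpace ℝ E] [NormedAddCommGroup E']
      [NormedSpace ℝ E'] (φ : E → E') (M : Type) [TopologicalSpace M] [ChartedSpace R2 M]
      [IsManifold (𝓡 2) ∞ M] (V : Frame M N) (η : ℝ) (f : M → E), FrameSmooth V → 0 < η → η ≤ 1 →
      ContMDiff (𝓡 2) 𝓘(ℝ, E) ∞ f → (∀ x, ContDiffAt ℝ ∞ φ (f x)) →
      (∀ k x, ‖iteratedFDeriv ℝ k φ (f x)‖ ≤ Cφ k) →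
      PolyBd V η a C f → PolyBd V η (2 * a) C' (fun y => φ (f y)) := by
  obtain ⟨C', hC0, hC⟩ := exists_polyBdOn_comp N a C Cφ
  exact ⟨C', hC0, fun {E E'} _ _ _ _ φ M _ _ _ V η f hV h0 h1 hf hφ hb h => polyBdOn_univ.1
    (hC φ M V η univ f hV h0 h1 (fun x _ => hf x) (fun x _ => hφ x) (fun k x _ => hb k x)
      (h.polyBdOn univ))⟩

/-- Composition with a map smooth near a compact set of values. -/
theorem exists_polyBd_comp_compact (N a : ℕ) (C : ℕ → ℝ) {E E' : Type} [NormedAddCommGroup E]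
    [NormedSpace ℝ E] [NormedAddCommGroup E'] [NormedSpace ℝ E'] {φ : E → E'} {U S : Set E}
    (hU : IsOpen U) (hφ : ContDiffOn ℝ ∞ φ U) (hS : IsCompact S) (hSU : S ⊆ U) :
    ∃ C' : ℕ → ℝ, (∀ n, 0 ≤ C' n) ∧
      ∀ (M : Type) [TopologicalSpace M] [ChartedSpace R2 M] [IsManifold (𝓡 2) ∞ M]
        (V : Frame M N) (η : ℝ) (f : M → E), FrameSmooth V → 0 < η → η ≤ 1 →
        ContMDiff (𝓡 2) 𝓘(ℝ, E) ∞ f → (∀ x, f x ∈ S) → PolyBd V η a C f →
        PolyBd V η (2 * a) C' (fun y => φ (f y)) := by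
  have h : ∀ k : ℕ, ∃ c, ∀ y ∈ S, ‖iteratedFDeriv ℝ k φ y‖ ≤ c := fun k => by
    refine hS.exists_bound_of_continuousOn ?_
    exact ((hφ.continuousOn_iteratedFDerivWithin (by exact_mod_cast le_top) hU.uniqueDiffOn).congr
      fun y hy => (iteratedFDerivWithin_of_isOpen k hU hy).symm).mono hSU
  choose c hc using h
  obtain ⟨C', hC0, hC⟩ := exists_polyBd_comp N a C c
  exact ⟨C', hC0, fun M _ _ _ V η f hV h0 h1 hf hfS h => hC φ M V η f hV h0 h1 hf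
    (fun x => hφ.contDiffAt (hU.mem_nhds (hSU (hfS x)))) (fun k x => hc k _ (hfS x)) h⟩

/-- Composition with a map smooth on the whole space, at values in a fixed ball. -/
theorem exists_polyBd_comp_ball (N a : ℕ) (C : ℕ → ℝ) (R : ℝ) {E E' : Type}
    [NormedAddCommGroup E] [NormedSpace ℝ E] [ProperSpace E] [NormedAddCommGroup E']
    [NormedSpace ℝ E'] {φ : E → E'} (hφ : ContDiff ℝ ∞ φ) :
    ∃ C' : ℕ → ℝ, (∀ n, 0 ≤ C' n) ∧
      ∀ (M : Type) [TopologicalSpace M] [ChartedSpace R2 M] [IsManifold (𝓡 2) ∞ M]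
        (V : Frame M N) (η : ℝ) (f : M → E), FrameSmooth V → 0 < η → η ≤ 1 →
        ContMDiff (𝓡 2) 𝓘(ℝ, E) ∞ f → (∀ x, ‖f x‖ ≤ R) → PolyBd V η a C f →
        PolyBd V η (2 * a) C' (fun y => φ (f y)) := by
  obtain ⟨C', hC0, hC⟩ := exists_polyBd_comp_compact N a C isOpen_univ hφ.contDiffOn
    (isCompact_closedBall (0 : E) R) (subset_univ _)
  exact ⟨C', hC0, fun M _ _ _ V η f hV h0 h1 hf hR h => hC M V η f hV h0 h1 hf
    (fun x => mem_closedBall_zero_iff.2 (hR x)) h⟩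

/-- Cosine and sine of an arbitrary phase. -/
theorem exists_polyBd_cos_sin (N a : ℕ) (C : ℕ → ℝ) : ∃ C' : ℕ → ℝ, (∀ n, 0 ≤ C' n) ∧
    ∀ (M : Type) [TopologicalSpace M] [ChartedSpace R2 M] [IsManifold (𝓡 2) ∞ M]
      (V : Frame M N) (η : ℝ) (f : M → ℝ), FrameSmooth V → 0 < η → η ≤ 1 →
      ContMDiff (𝓡 2) 𝓘(ℝ, ℝ) ∞ f → PolyBd V η a C f →
      PolyBd V η (2 * a) C' (fun y => Real.cos (f y)) ∧
        PolyBd V η (2 * a) C' (fun y => Real.sin (f y)) := by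
  obtain ⟨C', hC0, hC⟩ := exists_polyBd_comp N a C fun _ => 1
  refine ⟨C', hC0, fun M _ _ _ V η f hV h0 h1 hf h => ⟨?_, ?_⟩⟩
  · exact hC Real.cos M V η f hV h0 h1 hf (fun x => Real.contDiff_cos.contDiffAt) (fun k x => by
      rw [norm_iteratedFDeriv_eq_norm_iteratedDeriv, Real.norm_eq_abs]
      exact Real.abs_iteratedDeriv_cos_le_one k _) h
  · exact hC Real.sin M V η f hV h0 h1 hf (fun x => Real.contDiff_sin.contDiffAt) (fun k x => by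
      rw [norm_iteratedFDeriv_eq_norm_iteratedDeriv, Real.norm_eq_abs]
      exact Real.abs_iteratedDeriv_sin_le_one k _) h

/-- Real powers of a function bounded below by a monomial. -/
theorem exists_polyBd_rpow (N a b : ℕ) (C : ℕ → ℝ) (r : ℝ) : ∃ C' : ℕ → ℝ, (∀ n, 0 ≤ C' n) ∧
    ∀ (M : Type) [TopologicalSpace M] [ChartedSpace R2 M] [IsManifold (𝓡 2) ∞ M]
      (V : Frame M N) (η : ℝ) (f : M → ℝ), FrameSmooth V → 0 < η → η ≤ 1 →
      ContMDiff (𝓡 2) 𝓘(ℝ, ℝ) ∞ f → (∀ x, η ^ b ≤ f x) → PolyBd V η a C f →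
      PolyBd V η ((a + b) * (2 + ⌈|r|⌉₊)) C' (fun y => f y ^ r) := by
  obtain ⟨C', hC0, hC⟩ := exists_polyBdOn_rpow N a b C r
  exact ⟨C', hC0, fun M _ _ _ V η f hV h0 h1 hf hlow h => polyBdOn_univ.1
    (hC M V η univ f hV h0 h1 (fun x _ => hf x) (fun x _ => hlow x) (h.polyBdOn univ))⟩

/-- The inverse of a function bounded below by a monomial. -/
theorem exists_polyBd_inv (N a b : ℕ) (C : ℕ → ℝ) : ∃ C' : ℕ → ℝ, (∀ n, 0 ≤ C' n) ∧
    ∀ (M : Type) [TopologicalSpace M] [ChartedSpace R2 M] [IsManifold (𝓡 2) ∞ M]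
      (V : Frame M N) (η : ℝ) (f : M → ℝ), FrameSmooth V → 0 < η → η ≤ 1 →
      ContMDiff (𝓡 2) 𝓘(ℝ, ℝ) ∞ f → (∀ x, η ^ b ≤ f x) → PolyBd V η a C f →
      PolyBd V η ((a + b) * 3) C' (fun y => (f y)⁻¹) := by
  obtain ⟨C', hC0, hC⟩ := exists_polyBd_rpow N a b C (-1)
  refine ⟨C', hC0, fun M _ _ _ V η f hV h0 h1 hf hlow h => ?_⟩
  have h' := hC M V η f hV h0 h1 hf hlow h
  simp only [abs_neg, abs_one, Nat.ceil_one] at h'
  simpa only [Real.rpow_neg_one] using h'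

/-- The square root of a function bounded below by a monomial. -/
theorem exists_polyBd_sqrt (N a b : ℕ) (C : ℕ → ℝ) : ∃ C' : ℕ → ℝ, (∀ n, 0 ≤ C' n) ∧
    ∀ (M : Type) [TopologicalSpace M] [ChartedSpace R2 M] [IsManifold (𝓡 2) ∞ M]
      (V : Frame M N) (η : ℝ) (f : M → ℝ), FrameSmooth V → 0 < η → η ≤ 1 →
      ContMDiff (𝓡 2) 𝓘(ℝ, ℝ) ∞ f → (∀ x, η ^ b ≤ f x) → PolyBd V η a C f →
      PolyBd V η ((a + b) * 3) C' (fun y => Real.sqrt (f y)) := by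
  obtain ⟨C', hC0, hC⟩ := exists_polyBd_rpow N a b C (1 / 2)
  refine ⟨C', hC0, fun M _ _ _ V η f hV h0 h1 hf hlow h => ?_⟩
  have h' := hC M V η f hV h0 h1 hf hlow h
  have e : ⌈|(1 / 2 : ℝ)|⌉₊ = 1 := by norm_num [Nat.ceil_eq_iff]
  simp only [e] at h'
  simpa only [Real.sqrt_eq_rpow] using h'

end Vale.Agent.P205.Full.Start
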