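import Vale.Agent.P205.Full.Start.AssembleSetup
import Vale.Agent.P205.Full.Start.TransferPoly
import Vale.Agent.P205.Full.Start.FrameBounds
import Vale.Agent.P205.Full.Stage.Calculus

/-!
# P205 full, START: uniform bounds of the base map, its normal and its residual

All constants depend only on the setup and on the constants of the local maps, not on `η`.
-/

open scoped Manifold ContDiff RealInnerProductSpace Topology
open Bundle Filter Set Metric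

noncomputable section

namespace Vale.Agent.P205.Full.Start

namespace Setup

variable {M : Type} [TopologicalSpace M] [ChartedSpace R2 M] [IsManifold (𝓡 2) ∞ M]
variable {g : Full.Metric M} (σ : Setup g)
variable {N : ℕ} {V : Frame M N}

/-- The differential of `G` at a flat point is a similarity. -/
lemma dG_param (q : σ.Idx) {z : R2} (hz : z ∈ (σ.U q).source) (w : R2) :
    (mfderiv (𝓡 2) 𝓘(ℝ, R3) σ.G (σ.U q z) (mfderiv (𝓡 2) (𝓡 2) (σ.U q) z w) : R3) =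
      (σ.pt q).μ • (σ.pt q).J w := by
  have hc := mfderiv_comp z (σ.imm.1.mdifferentiableAt (by simp) (x := σ.U q z))
    (mdiffAt_param (σ.smooth_U q) hz)
  rw [mfderiv_eq_fderiv] at hc
  refine (DFunLike.congr_fun hc w).symm.trans ?_
  have he : (σ.G ∘ σ.U q) =ᶠ[𝓝 z]
      fun a => σ.G q.1 + ((σ.pt q).μ • (σ.pt q).J.toContinuousLinearMap) a := by
    filter_upwards [(σ.U q).open_source.mem_nhds hz] with a ha
    exact σ.map_G q ha
  rw [he.fderiv_eq, fderiv_const_add, ContinuousLinearMap.fderiv]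
  rfl

variable {σ} in
/-- Constants of a local map bound a nonnegative number. -/
lemma Charts.nonneg {Fl : σ.Idx → R2 → R3} {rad η C₀ : ℝ} {a : ℕ} {C : ℕ → ℝ}
    (h : σ.Charts Fl rad η a C₀ C) (q : σ.Idx) : 0 ≤ C₀ := by
  have h1 := (h q).bd_d 0 (eb 0)
  rw [show ‖eb 0‖ = 1 by simp [eb], mul_one] at h1
  exact (norm_nonneg _).trans h1

variable [T2Space M]

/-- The differential of the base map is comparable with that of `G`. -/
lemma exists_dmapF_compare (a : ℕ) (C₀ : ℝ) (C : ℕ → ℝ) :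
    ∃ K : ℝ, 1 ≤ K ∧ ∀ η rad Fl, 0 < η → 0 < rad → (∀ q, rad * η ^ 8 < σ.rd' q) →
      σ.Charts Fl rad η a C₀ C → ∀ x (v : TangentSpace (𝓡 2) x),
        ‖(mfderiv (𝓡 2) 𝓘(ℝ, R4) (σ.mapF Fl) x v : R4)‖ ≤
          K * ‖(mfderiv (𝓡 2) 𝓘(ℝ, R3) σ.G x v : R3)‖ ∧
        ‖(mfderiv (𝓡 2) 𝓘(ℝ, R3) σ.G x v : R3)‖ ≤
          K * ‖(mfderiv (𝓡 2) 𝓘(ℝ, R4) (σ.mapF Fl) x v : R4)‖ := by
  set T := ∑ q : σ.Idx, |C₀| * ((σ.pt q).μ + (σ.pt q).μ⁻¹) with hT
  have hT0 : ∀ q ∈ (Finset.univ : Finset σ.Idx), 0 ≤ |C₀| * ((σ.pt q).μ + (σ.pt q).μ⁻¹) :=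
    fun q _ => mul_nonneg (abs_nonneg _)
      (add_nonneg (σ.pt q).μ_pos.le (inv_nonneg.2 (σ.pt q).μ_pos.le))
  refine ⟨1 + T, le_add_of_nonneg_right (Finset.sum_nonneg hT0),
    fun η rad Fl hη hr hlt hch x v => ?_⟩
  have hl := hch.loc hr hη hlt
  have hK1 : 1 ≤ 1 + T := le_add_of_nonneg_right (Finset.sum_nonneg hT0)
  rcases σ.cases_point x with hx | ⟨q, z, hz, rfl⟩
  · have e : ‖(mfderiv (𝓡 2) 𝓘(ℝ, R4) (σ.mapF Fl) x v : R4)‖ =
        ‖(mfderiv (𝓡 2) 𝓘(ℝ, R3) σ.G x v : R3)‖ := by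
      have hd := emb34.hasFDerivAt.hasMFDerivAt.comp x
        (σ.imm.1.mdifferentiableAt (by simp) (x := x)).hasMFDerivAt
      rw [(hl.mapF_outer hx).mfderiv_eq, show (fun y => emb34 (σ.G y)) = emb34 ∘ σ.G from rfl,
        hd.mfderiv, norm_tangentSpace_vectorSpace, norm_tangentSpace_vectorSpace]
      exact norm_emb34 _
    rw [e]
    exact ⟨le_mul_of_one_le_left (norm_nonneg _) hK1, le_mul_of_one_le_left (norm_nonneg _) hK1⟩
  · have hzr : ‖z‖ < σ.rd q := lt_of_le_of_lt hz (σ.rd'_lt q)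
    obtain ⟨w', rfl⟩ := mfderiv_param_surj q (σ.mem_source q hzr.le) v
    obtain ⟨w, rfl⟩ : ∃ w : R2, w = w' := ⟨w', rfl⟩
    have hF : ‖(mfderiv (𝓡 2) 𝓘(ℝ, R4) (σ.mapF Fl) (σ.U q z)
        (mfderiv (𝓡 2) (𝓡 2) (σ.U q) z w) : R4)‖ = ‖fderiv ℝ (Fl q) z w‖ :=
      norm_tangentSpace_vectorSpace.trans
        ((congrArg (norm : R4 → ℝ) (hl.dmapF_param hl.contMDiff_mapF q hzr w)).trans
          ((norm_emb34 _).trans (σ.norm_rot q _)))
    have hG : ‖(mfderiv (𝓡 2) 𝓘(ℝ, R3) σ.G (σ.U q z)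
        (mfderiv (𝓡 2) (𝓡 2) (σ.U q) z w) : R3)‖ = (σ.pt q).μ * ‖w‖ := by
      refine norm_tangentSpace_vectorSpace.trans
        ((congrArg (norm : R3 → ℝ) (σ.dG_param q (σ.mem_source q hzr.le) w)).trans ?_)
      rw [norm_smul, Real.norm_of_nonneg (σ.pt q).μ_pos.le]
      exact congrArg _ ((σ.pt q).J.norm_map _)
    have hμ := (σ.pt q).μ_pos
    have hC0 := hch.nonneg q
    have hq : |C₀| * ((σ.pt q).μ + (σ.pt q).μ⁻¹) ≤ 1 + T :=
      (Finset.single_le_sum hT0 (Finset.mem_univ q)).trans (le_add_of_nonneg_left zero_le_one)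
    rw [abs_of_nonneg hC0, mul_add] at hq
    have hp1 : 0 ≤ C₀ * (σ.pt q).μ := mul_nonneg hC0 hμ.le
    have hp2 : 0 ≤ C₀ * (σ.pt q).μ⁻¹ := mul_nonneg hC0 (inv_nonneg.2 hμ.le)
    rw [hF, hG]
    constructor
    · refine ((hch q).bd_d z w).trans ?_
      calc C₀ * ‖w‖ = (C₀ * (σ.pt q).μ⁻¹) * ((σ.pt q).μ * ‖w‖) := by
            field_simp
        _ ≤ _ := mul_le_mul_of_nonneg_right (by linarith) (mul_nonneg hμ.le (norm_nonneg _))
    · refine (mul_le_mul_of_nonneg_left ((hch q).imm z w) hμ.le).trans ?_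
      rw [← mul_assoc, mul_comm (σ.pt q).μ C₀]
      exact mul_le_mul_of_nonneg_right (by linarith) (norm_nonneg _)

variable [CompactSpace M]

omit [T2Space M] in
/-- The metric is bounded by the pull-back of `G`. -/
lemma exists_metric_le (hV : FrameSmooth V) (hs : FrameSpans V) :
    ∃ K : ℝ, 0 ≤ K ∧ ∀ x (v : TangentSpace (𝓡 2) x),
      g.inner x v v ≤ K * ‖(mfderiv (𝓡 2) 𝓘(ℝ, R3) σ.G x v : R3)‖ ^ 2 := by
  let d : (x : M) → R2 →L[ℝ] R3 := fun x => mfderiv (𝓡 2) 𝓘(ℝ, R3) σ.G x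
  let B : (x : M) → TangentSpace (𝓡 2) x →L[ℝ] TangentSpace (𝓡 2) x →L[ℝ] ℝ :=
    fun x => (innerSL ℝ : R3 →L[ℝ] R3 →L[ℝ] ℝ).bilinearComp (d x) (d x)
  obtain ⟨C₁, hC₁, hcoef⟩ := exists_coef_bound (V := V) hs B
    (fun x u v => real_inner_comm (d x v) (d x u))
    (fun x v hv => real_inner_self_pos.2 fun h0 => hv (σ.imm.2 x (h0.trans (map_zero _).symm)))
    (fun i k => (show ContMDiff (𝓡 2) 𝓘(ℝ, ℝ) ∞ fun x => ⟪D V i σ.G x, D V k σ.G x⟫ from
      fun x => contMDiffAt_inner_fun (Full.contMDiff_D hV i σ.imm.1 x)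
        (Full.contMDiff_D hV k σ.imm.1 x)).continuous)
  obtain ⟨C₂, hC₂, -, -, hup, -⟩ := exists_metric_bounds g hV hs
  refine ⟨C₁ * C₂, mul_nonneg hC₁.le (zero_le_one.trans hC₂), fun x v => ?_⟩
  obtain ⟨b, hb, hb2⟩ := hcoef x v
  have hb3 : ∑ i, b i ^ 2 ≤ C₁ * ‖(mfderiv (𝓡 2) 𝓘(ℝ, R3) σ.G x v : R3)‖ ^ 2 := by
    rw [norm_tangentSpace_vectorSpace]
    exact hb2.trans (le_of_eq (congrArg (C₁ * ·)
      (real_inner_self_eq_norm_sq (d x v : R3))))
  have h1 : g.inner x v v = ∑ i, b i * g.inner x (V i x) v := by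
    conv_lhs => arg 1; arg 2; rw [hb]
    simp [map_sum, map_smul, sum_apply, smul_apply, smul_eq_mul]
  have h2 := Finset.sum_mul_sq_le_sq_mul_sq Finset.univ b fun i => g.inner x (V i x) v
  rw [← h1] at h2
  by_cases h0 : v = 0
  · simp only [h0, map_zero]
    positivity
  · have hp := g.pos x v h0
    have h3 := h2.trans (mul_le_mul hb3 (hup x v)
      (Finset.sum_nonneg fun i _ => sq_nonneg _) (by positivity))
    nlinarith

omit [T2Space M] [CompactSpace M] in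
/-- Bounds of a local map minus its linear part. -/
lemma exists_sub_bounds (C : ℕ → ℝ) :
    ∃ B : σ.Idx → ℕ → ℝ, ∀ η rad (Fl : σ.Idx → R2 → R3) (a : ℕ) (C₀ : ℝ), 0 < η → η ≤ 1 →
      σ.Charts Fl rad η a C₀ C → ∀ q k z, ‖z‖ ≤ σ.rd' q →
        ‖iteratedFDeriv ℝ k (fun y => Fl q y - (σ.pt q).μ • flat3 y) z‖ ≤
          B q k * η⁻¹ ^ (a * (k + 1)) := by
  have hl : ∀ q : σ.Idx, ContDiff ℝ ∞ fun y => (σ.pt q).μ • flat3 y := fun q =>
    ((σ.pt q).μ • flat3).contDiff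
  choose c hc using fun (q : σ.Idx) (k : ℕ) =>
    (isCompact_closedBall (0 : R2) 1).exists_bound_of_continuousOn
      ((hl q).continuous_iteratedFDeriv (m := k) (by exact_mod_cast le_top)).continuousOn
  refine ⟨fun q k => |C k| + |c q k|, fun η rad Fl a C₀ h0 h1 hch q k z hz => ?_⟩
  have hz1 : ‖z‖ ≤ 1 := hz.trans ((σ.rd'_lt q).le.trans (σ.rd_le_one q))
  have hle : (k : WithTop ℕ∞) ≤ ∞ := WithTop.coe_le_coe.2 le_top
  rw [show (fun y => Fl q y - (σ.pt q).μ • flat3 y) =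
      Fl q - fun y => (σ.pt q).μ • flat3 y from rfl,
    iteratedFDeriv_sub_apply ((hch q).smooth.of_le hle).contDiffAt ((hl q).of_le hle).contDiffAt]
  refine (norm_sub_le _ _).trans ?_
  rw [add_mul]
  exact add_le_add
    (((hch q).bd k z hz1).trans (mul_le_mul_of_nonneg_right (le_abs_self _) (by positivity)))
    (((hc q k z (mem_closedBall_zero_iff.2 hz1)).trans (le_abs_self _)).trans
      (le_mul_of_one_le_right (abs_nonneg _) (one_le_pow₀ (one_le_inv_eta h0 h1))))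

theorem exists_polyBd_mapF (hV : FrameSmooth V) (a : ℕ) (C₀ : ℝ) (C : ℕ → ℝ) :
    ∃ C' : ℕ → ℝ, ∀ η rad Fl, 0 < η → η ≤ 1 → 0 < rad → (∀ q, rad * η ^ 8 < σ.rd' q) →
      σ.Charts Fl rad η a C₀ C → PolyBd V η a C' (σ.mapF Fl) := by
  obtain ⟨B, hB⟩ := σ.exists_sub_bounds C
  obtain ⟨C', hC'⟩ := exists_polyBd_spread (V := V) hV σ.smooth_symm σ.ball_source σ.rd'_lt
    (f := fun x => emb34 (σ.G x)) (emb34.contDiff.comp_contMDiff σ.imm.1) a
    fun q k => ‖emb34.comp (σ.rot q)‖ * B q k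
  refine ⟨C', fun η rad Fl h0 h1 hr hlt hch => ?_⟩
  have hl := hch.loc hr h0 hlt
  have hs : ∀ q, ContDiff ℝ ∞ fun y => Fl q y - (σ.pt q).μ • flat3 y := fun q =>
    (hl.smooth q).sub ((σ.pt q).μ • flat3).contDiff
  refine hC' η (σ.locF Fl) h0 h1 hl.locF_zero
    (fun q z _ => ((emb34.comp (σ.rot q)).contDiff.comp (hs q)).contDiffAt) fun q k z hz => ?_
  have e : σ.locF Fl q = (emb34.comp (σ.rot q)) ∘ fun y => Fl q y - (σ.pt q).μ • flat3 y := rfl
  rw [e]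
  refine ((emb34.comp (σ.rot q)).norm_iteratedFDeriv_comp_left (n := k) (hs q).contDiffAt
    (by exact_mod_cast le_top)).trans ?_
  rw [mul_assoc]
  exact mul_le_mul_of_nonneg_left (hB η rad Fl a C₀ h0 h1 hch q k z hz) (norm_nonneg _)

theorem exists_polyBd_mapO (hV : FrameSmooth V) (a : ℕ) (C₀ : ℝ) (C : ℕ → ℝ) :
    ∃ C' : ℕ → ℝ, ∀ η rad Fl, 0 < η → η ≤ 1 → 0 < rad → (∀ q, rad * η ^ 8 < σ.rd' q) →
      σ.Charts Fl rad η a C₀ C → PolyBd V η (8 * a) C' (σ.mapO Fl) := by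
  obtain ⟨B, hB⟩ := σ.exists_sub_bounds C
  choose cl hcl0 hcl using fun (qj : σ.Idx × Fin 2) =>
    exists_polyBd_lift (E := R3) (V := V) hV (σ.smooth_symm qj.1) (σ.ball_source qj.1)
      (σ.rd'_lt qj.1) (2 * a) fun k => |B qj.1 (k + 1)|
  set cp : σ.Idx → Fin 2 → ℕ → ℝ := fun q j n =>
    ‖(σ.pt q).μ • flat3 (eb j)‖ + cl (q, j) n with hcp
  set R : ℝ := 1 + C₀ ^ 2 + ∑ q : σ.Idx, ((σ.pt q).μ ^ 2 + ((σ.pt q).μ ^ 2)⁻¹) with hR
  have hsum0 : ∀ q ∈ (Finset.univ : Finset σ.Idx),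
      0 ≤ (σ.pt q).μ ^ 2 + ((σ.pt q).μ ^ 2)⁻¹ := fun q _ => by positivity
  have hS : IsCompact (closedBall (0 : R3) R ∩ {w | 1 ≤ R * ‖w‖}) :=
    (isCompact_closedBall _ _).inter_right
      (isClosed_le continuous_const (continuous_const.mul continuous_norm))
  have hSU : closedBall (0 : R3) R ∩ {w | 1 ≤ R * ‖w‖} ⊆ {w | w ≠ 0} := fun w hw h0 => by
    have h := hw.2
    simp [h0] at h
    linarith
  choose cu hcu0 hcu using fun q : σ.Idx => exists_polyBd_comp_compact N (2 * a + 2 * a)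
    (fun n => 2 ^ n * 1 * csum (cp q 0) n * csum (cp q 1) n)
    (isOpen_ne_fun continuous_id continuous_const) contDiffOn_unit3 hS hSU
  have hO₀ : ContMDiff (𝓡 2) 𝓘(ℝ, R3 →L[ℝ] R4) ∞ fun x => emb34.comp (nLine σ.G x) :=
    (ContinuousLinearMap.compL ℝ R3 R3 R4 emb34).contDiff.comp_contMDiff
      (Sect.contMDiff_nLine σ.imm)
  obtain ⟨c0, hc00, hc0⟩ := exists_polyBd_of_contMDiff hV hO₀
  refine ⟨fun n => |c0 n| + ∑ q, ‖σ.tw q‖ * (cu q n + ‖axis3‖),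
    fun η rad Fl h0 h1 hr hlt hch => ?_⟩
  have hl := hch.loc hr h0 hlt
  have hsub : ∀ q, ContDiff ℝ ∞ fun y => Fl q y - (σ.pt q).μ • flat3 y := fun q =>
    (hl.smooth q).sub ((σ.pt q).μ • flat3).contDiff
  have hpart : ∀ q j, PolyBd V η (2 * a) (cp q j) (σ.part Fl q j) := by
    intro q j
    have hdev : σ.dev Fl q j =
        fun z => fderiv ℝ (fun y => Fl q y - (σ.pt q).μ • flat3 y) z (eb j) := funext fun z => by
      have hd := (((hl.smooth q).differentiable (by simp)) z).hasFDerivAt.sub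
        ((σ.pt q).μ • flat3).hasFDerivAt
      exact (congrArg (fun L : R2 →L[ℝ] R3 => L (eb j)) hd.fderiv).symm
    refine PolyBd.add hV contMDiff_const (contMDiff_lift (σ.smooth_symm q) (σ.ball_source q)
      (σ.rd'_lt q) (hl.dev_zero q j) fun z _ => ?_) (polyBd_const h0 h1 _ _)
      (hcl (q, j) η _ h0 h1 (hl.dev_zero q j) (fun z _ => ?_) fun k z hz => ?_)
    · rw [hdev]
      exact (((hsub q).fderiv_right (m := ∞) le_rfl).clm_apply contDiff_const).contDiffAt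
    · rw [hdev]
      exact (((hsub q).fderiv_right (m := ∞) le_rfl).clm_apply contDiff_const).contDiffAt
    · rw [hdev]
      refine (norm_iteratedFDeriv_partial (hsub q) (eb j) k z).trans ?_
      rw [show ‖eb j‖ = 1 by simp [eb], one_mul]
      refine (hB η rad Fl a C₀ h0 h1 hch q (k + 1) z hz).trans ?_
      refine mul_le_mul (le_abs_self _) (pow_le_pow_right₀ (one_le_inv_eta h0 h1) ?_)
        (by positivity) (abs_nonneg _)
      calc a * (k + 1 + 1) ≤ a * (2 * (k + 1)) := Nat.mul_le_mul_left a (by omega)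
        _ = 2 * a * (k + 1) := by ring
  have hmem : ∀ q x, σ.crossF Fl q x ∈ closedBall (0 : R3) R ∩ {w | 1 ≤ R * ‖w‖} := by
    intro q x
    have hsum := Finset.single_le_sum hsum0 (Finset.mem_univ q)
    have hp1 : 0 ≤ (σ.pt q).μ ^ 2 := sq_nonneg _
    have hp2 : 0 ≤ ((σ.pt q).μ ^ 2)⁻¹ := inv_nonneg.2 hp1
    have hC2 := sq_nonneg C₀
    by_cases hx : x ∈ σ.U q '' closedBall 0 (σ.rd q)
    · obtain ⟨z, hz, rfl⟩ := hx
      rw [hl.crossF_param q (mem_closedBall_zero_iff.1 hz), crossL_apply]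
      have hC0 : 0 < C₀ := by
        have h := (hch q).imm z (eb 0)
        rw [show ‖eb 0‖ = 1 by simp [eb]] at h
        nlinarith [norm_nonneg (fderiv ℝ (Fl q) z (eb 0)), hch.nonneg q]
      refine ⟨mem_closedBall_zero_iff.2 ?_,
        (norm_cross_ge hC0 _ ((hch q).imm z)).trans
          (mul_le_mul_of_nonneg_right (by linarith) (norm_nonneg _))⟩
      have he : ∀ j, ‖fderiv ℝ (Fl q) z (eb j)‖ ≤ C₀ := fun j =>
        ((hch q).bd_d z (eb j)).trans (le_of_eq (by simp [eb]))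
      refine (norm_cross_le _ _).trans ?_
      calc _ ≤ C₀ * C₀ := mul_le_mul (he 0) (he 1) (norm_nonneg _) hC0.le
        _ ≤ R := by rw [← sq]; linarith
    · rw [crossF_outside q hx]
      have hn : ‖(σ.pt q).μ ^ 2 • axis3‖ = (σ.pt q).μ ^ 2 := by
        rw [norm_smul, norm_axis3, mul_one, Real.norm_of_nonneg hp1]
      refine ⟨mem_closedBall_zero_iff.2 (by rw [hn]; linarith), ?_⟩
      show 1 ≤ R * ‖(σ.pt q).μ ^ 2 • axis3‖
      rw [hn]
      calc (1 : ℝ) = ((σ.pt q).μ ^ 2)⁻¹ * (σ.pt q).μ ^ 2 :=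
            (inv_mul_cancel₀ (pow_ne_zero _ (σ.pt q).μ_pos.ne')).symm
        _ ≤ _ := mul_le_mul_of_nonneg_right (by linarith) hp1
  have hnrm : ∀ q, PolyBd V η (8 * a) (cu q) fun x => unit3 (σ.crossF Fl q x) := by
    intro q
    have hcr : PolyBd V η (2 * a + 2 * a)
        (fun n => 2 ^ n * 1 * csum (cp q 0) n * csum (cp q 1) n) (σ.crossF Fl q) :=
      PolyBd.bilin hV h0 h1 crossL
        (fun u v => by rw [one_mul, crossL_apply]; exact norm_cross_le u v) zero_le_one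
        (hl.contMDiff_part q 0) (hl.contMDiff_part q 1) (hpart q 0) (hpart q 1)
    have h := hcu q M V η _ hV h0 h1 (hl.contMDiff_crossF q) (hmem q) hcr
    rwa [show 2 * (2 * a + 2 * a) = 8 * a by ring] at h
  exact PolyBd.add hV hO₀
    (contMDiff_finsetSum fun q _ => (σ.tw q).contDiff.comp_contMDiff
      ((hl.contMDiff_nrm q).sub contMDiff_const))
    ((hc0 η).mono_exp h0 h1 (Nat.zero_le _))
    (PolyBd.sum hV Finset.univ
      (fun q _ => (σ.tw q).contDiff.comp_contMDiff ((hl.contMDiff_nrm q).sub contMDiff_const))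
      fun q _ => PolyBd.clm hV (σ.tw q) ((hl.contMDiff_nrm q).sub contMDiff_const)
        (PolyBd.sub hV (hl.contMDiff_nrm q) contMDiff_const (hnrm q) (polyBd_const h0 h1 _ _)))

/-- Sup bound of the base map. -/
lemma exists_mapF_sup (a : ℕ) (C₀ : ℝ) (C : ℕ → ℝ) :
    ∃ K : ℝ, ∀ η rad Fl, 0 < η → 0 < rad → (∀ q, rad * η ^ 8 < σ.rd' q) →
      σ.Charts Fl rad η a C₀ C → ∀ x, ‖σ.mapF Fl x‖ ≤ K := by
  obtain ⟨BG, hBG⟩ :=
    isCompact_univ.exists_bound_of_continuousOn σ.imm.1.continuous.continuousOn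
  refine ⟨|BG| + |C₀|, fun η rad Fl hη hr hlt hch x => ?_⟩
  have hl := hch.loc hr hη hlt
  have hG : ∀ y, ‖σ.G y‖ ≤ |BG| := fun y => (hBG y (mem_univ y)).trans (le_abs_self BG)
  rcases σ.cases_point x with hx | ⟨q, z, hz, rfl⟩
  · rw [(hl.mapF_outer hx).eq_of_nhds, norm_emb34]
    exact (hG x).trans (le_add_of_nonneg_right (abs_nonneg _))
  · rw [hl.mapF_param q (hz.trans (σ.rd'_lt q).le), norm_emb34]
    refine (norm_add_le _ _).trans (add_le_add (hG _) ?_)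
    rw [σ.norm_rot]
    have h0 := hch.nonneg q
    have hm := convex_univ.norm_image_sub_le_of_norm_fderiv_le (𝕜 := ℝ)
      (fun y _ => ((hl.smooth q).differentiable (by simp)) y)
      (fun y _ => ContinuousLinearMap.opNorm_le_bound _ h0 ((hch q).bd_d y))
      (mem_univ (0 : R2)) (mem_univ z)
    rw [(hch q).zero, sub_zero, sub_zero] at hm
    refine hm.trans ?_
    rw [abs_of_nonneg h0]
    exact mul_le_of_le_one_right h0 (hz.trans ((σ.rd'_lt q).le.trans (σ.rd_le_one q)))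

/-- Bounds of the base map and of its odd normal. -/
theorem exists_base_bounds (hV : FrameSmooth V) (hs : FrameSpans V) (a : ℕ) (C₀ : ℝ)
    (C : ℕ → ℝ) :
    ∃ (a' : ℕ) (C₀' : ℝ) (C' : ℕ → ℝ), ∀ η rad Fl, 0 < η → η ≤ 1 → 0 < rad →
      (∀ q, rad * η ^ 8 < σ.rd' q) → σ.Charts Fl rad η a C₀ C →
      PolyBd V η a' C' (σ.mapF Fl) ∧ PolyBd V η a' C' (σ.mapO Fl) ∧
      (∀ x, ‖σ.mapF Fl x‖ ≤ C₀') ∧ (∀ i x, ‖D V i (σ.mapF Fl) x‖ ≤ C₀') ∧
      ∀ x (v : TangentSpace (𝓡 2) x),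
        g.inner x v v ≤ C₀' * ‖(mfderiv (𝓡 2) 𝓘(ℝ, R4) (σ.mapF Fl) x v : R4)‖ ^ 2 := by
  obtain ⟨cF, hcF⟩ := σ.exists_polyBd_mapF hV a C₀ C
  obtain ⟨cO, hcO⟩ := σ.exists_polyBd_mapO hV a C₀ C
  obtain ⟨K, hK, hcmp⟩ := σ.exists_dmapF_compare a C₀ C
  obtain ⟨Kg, hKg, hg⟩ := σ.exists_metric_le hV hs
  obtain ⟨Ks, hKs⟩ := σ.exists_mapF_sup a C₀ C
  choose d hd using fun i => isCompact_univ.exists_bound_of_continuousOn
    (Full.contMDiff_D hV i σ.imm.1).continuous.continuousOn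
  set S := ∑ i, |d i|
  have hS : 0 ≤ S := Finset.sum_nonneg fun i _ => abs_nonneg _
  have hK0 : 0 ≤ K := zero_le_one.trans hK
  refine ⟨8 * a, |Ks| + K * S + Kg * K ^ 2, fun n => |cF n| + |cO n|,
    fun η rad Fl h0 h1 hr hlt hch => ?_⟩
  have hKS : 0 ≤ K * S := mul_nonneg hK0 hS
  have hKK : 0 ≤ Kg * K ^ 2 := mul_nonneg hKg (sq_nonneg K)
  refine ⟨?_, ?_, fun x => ?_, fun i x => ?_, fun x v => ?_⟩
  · exact (hcF η rad Fl h0 h1 hr hlt hch).mono h0 h1 (by omega)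
      (fun n => (le_abs_self _).trans (le_add_of_nonneg_right (abs_nonneg _)))
      fun n => by positivity
  · exact (hcO η rad Fl h0 h1 hr hlt hch).mono h0 h1 le_rfl
      (fun n => (le_abs_self _).trans (le_add_of_nonneg_left (abs_nonneg _)))
      fun n => by positivity
  · linarith [hKs η rad Fl h0 hr hlt hch x, le_abs_self Ks]
  · have hi : |d i| ≤ S :=
      Finset.single_le_sum (f := fun i => |d i|) (fun j _ => abs_nonneg _) (Finset.mem_univ i)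
    have h : ‖D V i (σ.mapF Fl) x‖ ≤ K * ‖D V i σ.G x‖ := by
      have hc := (hcmp η rad Fl h0 hr hlt hch x (V i x)).1
      rw [norm_tangentSpace_vectorSpace, norm_tangentSpace_vectorSpace] at hc
      exact hc
    have h' : ‖D V i σ.G x‖ ≤ S := (hd i x (mem_univ x)).trans ((le_abs_self _).trans hi)
    nlinarith [h.trans (mul_le_mul_of_nonneg_left h' hK0), abs_nonneg Ks]
  · refine (hg x v).trans ?_
    refine (mul_le_mul_of_nonneg_left
      (pow_le_pow_left₀ (norm_nonneg _) (hcmp η rad Fl h0 hr hlt hch x v).2 2) hKg).trans ?_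
    rw [mul_pow, ← mul_assoc]
    exact mul_le_mul_of_nonneg_right (by linarith [abs_nonneg Ks]) (sq_nonneg _)

omit [T2Space M] in
/-- The residual of a map, a section and a slack with monomial bounds. -/
theorem exists_res_polyBd (hV : FrameSmooth V) (a : ℕ) (C : ℕ → ℝ) :
    ∃ (a' : ℕ) (C' : ℕ → ℝ), ∀ (η : ℝ) (F : M → R4) (S' : M → R3) (sq : M → ℝ),
      0 < η → η ≤ 1 → ContMDiff (𝓡 2) 𝓘(ℝ, R4) ∞ F → ContMDiff (𝓡 2) 𝓘(ℝ, R3) ∞ S' →
      ContMDiff (𝓡 2) 𝓘(ℝ, ℝ) ∞ sq →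
      PolyBd V η a C F → PolyBd V η a C S' → PolyBd V η a C sq → ∀ i k,
        ContMDiff (𝓡 2) 𝓘(ℝ, ℝ) ∞ (baseRes g σ.G V F S' sq i k) ∧
        PolyBd V η a' C' (baseRes g σ.G V F S' sq i k) := by
  obtain ⟨cL, hcL0, hcL⟩ := exists_polyBd_of_contMDiff hV (Sect.contMDiff_nLine σ.imm)
  choose cg hcg0 hcg using fun ik : Fin N × Fin N =>
    exists_polyBd_of_contMDiff hV (contMDiff_gV g hV ik.1 ik.2)
  set cd : ℕ → ℝ := fun n => |C (n + 1)|
  set cS : ℕ → ℝ := fun n => 2 ^ n * 1 * csum cL n * csum cd n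
  set cm : Fin N × Fin N → ℕ → ℝ :=
    fun ik n => 2 ^ n * 1 * csum (cg ik) n * csum (fun m => ‖(1 : ℝ)‖ + C m) n
  set c2 : ℕ → ℝ := fun n => 2 ^ n * 1 * csum cS n * csum cS n
  set c3 : ℕ → ℝ := fun n => 2 ^ n * 1 * csum cd n * csum cd n
  refine ⟨4 * a, fun n => ∑ ik, (|cm ik n| + |c2 n| + |c3 n|),
    fun η F S' sq h0 h1 hF hS hsq pF pS psq i k => ?_⟩
  have hL := Sect.contMDiff_nLine σ.imm
  have hdS : ∀ i, ContMDiff (𝓡 2) 𝓘(ℝ, R3) ∞ (dSec σ.G V S' i) := fun i =>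
    hL.clm_apply (Full.contMDiff_D hV i hS)
  have pdS : ∀ i, PolyBd V η (2 * a) cS (dSec σ.G V S' i) := by
    intro i
    have h : PolyBd V η (0 + 2 * a) cS
        (fun y => ContinuousLinearMap.id ℝ (R3 →L[ℝ] R3) (nLine σ.G y) (D V i S' y)) :=
      PolyBd.bilin hV h0 h1 (ContinuousLinearMap.id ℝ (R3 →L[ℝ] R3))
        (fun u v => by rw [one_mul]; exact u.le_opNorm v) zero_le_one hL
        (Full.contMDiff_D hV i hS) (hcL η) (pS.deriv h0 h1 i)
    rwa [Nat.zero_add] at h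
  have hdd : ContMDiff (𝓡 2) 𝓘(ℝ, ℝ) ∞ (dSecSq σ.G V S' i k) := fun x =>
    contMDiffAt_inner_fun (hdS i x) (hdS k x)
  have p2 : PolyBd V η (4 * a) c2 (dSecSq σ.G V S' i k) := by
    have h : PolyBd V η (2 * a + 2 * a) c2 (dSecSq σ.G V S' i k) :=
      PolyBd.inner hV h0 h1 (hdS i) (hdS k) (pdS i) (pdS k)
    rwa [show 2 * a + 2 * a = 4 * a by ring] at h
  have hp := contMDiff_pullV hV hF i k
  have p3 : PolyBd V η (4 * a) c3 (pullV F V i k) := by
    have h : PolyBd V η (2 * a + 2 * a) c3 (pullV F V i k) :=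
      PolyBd.inner hV h0 h1 (Full.contMDiff_D hV i hF) (Full.contMDiff_D hV k hF)
        (pF.deriv h0 h1 i) (pF.deriv h0 h1 k)
    rwa [show 2 * a + 2 * a = 4 * a by ring] at h
  have hgm := contMDiff_gV g hV i k
  have h1s : ContMDiff (𝓡 2) 𝓘(ℝ, ℝ) ∞ fun x => 1 - sq x := contMDiff_const.sub hsq
  have hm : ContMDiff (𝓡 2) 𝓘(ℝ, ℝ) ∞ fun x => gV g V i k x * (1 - sq x) := hgm.mul h1s
  have p1 : PolyBd V η (4 * a) (fun n => |cm (i, k) n|)
      fun x => gV g V i k x * (1 - sq x) :=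
    (PolyBd.mul hV h0 h1 hgm h1s (hcg (i, k) η)
      (PolyBd.sub hV contMDiff_const hsq (polyBd_const h0 h1 _ _) psq)).mono_exp h0 h1 (by omega)
  refine ⟨(hm.sub hdd).sub hp, ?_⟩
  refine (PolyBd.sub hV (hm.sub hdd) hp (PolyBd.sub hV hm hdd p1 p2) p3).mono h0 h1 le_rfl
    (fun n => ?_) fun n => Finset.sum_nonneg fun ik _ => by positivity
  exact (add_le_add (add_le_add le_rfl (le_abs_self _)) (le_abs_self _)).trans
    (Finset.single_le_sum (f := fun ik => |cm ik n| + |c2 n| + |c3 n|)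
      (fun ik _ => by positivity) (Finset.mem_univ (i, k)))

end Setup

end Vale.Agent.P205.Full.Start
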