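import Vale.Agent.P205.Full.Start.ChartData
import Vale.Agent.P205.Full.Stage.CalculusBasic

/-!
# P205 full, START: frame derivatives read in an arbitrary parametrisation

`u : ℝ² → M` is smooth with smooth inverse; `cvf V u i` is the field `V i` in these coordinates.
-/

open scoped Manifold ContDiff RealInnerProductSpace Topology
open Bundle Filter Set Metric

noncomputable section

namespace Vale.Agent.P205.Full.Start

variable {M : Type} [TopologicalSpace M] [ChartedSpace R2 M] [IsManifold (𝓡 2) ∞ M]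
variable {E : Type} [NormedAddCommGroup E] [NormedSpace ℝ E]
variable {N : ℕ} {V : Frame M N}

/-- The vector field `V i` in the coordinates `u`. -/
def cvf (V : Frame M N) (u : OpenPartialHomeomorph R2 M) (i : Fin N) (z : R2) : R2 :=
  mfderiv (𝓡 2) 𝓘(ℝ, R2) u.symm (u z) (V i (u z))

variable {u : OpenPartialHomeomorph R2 M} (hu : ContMDiffOn (𝓡 2) (𝓡 2) ∞ u u.source)
  (hus : ContMDiffOn (𝓡 2) (𝓡 2) ∞ u.symm u.target)

omit [IsManifold (𝓡 2) ∞ M] in
include hu in
lemma mdiffAt_param {z : R2} (hz : z ∈ u.source) :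
    MDifferentiableAt (𝓡 2) (𝓡 2) u z :=
  (hu.contMDiffAt (u.open_source.mem_nhds hz)).mdifferentiableAt (by simp)

omit [IsManifold (𝓡 2) ∞ M] in
include hus in
lemma mdiffAt_param_symm {z : R2} (hz : z ∈ u.source) :
    MDifferentiableAt (𝓡 2) (𝓡 2) u.symm (u z) :=
  (hus.contMDiffAt (u.open_target.mem_nhds (u.map_source hz))).mdifferentiableAt (by simp)

include hu hus in
lemma mfderiv_cvf {z : R2} (hz : z ∈ u.source) (i : Fin N) :
    mfderiv (𝓡 2) (𝓡 2) u z (cvf V u i z) = V i (u z) := by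
  have hz' : u.symm (u z) = z := u.left_inv hz
  have h1 : MDifferentiableAt (𝓡 2) (𝓡 2) u (u.symm (u z)) := by
    rw [hz']; exact mdiffAt_param hu hz
  have h2 := mfderiv_comp (u z) h1 (mdiffAt_param_symm hus hz)
  have he : (u ∘ u.symm) =ᶠ[𝓝 (u z)] id :=
    eventuallyEq_of_mem (u.open_target.mem_nhds (u.map_source hz)) fun y hy => u.right_inv hy
  rw [he.mfderiv_eq, mfderiv_id] at h2
  have h3 := (DFunLike.congr_fun h2 (V i (u z))).symm
  refine Eq.trans ?_ h3
  show mfderiv (𝓡 2) (𝓡 2) u z (cvf V u i z) =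
    mfderiv (𝓡 2) (𝓡 2) u (u.symm (u z)) (cvf V u i z)
  rw [hz']

omit [IsManifold (𝓡 2) ∞ M] in
include hu in
lemma comp_smoothAt {f : M → E} {z : R2} (hz : z ∈ u.source)
    (hf : ContMDiffAt (𝓡 2) 𝓘(ℝ, E) ∞ f (u z)) : ContDiffAt ℝ ∞ (fun a => f (u a)) z :=
  contMDiffAt_iff_contDiffAt.1 (hf.comp z (hu.contMDiffAt (u.open_source.mem_nhds hz)))

include hu hus in
/-- Differentiation along the frame in coordinates. -/
lemma D_param {f : M → E} {z : R2} (hz : z ∈ u.source)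
    (hf : MDifferentiableAt (𝓡 2) 𝓘(ℝ, E) f (u z)) (i : Fin N) :
    D V i f (u z) = fderiv ℝ (fun a => f (u a)) z (cvf V u i z) := by
  have h := mfderiv_comp z hf (mdiffAt_param hu hz)
  rw [mfderiv_eq_fderiv] at h
  refine Eq.trans ?_ (DFunLike.congr_fun h (cvf V u i z)).symm
  show D V i f (u z) = mfderiv (𝓡 2) 𝓘(ℝ, E) f (u z) (mfderiv (𝓡 2) (𝓡 2) u z (cvf V u i z))
  rw [mfderiv_cvf hu hus hz]
  rfl

include hu hus in
lemma contDiffOn_cvf (hV : FrameSmooth V) (i : Fin N) :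
    ContDiffOn ℝ ∞ (cvf V u i) u.source := fun z hz => by
  have h : ContMDiffAt (𝓡 2) 𝓘(ℝ, R2) ∞ (D V i (fun y => u.symm y)) (u z) :=
    Full.contMDiffAt_D hV i (hus.contMDiffAt (u.open_target.mem_nhds (u.map_source hz)))
  exact (comp_smoothAt hu hz h).contDiffWithinAt

include hu hus in
lemma span_cvf (hs : FrameSpans V) {z : R2} (hz : z ∈ u.source) :
    Submodule.span ℝ (range fun i => cvf V u i z) = ⊤ := by
  have hsur : Function.Surjective (mfderiv (𝓡 2) 𝓘(ℝ, R2) u.symm (u z)) := fun w => by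
    refine ⟨mfderiv (𝓡 2) (𝓡 2) u z w, ?_⟩
    have h2 := mfderiv_comp z (mdiffAt_param_symm hus hz) (mdiffAt_param hu hz)
    have he : (u.symm ∘ u) =ᶠ[𝓝 z] id :=
      eventuallyEq_of_mem (u.open_source.mem_nhds hz) fun y hy => u.left_inv hy
    rw [he.mfderiv_eq, mfderiv_id] at h2
    exact (DFunLike.congr_fun h2 w).symm
  have h := congrArg (Submodule.map (mfderiv (𝓡 2) 𝓘(ℝ, R2) u.symm (u z)).toLinearMap) (hs (u z))
  rw [Submodule.map_span, Submodule.map_top, LinearMap.range_eq_top.2 hsur, ← range_comp] at h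
  exact h

include hu hus in
/-- The frame bounds on a compact set of coordinates. -/
lemma exists_cvf_bounds (hV : FrameSmooth V) (hs : FrameSpans V) {K : Set R2} (hK : IsCompact K)
    (hKs : K ⊆ u.source) :
    ∃ C : ℝ, 1 ≤ C ∧ ∀ z ∈ K, (∀ i, ‖cvf V u i z‖ ≤ C) ∧
      ∀ w : R2, ‖w‖ ^ 2 ≤ C * ∑ i, ⟪w, cvf V u i z⟫ ^ 2 := by
  have hc : ∀ i, ContinuousOn (cvf V u i) K := fun i =>
    (contDiffOn_cvf hu hus hV i).continuousOn.mono hKs
  choose b hb using fun i => hK.exists_bound_of_continuousOn (hc i)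
  have hb0 : ∀ i, 0 ≤ |b i| := fun i => abs_nonneg _
  set C₁ := 1 + ∑ i, |b i| with hC₁
  have hC1 : 1 ≤ C₁ := le_add_of_nonneg_right (Finset.sum_nonneg fun i _ => hb0 i)
  have hbi : ∀ i, ∀ z ∈ K, ‖cvf V u i z‖ ≤ C₁ := fun i z hz =>
    (hb i z hz).trans ((le_abs_self _).trans ((Finset.single_le_sum (fun j _ => hb0 j)
      (Finset.mem_univ i)).trans (le_add_of_nonneg_left zero_le_one)))
  have hcont : ContinuousOn (fun q : R2 × R2 => ∑ i, ⟪q.2, cvf V u i q.1⟫ ^ 2)
      (K ×ˢ sphere (0 : R2) 1) := continuousOn_finsetSum _ fun i _ =>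
    (continuous_snd.continuousOn.inner ((hc i).comp continuous_fst.continuousOn
      fun q hq => hq.1)).pow 2
  obtain ⟨m, hm, hmin⟩ := (hK.prod (isCompact_sphere (0 : R2) 1)).exists_forall_le' hcont
    (a := 0) fun q hq => by
      refine lt_of_le_of_ne (Finset.sum_nonneg fun i _ => sq_nonneg _) fun h => ?_
      have h1 : ∀ i, ⟪q.2, cvf V u i q.1⟫ = 0 := fun i =>
        (pow_eq_zero_iff two_ne_zero).1 ((Finset.sum_eq_zero_iff_of_nonneg
          fun j _ => sq_nonneg _).1 h.symm i (Finset.mem_univ i))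
      have h2 : Submodule.span ℝ (range fun i => cvf V u i q.1) ≤
          LinearMap.ker (innerSL ℝ q.2).toLinearMap := by
        rw [Submodule.span_le]
        rintro _ ⟨i, rfl⟩
        exact h1 i
      rw [span_cvf hu hus hs (hKs hq.1)] at h2
      have h3 : q.2 = 0 := inner_self_eq_zero.1 (h2 (x := q.2) trivial)
      have h4 : ‖q.2‖ = 1 := mem_sphere_zero_iff_norm.1 hq.2
      rw [h3, norm_zero] at h4
      exact zero_ne_one h4
  refine ⟨max C₁ m⁻¹, le_max_of_le_left hC1, fun z hz =>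
    ⟨fun i => (hbi i z hz).trans (le_max_left _ _), fun w => ?_⟩⟩
  rcases eq_or_ne w 0 with rfl | hw
  · simp
  · have hn := norm_pos_iff.2 hw
    have h := hmin (z, ‖w‖⁻¹ • w) ⟨hz, by simp [norm_smul, hn.ne']⟩
    simp only [real_inner_smul_left, mul_pow, ← Finset.mul_sum, inv_pow] at h
    rw [le_inv_mul_iff₀ (by positivity)] at h
    calc ‖w‖ ^ 2 = m⁻¹ * (‖w‖ ^ 2 * m) := by field_simp
      _ ≤ m⁻¹ * ∑ i, ⟪w, cvf V u i z⟫ ^ 2 := mul_le_mul_of_nonneg_left h (by positivity)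
      _ ≤ _ := mul_le_mul_of_nonneg_right (le_max_right _ _)
          (Finset.sum_nonneg fun i _ => sq_nonneg _)

include hu hus in
lemma gV_param (g : Full.Metric M) {z : R2} (hz : z ∈ u.source) (i k : Fin N) :
    gV g V i k (u z) = gBil g u z (cvf V u i z) (cvf V u k z) := by
  rw [gBil_apply, gPull, mfderiv_cvf hu hus hz, mfderiv_cvf hu hus hz]
  rfl

include hu hus in
lemma pullV_param {F : M → R4} {z : R2} (hz : z ∈ u.source)
    (hF : MDifferentiableAt (𝓡 2) 𝓘(ℝ, R4) F (u z)) (i k : Fin N) :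
    pullV F V i k (u z) = ⟪fderiv ℝ (fun a => F (u a)) z (cvf V u i z),
      fderiv ℝ (fun a => F (u a)) z (cvf V u k z)⟫ := by
  rw [pullV, D_param hu hus hz hF, D_param hu hus hz hF]

include hu hus in
/-- The differential of a section given by a coefficient along a constant unit normal. -/
lemma dSec_param {G S : M → R3} (hS : ContMDiff (𝓡 2) 𝓘(ℝ, R3) ∞ S) {z : R2} (hz : z ∈ u.source)
    {n : R3} (hn : ‖n‖ = 1) (hline : ∀ v, nLine G (u z) v = ⟪n, v⟫ • n) {ψ : R2 → ℝ}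
    (hψ : DifferentiableAt ℝ ψ z) (hsec : ∀ᶠ a in 𝓝 z, S (u a) = ψ a • n) (i : Fin N) :
    dSec G V S i (u z) = fderiv ℝ ψ z (cvf V u i z) • n := by
  rw [dSec, D_param hu hus hz (hS.mdifferentiableAt (by simp))]
  have h : (fun a => S (u a)) =ᶠ[𝓝 z] fun a => ψ a • n := hsec
  rw [h.fderiv_eq, (hψ.hasFDerivAt.smul_const n).fderiv, ContinuousLinearMap.smulRight_apply,
    hline, real_inner_smul_right, real_inner_self_eq_norm_sq, hn, one_pow, mul_one]

include hu hus in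
lemma dSecSq_param {G S : M → R3} (hS : ContMDiff (𝓡 2) 𝓘(ℝ, R3) ∞ S) {z : R2} (hz : z ∈ u.source)
    {n : R3} (hn : ‖n‖ = 1) (hline : ∀ v, nLine G (u z) v = ⟪n, v⟫ • n) {ψ : R2 → ℝ}
    (hψ : DifferentiableAt ℝ ψ z) (hsec : ∀ᶠ a in 𝓝 z, S (u a) = ψ a • n) (i k : Fin N) :
    dSecSq G V S i k (u z) =
      fderiv ℝ ψ z (cvf V u i z) * fderiv ℝ ψ z (cvf V u k z) := by
  rw [dSecSq, dSec_param hu hus hS hz hn hline hψ hsec i,
    dSec_param hu hus hS hz hn hline hψ hsec k, real_inner_smul_left, real_inner_smul_right,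
    real_inner_self_eq_norm_sq, hn]
  ring

include hu hus in
/-- Frame derivatives of a function known in coordinates near a point. -/
lemma D_param_congr {f : M → E} {φ : R2 → E} {z : R2} (hz : z ∈ u.source)
    (hf : MDifferentiableAt (𝓡 2) 𝓘(ℝ, E) f (u z)) (h : ∀ᶠ a in 𝓝 z, f (u a) = φ a)
    (i : Fin N) : D V i f (u z) = fderiv ℝ φ z (cvf V u i z) := by
  rw [D_param hu hus hz hf, (show (fun a => f (u a)) =ᶠ[𝓝 z] φ from h).fderiv_eq]

end Vale.Agent.P205.Full.Start
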