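import Vale.Agent.P205.Full.Start.Transfer
import Vale.Agent.P205.Full.Start.FlatPoint

/-!
# P205 full, START: functions of coordinates spread to the surface

`lift u r h` is `h` in the coordinates `u` on the closed ball of radius `r`, zero elsewhere.
`spread` adds such lifts at finitely many disjoint parametrisations to a base function.
-/

open scoped Manifold ContDiff RealInnerProductSpace Topology
open Bundle Filter Set Metric

noncomputable section

namespace Vale.Agent.P205.Full.Start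

variable {M : Type} [TopologicalSpace M] [ChartedSpace R2 M] [IsManifold (𝓡 2) ∞ M]
variable {E : Type} [NormedAddCommGroup E] [NormedSpace ℝ E]
variable {N : ℕ} {V : Frame M N}

open Classical in
/-- `h` in the coordinates `u`, on the ball of radius `r`. -/
def lift (u : OpenPartialHomeomorph R2 M) (r : ℝ) (h : R2 → E) (x : M) : E :=
  if x ∈ u '' closedBall 0 r then h (u.symm x) else 0

variable {u : OpenPartialHomeomorph R2 M} {r r' : ℝ} {h : R2 → E}

omit [ChartedSpace R2 M] [IsManifold (𝓡 2) ∞ M] [NormedSpace ℝ E] in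
lemma lift_apply (hr : closedBall 0 r ⊆ u.source) {z : R2} (hz : ‖z‖ ≤ r) :
    lift u r h (u z) = h z := by
  have hz' : z ∈ closedBall (0 : R2) r := mem_closedBall_zero_iff.2 hz
  rw [lift, if_pos ⟨z, hz', rfl⟩, u.left_inv (hr hz')]

omit [ChartedSpace R2 M] [IsManifold (𝓡 2) ∞ M] [NormedSpace ℝ E] in
lemma lift_eventually (hr : closedBall 0 r ⊆ u.source) {z : R2} (hz : ‖z‖ < r) :
    ∀ᶠ a in 𝓝 z, lift u r h (u a) = h a := by
  filter_upwards [(isOpen_lt continuous_norm continuous_const).mem_nhds hz] with a ha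
  exact lift_apply hr (le_of_lt ha)

omit [ChartedSpace R2 M] [IsManifold (𝓡 2) ∞ M] [NormedSpace ℝ E] in
lemma lift_zero {x : M} (hx : x ∉ u '' closedBall 0 r) : lift u r h x = 0 := if_neg hx

omit [ChartedSpace R2 M] [IsManifold (𝓡 2) ∞ M] [NormedSpace ℝ E] in
lemma lift_eventually_zero [T2Space M] (hr : closedBall 0 r ⊆ u.source) (hr' : r' ≤ r)
    (h0 : ∀ z, r' ≤ ‖z‖ → h z = 0) {x : M} (hx : x ∉ u '' closedBall 0 r') :
    lift u r h =ᶠ[𝓝 x] fun _ => 0 := by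
  have hsub : closedBall (0 : R2) r' ⊆ u.source := (closedBall_subset_closedBall hr').trans hr
  have hc : IsClosed (u '' closedBall 0 r') :=
    ((isCompact_closedBall 0 r').image_of_continuousOn (u.continuousOn.mono hsub)).isClosed
  filter_upwards [hc.isOpen_compl.mem_nhds hx] with y hy
  by_cases hyr : y ∈ u '' closedBall 0 r
  · obtain ⟨z, hz, rfl⟩ := hyr
    rw [lift_apply hr (mem_closedBall_zero_iff.1 hz)]
    refine h0 z ?_
    by_contra hzr
    exact hy ⟨z, mem_closedBall_zero_iff.2 (le_of_lt (not_le.1 hzr)), rfl⟩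
  · exact lift_zero hyr

lemma contMDiff_lift [T2Space M] (hus : ContMDiffOn (𝓡 2) 𝓘(ℝ, R2) ∞ u.symm u.target)
    (hr : closedBall 0 r ⊆ u.source) (hr' : r' < r) (h0 : ∀ z, r' ≤ ‖z‖ → h z = 0)
    (hh : ∀ z, ‖z‖ ≤ r' → ContDiffAt ℝ ∞ h z) :
    ContMDiff (𝓡 2) 𝓘(ℝ, E) ∞ (lift u r h) := by
  intro x
  by_cases hx : x ∈ u '' closedBall 0 r'
  · obtain ⟨z, hz, rfl⟩ := hx
    have hzr := mem_closedBall_zero_iff.1 hz
    refine contMDiffAt_of_comp hus (hr (closedBall_subset_closedBall hr'.le hz)) ?_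
    exact (hh z hzr).congr_of_eventuallyEq (lift_eventually hr (lt_of_le_of_lt hzr hr'))
  · exact contMDiffAt_const.congr_of_eventuallyEq (lift_eventually_zero hr hr'.le h0 hx)

/-- Lifts of functions with monomial bounds have monomial bounds. -/
theorem exists_polyBd_lift [T2Space M] (hV : FrameSmooth V)
    (hus : ContMDiffOn (𝓡 2) 𝓘(ℝ, R2) ∞ u.symm u.target) (hr : closedBall 0 r ⊆ u.source)
    (hr' : r' < r) (a : ℕ) (C : ℕ → ℝ) :
    ∃ C' : ℕ → ℝ, (∀ n, 0 ≤ C' n) ∧ ∀ (η : ℝ) (h : R2 → E), 0 < η → η ≤ 1 →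
      (∀ z, r' ≤ ‖z‖ → h z = 0) → (∀ z, ‖z‖ ≤ r' → ContDiffAt ℝ ∞ h z) →
      (∀ k z, ‖z‖ ≤ r' → ‖iteratedFDeriv ℝ k h z‖ ≤ C k * η⁻¹ ^ (a * (k + 1))) →
      PolyBd V η a C' (lift u r h) := by
  have hsub : closedBall (0 : R2) r' ⊆ u.source := (closedBall_subset_closedBall hr'.le).trans hr
  obtain ⟨C', hC0, hC⟩ := exists_polyBd_transfer (E := E) hV u hus (isCompact_closedBall 0 r')
    hsub a C
  refine ⟨C', hC0, fun η h hη0 hη1 h0 hh hb => ?_⟩
  have he : ∀ z, ‖z‖ ≤ r' → (fun b => lift u r h (u b)) =ᶠ[𝓝 z] h := fun z hz =>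
    lift_eventually hr (lt_of_le_of_lt hz hr')
  refine hC η _ hη0 hη1 ?_ (fun z hz => ?_) fun k z hz => ?_
  · intro x hx
    by_contra hn
    exact notMem_tsupport_iff_eventuallyEq.2 (lift_eventually_zero hr hr'.le h0 hn) hx
  · have hz' := mem_closedBall_zero_iff.1 hz
    exact (hh z hz').congr_of_eventuallyEq (he z hz')
  · have hz' := mem_closedBall_zero_iff.1 hz
    rw [((he z hz').iteratedFDeriv ℝ k).eq_of_nhds]
    exact hb k z hz'

/-! ## Finitely many disjoint parametrisations -/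

variable {ι : Type} [Fintype ι] {us : ι → OpenPartialHomeomorph R2 M} {rs rs' : ι → ℝ}

/-- A base function plus lifts. -/
def spread (us : ι → OpenPartialHomeomorph R2 M) (rs : ι → ℝ) (f : M → E) (hs : ι → R2 → E)
    (x : M) : E :=
  f x + ∑ q, lift (us q) (rs q) (hs q) x

variable {f : M → E} {hs : ι → R2 → E}

omit [ChartedSpace R2 M] [IsManifold (𝓡 2) ∞ M] [NormedSpace ℝ E] in
lemma spread_apply (hr : ∀ q, closedBall 0 (rs q) ⊆ (us q).source)
    (hd : ∀ p q, p ≠ q → Disjoint (us p).target (us q).target) (p : ι) {z : R2}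
    (hz : ‖z‖ ≤ rs p) : spread us rs f hs (us p z) = f (us p z) + hs p z := by
  classical
  rw [spread, Finset.sum_eq_single p (fun q _ hq => ?_) (fun h => absurd (Finset.mem_univ p) h),
    lift_apply (hr p) hz]
  refine lift_zero ?_
  rintro ⟨w, hw, he⟩
  exact Set.disjoint_left.1 (hd p q hq.symm)
    ((us p).map_source (hr p (mem_closedBall_zero_iff.2 hz)))
    (he ▸ (us q).map_source (hr q hw))

omit [ChartedSpace R2 M] [IsManifold (𝓡 2) ∞ M] [NormedSpace ℝ E] in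
lemma spread_eventually (hr : ∀ q, closedBall 0 (rs q) ⊆ (us q).source)
    (hd : ∀ p q, p ≠ q → Disjoint (us p).target (us q).target) (p : ι) {z : R2}
    (hz : ‖z‖ < rs p) :
    ∀ᶠ a in 𝓝 z, spread us rs f hs (us p a) = f (us p a) + hs p a := by
  filter_upwards [(isOpen_lt continuous_norm continuous_const).mem_nhds hz] with a ha
  exact spread_apply hr hd p (le_of_lt ha)

omit [ChartedSpace R2 M] [IsManifold (𝓡 2) ∞ M] [NormedSpace ℝ E] in
lemma spread_outside [T2Space M] (hr : ∀ q, closedBall 0 (rs q) ⊆ (us q).source)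
    (hr' : ∀ q, rs' q ≤ rs q) (h0 : ∀ q z, rs' q ≤ ‖z‖ → hs q z = 0) {x : M}
    (hx : ∀ q, x ∉ us q '' closedBall 0 (rs' q)) : spread us rs f hs =ᶠ[𝓝 x] f := by
  have h : ∀ᶠ y in 𝓝 x, ∀ q, lift (us q) (rs q) (hs q) y = 0 :=
    eventually_all.2 fun q => lift_eventually_zero (hr q) (hr' q) (h0 q) (hx q)
  filter_upwards [h] with y hy
  simp [spread, hy]

lemma contMDiff_spread [T2Space M]
    (hus : ∀ q, ContMDiffOn (𝓡 2) 𝓘(ℝ, R2) ∞ (us q).symm (us q).target)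
    (hr : ∀ q, closedBall 0 (rs q) ⊆ (us q).source) (hr' : ∀ q, rs' q < rs q)
    (h0 : ∀ q z, rs' q ≤ ‖z‖ → hs q z = 0) (hh : ∀ q z, ‖z‖ ≤ rs' q → ContDiffAt ℝ ∞ (hs q) z)
    (hf : ContMDiff (𝓡 2) 𝓘(ℝ, E) ∞ f) :
    ContMDiff (𝓡 2) 𝓘(ℝ, E) ∞ (spread us rs f hs) :=
  hf.add (contMDiff_finsetSum fun q _ =>
    contMDiff_lift (hus q) (hr q) (hr' q) (h0 q) (hh q))

theorem exists_polyBd_spread [T2Space M] [CompactSpace M] (hV : FrameSmooth V)
    (hus : ∀ q, ContMDiffOn (𝓡 2) 𝓘(ℝ, R2) ∞ (us q).symm (us q).target)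
    (hr : ∀ q, closedBall 0 (rs q) ⊆ (us q).source) (hr' : ∀ q, rs' q < rs q)
    (hf : ContMDiff (𝓡 2) 𝓘(ℝ, E) ∞ f) (a : ℕ) (C : ι → ℕ → ℝ) :
    ∃ C' : ℕ → ℝ, ∀ (η : ℝ) (hs : ι → R2 → E), 0 < η → η ≤ 1 →
      (∀ q z, rs' q ≤ ‖z‖ → hs q z = 0) → (∀ q z, ‖z‖ ≤ rs' q → ContDiffAt ℝ ∞ (hs q) z) →
      (∀ q k z, ‖z‖ ≤ rs' q →
        ‖iteratedFDeriv ℝ k (hs q) z‖ ≤ C q k * η⁻¹ ^ (a * (k + 1))) →
      PolyBd V η a C' (spread us rs f hs) := by
  choose c hc0 hc using fun q =>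
    exists_polyBd_lift (E := E) hV (hus q) (hr q) (hr' q) a (C q)
  obtain ⟨Cf, hCf0, hCf⟩ := exists_polyBd_of_contMDiff hV hf
  refine ⟨fun n => |Cf n| + ∑ q, c q n, fun η hs hη0 hη1 h0 hh hb => ?_⟩
  have hsm : ∀ q, ContMDiff (𝓡 2) 𝓘(ℝ, E) ∞ (lift (us q) (rs q) (hs q)) := fun q =>
    contMDiff_lift (hus q) (hr q) (hr' q) (h0 q) (hh q)
  exact PolyBd.add hV hf (contMDiff_finsetSum fun q _ => hsm q)
    ((hCf η).mono_exp hη0 hη1 (Nat.zero_le a))
    (PolyBd.sum hV Finset.univ (fun q _ => hsm q)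
      fun q _ => hc q η (hs q) hη0 hη1 (h0 q) (hh q) (hb q))

end Vale.Agent.P205.Full.Start
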