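import Vale.Agent.P205.Full.Start.AssembleSetup

/-!
# P205 full, START: the residual of the assembly in the coordinates at a critical point
-/

open scoped Manifold ContDiff RealInnerProductSpace Topology
open Bundle Filter Set Metric

noncomputable section

namespace Vale.Agent.P205.Full.Start

namespace Setup

variable {M : Type} [TopologicalSpace M] [ChartedSpace R2 M] [IsManifold (𝓡 2) ∞ M] [T2Space M]
variable {g : Full.Metric M} {σ : Setup g} {N : ℕ} {V : Frame M N}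

omit [T2Space M] in
lemma slack_val (η : ℝ) (q : σ.Idx) {z : R2} (hz : ‖z‖ ≤ σ.rd q / 4) :
    σ.slack η (σ.U q z) = η ^ 22 * ‖z‖ ^ 2 := by
  rw [slack, prof, σ.spread_param _ _ q (hz.trans (by linarith [σ.rd_pos q])),
    qloc_inner (σ.rd_pos q) hz]

omit [T2Space M] in
/-- Near a critical point `S'` is the anisotropic quadratic. -/
lemma mod_eventually {κ ε η Cm : ℝ} {am : ℕ} {Cp : ℕ → ℝ} {S' : M → R3}
    (hm : ModData g σ.G σ.S V σ.Z σ.P κ ε η am Cm Cp S') (q : σ.Idx) :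
    ∃ c : ℝ, ∀ z, ‖z‖ < σ.rd q → ‖z‖ < κ * η ^ 8 → ∀ᶠ a in 𝓝 z,
      (∀ v, nLine σ.G (σ.U q a) v = ⟪(σ.pt q).n, v⟫ • (σ.pt q).n) ∧
      S' (σ.U q a) =
        (c + quad (σ.eA q * η⁻¹ ^ 8) (σ.eB q * η ^ 8) a) • (σ.pt q).n := by
  obtain ⟨c, hc⟩ := hm.inner_eq q.1 q.2
  refine ⟨c, fun z hz hk => ?_⟩
  filter_upwards [(isOpen_lt continuous_norm continuous_const).mem_nhds hz,
    (isOpen_lt continuous_norm continuous_const).mem_nhds hk] with a ha ha'
  exact ⟨σ.line q (σ.mem_source q (le_of_lt ha)),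
    hc a (σ.mem_source q (le_of_lt ha)) (le_of_lt ha')⟩

/-- The residual in the coordinates at a critical point. -/
lemma res_param {Fl : σ.Idx → R2 → R3} {ρ κ ε η Cm : ℝ} {am : ℕ} {Cp : ℕ → ℝ} {S' : M → R3}
    (h : σ.Loc Fl ρ) (hm : ModData g σ.G σ.S V σ.Z σ.P κ ε η am Cm Cp S') (q : σ.Idx) {z : R2}
    (hz : ‖z‖ < σ.rd q / 4) (hk : ‖z‖ < κ * η ^ 8) (i k : Fin N) :
    baseRes g σ.G V (σ.mapF Fl) S' (σ.slack η) i k (σ.U q z) =
      chartRes (σ.g2 q) (σ.eA q) (σ.eB q) η (Fl q) z (cvf V (σ.U q) i z) (cvf V (σ.U q) k z) := by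
  have hu := σ.smooth_U q
  have hus := (σ.pt q).smooth_symm
  have hz1 : ‖z‖ < σ.rd q := by linarith [σ.rd_pos q]
  have hzs := σ.mem_source q hz1.le
  obtain ⟨c, hc⟩ := mod_eventually hm q
  have hev := hc z hz1 hk
  have hψ : HasFDerivAt (fun a => c + quad (σ.eA q * η⁻¹ ^ 8) (σ.eB q * η ^ 8) a)
      (dquad (σ.eA q * η⁻¹ ^ 8) (σ.eB q * η ^ 8) z) z := (hasFDerivAt_quad _ _ z).const_add c
  have hd : fderiv ℝ (fun a => σ.mapF Fl (σ.U q a)) z =
      emb34.comp ((σ.rot q).comp (fderiv ℝ (Fl q) z)) := by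
    rw [(show (fun a => σ.mapF Fl (σ.U q a)) =ᶠ[𝓝 z] _ from h.mapF_eventually q hz1).fderiv_eq]
    exact (emb34.hasFDerivAt.comp z (((σ.rot q).hasFDerivAt.comp z
      ((h.smooth q).differentiable (by simp) z).hasFDerivAt).const_add (σ.G q.1))).fderiv
  rw [baseRes, gV_param hu hus g hzs, pullV_param hu hus hzs
      (h.contMDiff_mapF.mdifferentiableAt (by simp)),
    dSecSq_param hu hus hm.sec.1 hzs (σ.pt q).norm_n hev.self_of_nhds.1 hψ.differentiableAt
      (hev.mono fun a ha => ha.2),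
    hψ.fderiv, hd, slack_val η q hz.le]
  simp only [chartRes, chartTarget, ContinuousLinearMap.coe_comp, Function.comp_apply, inner_emb34,
    σ.inner_rot, g2, U]

end Setup

end Vale.Agent.P205.Full.Start
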