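import Vale.Agent.P205.Full.Start.AssembleLift
import Vale.Agent.P205.Full.Start.AssembleAlg
import Vale.Agent.P205.Full.Start.AssembleStmts
import Vale.Agent.P205.Full.Start.NormalSmooth

/-!
# P205 full, START: the map, the normal data, the cutoff and the slack of the assembly

`Setup` is the flattened immersion with its section. For local maps `Fl`, one for each critical
point, `mapF` is `G × 0` changed near the points, `mapO` the odd normal along it.
-/

open scoped Manifold ContDiff RealInnerProductSpace Topology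
open Bundle Filter Set Metric

noncomputable section

namespace Vale.Agent.P205.Full.Start

/-- The output of A1 and A2. -/
structure Setup {M : Type} [TopologicalSpace M] [ChartedSpace R2 M] [IsManifold (𝓡 2) ∞ M]
    (g : Full.Metric M) where
  G : M → R3
  S : M → R3
  Z : Finset M
  P : (p : M) → p ∈ Z → FlatPoint g G S p
  imm : IsImm3 G
  disj : ∀ p hp q hq, p ≠ q → Disjoint (P p hp).u.target (P q hq).u.target
  shortG : ∀ x (v : TangentSpace (𝓡 2) x),
    ‖(mfderiv (𝓡 2) 𝓘(ℝ, R3) G x v : R3)‖ ^ 2 ≤ (1 / 16) * g.inner x v v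
  shortS : ∀ x (v : TangentSpace (𝓡 2) x),
    ‖nLine G x (mfderiv (𝓡 2) 𝓘(ℝ, R3) S x v : R3)‖ ^ 2 ≤ (1 / 16) * g.inner x v v

namespace Setup

variable {M : Type} [TopologicalSpace M] [ChartedSpace R2 M] [IsManifold (𝓡 2) ∞ M]
variable {g : Full.Metric M} (σ : Setup g)

/-- The critical points. -/
abbrev Idx : Type := {p : M // p ∈ σ.Z}

/-- The flat data at a critical point. -/
def pt (q : σ.Idx) : FlatPoint g σ.G σ.S q.1 := σ.P q.1 q.2

/-- Coordinates at a critical point. -/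
def U (q : σ.Idx) : OpenPartialHomeomorph R2 M := (σ.pt q).u

/-- The radius used around a critical point. -/
def rd (q : σ.Idx) : ℝ := min ((σ.pt q).R / 2) 1

/-- Half of it. -/
def rd' (q : σ.Idx) : ℝ := σ.rd q / 2

/-- The metric in the coordinates. -/
def g2 (q : σ.Idx) : R2 → R2 →L[ℝ] R2 →L[ℝ] ℝ := gBil g (σ.U q)

/-- The two signs. -/
def eA (q : σ.Idx) : ℝ := sgn (σ.pt q).a

/-- The two signs. -/
def eB (q : σ.Idx) : ℝ := sgn (σ.pt q).b

/-- The rotation of a local map into place. -/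
def rot (q : σ.Idx) : R3 →L[ℝ] R3 := rot3 (σ.pt q).J (σ.pt q).n

/-- The change of the immersion near a point. -/
def locF (Fl : σ.Idx → R2 → R3) (q : σ.Idx) (z : R2) : R4 :=
  emb34 (σ.rot q (Fl q z - (σ.pt q).μ • flat3 z))

/-- The base map. -/
def mapF (Fl : σ.Idx → R2 → R3) : M → R4 :=
  spread σ.U σ.rd (fun x => emb34 (σ.G x)) (σ.locF Fl)

/-- The change of the partial derivatives near a point. -/
def dev (Fl : σ.Idx → R2 → R3) (q : σ.Idx) (j : Fin 2) (z : R2) : R3 :=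
  fderiv ℝ (Fl q) z (eb j) - (σ.pt q).μ • flat3 (eb j)

/-- A partial derivative of the local map, spread to the surface. -/
def part (Fl : σ.Idx → R2 → R3) (q : σ.Idx) (j : Fin 2) : M → R3 :=
  fun x => (σ.pt q).μ • flat3 (eb j) + lift (σ.U q) (σ.rd q) (σ.dev Fl q j) x

/-- The cross product of the partial derivatives. -/
def crossF (Fl : σ.Idx → R2 → R3) (q : σ.Idx) : M → R3 :=
  fun x => crossL (σ.part Fl q 0 x) (σ.part Fl q 1 x)

/-- Contribution of a unit normal to the odd normal. -/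
def tw (q : σ.Idx) : R3 →L[ℝ] (R3 →L[ℝ] R4) :=
  (ContinuousLinearMap.smulRightL ℝ R3 R4 (innerSL ℝ (σ.pt q).n)).comp (emb34.comp (σ.rot q))

/-- The odd normal. -/
def mapO (Fl : σ.Idx → R2 → R3) (x : M) : R3 →L[ℝ] R4 :=
  emb34.comp (nLine σ.G x) + ∑ q, σ.tw q (unit3 (σ.crossF Fl q x) - axis3)

/-- The cutoff of the twists. -/
def chi (η : ℝ) : M → ℝ :=
  spread σ.U σ.rd (fun _ => (1 : ℝ)) (fun _ z => -cutR (η ^ 30 / 2) z)

/-- The profile of the slack. -/
def prof : M → ℝ := spread σ.U σ.rd (fun _ => (1 : ℝ)) (fun q z => qloc (σ.rd q) z)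

/-- The slack. -/
def slack (η : ℝ) : M → ℝ := fun x => η ^ 22 * σ.prof x

lemma rd_pos (q : σ.Idx) : 0 < σ.rd q := lt_min (half_pos (σ.pt q).R_pos) one_pos

lemma rd_le_one (q : σ.Idx) : σ.rd q ≤ 1 := min_le_right _ _

lemma rd_le_half (q : σ.Idx) : σ.rd q ≤ (σ.pt q).R / 2 := min_le_left _ _

lemma rd'_pos (q : σ.Idx) : 0 < σ.rd' q := half_pos (σ.rd_pos q)

lemma rd'_lt (q : σ.Idx) : σ.rd' q < σ.rd q := half_lt_self (σ.rd_pos q)

lemma ball_source (q : σ.Idx) : closedBall 0 (σ.rd q) ⊆ (σ.U q).source := by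
  rw [U, (σ.pt q).source_eq]
  exact closedBall_subset_ball (by linarith [σ.rd_le_half q, (σ.pt q).R_pos])

lemma mem_source (q : σ.Idx) {z : R2} (hz : ‖z‖ ≤ σ.rd q) : z ∈ (σ.U q).source :=
  σ.ball_source q (mem_closedBall_zero_iff.2 hz)

lemma smooth_U (q : σ.Idx) : ContMDiffOn (𝓡 2) (𝓡 2) ∞ (σ.U q) (σ.U q).source :=
  (σ.pt q).smooth_u

lemma smooth_symm (q : σ.Idx) : ContMDiffOn (𝓡 2) 𝓘(ℝ, R2) ∞ (σ.U q).symm (σ.U q).target :=
  (σ.pt q).smooth_symm

lemma disjU (p q : σ.Idx) (h : p ≠ q) : Disjoint (σ.U p).target (σ.U q).target :=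
  σ.disj p.1 p.2 q.1 q.2 fun e => h (Subtype.ext e)

lemma abs_eA (q : σ.Idx) : |σ.eA q| = 1 := abs_sgn _

lemma abs_eB (q : σ.Idx) : |σ.eB q| = 1 := abs_sgn _

lemma map_G (q : σ.Idx) {z : R2} (hz : z ∈ (σ.U q).source) :
    σ.G (σ.U q z) = σ.G q.1 + (σ.pt q).μ • (σ.pt q).J z :=
  (σ.pt q).map_eq z hz

lemma line (q : σ.Idx) {z : R2} (hz : z ∈ (σ.U q).source) (v : R3) :
    nLine σ.G (σ.U q z) v = ⟪(σ.pt q).n, v⟫ • (σ.pt q).n :=
  (σ.pt q).nLine_eq z hz v

lemma rot_flat (q : σ.Idx) (z : R2) : σ.rot q (flat3 z) = (σ.pt q).J z := rot3_flat3 _ _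

lemma rot_axis (q : σ.Idx) : σ.rot q axis3 = (σ.pt q).n := rot3_axis3 _

lemma norm_rot (q : σ.Idx) (v : R3) : ‖σ.rot q v‖ = ‖v‖ :=
  norm_rot3 _ (σ.pt q).norm_n (σ.pt q).orth_n v

lemma inner_rot (q : σ.Idx) (v w : R3) : ⟪σ.rot q v, σ.rot q w⟫ = ⟪v, w⟫ :=
  inner_rot3 _ (σ.pt q).norm_n (σ.pt q).orth_n v w

lemma tw_apply (q : σ.Idx) (w v : R3) :
    σ.tw q w v = ⟪(σ.pt q).n, v⟫ • emb34 (σ.rot q w) := rfl

variable [T2Space M]

/-- The set away from all the inner balls. -/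
def Outer (x : M) : Prop := ∀ q, x ∉ σ.U q '' closedBall 0 (σ.rd' q)

/-- Every point is outer or in one inner ball. -/
lemma cases_point (x : M) : σ.Outer x ∨ ∃ q z, ‖z‖ ≤ σ.rd' q ∧ σ.U q z = x := by
  by_cases h : σ.Outer x
  · exact Or.inl h
  · simp only [Outer, not_forall, not_not] at h
    obtain ⟨q, z, hz, e⟩ := h
    exact Or.inr ⟨q, z, mem_closedBall_zero_iff.1 hz, e⟩

omit [T2Space M] in
lemma spread_param {E : Type} [NormedAddCommGroup E] (f : M → E) (hs : σ.Idx → R2 → E)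
    (q : σ.Idx) {z : R2} (hz : ‖z‖ ≤ σ.rd q) :
    spread σ.U σ.rd f hs (σ.U q z) = f (σ.U q z) + hs q z :=
  spread_apply σ.ball_source σ.disjU q hz

/-- `Fl` is linear outside radius `ρ`. -/
structure Loc (Fl : σ.Idx → R2 → R3) (ρ : ℝ) : Prop where
  pos : 0 < ρ
  lt : ∀ q, ρ < σ.rd' q
  smooth : ∀ q, ContDiff ℝ ∞ (Fl q)
  outer : ∀ q z, ρ ≤ ‖z‖ → Fl q z = (σ.pt q).μ • flat3 z
  immer : ∀ q z v, fderiv ℝ (Fl q) z v = 0 → v = 0

/-- Local maps at all the critical points, with common constants. -/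
def Charts (Fl : σ.Idx → R2 → R3) (rad η : ℝ) (a : ℕ) (C₀ : ℝ) (C : ℕ → ℝ) : Prop :=
  ∀ q, BaseChart (σ.g2 q) (σ.eA q) (σ.eB q) (σ.pt q).μ rad η a C₀ C (Fl q)

variable {σ} {Fl : σ.Idx → R2 → R3} {ρ : ℝ}

omit [T2Space M] in
lemma Charts.loc {rad η C₀ : ℝ} {a : ℕ} {C : ℕ → ℝ} (h : σ.Charts Fl rad η a C₀ C) (hr : 0 < rad)
    (hη : 0 < η) (hlt : ∀ q, rad * η ^ 8 < σ.rd' q) : σ.Loc Fl (rad * η ^ 8) where
  pos := mul_pos hr (pow_pos hη 8)
  lt := hlt
  smooth q := (h q).smooth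
  outer q := (h q).outer
  immer q z v hv := norm_le_zero_iff.1 (((h q).imm z v).trans (by rw [hv, norm_zero, mul_zero]))

omit [T2Space M] in
lemma Loc.fderiv_outer (h : σ.Loc Fl ρ) (q : σ.Idx) {z : R2} (hz : ρ ≤ ‖z‖) :
    fderiv ℝ (Fl q) z = (σ.pt q).μ • flat3 := by
  have hz0 : 0 < ‖z‖ := h.pos.trans_le hz
  have hc : ContinuousAt (fun t : ℝ => fderiv ℝ (Fl q) (t • z)) 1 :=
    (((h.smooth q).continuous_fderiv (by simp)).comp (continuous_id.smul continuous_const)).continuousAt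
  have he : ∀ᶠ t in 𝓝[>] (1 : ℝ), fderiv ℝ (Fl q) (t • z) = (σ.pt q).μ • flat3 := by
    filter_upwards [self_mem_nhdsWithin] with t ht
    have ht' : ρ < ‖t • z‖ := by
      rw [norm_smul, Real.norm_eq_abs, abs_of_pos (zero_lt_one.trans ht)]
      exact hz.trans_lt (lt_mul_of_one_lt_left hz0 ht)
    have hev : Fl q =ᶠ[𝓝 (t • z)] ⇑((σ.pt q).μ • flat3) := by
      filter_upwards [(isOpen_lt continuous_const continuous_norm).mem_nhds ht'] with a ha
      exact h.outer q a (le_of_lt ha)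
    rw [hev.fderiv_eq]
    exact ContinuousLinearMap.fderiv _
  have := tendsto_nhds_unique ((hc.tendsto.mono_left nhdsWithin_le_nhds).congr' he)
    tendsto_const_nhds
  rwa [one_smul] at this

omit [T2Space M] in
lemma Loc.locF_zero (h : σ.Loc Fl ρ) (q : σ.Idx) (z : R2) (hz : σ.rd' q ≤ ‖z‖) :
    σ.locF Fl q z = 0 := by
  rw [locF, h.outer q z ((h.lt q).le.trans hz), sub_self, map_zero, map_zero]

omit [T2Space M] in
lemma Loc.dev_zero (h : σ.Loc Fl ρ) (q : σ.Idx) (j : Fin 2) (z : R2) (hz : σ.rd' q ≤ ‖z‖) :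
    σ.dev Fl q j z = 0 := by
  rw [dev, h.fderiv_outer q ((h.lt q).le.trans hz), smul_apply, sub_self]

omit [T2Space M] in
lemma Loc.mapF_param (h : σ.Loc Fl ρ) (q : σ.Idx) {z : R2} (hz : ‖z‖ ≤ σ.rd q) :
    σ.mapF Fl (σ.U q z) = emb34 (σ.G q.1 + σ.rot q (Fl q z)) := by
  have := h.pos
  rw [mapF, σ.spread_param _ _ q hz, locF, σ.map_G q (σ.mem_source q hz), ← map_add]
  congr 1
  rw [map_sub, map_smul, σ.rot_flat]
  abel

omit [T2Space M] in
lemma Loc.mapF_eventually (h : σ.Loc Fl ρ) (q : σ.Idx) {z : R2} (hz : ‖z‖ < σ.rd q) :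
    ∀ᶠ a in 𝓝 z, σ.mapF Fl (σ.U q a) = emb34 (σ.G q.1 + σ.rot q (Fl q a)) := by
  filter_upwards [(isOpen_lt continuous_norm continuous_const).mem_nhds hz] with a ha
  exact h.mapF_param q (le_of_lt ha)

lemma Loc.mapF_outer (h : σ.Loc Fl ρ) {x : M} (hx : σ.Outer x) :
    σ.mapF Fl =ᶠ[𝓝 x] fun y => emb34 (σ.G y) :=
  spread_outside σ.ball_source (fun q => (σ.rd'_lt q).le) h.locF_zero hx

lemma Loc.contMDiff_mapF (h : σ.Loc Fl ρ) : ContMDiff (𝓡 2) 𝓘(ℝ, R4) ∞ (σ.mapF Fl) :=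
  contMDiff_spread σ.smooth_symm σ.ball_source σ.rd'_lt h.locF_zero
    (fun q z _ => ((emb34.comp (σ.rot q)).contDiff.comp
      ((h.smooth q).sub ((σ.pt q).μ • flat3).contDiff)).contDiffAt)
    (emb34.contDiff.comp_contMDiff σ.imm.1)

omit [T2Space M] in
lemma Loc.part_param (h : σ.Loc Fl ρ) (q : σ.Idx) (j : Fin 2) {z : R2} (hz : ‖z‖ ≤ σ.rd q) :
    σ.part Fl q j (σ.U q z) = fderiv ℝ (Fl q) z (eb j) := by
  have := h.pos
  rw [part, lift_apply (σ.ball_source q) hz, dev, add_sub_cancel]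

omit [T2Space M] in
lemma crossF_outside (q : σ.Idx) {x : M} (hx : x ∉ σ.U q '' closedBall 0 (σ.rd q)) :
    σ.crossF Fl q x = (σ.pt q).μ ^ 2 • axis3 := by
  simp only [crossF, part, lift_zero hx, add_zero, crossL_apply]
  exact cross_flat _

omit [T2Space M] in
lemma Loc.crossF_param (h : σ.Loc Fl ρ) (q : σ.Idx) {z : R2} (hz : ‖z‖ ≤ σ.rd q) :
    σ.crossF Fl q (σ.U q z) =
      crossL (fderiv ℝ (Fl q) z (eb 0)) (fderiv ℝ (Fl q) z (eb 1)) := by
  rw [crossF, h.part_param q 0 hz, h.part_param q 1 hz]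

omit [T2Space M] in
lemma Loc.crossF_ne (h : σ.Loc Fl ρ) (q : σ.Idx) (x : M) : σ.crossF Fl q x ≠ 0 := by
  by_cases hx : x ∈ σ.U q '' closedBall 0 (σ.rd q)
  · obtain ⟨z, hz, rfl⟩ := hx
    rw [h.crossF_param q (mem_closedBall_zero_iff.1 hz), crossL_apply]
    have hinj : Function.Injective (fderiv ℝ (Fl q) z) :=
      (injective_iff_map_eq_zero _).2 fun v hv => h.immer q z v hv
    obtain ⟨K, hK, hb⟩ := (fderiv ℝ (Fl q) z).toLinearMap.exists_antilipschitzWith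
      (LinearMap.ker_eq_bot.2 hinj)
    intro h0
    have := norm_cross_ge (NNReal.coe_pos.2 hK) (fderiv ℝ (Fl q) z) fun v => hb.le_mul_norm (map_zero _) v
    rw [h0, norm_zero, mul_zero] at this
    exact absurd this (not_le.2 zero_lt_one)
  · rw [crossF_outside q hx]
    exact smul_ne_zero (pow_ne_zero _ (σ.pt q).μ_pos.ne') fun h0 => by
      simpa [h0] using norm_axis3

lemma Loc.contMDiff_part (h : σ.Loc Fl ρ) (q : σ.Idx) (j : Fin 2) :
    ContMDiff (𝓡 2) 𝓘(ℝ, R3) ∞ (σ.part Fl q j) :=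
  contMDiff_const.add (contMDiff_lift (σ.smooth_symm q) (σ.ball_source q) (σ.rd'_lt q)
    (h.dev_zero q j) fun z _ => ((((h.smooth q).fderiv_right (m := ∞) le_rfl).clm_apply
      contDiff_const).sub contDiff_const).contDiffAt)

lemma Loc.contMDiff_crossF (h : σ.Loc Fl ρ) (q : σ.Idx) :
    ContMDiff (𝓡 2) 𝓘(ℝ, R3) ∞ (σ.crossF Fl q) := fun x =>
  contMDiffAt_bilin crossL (h.contMDiff_part q 0 x) (h.contMDiff_part q 1 x)

lemma Loc.contMDiff_nrm (h : σ.Loc Fl ρ) (q : σ.Idx) :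
    ContMDiff (𝓡 2) 𝓘(ℝ, R3) ∞ fun x => unit3 (σ.crossF Fl q x) := fun x =>
  (contDiffOn_unit3.contDiffAt (isOpen_ne.mem_nhds (h.crossF_ne q x))).comp_contMDiffAt
    (h.contMDiff_crossF q x)

lemma Loc.contMDiff_mapO (h : σ.Loc Fl ρ) :
    ContMDiff (𝓡 2) 𝓘(ℝ, R3 →L[ℝ] R4) ∞ (σ.mapO Fl) :=
  ((ContinuousLinearMap.compL ℝ R3 R3 R4 emb34).contDiff.comp_contMDiff
    (Sect.contMDiff_nLine σ.imm)).add
    (contMDiff_finsetSum fun q _ => (σ.tw q).contDiff.comp_contMDiff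
      ((h.contMDiff_nrm q).sub contMDiff_const))

omit [T2Space M] in
lemma Loc.mapO_outer (h : σ.Loc Fl ρ) {x : M} (hx : σ.Outer x) :
    σ.mapO Fl x = emb34.comp (nLine σ.G x) := by
  rw [mapO]
  refine add_eq_left.2 (Finset.sum_eq_zero fun q _ => ?_)
  have : σ.crossF Fl q x = (σ.pt q).μ ^ 2 • axis3 := by
    by_cases hq : x ∈ σ.U q '' closedBall 0 (σ.rd q)
    · obtain ⟨z, hz, rfl⟩ := hq
      have hz' : σ.rd' q ≤ ‖z‖ := by
        by_contra hn
        exact hx q ⟨z, mem_closedBall_zero_iff.2 (le_of_lt (not_le.1 hn)), rfl⟩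
      rw [h.crossF_param q (mem_closedBall_zero_iff.1 hz),
        h.fderiv_outer q ((h.lt q).le.trans hz'), crossL_apply, smul_apply, smul_apply]
      exact cross_flat _
    · exact crossF_outside q hq
  rw [this, unit3_smul_axis (pow_pos (σ.pt q).μ_pos 2), sub_self, map_zero]

omit [T2Space M] in
lemma Loc.mapO_param (h : σ.Loc Fl ρ) (q : σ.Idx) {z : R2} (hz : ‖z‖ ≤ σ.rd q) :
    σ.mapO Fl (σ.U q z) =
      σ.tw q (unit3 (crossL (fderiv ℝ (Fl q) z (eb 0)) (fderiv ℝ (Fl q) z (eb 1)))) := by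
  classical
  ext1 v
  rw [mapO, add_apply, Finset.sum_eq_single q (fun p _ hp => ?_)
    (fun hn => absurd (Finset.mem_univ q) hn), h.crossF_param q hz, map_sub, sub_apply,
    ContinuousLinearMap.comp_apply, σ.line q (σ.mem_source q hz), tw_apply, tw_apply, σ.rot_axis,
    map_smul]
  · abel
  · have hnot : σ.U q z ∉ σ.U p '' closedBall 0 (σ.rd p) := by
      rintro ⟨w, hw, he⟩
      exact Set.disjoint_left.1 (σ.disjU p q hp) ((σ.U p).map_source (σ.ball_source p hw))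
        (he ▸ (σ.U q).map_source (σ.mem_source q hz))
    rw [crossF_outside p hnot, unit3_smul_axis (pow_pos (σ.pt p).μ_pos 2), sub_self, map_zero]

omit [T2Space M] in
lemma mfderiv_param_surj (q : σ.Idx) {z : R2} (hz : z ∈ (σ.U q).source)
    (v : TangentSpace (𝓡 2) (σ.U q z)) : ∃ w, mfderiv (𝓡 2) (𝓡 2) (σ.U q) z w = v :=
  ((σ.pt q).bijective z hz).2 v

omit [T2Space M] in
lemma Loc.dmapF_param (h : σ.Loc Fl ρ) (hF : ContMDiff (𝓡 2) 𝓘(ℝ, R4) ∞ (σ.mapF Fl)) (q : σ.Idx)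
    {z : R2} (hz : ‖z‖ < σ.rd q) (w : R2) :
    (mfderiv (𝓡 2) 𝓘(ℝ, R4) (σ.mapF Fl) (σ.U q z) (mfderiv (𝓡 2) (𝓡 2) (σ.U q) z w) : R4) =
      emb34 (σ.rot q (fderiv ℝ (Fl q) z w)) := by
  have hc := mfderiv_comp z (hF.mdifferentiableAt (by simp) (x := σ.U q z))
    (mdiffAt_param (σ.smooth_U q) (σ.mem_source q hz.le))
  rw [mfderiv_eq_fderiv] at hc
  refine (DFunLike.congr_fun hc w).symm.trans ?_
  have he : (σ.mapF Fl ∘ σ.U q) =ᶠ[𝓝 z] fun a => emb34 (σ.G q.1 + σ.rot q (Fl q a)) :=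
    h.mapF_eventually q hz
  have hd : HasFDerivAt (fun a => emb34 (σ.G q.1 + σ.rot q (Fl q a)))
      (emb34.comp ((σ.rot q).comp (fderiv ℝ (Fl q) z))) z :=
    emb34.hasFDerivAt.comp z (((σ.rot q).hasFDerivAt.comp z
      ((h.smooth q).differentiable (by simp) z).hasFDerivAt).const_add (σ.G q.1))
  rw [he.fderiv_eq, hd.fderiv]
  rfl

omit [T2Space M] in
lemma inner_axis4_mapF (x : M) : ⟪axis4, σ.mapF Fl x⟫ = 0 := by
  simp only [mapF, spread, inner_add_right, inner_sum, inner_axis4_emb34, zero_add]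
  refine Finset.sum_eq_zero fun q _ => ?_
  simp only [lift]
  split_ifs
  · exact inner_axis4_emb34 _
  · exact inner_zero_right _

/-- The normal data of the base map. -/
def Loc.normal (h : σ.Loc Fl ρ) : NormalData σ.G (σ.mapF Fl) where
  n1 := fun _ => axis4
  O := σ.mapO Fl
  smooth_n1 := contMDiff_const
  smooth_O := h.contMDiff_mapO
  unit_n1 := fun _ => norm_axis4
  normal_n1 x := by
    rw [Submodule.mem_orthogonal]
    rintro w ⟨v, rfl⟩
    rw [real_inner_comm]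
    have hd := (h.contMDiff_mapF.mdifferentiableAt (by simp) (x := x)).hasMFDerivAt
    have hc := (innerSL ℝ axis4).hasFDerivAt.hasMFDerivAt.comp x hd
    have he : (innerSL ℝ axis4 : R4 → ℝ) ∘ σ.mapF Fl = fun _ => (0 : ℝ) :=
      funext fun y => inner_axis4_mapF y
    have e := hc.mfderiv
    rw [he, mfderiv_const] at e
    exact (DFunLike.congr_fun e v).symm
  normal_O x v := by
    have hax : ∀ w : R3, ⟪axis4, emb34 w⟫ = 0 := inner_axis4_emb34
    rcases σ.cases_point x with hx | ⟨q, z, hz, rfl⟩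
    · rw [h.mapO_outer hx, ContinuousLinearMap.comp_apply]
      refine ⟨?_, hax _⟩
      rw [Submodule.mem_orthogonal]
      rintro w ⟨t, rfl⟩
      have hd := emb34.hasFDerivAt.hasMFDerivAt.comp x
        (σ.imm.1.mdifferentiableAt (by simp) (x := x)).hasMFDerivAt
      have he : mfderiv (𝓡 2) 𝓘(ℝ, R4) (σ.mapF Fl) x =
          mfderiv (𝓡 2) 𝓘(ℝ, R4) (fun y => emb34 (σ.G y)) x :=
        (h.mapF_outer hx).mfderiv_eq
      show ⟪(mfderiv (𝓡 2) 𝓘(ℝ, R4) (σ.mapF Fl) x t : R4), emb34 (nLine σ.G x v)⟫ = 0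
      rw [he]
      simp only [Function.comp_def] at hd
      rw [hd.mfderiv]
      refine (inner_emb34 _ _).trans ?_
      exact Submodule.inner_right_of_mem_orthogonal (LinearMap.mem_range_self _ t)
        (Submodule.starProjection_apply_mem _ v)
    · have hzr : ‖z‖ < σ.rd q := lt_of_le_of_lt hz (σ.rd'_lt q)
      rw [h.mapO_param q hzr.le, tw_apply]
      refine ⟨?_, by rw [real_inner_smul_right, hax, mul_zero]⟩
      rw [Submodule.mem_orthogonal]
      rintro w ⟨t, rfl⟩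
      obtain ⟨t', rfl⟩ := mfderiv_param_surj q (σ.mem_source q hzr.le) t
      show ⟪(mfderiv (𝓡 2) 𝓘(ℝ, R4) (σ.mapF Fl) (σ.U q z) _ : R4), _⟫ = 0
      refine (congrArg (fun r : R4 => (⟪r, _⟫ : ℝ)) (h.dmapF_param h.contMDiff_mapF q hzr t')).trans ?_
      rw [real_inner_smul_right, inner_emb34, σ.inner_rot,
        unit3, real_inner_smul_right, crossL_apply, sum_eb (t' : R2), map_add, map_smul,
        map_smul, inner_add_left, real_inner_smul_left, real_inner_smul_left,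
        real_inner_comm _ (fderiv ℝ (Fl q) z (eb 0)), real_inner_comm _ (fderiv ℝ (Fl q) z (eb 1)),
        Sect.inner_cr_left, Sect.inner_cr_right, mul_zero, mul_zero, add_zero, mul_zero, mul_zero]
  O_line x v := by
    rcases σ.cases_point x with hx | ⟨q, z, hz, rfl⟩
    · rw [h.mapO_outer hx, ContinuousLinearMap.comp_apply, ContinuousLinearMap.comp_apply]
      congr 1
      exact Submodule.starProjection_eq_self_iff.2 (Submodule.starProjection_apply_mem _ v)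
    · have hzr : ‖z‖ ≤ σ.rd q := le_of_lt (lt_of_le_of_lt hz (σ.rd'_lt q))
      rw [h.mapO_param q hzr, tw_apply, tw_apply, σ.line q (σ.mem_source q hzr),
        real_inner_smul_right, real_inner_self_eq_norm_sq, (σ.pt q).norm_n]
      congr 1
      ring
  iso_O x v := by
    rcases σ.cases_point x with hx | ⟨q, z, hz, rfl⟩
    · rw [h.mapO_outer hx, ContinuousLinearMap.comp_apply, norm_emb34]
    · have hzr : ‖z‖ ≤ σ.rd q := le_of_lt (lt_of_le_of_lt hz (σ.rd'_lt q))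
      have hne := h.crossF_ne q (σ.U q z)
      rw [h.crossF_param q hzr] at hne
      rw [h.mapO_param q hzr, tw_apply, σ.line q (σ.mem_source q hzr), norm_smul, norm_smul,
        norm_emb34, σ.norm_rot, norm_unit3 hne, (σ.pt q).norm_n]

end Setup

end Vale.Agent.P205.Full.Start
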