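import Vale.Agent.P205.Full.Statement

/-!
# P205 full, START A2: the anisotropic profile of the section near a critical point

On the coordinate plane the function `(a x² + b y²)/2` is changed inside the ball of radius `r`
to a function that is `(A x² + B y²)/2 + c` on the square of side `4ρ`, with no new critical
point and with differential changed by `O(ρ)`.
-/

open Set Metric
open scoped ContDiff RealInnerProductSpace

noncomputable section

namespace Vale.Agent.P205.Full.Start

/-- An even cutoff: one for `|t| ≤ 2`, zero for `|t| ≥ 4`. -/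
def beta (t : ℝ) : ℝ := Real.smoothTransition ((16 - t ^ 2) / 12)

/-- The primitive of `t * beta t` vanishing far out. -/
def bigW (t : ℝ) : ℝ := ∫ u in (-4 : ℝ)..t, u * beta u

/-- A radial cutoff: one for `‖z‖ ≤ 1/2`, zero for `‖z‖ ≥ 1`. -/
def cut1 (z : R2) : ℝ := Real.smoothTransition (4 * (1 - ‖z‖ ^ 2) / 3)

/-- The radial cutoff of radius `r`. -/
def cutR (r : ℝ) (z : R2) : ℝ := cut1 (r⁻¹ • z)

/-- The first coordinate. -/
def px : R2 →L[ℝ] ℝ := EuclideanSpace.proj 0

/-- The second coordinate. -/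
def py : R2 →L[ℝ] ℝ := EuclideanSpace.proj 1

/-- The diagonal quadratic form `(a x² + b y²)/2`. -/
def quad (a b : ℝ) (z : R2) : ℝ := (a * px z ^ 2 + b * py z ^ 2) / 2

/-- The differential of `quad`. -/
def dquad (a b : ℝ) (z : R2) : R2 →L[ℝ] ℝ := (a * px z) • px + (b * py z) • py

/-- The anisotropic profile. -/
def profile (a b A B r ρ : ℝ) (z : R2) : ℝ :=
  quad a b z + cutR r z * (ρ ^ 2 * ((A - a) * bigW (px z / ρ) + (B - b) * bigW (py z / ρ)))

lemma beta_smooth : ContDiff ℝ ∞ beta := by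
  unfold beta; exact Real.smoothTransition.contDiff.comp (by fun_prop)

lemma beta_nonneg (t : ℝ) : 0 ≤ beta t := Real.smoothTransition.nonneg _

lemma beta_le_one (t : ℝ) : beta t ≤ 1 := Real.smoothTransition.le_one _

lemma beta_one {t : ℝ} (h : |t| ≤ 2) : beta t = 1 := by
  refine Real.smoothTransition.one_of_one_le ?_
  have := sq_le_sq' (neg_le_of_abs_le h) (le_of_abs_le h)
  linarith

lemma beta_zero {t : ℝ} (h : 4 ≤ |t|) : beta t = 0 := by
  refine Real.smoothTransition.zero_of_nonpos ?_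
  have : (4 : ℝ) ^ 2 ≤ |t| ^ 2 := pow_le_pow_left₀ (by norm_num) h 2
  rw [sq_abs] at this
  linarith

lemma continuous_mul_beta : Continuous fun u : ℝ => u * beta u :=
  continuous_id.mul beta_smooth.continuous

lemma abs_mul_beta (u : ℝ) : |u * beta u| ≤ 4 := by
  rcases le_or_gt 4 |u| with h | h
  · simp [beta_zero h]
  · rw [abs_mul, abs_of_nonneg (beta_nonneg u)]
    exact (mul_le_of_le_one_right (abs_nonneg u) (beta_le_one u)).trans h.le

lemma hasDerivAt_bigW (t : ℝ) : HasDerivAt bigW (t * beta t) t :=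
  intervalIntegral.integral_hasDerivAt_right (continuous_mul_beta.intervalIntegrable _ _)
    (continuous_mul_beta.stronglyMeasurableAtFilter _ _) continuous_mul_beta.continuousAt

lemma bigW_smooth : ContDiff ℝ ∞ bigW := by
  rw [contDiff_infty_iff_deriv]
  refine ⟨fun t => (hasDerivAt_bigW t).differentiableAt, ?_⟩
  rw [show deriv bigW = fun t => t * beta t from funext fun t => (hasDerivAt_bigW t).deriv]
  exact contDiff_id.mul beta_smooth

lemma bigW_right {t : ℝ} (h : 4 ≤ t) : bigW t = 0 := by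
  have hodd : ∫ u in (-4 : ℝ)..4, u * beta u = 0 := by
    have h1 := intervalIntegral.integral_comp_neg (a := (-4 : ℝ)) (b := 4) fun u => u * beta u
    simp only [beta, neg_sq, neg_mul, intervalIntegral.integral_neg, neg_neg] at h1
    simp only [beta]
    linarith
  rw [bigW, ← intervalIntegral.integral_add_adjacent_intervals
    (continuous_mul_beta.intervalIntegrable (-4) 4) (continuous_mul_beta.intervalIntegrable 4 t),
    hodd, zero_add]
  refine (intervalIntegral.integral_congr (g := fun _ => (0 : ℝ)) fun u hu => ?_).trans (by simp)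
  rw [uIcc_of_le h] at hu
  simp [beta_zero (hu.1.trans (le_abs_self u))]

lemma bigW_left {t : ℝ} (h : t ≤ -4) : bigW t = 0 := by
  refine (intervalIntegral.integral_congr (g := fun _ => (0 : ℝ)) fun u hu => ?_).trans (by simp)
  rw [uIcc_of_ge h] at hu
  simp [beta_zero (show 4 ≤ |u| by linarith [neg_le_abs u, hu.2])]

lemma bigW_zero {t : ℝ} (h : 4 ≤ |t|) : bigW t = 0 := by
  rcases le_abs.1 h with h | h
  · exact bigW_right h
  · exact bigW_left (by linarith)

lemma abs_bigW (t : ℝ) : |bigW t| ≤ 32 := by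
  rcases le_or_gt 4 |t| with h | h
  · simp [bigW_zero h]
  · obtain ⟨h1, h2⟩ := abs_lt.1 h
    have := intervalIntegral.norm_integral_le_of_norm_le_const (a := (-4 : ℝ)) (b := t)
      (C := 4) (f := fun u => u * beta u) fun u _ => by
        rw [Real.norm_eq_abs]; exact abs_mul_beta u
    rw [Real.norm_eq_abs, abs_of_nonneg (by linarith : 0 ≤ t - (-4))] at this
    unfold bigW
    linarith

lemma bigW_near {t : ℝ} (h : |t| ≤ 2) : bigW t = t ^ 2 / 2 + bigW 0 := by
  have e := intervalIntegral.integral_add_adjacent_intervals (μ := MeasureTheory.volume)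
    (continuous_mul_beta.intervalIntegrable (-4) 0) (continuous_mul_beta.intervalIntegrable 0 t)
  have e' : ∫ u in (0 : ℝ)..t, u * beta u = t ^ 2 / 2 := by
    rw [intervalIntegral.integral_congr (g := fun u => u) fun u hu => ?_, integral_id]
    · ring
    · have := abs_sub_left_of_mem_uIcc hu
      simp only [sub_zero] at this
      simp [beta_one (this.trans h)]
  rw [bigW, bigW, ← e, e']; ring

lemma cut1_smooth : ContDiff ℝ ∞ cut1 :=
  Real.smoothTransition.contDiff.comp
    (((contDiff_const.sub (contDiff_norm_sq ℝ)).const_smul (4 : ℝ)).div_const 3)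

lemma cut1_nonneg (z : R2) : 0 ≤ cut1 z := Real.smoothTransition.nonneg _

lemma cut1_le_one (z : R2) : cut1 z ≤ 1 := Real.smoothTransition.le_one _

lemma cut1_one {z : R2} (h : ‖z‖ ≤ 1 / 2) : cut1 z = 1 := by
  refine Real.smoothTransition.one_of_one_le ?_
  have := pow_le_pow_left₀ (norm_nonneg z) h 2
  linarith

lemma cut1_zero {z : R2} (h : 1 ≤ ‖z‖) : cut1 z = 0 := by
  refine Real.smoothTransition.zero_of_nonpos ?_
  have := pow_le_pow_left₀ zero_le_one h 2
  linarith

lemma cutR_smooth (r : ℝ) : ContDiff ℝ ∞ (cutR r) :=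
  cut1_smooth.comp (contDiff_id.const_smul r⁻¹)

lemma cutR_nonneg (r : ℝ) (z : R2) : 0 ≤ cutR r z := cut1_nonneg _

lemma cutR_le_one (r : ℝ) (z : R2) : cutR r z ≤ 1 := cut1_le_one _

lemma norm_scaled {r : ℝ} (hr : 0 < r) (z : R2) : ‖r⁻¹ • z‖ = ‖z‖ / r := by
  rw [norm_smul, norm_inv, Real.norm_of_nonneg hr.le, inv_mul_eq_div]

lemma cutR_one {r : ℝ} (hr : 0 < r) {z : R2} (h : ‖z‖ ≤ r / 2) : cutR r z = 1 :=
  cut1_one (by rw [norm_scaled hr, div_le_iff₀ hr]; linarith)

lemma cutR_zero {r : ℝ} (hr : 0 < r) {z : R2} (h : r ≤ ‖z‖) : cutR r z = 0 :=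
  cut1_zero (by rwa [norm_scaled hr, one_le_div hr])

lemma exists_cutR_deriv_bound :
    ∃ C : ℝ, 0 < C ∧ ∀ r : ℝ, 0 < r → ∀ z, ‖fderiv ℝ (cutR r) z‖ ≤ C / r := by
  have hsupp : HasCompactSupport cut1 :=
    HasCompactSupport.intro (isCompact_closedBall (0 : R2) 1) fun z hz =>
      cut1_zero (by simp only [mem_closedBall, dist_zero_right, not_le] at hz; exact hz.le)
  obtain ⟨C, hC⟩ := (hsupp.fderiv ℝ).exists_bound_of_continuous
    (cut1_smooth.continuous_fderiv (by simp))
  refine ⟨max C 1, by positivity, fun r hr z => ?_⟩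
  have h1 : fderiv ℝ (cutR r) z = r⁻¹ • fderiv ℝ cut1 (r⁻¹ • z) := by
    have hd : HasFDerivAt (fun z : R2 => r⁻¹ • z) (r⁻¹ • ContinuousLinearMap.id ℝ R2) z :=
      (hasFDerivAt_id z).fun_const_smul r⁻¹
    have hd2 := ((cut1_smooth.differentiable (by simp)) (r⁻¹ • z)).hasFDerivAt.comp z hd
    rw [show cutR r = cut1 ∘ fun z : R2 => r⁻¹ • z from rfl, hd2.fderiv]
    ext v; simp
  rw [h1, norm_smul, norm_inv, Real.norm_of_nonneg hr.le, inv_mul_eq_div]
  exact div_le_div_of_nonneg_right ((hC _).trans (le_max_left _ _)) hr.le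

lemma abs_px (z : R2) : |px z| ≤ ‖z‖ := by simpa [px] using PiLp.norm_apply_le z 0

lemma abs_py (z : R2) : |py z| ≤ ‖z‖ := by simpa [py] using PiLp.norm_apply_le z 1

lemma norm_px : ‖px‖ ≤ 1 :=
  ContinuousLinearMap.opNorm_le_bound _ zero_le_one fun z => by simpa using abs_px z

lemma norm_py : ‖py‖ ≤ 1 :=
  ContinuousLinearMap.opNorm_le_bound _ zero_le_one fun z => by simpa using abs_py z

lemma norm_sq_eq (z : R2) : ‖z‖ ^ 2 = px z ^ 2 + py z ^ 2 := by
  simp [EuclideanSpace.real_norm_sq_eq, Fin.sum_univ_two, px, py]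

lemma quad_smooth (a b : ℝ) : ContDiff ℝ ∞ (quad a b) := by
  have h1 : ContDiff ℝ ∞ fun z : R2 => px z := px.contDiff
  have h2 : ContDiff ℝ ∞ fun z : R2 => py z := py.contDiff
  exact (((contDiff_const.mul (h1.pow 2))).add (contDiff_const.mul (h2.pow 2))).div_const 2

lemma hasFDerivAt_quad (a b : ℝ) (z : R2) : HasFDerivAt (quad a b) (dquad a b z) z := by
  have hx := (px.hasFDerivAt (x := z)).pow 2
  have hy := (py.hasFDerivAt (x := z)).pow 2
  refine (((hx.const_mul a).fun_add (hy.const_mul b)).fun_mul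
    (hasFDerivAt_const (2⁻¹ : ℝ) z)).congr_fderiv ?_ |>.congr_of_eventuallyEq ?_
  · ext v; simp [dquad]; ring
  · exact Filter.Eventually.of_forall fun w => by simp [quad, div_eq_mul_inv]

lemma profile_smooth (a b A B r ρ : ℝ) : ContDiff ℝ ∞ (profile a b A B r ρ) :=
  (quad_smooth a b).add ((cutR_smooth r).mul (contDiff_const.mul
    ((contDiff_const.mul (bigW_smooth.comp (px.contDiff.div_const ρ))).add
      (contDiff_const.mul (bigW_smooth.comp (py.contDiff.div_const ρ))))))

lemma profile_outer {a b A B r ρ : ℝ} (hr : 0 < r) {z : R2} (h : r ≤ ‖z‖) :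
    profile a b A B r ρ z = quad a b z := by simp [profile, cutR_zero hr h]

lemma profile_inner {a b A B r ρ : ℝ} (hr : 0 < r) (hρ : 0 < ρ) (hρr : 8 * ρ ≤ r) {z : R2}
    (hx : |px z| ≤ 2 * ρ) (hy : |py z| ≤ 2 * ρ) :
    profile a b A B r ρ z = quad A B z + ρ ^ 2 * bigW 0 * ((A - a) + (B - b)) := by
  have h1 : ‖z‖ ≤ r / 2 := by
    refine le_of_pow_le_pow_left₀ two_ne_zero (by linarith) ?_
    rw [norm_sq_eq, ← sq_abs (px z), ← sq_abs (py z)]
    nlinarith [pow_le_pow_left₀ (abs_nonneg (px z)) hx 2, pow_le_pow_left₀ (abs_nonneg (py z)) hy 2]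
  have e : ∀ t : ℝ, |t| ≤ 2 * ρ → bigW (t / ρ) = (t / ρ) ^ 2 / 2 + bigW 0 := fun t ht =>
    bigW_near (by rw [abs_div, abs_of_pos hρ, div_le_iff₀ hρ]; exact ht)
  rw [profile, cutR_one hr h1, e _ hx, e _ hy, quad, quad]
  field_simp; ring

lemma hasFDerivAt_profile (a b A B r : ℝ) {ρ : ℝ} (hρ : ρ ≠ 0) (z : R2) :
    HasFDerivAt (profile a b A B r ρ)
      (dquad a b z +
        (cutR r z • (((A - a) * (px z * beta (px z / ρ))) • px +
            ((B - b) * (py z * beta (py z / ρ))) • py) +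
          (ρ ^ 2 * ((A - a) * bigW (px z / ρ) + (B - b) * bigW (py z / ρ))) •
            fderiv ℝ (cutR r) z)) z := by
  have hw : ∀ p : R2 →L[ℝ] ℝ, HasFDerivAt (fun w : R2 => bigW (p w / ρ))
      ((p z / ρ * beta (p z / ρ)) • (ρ⁻¹ • p)) z := fun p => by
    have hp : HasFDerivAt (fun w : R2 => p w / ρ) (ρ⁻¹ • p) z := by
      simpa [div_eq_mul_inv] using (p.hasFDerivAt (x := z)).mul_const ρ⁻¹
    exact (hasDerivAt_bigW _).comp_hasFDerivAt z hp
  have h := (((hw px).const_mul (A - a)).fun_add ((hw py).const_mul (B - b))).const_mul (ρ ^ 2)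
  refine ((hasFDerivAt_quad a b z).fun_add
    (((cutR_smooth r).differentiable (by simp) z).hasFDerivAt.fun_mul h)).congr_fderiv ?_
  ext v
  simp only [add_apply, smul_apply, smul_eq_mul]
  field_simp

/-- The profile: its differential vanishes only at the origin and is changed by `O(ρ)`. -/
theorem exists_profile_bound :
    ∃ C : ℝ, 0 < C ∧ ∀ a b A B r ρ : ℝ, 0 < r → 0 < ρ → 16 * ρ ≤ r →
      (∀ z, ‖fderiv ℝ (profile a b A B r ρ) z - dquad a b z‖ ≤
          C * ρ * (|a| + |b| + |A| + |B|)) ∧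
      (0 < a * A → 0 < b * B → C * ρ ^ 2 * (|a| + |b| + |A| + |B|) < min |a| |b| * r ^ 2 →
        ∀ z, fderiv ℝ (profile a b A B r ρ) z = 0 → z = 0) := by
  obtain ⟨C₁, hC₁, hcut⟩ := exists_cutR_deriv_bound
  refine ⟨8 + 100 * C₁, by linarith, fun a b A B r ρ hr hρ hρr => ?_⟩
  set S := |a| + |b| + |A| + |B| with hS
  have hS0 : 0 ≤ S := by positivity
  have hw : ∀ z, |(A - a) * bigW (px z / ρ) + (B - b) * bigW (py z / ρ)| ≤ 32 * S := fun z => by
    refine (abs_add_le _ _).trans ?_
    rw [abs_mul, abs_mul]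
    have := mul_le_mul (abs_sub A a) (abs_bigW (px z / ρ)) (abs_nonneg _) (by positivity)
    have := mul_le_mul (abs_sub B b) (abs_bigW (py z / ρ)) (abs_nonneg _) (by positivity)
    linarith
  have herr : ∀ z, ‖(ρ ^ 2 * ((A - a) * bigW (px z / ρ) + (B - b) * bigW (py z / ρ))) •
      fderiv ℝ (cutR r) z‖ ≤ 32 * C₁ * S * (ρ ^ 2 / r) := fun z => by
    rw [norm_smul, Real.norm_eq_abs, abs_mul, abs_of_nonneg (sq_nonneg ρ)]
    calc ρ ^ 2 * |(A - a) * bigW (px z / ρ) + (B - b) * bigW (py z / ρ)| * ‖fderiv ℝ (cutR r) z‖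
        ≤ ρ ^ 2 * (32 * S) * (C₁ / r) :=
          mul_le_mul (mul_le_mul_of_nonneg_left (hw z) (sq_nonneg ρ)) (hcut r hr z)
            (norm_nonneg _) (by positivity)
      _ = _ := by ring
  have hmul : ∀ t : ℝ, |t * beta (t / ρ)| ≤ 4 * ρ := fun t => by
    have e : t * beta (t / ρ) = ρ * (t / ρ * beta (t / ρ)) := by field_simp
    rw [e, abs_mul, abs_of_pos hρ]
    nlinarith [abs_mul_beta (t / ρ)]
  refine ⟨fun z => ?_, fun haA hbB hsmall z hz => ?_⟩
  · rw [(hasFDerivAt_profile a b A B r hρ.ne' z).fderiv, add_sub_cancel_left]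
    refine (norm_add_le _ _).trans ?_
    have h1 : ∀ (c t : ℝ) (p : R2 →L[ℝ] ℝ), ‖p‖ ≤ 1 →
        ‖(c * (t * beta (t / ρ))) • p‖ ≤ |c| * (4 * ρ) := fun c t p hp => by
      rw [norm_smul, Real.norm_eq_abs, abs_mul]
      exact (mul_le_of_le_one_right (by positivity) hp).trans
        (mul_le_mul_of_nonneg_left (hmul t) (abs_nonneg c))
    have h2 : ‖cutR r z • (((A - a) * (px z * beta (px z / ρ))) • px +
        ((B - b) * (py z * beta (py z / ρ))) • py)‖ ≤ 4 * ρ * S := by
      rw [norm_smul, Real.norm_of_nonneg (cutR_nonneg r z)]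
      refine (mul_le_of_le_one_left (norm_nonneg _) (cutR_le_one r z)).trans
        ((norm_add_le _ _).trans ?_)
      refine (add_le_add (h1 _ _ _ norm_px) (h1 _ _ _ norm_py)).trans ?_
      nlinarith [abs_sub A a, abs_sub B b, hS]
    have h3 : ρ ^ 2 / r ≤ ρ := by rw [div_le_iff₀ hr]; nlinarith
    have h4 := mul_le_mul_of_nonneg_left h3 (by positivity : (0 : ℝ) ≤ 32 * C₁ * S)
    have := herr z
    nlinarith [mul_nonneg (mul_nonneg hC₁.le hρ.le) hS0, mul_nonneg hρ.le hS0]
  · rw [(hasFDerivAt_profile a b A B r hρ.ne' z).fderiv] at hz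
    -- the two coordinate components
    have key : ∀ (v : R2) (c d t : ℝ), dquad a b z v = c * t →
        (cutR r z • (((A - a) * (px z * beta (px z / ρ))) • px +
          ((B - b) * (py z * beta (py z / ρ))) • py)) v = cutR r z * ((d - c) * (t * beta (t / ρ))) →
        ‖v‖ = 1 → 0 < c * d → min |a| |b| ≤ |c| →
        (‖z‖ < r / 2 → t = 0) ∧ (r / 2 ≤ ‖z‖ → |t| < r / 3) := by
      intro v c d t e1 e2 hv hcd hm
      have hzv := congrArg (fun L : R2 →L[ℝ] ℝ => L v) hz
      simp only [add_apply, e1, e2, zero_apply] at hzv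
      constructor
      · intro hin
        have hev : cutR r =ᶠ[nhds z] fun _ => 1 := by
          filter_upwards [(isOpen_lt continuous_norm continuous_const).mem_nhds hin] with w hw
          exact cutR_one hr (le_of_lt hw)
        have hc0 : fderiv ℝ (cutR r) z = 0 := by rw [hev.fderiv_eq]; simp
        rw [hc0, smul_zero, zero_apply, cutR_one hr hin.le, add_zero] at hzv
        have h' : t * (c + (d - c) * beta (t / ρ)) = 0 := by linarith
        rcases mul_eq_zero.1 h' with ht | hk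
        · exact ht
        · exfalso
          have hb0 := beta_nonneg (t / ρ)
          have hb1 := beta_le_one (t / ρ)
          have hk' : (c + (d - c) * beta (t / ρ)) * c = 0 := by rw [hk, zero_mul]
          have hcpos : 0 < c * c := mul_self_pos.2 (left_ne_zero_of_mul hcd.ne')
          nlinarith [mul_nonneg hb0 hcd.le, mul_nonneg (sub_nonneg.2 hb1) hcpos.le]
      · intro hout
        by_contra ht
        push Not at ht
        rw [beta_zero (by rw [abs_div, abs_of_pos hρ, le_div_iff₀ hρ]; linarith)] at hzv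
        simp only [mul_zero, zero_add] at hzv
        have h1 : |c * t| ≤ 32 * C₁ * S * (ρ ^ 2 / r) := by
          rw [eq_neg_of_add_eq_zero_left hzv, abs_neg, ← Real.norm_eq_abs]
          refine ((ContinuousLinearMap.le_opNorm _ v).trans ?_)
          rw [hv, mul_one]; exact herr z
        have h2 : min |a| |b| * (r / 3) ≤ |c * t| := by
          rw [abs_mul]; exact mul_le_mul hm ht (by linarith) (abs_nonneg c)
        have h3 : min |a| |b| * (r / 3) * r ≤ 32 * C₁ * S * (ρ ^ 2 / r) * r :=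
          mul_le_mul_of_nonneg_right (h2.trans h1) hr.le
        rw [mul_assoc (32 * C₁ * S), div_mul_cancel₀ _ hr.ne'] at h3
        nlinarith [mul_nonneg (sq_nonneg ρ) hS0,
          mul_nonneg (mul_nonneg (sq_nonneg ρ) hS0) hC₁.le]
    have k1 := key (EuclideanSpace.single 0 1) a A (px z) (by simp [dquad, px, py])
      (by simp [px, py]) (by simp) haA (min_le_left _ _)
    have k2 := key (EuclideanSpace.single 1 1) b B (py z) (by simp [dquad, px, py])
      (by simp [px, py]) (by simp) hbB (min_le_right _ _)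
    rcases lt_or_ge ‖z‖ (r / 2) with hin | hout
    · have : ‖z‖ ^ 2 = 0 := by rw [norm_sq_eq, k1.1 hin, k2.1 hin]; simp
      simpa using this
    · exfalso
      have := norm_sq_eq z
      have := pow_le_pow_left₀ (by linarith : (0 : ℝ) ≤ r / 2) hout 2
      have h1 := pow_lt_pow_left₀ (k1.2 hout) (abs_nonneg _) two_ne_zero
      have h2 := pow_lt_pow_left₀ (k2.2 hout) (abs_nonneg _) two_ne_zero
      rw [sq_abs] at h1 h2
      nlinarith

end Vale.Agent.P205.Full.Start
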