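import Mathlib

/-!
# Module START, A4: the profile of the radial contraction

`w μ s₁ s = μ + (1 - μ) χ(s/s₁) (1 + s)^(-1/8)`: decreasing, equal to `μ` for large `s`, and
`-4 s w'(s) ≤ (3/4) w(s)` for `s₁` large, so `r ↦ r w(k r⁴)` is strictly increasing.
-/

open Real Set Filter Topology

namespace Vale.Agent.P205.Full.Start

/-- `(1 + s)^(1/8)`. -/
noncomputable def rootEight (s : ℝ) : ℝ := (1 + s) ^ (1 / 8 : ℝ)

/-- The cutoff: `1` for `x ≤ 1`, `0` for `x ≥ 2`. -/
noncomputable def pcut (x : ℝ) : ℝ := smoothTransition (2 - x)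

/-- The profile. -/
noncomputable def wprof (μ s₁ s : ℝ) : ℝ := μ + (1 - μ) * (pcut (s / s₁) * (rootEight s)⁻¹)

lemma rootEight_pos {s : ℝ} (hs : -1 < s) : 0 < rootEight s :=
  rpow_pos_of_pos (by linarith) _

lemma one_le_rootEight {s : ℝ} (hs : 0 ≤ s) : 1 ≤ rootEight s :=
  one_le_rpow (by linarith) (by norm_num)

lemma rootEight_mono {s t : ℝ} (hs : -1 < s) (h : s ≤ t) : rootEight s ≤ rootEight t :=
  rpow_le_rpow (by linarith) (by linarith) (by norm_num)

lemma rootEight_pow {s : ℝ} (hs : -1 < s) : rootEight s ^ 8 = 1 + s := by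
  rw [rootEight, ← rpow_natCast, ← rpow_mul (by linarith)]
  norm_num

lemma pcut_of_le {x : ℝ} (h : x ≤ 1) : pcut x = 1 :=
  smoothTransition.one_of_one_le (by linarith)

lemma pcut_of_ge {x : ℝ} (h : 2 ≤ x) : pcut x = 0 :=
  smoothTransition.zero_of_nonpos (by linarith)

lemma pcut_mem (x : ℝ) : pcut x ∈ Icc (0 : ℝ) 1 :=
  ⟨smoothTransition.nonneg _, smoothTransition.le_one _⟩

lemma contDiff_pcut {n : ℕ∞} : ContDiff ℝ n pcut :=
  smoothTransition.contDiff.comp (contDiff_const.sub contDiff_id)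

lemma contDiffAt_rootEight {n : ℕ∞} {s : ℝ} (hs : -1 < s) : ContDiffAt ℝ n rootEight s :=
  ((contDiffAt_const.add contDiffAt_id).rpow_const_of_ne (by dsimp; linarith))

lemma contDiffAt_wprof {n : ℕ∞} (μ s₁ : ℝ) {s : ℝ} (hs : -1 < s) :
    ContDiffAt ℝ n (wprof μ s₁) s := by
  refine contDiffAt_const.add (contDiffAt_const.mul (ContDiffAt.mul ?_ ?_))
  · exact (contDiff_pcut.comp (contDiff_id.div_const s₁)).contDiffAt
  · exact (contDiffAt_rootEight hs).inv (rootEight_pos hs).ne'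

lemma hasDerivAt_rootEight {s : ℝ} (hs : -1 < s) :
    HasDerivAt rootEight (rootEight s / (8 * (1 + s))) s := by
  have h := ((hasDerivAt_id s).const_add 1).rpow_const (p := (1 / 8 : ℝ))
    (Or.inl (by dsimp; linarith))
  refine h.congr_deriv ?_
  simp only [id_eq, one_mul]
  rw [rootEight, rpow_sub (by linarith : (0 : ℝ) < 1 + s), rpow_one]
  field_simp

lemma hasDerivAt_wprof (μ s₁ : ℝ) {s : ℝ} (hs : -1 < s) :
    HasDerivAt (wprof μ s₁)
      ((1 - μ) * (deriv pcut (s / s₁) / s₁ * (rootEight s)⁻¹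
        - pcut (s / s₁) * (rootEight s)⁻¹ / (8 * (1 + s)))) s := by
  have h1 : HasDerivAt (fun s => pcut (s / s₁)) (deriv pcut (s / s₁) / s₁) s := by
    have hp : HasDerivAt pcut (deriv pcut (s / s₁)) (s / s₁) :=
      ((contDiff_pcut (n := 1)).differentiable (by simp) _).hasDerivAt
    exact (HasDerivAt.comp s (h := fun s : ℝ => s / s₁) hp
      ((hasDerivAt_id s).div_const s₁)).congr_deriv (by ring)
  have h2 := (hasDerivAt_rootEight hs).inv (rootEight_pos hs).ne'
  refine (((h1.mul h2).const_mul (1 - μ)).const_add μ).congr_deriv ?_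
  have := (rootEight_pos hs).ne'
  simp only [Pi.inv_apply]
  field_simp
  ring

lemma wprof_zero (μ s₁ : ℝ) : wprof μ s₁ 0 = 1 := by
  simp [wprof, rootEight, pcut_of_le]

lemma wprof_eq_mu {μ s₁ s : ℝ} (hs₁ : 0 < s₁) (h : 2 * s₁ ≤ s) : wprof μ s₁ s = μ := by
  rw [wprof, pcut_of_ge (by rw [le_div_iff₀ hs₁]; linarith)]
  ring

lemma wprof_mem {μ s₁ s : ℝ} (hμ : μ ≤ 1) (hs : 0 ≤ s) : wprof μ s₁ s ∈ Icc μ 1 := by
  have h0 := rootEight_pos (show (-1 : ℝ) < s by linarith)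
  have h1 : (rootEight s)⁻¹ ≤ 1 := inv_le_one_of_one_le₀ (one_le_rootEight hs)
  have hp := pcut_mem (s / s₁)
  have hprod : pcut (s / s₁) * (rootEight s)⁻¹ ≤ 1 :=
    mul_le_one₀ hp.2 (inv_nonneg.2 h0.le) h1
  constructor
  · have : 0 ≤ (1 - μ) * (pcut (s / s₁) * (rootEight s)⁻¹) :=
      mul_nonneg (by linarith) (mul_nonneg hp.1 (inv_nonneg.2 h0.le))
    unfold wprof; linarith
  · unfold wprof; nlinarith

lemma deriv_pcut_nonpos (x : ℝ) : deriv pcut x ≤ 0 :=
  Antitone.deriv_nonpos fun a b h => smoothTransition.monotone (by linarith)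

lemma deriv_pcut_eq_zero {x : ℝ} (h : x < 1 ∨ 2 < x) : deriv pcut x = 0 := by
  rcases h with h | h
  · have he : pcut =ᶠ[𝓝 x] fun _ => (1 : ℝ) :=
      eventually_of_mem (Iio_mem_nhds h) fun y (hy : y < 1) => pcut_of_le hy.le
    rw [he.deriv_eq]; simp
  · have he : pcut =ᶠ[𝓝 x] fun _ => (0 : ℝ) :=
      eventually_of_mem (Ioi_mem_nhds h) fun y (hy : 2 < y) => pcut_of_ge hy.le
    rw [he.deriv_eq]; simp

lemma exists_pcut_bound : ∃ C, 0 ≤ C ∧ ∀ x : ℝ, |x * deriv pcut x| ≤ C := by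
  have hc : Continuous fun x : ℝ => x * deriv pcut x :=
    continuous_id.mul ((contDiff_pcut (n := 1)).continuous_deriv le_rfl)
  obtain ⟨C, hC⟩ := (isCompact_Icc (a := (0:ℝ)) (b := 3)).exists_bound_of_continuousOn hc.continuousOn
  refine ⟨max C 0, le_max_right _ _, fun x => ?_⟩
  by_cases hx : x ∈ Icc (0:ℝ) 3
  · exact (hC x hx).trans (le_max_left _ _)
  · have : deriv pcut x = 0 := deriv_pcut_eq_zero (by
      rcases not_and_or.1 hx with h | h
      · exact Or.inl (by linarith)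
      · exact Or.inr (by linarith))
    simp [this]

/-- The deficit is at most `min s 1`. -/
lemma one_sub_wprof_le {μ s₁ s : ℝ} (hμ0 : 0 ≤ μ) (hμ : μ ≤ 1) (hs₁ : 1 ≤ s₁) (hs : 0 ≤ s) :
    1 - wprof μ s₁ s ≤ min s 1 := by
  refine le_min ?_ (by linarith [(wprof_mem (s₁ := s₁) hμ hs).1])
  rcases le_or_gt s 1 with h | h
  · have h0 := rootEight_pos (show (-1 : ℝ) < s by linarith)
    have hb1 : (rootEight s)⁻¹ ≤ 1 := inv_le_one_of_one_le₀ (one_le_rootEight hs)
    have hb8 : (rootEight s)⁻¹ ^ 8 ≤ (rootEight s)⁻¹ :=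
      pow_le_of_le_one (inv_nonneg.2 h0.le) hb1 (by norm_num)
    rw [inv_pow, rootEight_pow (by linarith)] at hb8
    have h1 : 1 - (1 + s)⁻¹ ≤ s := by
      rw [show 1 - (1 + s)⁻¹ = s / (1 + s) by field_simp; ring]
      exact div_le_self hs (by linarith)
    rw [wprof, pcut_of_le ((div_le_one (by linarith)).2 (h.trans hs₁)), one_mul]
    nlinarith
  · linarith [(wprof_mem (s₁ := s₁) hμ hs).1]

/-- **The profile.** For every `μ ∈ (0,1)` a cut level `s₁` makes the logarithmic slope small,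
and comparable with the deficit `1 - w`. -/
theorem exists_profile {μ : ℝ} (hμ0 : 0 < μ) (hμ1 : μ < 1) :
    ∃ s₁ C : ℝ, 1 ≤ s₁ ∧ 0 < C ∧ ∀ s, 0 ≤ s →
      μ ≤ wprof μ s₁ s ∧ wprof μ s₁ s ≤ 1 ∧ deriv (wprof μ s₁) s ≤ 0 ∧
      -4 * s * deriv (wprof μ s₁) s ≤ 3 / 4 * wprof μ s₁ s ∧
      -4 * s * deriv (wprof μ s₁) s ≤ C * (1 - wprof μ s₁ s) ∧
      min s 1 ≤ C * (1 - wprof μ s₁ s) := by
  obtain ⟨K, hK0, hK⟩ := exists_pcut_bound
  set R := max 1 (16 * (K + 1) / μ) with hR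
  have hR1 : 1 ≤ R := le_max_left _ _
  have hR8 : 1 ≤ R ^ 8 := one_le_pow₀ hR1
  have hμ' : 0 < 1 - μ := by linarith
  refine ⟨R ^ 8, (64 * (K + 1) + 16) / (1 - μ), hR8, by positivity, fun s hs => ?_⟩
  have hs' : (-1 : ℝ) < s := by linarith
  have h0 := rootEight_pos hs'
  have hm := wprof_mem (s₁ := R ^ 8) hμ1.le hs
  have hp := pcut_mem (s / R ^ 8)
  set a := pcut (s / R ^ 8) with ha
  set b := (rootEight s)⁻¹ with hb
  have hb0 : 0 < b := inv_pos.2 h0
  have hb1 : b ≤ 1 := inv_le_one_of_one_le₀ (one_le_rootEight hs)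
  set c := deriv pcut (s / R ^ 8) with hc
  have hd := (hasDerivAt_wprof μ (R ^ 8) hs').deriv
  rw [← ha, ← hb, ← hc] at hd
  have hw : wprof μ (R ^ 8) s = μ + (1 - μ) * (a * b) := rfl
  have hc0 : c ≤ 0 := deriv_pcut_nonpos _
  have hu : c / R ^ 8 * b ≤ 0 :=
    mul_nonpos_of_nonpos_of_nonneg (div_nonpos_of_nonpos_of_nonneg hc0 (by positivity)) hb0.le
  have hv : 0 ≤ a * b / (8 * (1 + s)) :=
    div_nonneg (mul_nonneg hp.1 hb0.le) (by linarith)
  -- the slope of the cutoff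
  have hcut : -(s * (c / R ^ 8 * b)) ≤ μ / 16 ∧ -(s * (c / R ^ 8 * b)) ≤ K * min s 1 := by
    rcases le_or_gt s (R ^ 8) with h | h
    · have hx : s / R ^ 8 ≤ 1 := (div_le_one (by positivity)).2 h
      have : c = 0 := by
        rcases hx.lt_or_eq with hlt | heq
        · exact deriv_pcut_eq_zero (Or.inl hlt)
        · rw [hc, heq, IsLocalMax.deriv_eq_zero (Eventually.of_forall fun y => by
            rw [pcut_of_le le_rfl]; exact (pcut_mem y).2)]
      rw [this]
      simp only [zero_div, zero_mul, mul_zero, neg_zero]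
      exact ⟨by positivity, mul_nonneg hK0 (le_min hs zero_le_one)⟩
    · have hge : R ≤ rootEight s := by
        refine le_of_pow_le_pow_left₀ (n := 8) (by norm_num) h0.le ?_
        rw [rootEight_pow hs']; linarith
      have hb' : b ≤ μ / (16 * (K + 1)) := by
        rw [hb, show μ / (16 * (K + 1)) = (16 * (K + 1) / μ)⁻¹ by rw [inv_div]]
        exact inv_anti₀ (by positivity) ((le_max_right _ _).trans hge)
      have hsc : -(s * (c / R ^ 8 * b)) ≤ K * b := by
        calc -(s * (c / R ^ 8 * b)) = -(s / R ^ 8 * c) * b := by ring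
          _ ≤ K * b := mul_le_mul_of_nonneg_right ((neg_le_abs _).trans (hK _)) hb0.le
      refine ⟨hsc.trans ?_, hsc.trans ?_⟩
      · calc K * b ≤ (K + 1) * (μ / (16 * (K + 1))) :=
            mul_le_mul (by linarith) hb' hb0.le (by linarith)
          _ = μ / 16 := by field_simp
      · rw [min_eq_right (by linarith : (1:ℝ) ≤ s)]
        exact mul_le_mul_of_nonneg_left hb1 hK0
  -- the slope of the root
  have hroot : s * (a * b / (8 * (1 + s))) ≤ a * b / 8 ∧
      s * (a * b / (8 * (1 + s))) ≤ min s 1 := by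
    have hab : a * b ≤ 1 := mul_le_one₀ hp.2 hb0.le hb1
    have he : s * (a * b / (8 * (1 + s))) = a * b / 8 * (s / (1 + s)) := by field_simp
    have hf : s / (1 + s) ≤ 1 := (div_le_one (by linarith)).2 (by linarith)
    have hf0 : 0 ≤ s / (1 + s) := div_nonneg hs (by linarith)
    have hfm : s / (1 + s) ≤ min s 1 := le_min (div_le_self hs (by linarith)) hf
    have hab0 : 0 ≤ a * b := mul_nonneg hp.1 hb0.le
    rw [he]
    exact ⟨mul_le_of_le_one_right (by linarith) hf,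
      (mul_le_of_le_one_left hf0 (by linarith)).trans hfm⟩
  -- the deficit
  have hdef : min s 1 ≤ 16 / (1 - μ) * (1 - wprof μ (R ^ 8) s) := by
    have h8 : 1 - b ^ 8 ≤ 8 * (1 - b) := by
      have := one_add_mul_le_pow (a := b - 1) (by linarith) 8
      rw [add_sub_cancel] at this
      push_cast at this
      linarith
    have hb8 : b ^ 8 = (1 + s)⁻¹ := by rw [hb, inv_pow, rootEight_pow hs']
    have hmin : min s 1 / 2 ≤ 1 - b ^ 8 := by
      rw [hb8, show 1 - (1 + s)⁻¹ = s / (1 + s) by field_simp; ring, le_div_iff₀ (by linarith)]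
      rcases le_total s 1 with h | h
      · rw [min_eq_left h]; nlinarith
      · rw [min_eq_right h]; nlinarith
    have hab : a * b ≤ b := mul_le_of_le_one_left hb0.le hp.2
    rw [hw, div_mul_eq_mul_div, le_div_iff₀ hμ']
    nlinarith
  have hdef0 : 0 ≤ 1 - wprof μ (R ^ 8) s := by linarith [hm.2]
  have hslope : -4 * s * deriv (wprof μ (R ^ 8)) s = 4 * (1 - μ) *
      (-(s * (c / R ^ 8 * b)) + s * (a * b / (8 * (1 + s)))) := by rw [hd]; ring
  refine ⟨hm.1, hm.2, ?_, ?_, ?_, ?_⟩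
  · rw [hd]; exact mul_nonpos_of_nonneg_of_nonpos hμ'.le (by linarith)
  · rw [hslope, hw]
    nlinarith [hcut.1, hroot.1, mul_nonneg hp.1 hb0.le]
  · rw [hslope]
    have hsum : -(s * (c / R ^ 8 * b)) + s * (a * b / (8 * (1 + s))) ≤ (K + 1) * min s 1 := by
      linarith [hcut.2, hroot.2]
    calc 4 * (1 - μ) * (-(s * (c / R ^ 8 * b)) + s * (a * b / (8 * (1 + s))))
        ≤ 4 * (1 - μ) * ((K + 1) * min s 1) :=
          mul_le_mul_of_nonneg_left hsum (by linarith)
      _ ≤ 4 * (K + 1) * min s 1 := by nlinarith [le_min hs zero_le_one, mul_nonneg (le_min hs zero_le_one : (0:ℝ) ≤ min s 1) (by linarith : (0:ℝ) ≤ K + 1)]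
      _ ≤ 4 * (K + 1) * (16 / (1 - μ) * (1 - wprof μ (R ^ 8) s)) :=
          mul_le_mul_of_nonneg_left hdef (by linarith)
      _ ≤ (64 * (K + 1) + 16) / (1 - μ) * (1 - wprof μ (R ^ 8) s) := by
          rw [← mul_assoc, ← mul_div_assoc]
          refine mul_le_mul_of_nonneg_right (div_le_div_of_nonneg_right ?_ hμ'.le) hdef0
          linarith
  · refine hdef.trans (mul_le_mul_of_nonneg_right (div_le_div_of_nonneg_right ?_ hμ'.le) hdef0)
    linarith

end Vale.Agent.P205.Full.Start
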