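import Vale.Agent.P205.Full.Start.Jets
import Vale.Agent.P205.Full.Start.Profile
import Vale.Agent.P205.Full.Start.RadialProfile

/-!
# Module START, A4: the base map at a critical point

`baseMap = W • baseJet`: the jet map, cut off to a linear map at radius `ρ`, contracted by the
radial factor `W u = wprof μ s₁ ‖ρ⁻¹ u‖⁴`, which is `1` to fourth order at `0` and equals `μ`
far out. The loss `gain = pull baseJet - pull baseMap` does not see the jet error and is comparable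
with `min ‖ρ⁻¹ u‖⁴ 1` in both directions.
-/

open Real Set Filter Topology
open scoped RealInnerProductSpace ContDiff

noncomputable section

namespace Vale.Agent.P205.Full.Start

/-! ### Pointwise algebra of a radial contraction -/

/-- `q = b ⟪u,v⟫/‖u‖²`, so that `-q` is the differential of the factor at `v`. -/
lemma radial_coef {b : ℝ} (hb : 0 ≤ b) (u v : R2) :
    |b * ⟪u, v⟫ / ‖u‖ ^ 2| * ‖u‖ ≤ b * ‖v‖ ∧
      0 ≤ b * ⟪u, v⟫ / ‖u‖ ^ 2 * ⟪u, v⟫ ∧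
      b * ⟪u, v⟫ / ‖u‖ ^ 2 * ⟪u, v⟫ ≤ b * ‖v‖ ^ 2 ∧
      (b * ⟪u, v⟫ / ‖u‖ ^ 2) ^ 2 * ‖u‖ ^ 2 = b * (b * ⟪u, v⟫ / ‖u‖ ^ 2 * ⟪u, v⟫) := by
  rcases eq_or_ne u 0 with rfl | hu
  · simp [mul_nonneg hb (norm_nonneg v), mul_nonneg hb (sq_nonneg ‖v‖)]
  have hr : 0 < ‖u‖ := norm_pos_iff.2 hu
  have ht := abs_real_inner_le_norm u v
  refine ⟨?_, ?_, ?_, ?_⟩
  · rw [abs_div, abs_mul, abs_of_nonneg hb, abs_of_nonneg (sq_nonneg ‖u‖), div_mul_eq_mul_div,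
      div_le_iff₀ (by positivity)]
    calc b * |⟪u, v⟫| * ‖u‖ ≤ b * (‖u‖ * ‖v‖) * ‖u‖ := by gcongr
      _ = b * ‖v‖ * ‖u‖ ^ 2 := by ring
  · rw [div_mul_eq_mul_div, mul_assoc, ← sq]
    exact div_nonneg (mul_nonneg hb (sq_nonneg _)) (sq_nonneg _)
  · rw [div_mul_eq_mul_div, div_le_iff₀ (by positivity), mul_assoc, mul_assoc]
    refine mul_le_mul_of_nonneg_left ?_ hb
    calc ⟪u, v⟫ * ⟪u, v⟫ = |⟪u, v⟫| ^ 2 := by rw [sq_abs, sq]
      _ ≤ (‖u‖ * ‖v‖) ^ 2 := pow_le_pow_left₀ (abs_nonneg _) ht 2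
      _ = ‖v‖ ^ 2 * ‖u‖ ^ 2 := by ring
  · field_simp

/-- Both sides of a radial contraction, given that `(P, A)` is close to `α` times an isometry. -/
lemma radial_lower {W b C α ε : ℝ} (hW0 : 0 ≤ W) (hW1 : W ≤ 1) (hb : 0 ≤ b) (hbW : b ≤ 3 / 4 * W)
    (hbC : b ≤ C * (1 - W)) (u v : R2) (P Av : R4)
    (h0 : |‖Av‖ ^ 2 - α ^ 2 * ‖v‖ ^ 2| ≤ ε * ‖v‖ ^ 2)
    (h1 : |⟪P, Av⟫ - α ^ 2 * ⟪u, v⟫| ≤ ε * (‖u‖ * ‖v‖))
    (h2 : |‖P‖ ^ 2 - α ^ 2 * ‖u‖ ^ 2| ≤ ε * ‖u‖ ^ 2) (hε : 0 ≤ ε) :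
    (1 - W ^ 2) * (α ^ 2 - ε * (1 + 3 * C)) * ‖v‖ ^ 2 ≤
        ‖Av‖ ^ 2 - ‖W • Av - (b * ⟪u, v⟫ / ‖u‖ ^ 2) • P‖ ^ 2 ∧
      W ^ 2 * (α ^ 2 / 16 - 4 * ε) * ‖v‖ ^ 2 ≤
        ‖W • Av - (b * ⟪u, v⟫ / ‖u‖ ^ 2) • P‖ ^ 2 := by
  obtain ⟨hq1, hq2, hq3, hq4⟩ := radial_coef hb u v
  set q := b * ⟪u, v⟫ / ‖u‖ ^ 2 with hq
  have hexp : ‖W • Av - q • P‖ ^ 2 =
      W ^ 2 * ‖Av‖ ^ 2 - 2 * W * q * ⟪P, Av⟫ + q ^ 2 * ‖P‖ ^ 2 := by
    rw [norm_sub_sq_real, norm_smul, norm_smul, real_inner_smul_left, real_inner_smul_right,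
      real_inner_comm P Av, mul_pow, mul_pow, Real.norm_eq_abs, Real.norm_eq_abs, sq_abs, sq_abs]
    ring
  set e0 := ‖Av‖ ^ 2 - α ^ 2 * ‖v‖ ^ 2 with he0
  set e1 := ⟪P, Av⟫ - α ^ 2 * ⟪u, v⟫ with he1
  set e2 := ‖P‖ ^ 2 - α ^ 2 * ‖u‖ ^ 2 with he2
  have hV : 0 ≤ ‖v‖ ^ 2 := sq_nonneg _
  -- the error terms
  have E1 : |W * q * e1| ≤ W * (ε * (b * ‖v‖ ^ 2)) := by
    rw [mul_assoc, abs_mul, abs_of_nonneg hW0]
    refine mul_le_mul_of_nonneg_left ?_ hW0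
    rw [abs_mul]
    calc |q| * |e1| ≤ |q| * (ε * (‖u‖ * ‖v‖)) := mul_le_mul_of_nonneg_left h1 (abs_nonneg _)
      _ = ε * ((|q| * ‖u‖) * ‖v‖) := by ring
      _ ≤ ε * (b * ‖v‖ * ‖v‖) := by gcongr
      _ = ε * (b * ‖v‖ ^ 2) := by ring
  have E2 : |q ^ 2 * e2| ≤ ε * (b ^ 2 * ‖v‖ ^ 2) := by
    rw [abs_mul, abs_of_nonneg (sq_nonneg q)]
    calc q ^ 2 * |e2| ≤ q ^ 2 * (ε * ‖u‖ ^ 2) := mul_le_mul_of_nonneg_left h2 (sq_nonneg _)
      _ = ε * (|q| * ‖u‖) ^ 2 := by rw [mul_pow, sq_abs]; ring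
      _ ≤ ε * (b * ‖v‖) ^ 2 := by gcongr
      _ = ε * (b ^ 2 * ‖v‖ ^ 2) := by ring
  have hmid : 0 ≤ q * ⟪u, v⟫ * (2 * W - b) := mul_nonneg hq2 (by linarith)
  have hW2 : 0 ≤ 1 - W ^ 2 := by nlinarith
  have hWW : 1 - W ≤ 1 - W ^ 2 := by nlinarith
  have hb1 : b ≤ 1 := by linarith
  constructor
  · rw [hexp]
    have hmain : ‖Av‖ ^ 2 - (W ^ 2 * ‖Av‖ ^ 2 - 2 * W * q * ⟪P, Av⟫ + q ^ 2 * ‖P‖ ^ 2) =
        (1 - W ^ 2) * α ^ 2 * ‖v‖ ^ 2 + α ^ 2 * (q * ⟪u, v⟫ * (2 * W - b)) +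
          ((1 - W ^ 2) * e0 + 2 * (W * q * e1) - q ^ 2 * e2) := by
      rw [he0, he1, he2]; linear_combination (-(α ^ 2)) * hq4
    rw [hmain]
    have E0 : |(1 - W ^ 2) * e0| ≤ (1 - W ^ 2) * (ε * ‖v‖ ^ 2) := by
      rw [abs_mul, abs_of_nonneg hW2]; exact mul_le_mul_of_nonneg_left h0 hW2
    have hsum : 2 * W * b + b ^ 2 ≤ 3 * C * (1 - W ^ 2) := by
      have hC : 0 ≤ C ∨ W = 1 := by
        rcases eq_or_lt_of_le hW1 with h | h
        · exact Or.inr h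
        · exact Or.inl (nonneg_of_mul_nonneg_left (hb.trans hbC) (by linarith))
      have : b ≤ C * (1 - W ^ 2) := by
        rcases hC with h | h
        · exact hbC.trans (mul_le_mul_of_nonneg_left hWW h)
        · subst h; simpa using hbC
      have i1 : W * b ≤ b := mul_le_of_le_one_left hb hW1
      have i2 : b * b ≤ b := mul_le_of_le_one_left hb hb1
      linarith
    have hpos := mul_nonneg (sq_nonneg α) hmid
    have hs2 := mul_le_mul_of_nonneg_left hsum (mul_nonneg hε hV)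
    linarith [(abs_le.1 E0).1, (abs_le.1 E1).1, (abs_le.1 E2).2]
  · rw [hexp]
    have hmain : W ^ 2 * ‖Av‖ ^ 2 - 2 * W * q * ⟪P, Av⟫ + q ^ 2 * ‖P‖ ^ 2 =
        α ^ 2 * (W ^ 2 * ‖v‖ ^ 2 - q * ⟪u, v⟫ * (2 * W - b)) +
          (W ^ 2 * e0 - 2 * (W * q * e1) + q ^ 2 * e2) := by
      rw [he0, he1, he2]; linear_combination (α ^ 2) * hq4
    rw [hmain]
    have E0 : |W ^ 2 * e0| ≤ W ^ 2 * (ε * ‖v‖ ^ 2) := by
      rw [abs_mul, abs_of_nonneg (sq_nonneg W)]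
      exact mul_le_mul_of_nonneg_left h0 (sq_nonneg _)
    have hm : W ^ 2 / 16 * ‖v‖ ^ 2 ≤ W ^ 2 * ‖v‖ ^ 2 - q * ⟪u, v⟫ * (2 * W - b) := by
      have h3 := mul_le_mul_of_nonneg_right hq3 (show 0 ≤ 2 * W - b by linarith)
      have h4 : W / 4 ≤ W - b := by linarith
      have h5 := mul_le_mul_of_nonneg_right (pow_le_pow_left₀ (by linarith) h4 2) hV
      linarith
    have he : 2 * W * b + b ^ 2 ≤ 3 * W ^ 2 := by
      have hbW' : b ≤ W := by linarith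
      have i1 := mul_le_mul_of_nonneg_left hbW' hW0
      have i2 := mul_le_mul hbW' hbW' hb hW0
      linarith
    have hm2 := mul_le_mul_of_nonneg_left hm (sq_nonneg α)
    have he2 := mul_le_mul_of_nonneg_left he (mul_nonneg hε hV)
    linarith [(abs_le.1 E0).1, (abs_le.1 E1).2, (abs_le.1 E2).1]

/-- The bilinear upper bound for the loss of a radial contraction. -/
lemma radial_upper {W b : ℝ} (hW0 : 0 ≤ W) (hW1 : W ≤ 1) (hb : 0 ≤ b) (hb1 : b ≤ 1) (u v w : R2)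
    (P Av Aw : R4) (hP : ‖P‖ ≤ 2 * ‖u‖) (hv : ‖Av‖ ≤ 2 * ‖v‖) (hw : ‖Aw‖ ≤ 2 * ‖w‖) :
    |⟪Av, Aw⟫ - ⟪W • Av - (b * ⟪u, v⟫ / ‖u‖ ^ 2) • P, W • Aw - (b * ⟪u, w⟫ / ‖u‖ ^ 2) • P⟫| ≤
      (8 * (1 - W) + 12 * b) * (‖v‖ * ‖w‖) := by
  have h1 := (radial_coef hb u v).1
  have h2 := (radial_coef hb u w).1
  set p := b * ⟪u, v⟫ / ‖u‖ ^ 2
  set q := b * ⟪u, w⟫ / ‖u‖ ^ 2
  have he : ⟪Av, Aw⟫ - ⟪W • Av - p • P, W • Aw - q • P⟫ =
      (1 - W ^ 2) * ⟪Av, Aw⟫ + W * q * ⟪Av, P⟫ + W * p * ⟪P, Aw⟫ - p * q * ⟪P, P⟫ := by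
    simp only [inner_sub_left, inner_sub_right, real_inner_smul_left, real_inner_smul_right]
    ring
  have hW2 : 0 ≤ 1 - W ^ 2 := by nlinarith
  have key : ∀ (c d : ℝ) (x y : R4) (B : ℝ), |c| * (‖x‖ * ‖y‖) ≤ B → |d| ≤ |c| →
      |d * ⟪x, y⟫| ≤ B := fun c d x y B hB hd => by
    rw [abs_mul]
    exact (mul_le_mul hd (abs_real_inner_le_norm x y) (abs_nonneg _) (abs_nonneg _)).trans hB
  have hp' : |p| * ‖P‖ ≤ 2 * (b * ‖v‖) :=
    (mul_le_mul_of_nonneg_left hP (abs_nonneg p)).trans (by linarith)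
  have hq' : |q| * ‖P‖ ≤ 2 * (b * ‖w‖) :=
    (mul_le_mul_of_nonneg_left hP (abs_nonneg q)).trans (by linarith)
  have hWq : ∀ c : ℝ, |W * c| ≤ |c| := fun c => by
    rw [abs_mul, abs_of_nonneg hW0]; exact mul_le_of_le_one_left (abs_nonneg c) hW1
  have a1 := key (1 - W ^ 2) _ Av Aw ((1 - W ^ 2) * (4 * (‖v‖ * ‖w‖))) (by
    rw [abs_of_nonneg hW2]
    refine mul_le_mul_of_nonneg_left ?_ hW2
    nlinarith [mul_le_mul hv hw (norm_nonneg _) (by positivity)]) le_rfl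
  have a2 := key q _ Av P (4 * b * (‖v‖ * ‖w‖)) (by
    calc |q| * (‖Av‖ * ‖P‖) = ‖Av‖ * (|q| * ‖P‖) := by ring
      _ ≤ 2 * ‖v‖ * (2 * (b * ‖w‖)) := mul_le_mul hv hq' (by positivity) (by positivity)
      _ = _ := by ring) (hWq q)
  have a3 := key p _ P Aw (4 * b * (‖v‖ * ‖w‖)) (by
    calc |p| * (‖P‖ * ‖Aw‖) = (|p| * ‖P‖) * ‖Aw‖ := by ring
      _ ≤ 2 * (b * ‖v‖) * (2 * ‖w‖) := mul_le_mul hp' hw (by positivity) (by positivity)
      _ = _ := by ring) (hWq p)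
  have a4 := key (p * q) _ P P (4 * b * (‖v‖ * ‖w‖)) (by
    rw [abs_mul]
    calc |p| * |q| * (‖P‖ * ‖P‖) = (|p| * ‖P‖) * (|q| * ‖P‖) := by ring
      _ ≤ 2 * (b * ‖v‖) * (2 * (b * ‖w‖)) := mul_le_mul hp' hq' (by positivity) (by positivity)
      _ = 4 * b * b * (‖v‖ * ‖w‖) := by ring
      _ ≤ 4 * b * (‖v‖ * ‖w‖) := by
        exact mul_le_mul_of_nonneg_right (mul_le_of_le_one_right (by linarith) hb1)
          (by positivity)) le_rfl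
  have hWW : 1 - W ^ 2 ≤ 2 * (1 - W) := by nlinarith
  rw [he]
  have := mul_le_mul_of_nonneg_right hWW (show 0 ≤ ‖v‖ * ‖w‖ by positivity)
  rw [abs_le]; constructor <;>
    linarith [abs_le.1 a1, abs_le.1 a2, abs_le.1 a3, abs_le.1 a4]

/-- Closeness of `(P, A)` to `α` times an isometry, in the three forms used above. -/
lemma inner_close {α δ : ℝ} (hα : |α| ≤ 1) (hδ : δ ≤ 1) (x y : R4) (a b : R4) (r s : ℝ)
    (ha : ‖a‖ ≤ r) (hb : ‖b‖ ≤ s) (hx : ‖x - α • a‖ ≤ δ * r) (hy : ‖y - α • b‖ ≤ δ * s) :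
    |⟪x, y⟫ - α ^ 2 * ⟪a, b⟫| ≤ 3 * δ * (r * s) := by
  have e : ⟪x, y⟫ - α ^ 2 * ⟪a, b⟫ =
      ⟪x - α • a, y⟫ + ⟪α • a, y - α • b⟫ := by
    simp only [inner_sub_left, inner_sub_right, real_inner_smul_left, real_inner_smul_right]
    ring
  have hr : 0 ≤ r := (norm_nonneg _).trans ha
  have hδr : 0 ≤ δ * r := (norm_nonneg _).trans hx
  have hδs : 0 ≤ δ * s := (norm_nonneg _).trans hy
  have hs : 0 ≤ s := (norm_nonneg _).trans hb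
  have hsm : ∀ (z : R4) (t : ℝ), ‖z‖ ≤ t → ‖α • z‖ ≤ t := fun z t hz => by
    rw [norm_smul, Real.norm_eq_abs]
    exact (mul_le_of_le_one_left (norm_nonneg _) hα).trans hz
  have hy2 : ‖y‖ ≤ 2 * s := by
    calc ‖y‖ = ‖(y - α • b) + α • b‖ := by rw [sub_add_cancel]
      _ ≤ δ * s + s := (norm_add_le _ _).trans (add_le_add hy (hsm _ _ hb))
      _ ≤ 2 * s := by nlinarith
  rw [e]
  refine (abs_add_le _ _).trans ?_
  have b1 := (abs_real_inner_le_norm (x - α • a) y).trans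
    (mul_le_mul hx hy2 (norm_nonneg _) hδr)
  have b2 := (abs_real_inner_le_norm (α • a) (y - α • b)).trans
    (mul_le_mul (hsm _ _ ha) hy (norm_nonneg _) hr)
  nlinarith

/-! ### The factor `W` -/

/-- The radial factor. -/
def radW (μ s₁ ρ : ℝ) (u : R2) : ℝ := wprof μ s₁ ((ρ⁻¹ ^ 2 * ‖u‖ ^ 2) ^ 2)

lemma radArg_nonneg (ρ : ℝ) (u : R2) : 0 ≤ (ρ⁻¹ ^ 2 * ‖u‖ ^ 2) ^ 2 := sq_nonneg _

lemma contDiff_radW (μ s₁ ρ : ℝ) : ContDiff ℝ ∞ (radW μ s₁ ρ) :=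
  contDiff_iff_contDiffAt.2 fun u =>
    (contDiffAt_wprof μ s₁ (by linarith [radArg_nonneg ρ u])).comp u
      (((contDiff_const.mul (contDiff_norm_sq ℝ)).pow 2).contDiffAt)

lemma fderiv_radW (μ s₁ ρ : ℝ) (u v : R2) :
    fderiv ℝ (radW μ s₁ ρ) u v =
      -((-4 * (ρ⁻¹ ^ 2 * ‖u‖ ^ 2) ^ 2 * deriv (wprof μ s₁) ((ρ⁻¹ ^ 2 * ‖u‖ ^ 2) ^ 2)) *
        ⟪u, v⟫ / ‖u‖ ^ 2) := by
  have hn : HasFDerivAt (fun z : R2 => ‖z‖ ^ 2) (2 • (innerSL ℝ u)) u :=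
    (hasStrictFDerivAt_norm_sq u).hasFDerivAt
  have hs := (hn.const_mul (ρ⁻¹ ^ 2)).pow 2
  have hw : HasDerivAt (wprof μ s₁) (deriv (wprof μ s₁) ((ρ⁻¹ ^ 2 * ‖u‖ ^ 2) ^ 2))
      ((ρ⁻¹ ^ 2 * ‖u‖ ^ 2) ^ 2) :=
    ((contDiffAt_wprof (n := 1) μ s₁ (by linarith [radArg_nonneg ρ u])).differentiableAt
      (by simp)).hasDerivAt
  have h := hw.comp_hasFDerivAt u hs
  rw [show radW μ s₁ ρ = wprof μ s₁ ∘ fun z : R2 => (ρ⁻¹ ^ 2 * ‖z‖ ^ 2) ^ 2 from rfl, h.fderiv]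
  rcases eq_or_ne u 0 with rfl | hu
  · simp
  have hr : ‖u‖ ^ 2 ≠ 0 := by simp [hu]
  simp only [smul_apply, innerSL_apply_apply, smul_eq_mul, nsmul_eq_mul]
  push_cast
  field_simp
  ring

/-! ### The base map -/

/-- The flat inclusion `ℝ² → ℝ² × 0`. -/
def flatR : R2 →L[ℝ] R4 :=
  px.smulRight (EuclideanSpace.single 0 1) + py.smulRight (EuclideanSpace.single 1 1)

lemma inner_flatR (v w : R2) : ⟪flatR v, flatR w⟫ = ⟪v, w⟫ := by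
  simp [flatR, inner_add_left, inner_add_right, PiLp.inner_apply, Fin.sum_univ_two, px, py]

lemma norm_flatR (v : R2) : ‖flatR v‖ = ‖v‖ := by
  have h := inner_flatR v v
  rw [real_inner_self_eq_norm_sq, real_inner_self_eq_norm_sq] at h
  exact (sq_eq_sq₀ (norm_nonneg _) (norm_nonneg _)).1 h

namespace QT

variable (T : QT)

/-- Deviation of the jet map from its linear part. -/
def dev (α : ℝ) (u : R2) : R4 := T.jetMap α u - α • flatR u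

lemma contDiff_dev (α : ℝ) : ContDiff ℝ ∞ (T.dev α) :=
  (T.contDiff_jetMap α).sub (flatR.contDiff.const_smul α)

lemma dev_eq (α : ℝ) (u : R2) :
    T.dev α u = (T.jX u / α) • EuclideanSpace.single 0 1 +
      (T.jY u / α) • EuclideanSpace.single 1 1 + T.jZ u • EuclideanSpace.single 2 1 := by
  simp [dev, jetMap, flatR, px, py, smul_smul, add_smul]
  abel

lemma fderiv_dev (α : ℝ) (u v : R2) :
    fderiv ℝ (T.dev α) u v =
      ((T.Xx u * v 0 + T.Xy u * v 1) / α) • EuclideanSpace.single 0 1 +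
        ((T.Yx u * v 0 + T.Yy u * v 1) / α) • EuclideanSpace.single 1 1 +
        (u 0 * v 0 + T.kap * u 1 * v 1) • EuclideanSpace.single 2 1 := by
  have h : HasFDerivAt (fun z => T.jetMap α z - α • flatR z) _ u :=
    ((T.contDiff_jetMap α).differentiable (by simp) u).hasFDerivAt.fun_sub
      (flatR.hasFDerivAt.fun_const_smul α)
  rw [show T.dev α = fun z => T.jetMap α z - α • flatR z from rfl, h.fderiv]
  rw [sub_apply, smul_apply, fderiv_jetMap]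
  simp [flatR, px, py, smul_smul, add_smul]
  abel

lemma abs_coord (u : R2) (i : Fin 2) : |u i| ≤ ‖u‖ := by simpa using PiLp.norm_apply_le u i

lemma quad_le (c d e : ℝ) (u : R2) :
    |c * u 0 ^ 2 + d * (u 0 * u 1) + e * u 1 ^ 2| ≤ (|c| + |d| + |e|) * ‖u‖ ^ 2 := by
  have h0 := abs_coord u 0
  have h1 := abs_coord u 1
  have k : ∀ a b : ℝ, |a| ≤ ‖u‖ → |b| ≤ ‖u‖ → |a * b| ≤ ‖u‖ ^ 2 := fun a b ha hb => by
    rw [abs_mul, sq]; exact mul_le_mul ha hb (abs_nonneg _) (norm_nonneg _)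
  refine (abs_add_three _ _ _).trans ?_
  rw [abs_mul c, abs_mul d, abs_mul e, pow_two (u 0), pow_two (u 1), add_mul, add_mul]
  gcongr <;> exact k _ _ ‹_› ‹_›

lemma cubic_le (c d e f : ℝ) (u : R2) :
    |c * u 0 ^ 3 + d * (u 0 ^ 2 * u 1) + e * (u 0 * u 1 ^ 2) + f * u 1 ^ 3| ≤
      (|c| + |d| + |e| + |f|) * ‖u‖ ^ 3 := by
  have h0 := abs_coord u 0
  have h1 := abs_coord u 1
  have k : ∀ a b : ℝ, |a| ≤ ‖u‖ → |b| ≤ ‖u‖ → |a ^ 2 * b| ≤ ‖u‖ ^ 3 := fun a b ha hb => by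
    rw [abs_mul, abs_pow, pow_succ ‖u‖ 2]
    exact mul_le_mul (pow_le_pow_left₀ (abs_nonneg _) ha 2) hb (abs_nonneg _) (by positivity)
  have e1 : c * u 0 ^ 3 + d * (u 0 ^ 2 * u 1) + e * (u 0 * u 1 ^ 2) + f * u 1 ^ 3 =
      c * (u 0 ^ 2 * u 0) + d * (u 0 ^ 2 * u 1) + e * (u 1 ^ 2 * u 0) + f * (u 1 ^ 2 * u 1) := by
    ring
  rw [e1]
  refine (abs_add_le _ _).trans ((add_le_add (abs_add_three _ _ _) le_rfl).trans ?_)
  rw [abs_mul c, abs_mul d, abs_mul e, abs_mul f, add_mul, add_mul, add_mul]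
  gcongr <;> exact k _ _ ‹_› ‹_›

/-- Bounds for the entries of the differential of the cubics. -/
lemma entries_le {M : ℝ} (hM : 1 ≤ M) (hT : T.Le M) (u : R2) :
    |T.Xx u| ≤ 3 * M * ‖u‖ ^ 2 ∧ |T.Xy u| ≤ 3 * M * ‖u‖ ^ 2 ∧
      |T.Yx u| ≤ 3 * M * ‖u‖ ^ 2 ∧ |T.Yy u| ≤ 3 * M * ‖u‖ ^ 2 ∧
      |T.jX u| ≤ 3 * M * ‖u‖ ^ 3 ∧ |T.jY u| ≤ 3 * M * ‖u‖ ^ 3 := by
  obtain ⟨a1, a2, a3, b1, b2, b3, c1, c2, c3, hk⟩ := hT
  have k2 := sq_nonneg T.kap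
  rw [abs_le] at a1 a2 a3 b1 b2 b3 c1 c2 c3
  have A : ∀ c d e : ℝ, |c| ≤ M ∧ |e| ≤ 5 * M / 4 ∧ |d| ≤ M / 2 → |c| + |d| + |e| ≤ 3 * M :=
    fun c d e h => by linarith [h.1, h.2.1, h.2.2]
  have B : ∀ c d e f : ℝ, |c| ≤ M / 2 → |d| ≤ M → |e| ≤ M → |f| ≤ M / 2 →
      |c| + |d| + |e| + |f| ≤ 3 * M := fun c d e f h1 h2 h3 h4 => by linarith
  refine ⟨?_, ?_, ?_, ?_, ?_, ?_⟩
  · refine (quad_le _ _ _ u).trans (mul_le_mul_of_nonneg_right (A _ _ _ ?_) (sq_nonneg _))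
    refine ⟨abs_le.2 ?_, abs_le.2 ?_, abs_le.2 ?_⟩ <;> constructor <;> linarith
  · refine (quad_le _ _ _ u).trans (mul_le_mul_of_nonneg_right ?_ (sq_nonneg _))
    have : |T.a2 / 4| + |T.a3| + |T.b3 - T.c2 / 4| ≤ M / 4 + M + 5 * M / 4 := by
      gcongr <;> rw [abs_le] <;> constructor <;> linarith
    linarith
  · refine (quad_le _ _ _ u).trans (mul_le_mul_of_nonneg_right ?_ (sq_nonneg _))
    have : |T.b1 - T.a2 / 4| + |T.c1| + |T.c2 / 4| ≤ 5 * M / 4 + M + M / 4 := by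
      gcongr <;> rw [abs_le] <;> constructor <;> linarith
    linarith
  · refine (quad_le _ _ _ u).trans (mul_le_mul_of_nonneg_right ?_ (sq_nonneg _))
    have : |T.c1 / 2| + |T.c2 / 2| + |(T.c3 - T.kap ^ 2) / 2| ≤ M / 2 + M / 2 + M := by
      gcongr <;> rw [abs_le] <;> constructor <;> linarith
    linarith
  · refine (cubic_le _ _ _ _ u).trans (mul_le_mul_of_nonneg_right (B _ _ _ _ ?_ ?_ ?_ ?_)
      (by positivity)) <;> rw [abs_le] <;> constructor <;> linarith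
  · refine (cubic_le _ _ _ _ u).trans (mul_le_mul_of_nonneg_right (B _ _ _ _ ?_ ?_ ?_ ?_)
      (by positivity)) <;> rw [abs_le] <;> constructor <;> linarith

lemma norm_comb (a b c : ℝ) :
    ‖a • EuclideanSpace.single (0 : Fin 4) (1 : ℝ) + b • EuclideanSpace.single 1 1 +
      c • EuclideanSpace.single 2 1‖ ≤ |a| + |b| + |c| :=
  (norm_add₃_le).trans (by simp [norm_smul])

/-- Size of the deviation of the jet. -/
lemma dev_le {M α : ℝ} (hM : 1 ≤ M) (hT : T.Le M) (hα : 1 / 2 ≤ α) (u v : R2) :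
    ‖T.dev α u‖ ≤ 12 * (M * ‖u‖ ^ 3) + (1 + |T.kap|) * ‖u‖ ^ 2 ∧
      ‖fderiv ℝ (T.dev α) u v‖ ≤ (24 * (M * ‖u‖ ^ 2) + (1 + |T.kap|) * ‖u‖) * ‖v‖ := by
  obtain ⟨hxx, hxy, hyx, hyy, hjx, hjy⟩ := T.entries_le hM hT u
  have hdiv : ∀ c B : ℝ, |c| ≤ B → |c / α| ≤ 2 * B := fun c B h => by
    rw [abs_div, abs_of_pos (by linarith : 0 < α), div_le_iff₀ (by linarith)]
    nlinarith [abs_nonneg c]
  have hu := abs_coord u
  have hv := abs_coord v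
  constructor
  · rw [dev_eq]
    refine (norm_comb _ _ _).trans ?_
    have hz : |T.jZ u| ≤ (1 + |T.kap|) * ‖u‖ ^ 2 := by
      have := quad_le 1 0 T.kap u
      simp only [one_mul, zero_mul, add_zero, abs_one, abs_zero] at this
      rw [jZ, abs_div, abs_two]
      linarith [abs_nonneg (u 0 ^ 2 + T.kap * u 1 ^ 2)]
    linarith [hdiv _ _ hjx, hdiv _ _ hjy]
  · rw [fderiv_dev]
    refine (norm_comb _ _ _).trans ?_
    have hlin : ∀ p q B : ℝ, |p| ≤ B → |q| ≤ B → |p * v 0 + q * v 1| ≤ 2 * B * ‖v‖ :=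
      fun p q B hp hq => by
        refine (abs_add_le _ _).trans ?_
        rw [abs_mul, abs_mul q]
        have := mul_le_mul hp (hv 0) (abs_nonneg _) ((abs_nonneg _).trans hp)
        have := mul_le_mul hq (hv 1) (abs_nonneg _) ((abs_nonneg _).trans hq)
        linarith
    have hz : |u 0 * v 0 + T.kap * u 1 * v 1| ≤ (1 + |T.kap|) * ‖u‖ * ‖v‖ := by
      refine (abs_add_le _ _).trans ?_
      rw [abs_mul, abs_mul, abs_mul]
      have := mul_le_mul (hu 0) (hv 0) (abs_nonneg _) (norm_nonneg _)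
      have := mul_le_mul_of_nonneg_left
        (mul_le_mul (hu 1) (hv 1) (abs_nonneg _) (norm_nonneg _)) (abs_nonneg T.kap)
      nlinarith
    linarith [hdiv _ _ (hlin _ _ _ hxx hxy), hdiv _ _ (hlin _ _ _ hyx hyy)]

end QT

/-- The jet map, made linear outside radius `ρ`. -/
def baseJet (T : QT) (α ρ : ℝ) (u : R2) : R4 := α • flatR u + cutR ρ u • T.dev α u

/-- The base map. -/
def baseMap (T : QT) (α μ s₁ ρ : ℝ) (u : R2) : R4 := radW μ s₁ ρ u • baseJet T α ρ u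

/-- Pull-back form of a map of the plane. -/
def pullP (P : R2 → R4) (u v w : R2) : ℝ := ⟪fderiv ℝ P u v, fderiv ℝ P u w⟫

/-- The loss by the radial contraction. -/
def gain (T : QT) (α μ s₁ ρ : ℝ) (u v w : R2) : ℝ :=
  pullP (baseJet T α ρ) u v w - pullP (baseMap T α μ s₁ ρ) u v w

variable {T : QT} {α μ s₁ ρ : ℝ}

lemma contDiff_baseJet : ContDiff ℝ ∞ (baseJet T α ρ) :=
  (flatR.contDiff.const_smul α).add ((cutR_smooth ρ).smul (T.contDiff_dev α))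

lemma contDiff_baseMap : ContDiff ℝ ∞ (baseMap T α μ s₁ ρ) :=
  (contDiff_radW μ s₁ ρ).smul contDiff_baseJet

lemma baseJet_inner (hρ : 0 < ρ) {u : R2} (h : ‖u‖ ≤ ρ / 2) : baseJet T α ρ u = T.jetMap α u := by
  rw [baseJet, cutR_one hρ h, one_smul, QT.dev]; abel

lemma fderiv_baseJet_inner (hρ : 0 < ρ) {u : R2} (h : ‖u‖ < ρ / 2) :
    fderiv ℝ (baseJet T α ρ) u = fderiv ℝ (T.jetMap α) u := by
  refine Filter.EventuallyEq.fderiv_eq ?_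
  filter_upwards [(isOpen_lt continuous_norm continuous_const).mem_nhds h] with z hz
  exact baseJet_inner hρ (le_of_lt hz)

lemma baseMap_outer (hρ : 0 < ρ) (hs₁ : 1 ≤ s₁) {u : R2} (h : 2 * s₁ * ρ ≤ ‖u‖) :
    baseMap T α μ s₁ ρ u = (μ * α) • flatR u := by
  have hx : 2 * s₁ ≤ ρ⁻¹ * ‖u‖ := by
    rw [inv_mul_eq_div, le_div_iff₀ hρ]; linarith
  have h1 : 2 * s₁ ≤ (ρ⁻¹ ^ 2 * ‖u‖ ^ 2) ^ 2 := by
    rw [← mul_pow]
    refine hx.trans ?_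
    rw [← pow_mul]
    exact le_self_pow₀ (by linarith) (by norm_num)
  rw [baseMap, radW, wprof_eq_mu (by linarith) h1, baseJet,
    cutR_zero hρ (by nlinarith), zero_smul, add_zero, smul_smul]

lemma baseMap_coord (u : R2) : baseMap T α μ s₁ ρ u 3 = 0 := by
  simp [baseMap, baseJet, QT.dev_eq, flatR, px, py]

lemma fderiv_baseMap (u v : R2) :
    fderiv ℝ (baseMap T α μ s₁ ρ) u v =
      radW μ s₁ ρ u • fderiv ℝ (baseJet T α ρ) u v -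
        ((-4 * (ρ⁻¹ ^ 2 * ‖u‖ ^ 2) ^ 2 * deriv (wprof μ s₁) ((ρ⁻¹ ^ 2 * ‖u‖ ^ 2) ^ 2)) *
          ⟪u, v⟫ / ‖u‖ ^ 2) • baseJet T α ρ u := by
  have h : fderiv ℝ (baseMap T α μ s₁ ρ) u = _ :=
    (((contDiff_radW μ s₁ ρ).differentiable (by simp) u).hasFDerivAt.fun_smul
      ((contDiff_baseJet (T := T) (α := α) (ρ := ρ)).differentiable (by simp) u).hasFDerivAt).fderiv
  rw [h]
  simp only [add_apply, smul_apply, ContinuousLinearMap.smulRight_apply, fderiv_radW, neg_smul]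
  abel

/-- `baseJet` is `O(M ρ² + (1+|κ|) ρ)` close to `α` times the flat inclusion. -/
theorem exists_baseJet_close :
    ∃ C : ℝ, 0 < C ∧ ∀ (T : QT) (M α ρ : ℝ), 1 ≤ M → T.Le M → 1 / 2 ≤ α → 0 < ρ → ∀ u v : R2,
      ‖baseJet T α ρ u - α • flatR u‖ ≤ C * (M * ρ ^ 2 + (1 + |T.kap|) * ρ) * ‖u‖ ∧
      ‖fderiv ℝ (baseJet T α ρ) u v - α • flatR v‖ ≤
        C * (M * ρ ^ 2 + (1 + |T.kap|) * ρ) * ‖v‖ := by
  obtain ⟨Cc, hCc, hcut⟩ := exists_cutR_deriv_bound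
  refine ⟨24 * (Cc + 1), by positivity, fun T M α ρ hM hT hα hρ u v => ?_⟩
  obtain ⟨hd0, hd1⟩ := T.dev_le hM hT hα u v
  set sz := M * ρ ^ 2 + (1 + |T.kap|) * ρ with hsz
  have hsz0 : 0 ≤ sz := by positivity
  have h : fderiv ℝ (baseJet T α ρ) u = _ :=
    ((flatR.hasFDerivAt.fun_const_smul α).fun_add
      (((cutR_smooth ρ).differentiable (by simp) u).hasFDerivAt.fun_smul
        ((T.contDiff_dev α).differentiable (by simp) u).hasFDerivAt)).fderiv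
  have e0 : baseJet T α ρ u - α • flatR u = cutR ρ u • T.dev α u := by rw [baseJet]; abel
  rw [e0, h]
  simp only [add_apply, smul_apply, ContinuousLinearMap.smulRight_apply, add_sub_cancel_left]
  rcases le_or_gt ‖u‖ ρ with hu | hu
  · have hr := norm_nonneg u
    have hK : 0 ≤ 1 + |T.kap| := by positivity
    have hu2 : ‖u‖ ^ 2 ≤ ρ ^ 2 := pow_le_pow_left₀ hr hu 2
    have d0 : ‖T.dev α u‖ ≤ 12 * sz * ‖u‖ := by
      refine hd0.trans ?_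
      nlinarith [mul_le_mul_of_nonneg_left hu2 (by positivity : 0 ≤ M * ‖u‖),
        mul_le_mul_of_nonneg_left hu (mul_nonneg hK hr), mul_nonneg (mul_nonneg hK hr) hρ.le]
    have d1 : ‖fderiv ℝ (T.dev α) u v‖ ≤ 24 * sz * ‖v‖ := by
      refine hd1.trans (mul_le_mul_of_nonneg_right ?_ (norm_nonneg _))
      nlinarith [mul_le_mul_of_nonneg_left hu2 (by linarith : 0 ≤ M),
        mul_le_mul_of_nonneg_left hu hK, mul_nonneg hK hρ.le]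
    constructor
    · rw [norm_smul, Real.norm_of_nonneg (cutR_nonneg _ _)]
      refine (mul_le_of_le_one_left (norm_nonneg _) (cutR_le_one _ _)).trans (d0.trans ?_)
      nlinarith [mul_nonneg (mul_nonneg hCc.le hsz0) hr, mul_nonneg hsz0 hr]
    · refine (norm_add_le _ _).trans ?_
      rw [norm_smul, norm_smul, Real.norm_of_nonneg (cutR_nonneg _ _)]
      have c1 : ‖fderiv ℝ (cutR ρ) u v‖ * ‖T.dev α u‖ ≤ Cc / ρ * ‖v‖ * (12 * sz * ρ) :=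
        mul_le_mul ((ContinuousLinearMap.le_opNorm _ v).trans
          (mul_le_mul_of_nonneg_right (hcut ρ hρ u) (norm_nonneg _)))
          (d0.trans (mul_le_mul_of_nonneg_left hu (by positivity))) (norm_nonneg _) (by positivity)
      have c2 : Cc / ρ * ‖v‖ * (12 * sz * ρ) = 12 * Cc * sz * ‖v‖ := by field_simp
      have c3 := (mul_le_of_le_one_left (norm_nonneg (fderiv ℝ (T.dev α) u v))
        (cutR_le_one ρ u)).trans d1
      nlinarith [mul_nonneg (mul_nonneg hCc.le hsz0) (norm_nonneg v)]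
  · have hz : fderiv ℝ (cutR ρ) u = 0 := by
      have he : cutR ρ =ᶠ[𝓝 u] fun _ => 0 := by
        filter_upwards [(isOpen_lt continuous_const continuous_norm).mem_nhds hu] with z hz
        exact cutR_zero hρ (le_of_lt hz)
      rw [he.fderiv_eq]; simp
    rw [cutR_zero hρ hu.le, hz]
    simp only [zero_smul, zero_apply, add_zero, norm_zero]
    constructor <;> positivity

/-- **The base map.** For every inner scale `μ` there are `s₁, C, δ₀` such that, once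
`M ρ² + (1 + |κ|) ρ ≤ δ₀`: the loss is comparable with `min ‖ρ⁻¹u‖⁴ 1` from both sides,
the map is an immersion, and the jet is close to flat. -/
theorem exists_base {μ : ℝ} (hμ0 : 0 < μ) (hμ1 : μ < 1) :
    ∃ s₁ C δ₀ : ℝ, 1 ≤ s₁ ∧ 0 < C ∧ 0 < δ₀ ∧ ∀ (T : QT) (M α ρ : ℝ), 1 ≤ M → T.Le M →
      1 / 2 ≤ α → α ≤ 1 → 0 < ρ → M * ρ ^ 2 + (1 + |T.kap|) * ρ ≤ δ₀ → ∀ u v w : R2,
        C⁻¹ * min ((ρ⁻¹ ^ 2 * ‖u‖ ^ 2) ^ 2) 1 * ‖v‖ ^ 2 ≤ gain T α μ s₁ ρ u v v ∧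
        |gain T α μ s₁ ρ u v w| ≤ C * min ((ρ⁻¹ ^ 2 * ‖u‖ ^ 2) ^ 2) 1 * (‖v‖ * ‖w‖) ∧
        C⁻¹ * ‖v‖ ≤ ‖fderiv ℝ (baseMap T α μ s₁ ρ) u v‖ ∧
        |pullP (baseJet T α ρ) u v w - α ^ 2 * ⟪v, w⟫| ≤
          C * (M * ρ ^ 2 + (1 + |T.kap|) * ρ) * (‖v‖ * ‖w‖) := by
  obtain ⟨s₁, Cw, hs₁, hCw, hw⟩ := exists_profile hμ0 hμ1
  obtain ⟨Cj, hCj, hjet⟩ := exists_baseJet_close
  refine ⟨s₁, max (max (8 * Cw) (8 + 12 * Cw)) (max (3 * Cj) (16 / μ)),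
    1 / (Cj * (3000 * (1 + Cw))), hs₁, by positivity, by positivity,
    fun T M α ρ hM hT hα hα1 hρ hsmall u v w => ?_⟩
  set C := max (max (8 * Cw) (8 + 12 * Cw)) (max (3 * Cj) (16 / μ)) with hC
  have hC1 : 8 * Cw ≤ C := (le_max_left _ _).trans (le_max_left _ _)
  have hC2 : 8 + 12 * Cw ≤ C := (le_max_right _ _).trans (le_max_left _ _)
  have hC3 : 3 * Cj ≤ C := (le_max_left _ _).trans (le_max_right _ _)
  have hC4 : 16 / μ ≤ C := (le_max_right _ _).trans (le_max_right _ _)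
  have hC0 : 0 < C := by linarith
  set sz := M * ρ ^ 2 + (1 + |T.kap|) * ρ with hsz
  set δ := Cj * sz with hδ
  have hδ0 : 0 ≤ δ := by positivity
  have hδs : δ * (3000 * (1 + Cw)) ≤ 1 := by
    rw [le_div_iff₀ (by positivity)] at hsmall
    rw [hδ]; linarith
  have hδ2 : δ * 3000 ≤ 1 := by linarith [mul_nonneg hδ0 hCw.le]
  have hδ1 : δ ≤ 1 := by linarith
  obtain ⟨jP, jv⟩ := hjet T M α ρ hM hT hα hρ u v
  obtain ⟨-, jw⟩ := hjet T M α ρ hM hT hα hρ u w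
  have hαa : |α| ≤ 1 := abs_le.2 ⟨by linarith, hα1⟩
  have fl : ∀ z, ‖flatR z‖ ≤ ‖z‖ := fun z => (norm_flatR z).le
  have c0 := inner_close hαa hδ1 _ _ _ _ _ _ (fl v) (fl v) jv jv
  have c1 := inner_close hαa hδ1 _ _ _ _ _ _ (fl u) (fl v) jP jv
  have c2 := inner_close hαa hδ1 _ _ _ _ _ _ (fl u) (fl u) jP jP
  have c3 := inner_close hαa hδ1 _ _ _ _ _ _ (fl v) (fl w) jv jw
  simp only [inner_flatR, real_inner_self_eq_norm_sq, norm_flatR, ← sq] at c0 c1 c2 c3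
  set s := (ρ⁻¹ ^ 2 * ‖u‖ ^ 2) ^ 2 with hs
  have hs0 : 0 ≤ s := radArg_nonneg ρ u
  obtain ⟨w1, w2, w3, w4, w5, w6⟩ := hw s hs0
  have hdef := one_sub_wprof_le hμ0.le hμ1.le hs₁ hs0
  set b := -4 * s * deriv (wprof μ s₁) s with hb
  set W := wprof μ s₁ s with hW
  have hW0 : 0 ≤ W := hμ0.le.trans w1
  have hb0 : 0 ≤ b := by
    rw [hb]; exact mul_nonneg_of_nonpos_of_nonpos (by linarith) w3
  obtain ⟨low, imm⟩ := radial_lower hW0 w2 hb0 w4 w5 u v (baseJet T α ρ u)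
    (fderiv ℝ (baseJet T α ρ) u v) c0 c1 c2 (by positivity)
  have hn : ∀ (x : R4) (z : R2), ‖x - α • flatR z‖ ≤ δ * ‖z‖ → ‖x‖ ≤ 2 * ‖z‖ := fun x z hx => by
    calc ‖x‖ = ‖(x - α • flatR z) + α • flatR z‖ := by rw [sub_add_cancel]
      _ ≤ δ * ‖z‖ + |α| * ‖z‖ := (norm_add_le _ _).trans
          (add_le_add hx (by rw [norm_smul, norm_flatR, Real.norm_eq_abs]))
      _ ≤ 2 * ‖z‖ := by
          linarith [mul_le_mul_of_nonneg_right hδ1 (norm_nonneg z),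
            mul_le_mul_of_nonneg_right hαa (norm_nonneg z)]
  have up := radial_upper hW0 w2 hb0 (by linarith) u v w (baseJet T α ρ u)
    (fderiv ℝ (baseJet T α ρ) u v) (fderiv ℝ (baseJet T α ρ) u w) (hn _ _ jP) (hn _ _ jv)
    (hn _ _ jw)
  have hg : ∀ x y, gain T α μ s₁ ρ u x y =
      ⟪fderiv ℝ (baseJet T α ρ) u x, fderiv ℝ (baseJet T α ρ) u y⟫ -
        ⟪W • fderiv ℝ (baseJet T α ρ) u x - (b * ⟪u, x⟫ / ‖u‖ ^ 2) • baseJet T α ρ u,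
          W • fderiv ℝ (baseJet T α ρ) u y - (b * ⟪u, y⟫ / ‖u‖ ^ 2) • baseJet T α ρ u⟫ :=
    fun x y => by simp only [gain, pullP, fderiv_baseMap]; rfl
  have hm0 : 0 ≤ min s 1 := le_min hs0 zero_le_one
  have hV : 0 ≤ ‖v‖ ^ 2 := sq_nonneg _
  have hα2 : 1 / 4 ≤ α ^ 2 := by
    have := pow_le_pow_left₀ (by norm_num) hα 2
    linarith
  refine ⟨?_, ?_, ?_, ?_⟩
  · rw [hg, real_inner_self_eq_norm_sq, real_inner_self_eq_norm_sq]
    refine le_trans ?_ low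
    refine mul_le_mul_of_nonneg_right ?_ hV
    have h1 : (1 : ℝ) / 8 ≤ α ^ 2 - 3 * δ * (1 + 3 * Cw) := by
      linarith [mul_nonneg hδ0 hCw.le]
    have h2 : 1 - W ≤ 1 - W ^ 2 := by linarith [mul_le_of_le_one_left hW0 w2, sq W]
    calc C⁻¹ * min s 1 ≤ C⁻¹ * (Cw * (1 - W)) :=
          mul_le_mul_of_nonneg_left w6 (by positivity)
      _ ≤ (1 - W) / 8 := by
          rw [inv_mul_eq_div, div_le_div_iff₀ hC0 (by norm_num)]
          linarith [mul_le_mul_of_nonneg_left hC1 (sub_nonneg.2 w2)]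
      _ ≤ (1 - W ^ 2) * (1 / 8) := by linarith
      _ ≤ _ := mul_le_mul_of_nonneg_left h1 (by linarith)
  · rw [hg]
    refine up.trans (mul_le_mul_of_nonneg_right ?_ (by positivity))
    calc 8 * (1 - W) + 12 * b ≤ (8 + 12 * Cw) * (1 - W) := by linarith
      _ ≤ C * min s 1 := mul_le_mul hC2 hdef (by linarith) hC0.le
  · rw [fderiv_baseMap]
    refine le_of_pow_le_pow_left₀ two_ne_zero (norm_nonneg _) (le_trans ?_ imm)
    rw [mul_pow]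
    refine mul_le_mul_of_nonneg_right ?_ hV
    have h1 : (1 : ℝ) / 256 ≤ α ^ 2 / 16 - 4 * (3 * δ) := by linarith
    calc C⁻¹ ^ 2 ≤ (μ / 16) ^ 2 :=
          pow_le_pow_left₀ (by positivity) (by rw [inv_le_comm₀ hC0 (by positivity), inv_div]; exact hC4) 2
      _ = μ ^ 2 * (1 / 256) := by ring
      _ ≤ _ := mul_le_mul (pow_le_pow_left₀ hμ0.le w1 2) h1 (by norm_num) (sq_nonneg _)
  · refine le_trans (le_of_eq_of_le ?_ c3) ?_
    · simp [pullP]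
    · refine mul_le_mul_of_nonneg_right ?_ (by positivity)
      rw [hδ, ← mul_assoc]
      exact mul_le_mul_of_nonneg_right hC3 (by positivity)

/-- The jet error: quartic. -/
lemma QT.err_le {M : ℝ} (hM : 1 ≤ M) (hT : T.Le M) (hα : 1 / 2 ≤ α) (u v w : R2) :
    |T.err α u v w| ≤ 288 * M ^ 2 * ‖u‖ ^ 4 * (‖v‖ * ‖w‖) := by
  obtain ⟨hxx, hxy, hyx, hyy, -, -⟩ := T.entries_le hM hT u
  set B := 3 * M * ‖u‖ ^ 2 with hB
  have hB0 : 0 ≤ B := by positivity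
  have hlin : ∀ (p q : ℝ) (z : R2), |p| ≤ B → |q| ≤ B → |p * z 0 + q * z 1| ≤ 2 * B * ‖z‖ :=
    fun p q z hp hq => by
      refine (abs_add_le _ _).trans ?_
      rw [abs_mul, abs_mul q]
      have := mul_le_mul hp (QT.abs_coord z 0) (abs_nonneg _) hB0
      have := mul_le_mul hq (QT.abs_coord z 1) (abs_nonneg _) hB0
      linarith
  have hprod : ∀ p q : ℝ, |p| ≤ B → |q| ≤ B →
      |(p * v 0 + q * v 1) * (p * w 0 + q * w 1)| ≤ 4 * B ^ 2 * (‖v‖ * ‖w‖) := fun p q hp hq => by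
    rw [abs_mul]
    exact (mul_le_mul (hlin p q v hp hq) (hlin p q w hp hq) (abs_nonneg _)
      (by positivity)).trans (le_of_eq (by ring))
  rw [QT.err, abs_div, abs_of_nonneg (sq_nonneg α), div_le_iff₀ (by nlinarith)]
  refine ((abs_add_le _ _).trans (add_le_add (hprod _ _ hxx hxy) (hprod _ _ hyx hyy))).trans ?_
  have h4 : (1 : ℝ) / 4 ≤ α ^ 2 := by nlinarith
  calc 4 * B ^ 2 * (‖v‖ * ‖w‖) + 4 * B ^ 2 * (‖v‖ * ‖w‖)
      = 288 * M ^ 2 * ‖u‖ ^ 4 * (‖v‖ * ‖w‖) * (1 / 4) := by rw [hB]; ring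
    _ ≤ _ := mul_le_mul_of_nonneg_left h4 (by positivity)

/-- Inside radius `ρ/2` the pull-back of the base map is the target up to jet error and loss. -/
theorem pullP_baseMap_inner (hρ : 0 < ρ) (hα : α ≠ 0) {u : R2} (h : ‖u‖ < ρ / 2) (v w : R2) :
    pullP (baseMap T α μ s₁ ρ) u v w =
      α ^ 2 * ⟪v, w⟫ + T.eval u v w + T.err α u v w - gain T α μ s₁ ρ u v w := by
  simp only [gain, pullP, fderiv_baseJet_inner hρ h, T.pull_jetMap hα]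
  ring

end Vale.Agent.P205.Full.Start
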