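import Vale.Agent.P205.Full.Start.BaseChartDeriv

/-!
# Module START, A4: the derivatives of the residual in the core
-/

open Real Set Filter Topology
open scoped RealInnerProductSpace ContDiff

noncomputable section

namespace Vale.Agent.P205.Full.Start

set_option maxSynthPendingDepth 3

/-- **Core derivatives.** Given third and second order decay of the derivatives of the loss, the
residual has differential `O(η⁸ r)` and bounded second differential in the core. -/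
theorem chart_core_deriv {g2 : R2 → R2 →L[ℝ] R2 →L[ℝ] ℝ} {Q : QT}
    {eA eB μ s₁ η Cr Cg K : ℝ} (hCr : 0 ≤ Cr) (hCg : 0 ≤ Cg)
    (hT : (chartQT Q eA eB η).Le (K * η⁻¹ ^ 16)) (hM : 1 ≤ K * η⁻¹ ^ 16)
    (hη : 0 < η) (hη1 : η ≤ 1 / 4) {z v w : R2} (hz : ‖z‖ ≤ η ^ 30)
    (hm : D2le (metricRem g2 Q v w) z (Cr * ‖z‖ ^ 3 * (‖v‖ * ‖w‖))
      (Cr * ‖z‖ ^ 2 * (‖v‖ * ‖w‖)) (Cr * ‖z‖ * (‖v‖ * ‖w‖)))
    {G : ℝ}
    (hg : D2le (fun y => gain (chartQT Q eA eB η) 1 μ s₁ (η ^ 9) y v w) z G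
      (Cg * ‖z‖ ^ 3 / (η ^ 9) ^ 4 * (‖v‖ * ‖w‖))
      (Cg * ‖z‖ ^ 2 / (η ^ 9) ^ 4 * (‖v‖ * ‖w‖))) :
    ‖fderiv ℝ (fun y => chartRes g2 eA eB η (chartF Q eA eB μ s₁ η) y v w) z‖ ≤
        (Cg + 8192 * K ^ 2 + 16 * Cr + 160 * Q.total) * η ^ 8 * ‖z‖ * (‖v‖ * ‖w‖) ∧
      ‖fderiv ℝ (fderiv ℝ fun y => chartRes g2 eA eB η (chartF Q eA eB μ s₁ η) y v w) z‖ ≤
        (Cg + 8192 * K ^ 2 + 16 * Cr + 160 * Q.total) * (‖v‖ * ‖w‖) := by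
  have hη1' : η ≤ 1 := by linarith
  have hq := Q.total_nonneg
  have hz0 := norm_nonneg z
  have hV : 0 ≤ ‖v‖ * ‖w‖ := by positivity
  have hz1 : ‖z‖ ≤ 1 := hz.trans (pow_le_one₀ hη.le hη1')
  have hz9 : ‖z‖ < η ^ 9 / 2 := by
    calc ‖z‖ ≤ η ^ 30 := hz
      _ ≤ η ^ 10 := pow_le_pow_of_le_one hη.le hη1' (by norm_num)
      _ = η * η ^ 9 := by ring
      _ ≤ 1 / 4 * η ^ 9 := mul_le_mul_of_nonneg_right hη1 (by positivity)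
      _ < η ^ 9 / 2 := by linarith [pow_pos hη 9]
  have H := ((hg.sub ((chartQT Q eA eB η).d2le_err hM hT v w z)).add
    (d2le_targetRem hCr hη hη1' hz1 hm)).congr (h := fun y =>
      chartRes g2 eA eB η (chartF Q eA eB μ s₁ η) y v w) (by
      filter_upwards [(isOpen_lt continuous_norm continuous_const).mem_nhds hz9] with y hy
      exact chartRes_inner hη hy v w)
  have p0 : ∀ n, η ^ n ≤ 1 := fun n => pow_le_one₀ hη.le hη1'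
  have hK2 : 0 ≤ K ^ 2 := sq_nonneg K
  constructor
  · refine H.d1.trans ?_
    have a1 : ‖z‖ ^ 3 / (η ^ 9) ^ 4 ≤ η ^ 8 * ‖z‖ := by
      rw [div_le_iff₀ (by positivity)]
      calc ‖z‖ ^ 3 = ‖z‖ ^ 2 * ‖z‖ := by ring
        _ ≤ (η ^ 30) ^ 2 * ‖z‖ := by gcongr
        _ ≤ η ^ 44 * ‖z‖ := mul_le_mul_of_nonneg_right
            (by rw [← pow_mul]; exact pow_le_pow_of_le_one hη.le hη1' (by norm_num)) hz0
        _ = η ^ 8 * ‖z‖ * (η ^ 9) ^ 4 := by ring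
    have a2 : (K * η⁻¹ ^ 16) ^ 2 * ‖z‖ ^ 3 ≤ K ^ 2 * (η ^ 8 * ‖z‖) := by
      calc (K * η⁻¹ ^ 16) ^ 2 * ‖z‖ ^ 3 = K ^ 2 * η⁻¹ ^ 32 * ‖z‖ ^ 2 * ‖z‖ := by ring
        _ ≤ K ^ 2 * η⁻¹ ^ 32 * (η ^ 30) ^ 2 * ‖z‖ := by gcongr
        _ = K ^ 2 * (η ^ 28 * ‖z‖) := by field_simp
        _ ≤ K ^ 2 * (η ^ 8 * ‖z‖) := by
            gcongr K ^ 2 * (?_ * _)
            exact pow_le_pow_of_le_one hη.le hη1' (by norm_num)
    have a3 : ‖z‖ ^ 2 ≤ η ^ 8 * ‖z‖ := by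
      rw [sq]
      exact mul_le_mul_of_nonneg_right
        (hz.trans (pow_le_pow_of_le_one hη.le hη1' (by norm_num))) hz0
    have := mul_le_mul_of_nonneg_left a1 (mul_nonneg hCg hV)
    have := mul_le_mul_of_nonneg_left a2 (by positivity : 0 ≤ 2048 * (‖v‖ * ‖w‖))
    have := mul_le_mul_of_nonneg_left a3 (by positivity : 0 ≤ (8 * Cr + 160 * Q.total) * (‖v‖ * ‖w‖))
    rw [mul_div_assoc Cg (‖z‖ ^ 3)]
    linarith [mul_nonneg (mul_nonneg hK2 hV) (mul_nonneg (pow_nonneg hη.le 8) hz0),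
      mul_nonneg (mul_nonneg hCr hV) (mul_nonneg (pow_nonneg hη.le 8) hz0)]
  · refine H.d2.trans ?_
    have a1 : ‖z‖ ^ 2 / (η ^ 9) ^ 4 ≤ 1 := by
      rw [div_le_iff₀ (by positivity), one_mul]
      calc ‖z‖ ^ 2 ≤ (η ^ 30) ^ 2 := by gcongr
        _ ≤ (η ^ 9) ^ 4 := by
            rw [← pow_mul, ← pow_mul]; exact pow_le_pow_of_le_one hη.le hη1' (by norm_num)
    have a2 : (K * η⁻¹ ^ 16) ^ 2 * ‖z‖ ^ 2 ≤ K ^ 2 * 1 := by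
      calc (K * η⁻¹ ^ 16) ^ 2 * ‖z‖ ^ 2 ≤ (K * η⁻¹ ^ 16) ^ 2 * (η ^ 30) ^ 2 := by gcongr
        _ = K ^ 2 * η ^ 28 := by field_simp
        _ ≤ K ^ 2 * 1 := mul_le_mul_of_nonneg_left (p0 _) hK2
    have := mul_le_mul_of_nonneg_left a1 (mul_nonneg hCg hV)
    have := mul_le_mul_of_nonneg_left a2 (by positivity : 0 ≤ 8192 * (‖v‖ * ‖w‖))
    rw [mul_div_assoc Cg (‖z‖ ^ 2)]
    linarith

end Vale.Agent.P205.Full.Start
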