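import Vale.Agent.P205.Full.Start.BaseChartBasic

/-!
# Module START, A4: first and second derivatives of the small terms of the core residual
-/

open Real Set Filter Topology
open scoped RealInnerProductSpace ContDiff

noncomputable section

namespace Vale.Agent.P205.Full.Start

set_option maxSynthPendingDepth 3

/-- `f` is smooth near `z`, with value and first two derivatives bounded by `a`, `b`, `c`. -/
structure D2le (f : R2 → ℝ) (z : R2) (a b c : ℝ) : Prop where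
  smooth : ContDiffAt ℝ 2 f z
  val : |f z| ≤ a
  d1 : ‖fderiv ℝ f z‖ ≤ b
  d2 : ‖fderiv ℝ (fderiv ℝ f) z‖ ≤ c

namespace D2le

variable {f h : R2 → ℝ} {z : R2} {a b c a' b' c' : ℝ}

lemma nonneg (hf : D2le f z a b c) : 0 ≤ a ∧ 0 ≤ b ∧ 0 ≤ c :=
  ⟨(abs_nonneg _).trans hf.val, (norm_nonneg _).trans hf.d1, (norm_nonneg _).trans hf.d2⟩

lemma mono (hf : D2le f z a b c) (ha : a ≤ a') (hb : b ≤ b') (hc : c ≤ c') :
    D2le f z a' b' c' :=
  ⟨hf.smooth, hf.val.trans ha, hf.d1.trans hb, hf.d2.trans hc⟩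

lemma eventually_diff (hf : D2le f z a b c) : ∀ᶠ y in 𝓝 z, DifferentiableAt ℝ f y :=
  (hf.smooth.eventually (by simp)).mono fun y hy => hy.differentiableAt (by simp)

lemma diff_fderiv (hf : D2le f z a b c) : DifferentiableAt ℝ (fderiv ℝ f) z :=
  (hf.smooth.fderiv_right (m := 1) (by norm_num)).differentiableAt (by simp)

lemma congr (hf : D2le f z a b c) (e : h =ᶠ[𝓝 z] f) : D2le h z a b c :=
  ⟨hf.smooth.congr_of_eventuallyEq e, by rw [e.eq_of_nhds]; exact hf.val,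
    by rw [e.fderiv_eq]; exact hf.d1, by rw [e.fderiv.fderiv_eq]; exact hf.d2⟩

lemma const (k : ℝ) : D2le (fun _ => k) z |k| 0 0 :=
  ⟨contDiffAt_const, le_rfl, by simp, by simp⟩

lemma linear (L : R2 →L[ℝ] ℝ) (hL : ‖L‖ ≤ 1) : D2le (fun y => L y) z ‖z‖ 1 0 := by
  have e : fderiv ℝ (fun y => L y) = fun _ => L := funext fun y => L.fderiv
  refine ⟨L.contDiff.contDiffAt, ?_, ?_, ?_⟩
  · rw [← Real.norm_eq_abs]
    exact (L.le_opNorm z).trans (mul_le_of_le_one_left (norm_nonneg _) hL)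
  · rw [e]; exact hL
  · rw [e]; simp

lemma add (hf : D2le f z a b c) (hh : D2le h z a' b' c') :
    D2le (fun y => f y + h y) z (a + a') (b + b') (c + c') := by
  have e : fderiv ℝ (fun y => f y + h y) =ᶠ[𝓝 z] fun y => fderiv ℝ f y + fderiv ℝ h y := by
    filter_upwards [hf.eventually_diff, hh.eventually_diff] with y h1 h2
    exact fderiv_fun_add h1 h2
  refine ⟨hf.smooth.add hh.smooth, (abs_add_le _ _).trans (add_le_add hf.val hh.val), ?_, ?_⟩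
  · rw [e.eq_of_nhds]; exact (norm_add_le _ _).trans (add_le_add hf.d1 hh.d1)
  · rw [e.fderiv_eq, fderiv_fun_add hf.diff_fderiv hh.diff_fderiv]
    exact (norm_add_le _ _).trans (add_le_add hf.d2 hh.d2)

lemma mul (hf : D2le f z a b c) (hh : D2le h z a' b' c') :
    D2le (fun y => f y * h y) z (a * a') (a * b' + a' * b) (a * c' + 2 * b * b' + a' * c) := by
  obtain ⟨ha, hb, hc⟩ := hf.nonneg
  obtain ⟨ha', hb', hc'⟩ := hh.nonneg
  have e : fderiv ℝ (fun y => f y * h y) =ᶠ[𝓝 z]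
      fun y => f y • fderiv ℝ h y + h y • fderiv ℝ f y := by
    filter_upwards [hf.eventually_diff, hh.eventually_diff] with y h1 h2
    exact fderiv_fun_mul h1 h2
  have n : ∀ (x : ℝ) (A : R2 →L[ℝ] ℝ) {p q : ℝ}, |x| ≤ p → ‖A‖ ≤ q → 0 ≤ p →
      ‖x • A‖ ≤ p * q := fun x A {p q} h1 h2 hp => by
    rw [norm_smul, Real.norm_eq_abs]; exact mul_le_mul h1 h2 (norm_nonneg _) hp
  refine ⟨hf.smooth.mul hh.smooth, ?_, ?_, ?_⟩
  · rw [abs_mul]; exact mul_le_mul hf.val hh.val (abs_nonneg _) ha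
  · rw [e.eq_of_nhds]
    exact (norm_add_le _ _).trans (add_le_add (n _ _ hf.val hh.d1 ha) (n _ _ hh.val hf.d1 ha'))
  · have hdf : DifferentiableAt ℝ f z := hf.smooth.differentiableAt (by simp)
    have hdh : DifferentiableAt ℝ h z := hh.smooth.differentiableAt (by simp)
    have hd := (hdf.hasFDerivAt.fun_smul hh.diff_fderiv.hasFDerivAt).fun_add
      (hdh.hasFDerivAt.fun_smul hf.diff_fderiv.hasFDerivAt)
    rw [e.fderiv_eq, hd.fderiv]
    have m : ∀ (x : ℝ) (A : R2 →L[ℝ] R2 →L[ℝ] ℝ) {p q : ℝ}, |x| ≤ p → ‖A‖ ≤ q → 0 ≤ p →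
        ‖x • A‖ ≤ p * q := fun x A {p q} h1 h2 hp => by
      rw [norm_smul, Real.norm_eq_abs]; exact mul_le_mul h1 h2 (norm_nonneg _) hp
    have sr1 : ‖(fderiv ℝ f z).smulRight (fderiv ℝ h z)‖ ≤ b * b' := by
      rw [ContinuousLinearMap.norm_smulRight_apply]
      exact mul_le_mul hf.d1 hh.d1 (norm_nonneg _) hb
    have sr2 : ‖(fderiv ℝ h z).smulRight (fderiv ℝ f z)‖ ≤ b' * b := by
      rw [ContinuousLinearMap.norm_smulRight_apply]
      exact mul_le_mul hh.d1 hf.d1 (norm_nonneg _) hb'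
    exact (norm_add_le _ _).trans ((add_le_add ((norm_add_le _ _).trans
      (add_le_add (m _ _ hf.val hh.d2 ha) sr1)) ((norm_add_le _ _).trans
      (add_le_add (m _ _ hh.val hf.d2 ha') sr2))).trans (le_of_eq (by ring)))

lemma smul (k : ℝ) (hf : D2le f z a b c) :
    D2le (fun y => k * f y) z (|k| * a) (|k| * b) (|k| * c) :=
  ((const k).mul hf).mono le_rfl (by simp) (by simp)

lemma sub (hf : D2le f z a b c) (hh : D2le h z a' b' c') :
    D2le (fun y => f y - h y) z (a + a') (b + b') (c + c') :=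
  (hf.add ((hh.smul (-1)).mono (by simp) (by simp) (by simp))).congr
    (Eventually.of_forall fun y => by ring)

end D2le

/-- A quadratic form. -/
lemma d2le_quad {c d e S : ℝ} (h : |c| + |d| + |e| ≤ S) (z : R2) :
    D2le (fun y : R2 => c * y 0 ^ 2 + d * (y 0 * y 1) + e * y 1 ^ 2) z
      (S * ‖z‖ ^ 2) (2 * S * ‖z‖) (2 * S) := by
  have hx := D2le.linear (z := z) px norm_px
  have hy := D2le.linear (z := z) py norm_py
  have hz := norm_nonneg z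
  have H := (((hx.mul hx).smul c).add ((hx.mul hy).smul d)).add ((hy.mul hy).smul e)
  refine (H.congr (Eventually.of_forall fun y => ?_)).mono ?_ ?_ ?_
  · simp [px, py]; ring
  · have := mul_le_mul_of_nonneg_right h (sq_nonneg ‖z‖)
    linarith
  · have := mul_le_mul_of_nonneg_right h hz
    linarith
  · linarith

lemma QT.d2le_eval (T : QT) (v w z : R2) :
    D2le (fun y => T.eval y v w) z (4 * T.total * ‖z‖ ^ 2 * (‖v‖ * ‖w‖))
      (8 * T.total * ‖z‖ * (‖v‖ * ‖w‖)) (8 * T.total * (‖v‖ * ‖w‖)) := by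
  have hz := norm_nonneg z
  have hn := T.total_nonneg
  have hV : 0 ≤ ‖v‖ * ‖w‖ := by positivity
  have key : ∀ (i j : Fin 2), |v i * w j| ≤ ‖v‖ * ‖w‖ := fun i j => by
    rw [abs_mul]
    exact mul_le_mul (QT.abs_coord v i) (QT.abs_coord w j) (abs_nonneg _) (norm_nonneg _)
  have x := fun r : ℝ => abs_nonneg r
  have e1 := d2le_quad (c := T.a1) (d := T.a2) (e := T.a3) (S := T.total)
    (by unfold QT.total; linarith [x T.b1, x T.b2, x T.b3, x T.c1, x T.c2, x T.c3]) z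
  have e2 := d2le_quad (c := T.b1) (d := T.b2) (e := T.b3) (S := T.total)
    (by unfold QT.total; linarith [x T.a1, x T.a2, x T.a3, x T.c1, x T.c2, x T.c3]) z
  have e3 := d2le_quad (c := T.c1) (d := T.c2) (e := T.c3) (S := T.total)
    (by unfold QT.total; linarith [x T.a1, x T.a2, x T.a3, x T.b1, x T.b2, x T.b3]) z
  have H := ((e1.smul (v 0 * w 0)).add (e2.smul (v 0 * w 1 + v 1 * w 0))).add (e3.smul (v 1 * w 1))
  have hk := (key 0 0)
  have hm : |v 0 * w 1 + v 1 * w 0| ≤ ‖v‖ * ‖w‖ + ‖v‖ * ‖w‖ :=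
    (abs_add_le _ _).trans (add_le_add (key 0 1) (key 1 0))
  have hs : |v 0 * w 0| + |v 0 * w 1 + v 1 * w 0| + |v 1 * w 1| ≤ 4 * (‖v‖ * ‖w‖) := by
    linarith [key 1 1]
  refine (H.congr (Eventually.of_forall fun y => ?_)).mono ?_ ?_ ?_
  · simp only [QT.eval, QT.t11, QT.t12, QT.t22]; ring
  · linarith [mul_le_mul_of_nonneg_right hs (by positivity : 0 ≤ T.total * ‖z‖ ^ 2)]
  · linarith [mul_le_mul_of_nonneg_right hs (by positivity : 0 ≤ 2 * T.total * ‖z‖)]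
  · linarith [mul_le_mul_of_nonneg_right hs (by positivity : 0 ≤ 2 * T.total)]

/-- The jet error, with two derivatives. -/
lemma QT.d2le_err (T : QT) {M : ℝ} (hM : 1 ≤ M) (hT : T.Le M) (v w z : R2) :
    D2le (fun y => T.err 1 y v w) z (512 * M ^ 2 * ‖z‖ ^ 4 * (‖v‖ * ‖w‖))
      (2048 * M ^ 2 * ‖z‖ ^ 3 * (‖v‖ * ‖w‖)) (8192 * M ^ 2 * ‖z‖ ^ 2 * (‖v‖ * ‖w‖)) := by
  obtain ⟨a1, a2, a3, b1, b2, b3, c1, c2, c3, hk⟩ := hT
  have k2 := sq_nonneg T.kap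
  rw [abs_le] at a1 a2 a3 b1 b2 b3 c1 c2 c3
  have hz := norm_nonneg z
  have A : ∀ c d e : ℝ, |c| ≤ 2 * M → |d| ≤ 2 * M → |e| ≤ 2 * M → |c| + |d| + |e| ≤ 6 * M :=
    fun c d e h1 h2 h3 => by linarith
  have xx : D2le (fun y => T.Xx y) z _ _ _ := d2le_quad (S := 6 * M) (A _ _ _
    (abs_le.2 ⟨by linarith, by linarith⟩) (abs_le.2 ⟨by linarith, by linarith⟩)
    (abs_le.2 ⟨by linarith, by linarith⟩)) z
  have xy : D2le (fun y => T.Xy y) z _ _ _ := d2le_quad (S := 6 * M) (A _ _ _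
    (abs_le.2 ⟨by linarith, by linarith⟩) (abs_le.2 ⟨by linarith, by linarith⟩)
    (abs_le.2 ⟨by linarith, by linarith⟩)) z
  have yx : D2le (fun y => T.Yx y) z _ _ _ := d2le_quad (S := 6 * M) (A _ _ _
    (abs_le.2 ⟨by linarith, by linarith⟩) (abs_le.2 ⟨by linarith, by linarith⟩)
    (abs_le.2 ⟨by linarith, by linarith⟩)) z
  have yy : D2le (fun y => T.Yy y) z _ _ _ := d2le_quad (S := 6 * M) (A _ _ _
    (abs_le.2 ⟨by linarith, by linarith⟩) (abs_le.2 ⟨by linarith, by linarith⟩)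
    (abs_le.2 ⟨by linarith, by linarith⟩)) z
  have comb : ∀ {p q : R2 → ℝ} (u : R2),
      D2le p z (6 * M * ‖z‖ ^ 2) (2 * (6 * M) * ‖z‖) (2 * (6 * M)) →
      D2le q z (6 * M * ‖z‖ ^ 2) (2 * (6 * M) * ‖z‖) (2 * (6 * M)) →
      D2le (fun y => u 0 * p y + u 1 * q y) z (12 * M * ‖z‖ ^ 2 * ‖u‖) (24 * M * ‖z‖ * ‖u‖)
        (24 * M * ‖u‖) := fun {p q} u hp hq => by
    have h0 := QT.abs_coord u 0
    have h1 := QT.abs_coord u 1
    refine ((hp.smul (u 0)).add (hq.smul (u 1))).mono ?_ ?_ ?_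
    · linarith [mul_le_mul_of_nonneg_right (add_le_add h0 h1) (by positivity : 0 ≤ 6 * M * ‖z‖ ^ 2)]
    · linarith [mul_le_mul_of_nonneg_right (add_le_add h0 h1) (by positivity : 0 ≤ 12 * M * ‖z‖)]
    · linarith [mul_le_mul_of_nonneg_right (add_le_add h0 h1) (by positivity : 0 ≤ 12 * M)]
  have H := ((comb v xx xy).mul (comb w xx xy)).add ((comb v yx yy).mul (comb w yx yy))
  refine (H.congr (Eventually.of_forall fun y => ?_)).mono ?_ ?_ ?_
  · simp only [QT.err, one_pow, div_one]; ring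
  · nlinarith [(by positivity : 0 ≤ M ^ 2 * ‖z‖ ^ 4 * (‖v‖ * ‖w‖))]
  · nlinarith [(by positivity : 0 ≤ M ^ 2 * ‖z‖ ^ 3 * (‖v‖ * ‖w‖))]
  · nlinarith [(by positivity : 0 ≤ M ^ 2 * ‖z‖ ^ 2 * (‖v‖ * ‖w‖))]

/-- The remainder of the target, with two derivatives. -/
lemma d2le_targetRem {g2 : R2 → R2 →L[ℝ] R2 →L[ℝ] ℝ} {Q : QT} {Cr η : ℝ} {v w z : R2}
    (hCr : 0 ≤ Cr) (hη : 0 < η) (hη1 : η ≤ 1) (hz1 : ‖z‖ ≤ 1)
    (hm : D2le (metricRem g2 Q v w) z (Cr * ‖z‖ ^ 3 * (‖v‖ * ‖w‖))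
      (Cr * ‖z‖ ^ 2 * (‖v‖ * ‖w‖)) (Cr * ‖z‖ * (‖v‖ * ‖w‖))) :
    D2le (fun y => targetRem g2 Q η y v w) z ((8 * Cr + 160 * Q.total) * ‖z‖ ^ 2 * (‖v‖ * ‖w‖))
      ((8 * Cr + 160 * Q.total) * ‖z‖ ^ 2 * (‖v‖ * ‖w‖))
      ((16 * Cr + 160 * Q.total) * (‖v‖ * ‖w‖)) := by
  have hz := norm_nonneg z
  have hq := Q.total_nonneg
  have hV : 0 ≤ ‖v‖ * ‖w‖ := by positivity
  have hη22 : η ^ 22 ≤ 1 := pow_le_one₀ hη.le hη1
  have hz2 : ‖z‖ ^ 2 ≤ ‖z‖ := pow_le_of_le_one hz hz1 two_ne_zero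
  have hz3 : ‖z‖ ^ 3 ≤ ‖z‖ ^ 2 := pow_le_pow_of_le_one hz hz1 (by norm_num)
  have hz4 : ‖z‖ ^ 4 ≤ ‖z‖ ^ 2 := pow_le_pow_of_le_one hz hz1 (by norm_num)
  have hr2 : D2le (fun y : R2 => η ^ 22 * ‖y‖ ^ 2) z (2 * ‖z‖ ^ 2) (4 * ‖z‖) 4 := by
    refine (((d2le_quad (c := 1) (d := 0) (e := 1) (S := 2) (by norm_num) z).smul (η ^ 22)).congr
      (Eventually.of_forall fun y => ?_)).mono ?_ ?_ ?_
    · simp [EuclideanSpace.real_norm_sq_eq, Fin.sum_univ_two]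
    all_goals rw [abs_of_nonneg (by positivity : 0 ≤ η ^ 22)]
    · exact mul_le_of_le_one_left (by positivity) hη22
    · exact (mul_le_of_le_one_left (by positivity) hη22).trans (le_of_eq (by ring))
    · exact (mul_le_of_le_one_left (by positivity) hη22).trans (le_of_eq (by ring))
  have hone : D2le (fun y : R2 => 1 - η ^ 22 * ‖y‖ ^ 2) z 3 (4 * ‖z‖) 4 :=
    ((D2le.const 1).sub hr2).mono (by simp; linarith [pow_le_one₀ (n := 2) hz hz1]) (by simp) (by simp)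
  have H := (hm.mul hone).sub (hr2.mul (Q.d2le_eval v w z))
  refine (H.congr (Eventually.of_forall fun y => ?_)).mono ?_ ?_ ?_
  · simp [targetRem]
  · nlinarith [mul_le_mul_of_nonneg_left hz3 (mul_nonneg hCr hV),
      mul_le_mul_of_nonneg_left hz4 (mul_nonneg hq hV),
      (by positivity : 0 ≤ Cr * ‖z‖ ^ 2 * (‖v‖ * ‖w‖)),
      (by positivity : 0 ≤ Q.total * ‖z‖ ^ 2 * (‖v‖ * ‖w‖))]
  · nlinarith [mul_le_mul_of_nonneg_left hz3 (mul_nonneg hCr hV),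
      mul_le_mul_of_nonneg_left hz4 (mul_nonneg hCr hV),
      mul_le_mul_of_nonneg_left hz3 (mul_nonneg hq hV),
      (by positivity : 0 ≤ Cr * ‖z‖ ^ 2 * (‖v‖ * ‖w‖)),
      (by positivity : 0 ≤ Q.total * ‖z‖ ^ 2 * (‖v‖ * ‖w‖))]
  · have hz31 : ‖z‖ ^ 3 ≤ 1 := pow_le_one₀ hz hz1
    have hz21 : ‖z‖ ^ 2 ≤ 1 := pow_le_one₀ hz hz1
    nlinarith [mul_le_mul_of_nonneg_left hz31 (mul_nonneg hCr hV),
      mul_le_mul_of_nonneg_left hz21 (mul_nonneg hCr hV),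
      mul_le_mul_of_nonneg_left hz1 (mul_nonneg hCr hV),
      mul_le_mul_of_nonneg_left hz21 (mul_nonneg hq hV)]

end Vale.Agent.P205.Full.Start
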