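import Vale.Agent.P205.Full.Start.Coords

/-!
# P205 full, START A2: exact normal forms in a coordinate ball

A function with a nondegenerate diagonal Hessian becomes exactly quadratic near the critical
point without new critical points; an immersion becomes exactly an affine isometry near a
point without losing injectivity of the differential.
-/

open Set Metric Filter
open scoped ContDiff RealInnerProductSpace Topology

noncomputable section

namespace Vale.Agent.P205.Full.Start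

section
variable {E : Type} [NormedAddCommGroup E] [NormedSpace ℝ E]

/-- The cut modification towards `Q`. -/
def blendTo (δ : ℝ) (Q f : R2 → E) (z : R2) : E := f z + cutR δ z • (Q z - f z)

lemma blendTo_outer {δ : ℝ} (hδ : 0 < δ) (Q f : R2 → E) {z : R2} (h : δ ≤ ‖z‖) :
    blendTo δ Q f z = f z := by simp [blendTo, cutR_zero hδ h]

lemma blendTo_inner {δ : ℝ} (hδ : 0 < δ) (Q f : R2 → E) {z : R2} (h : ‖z‖ ≤ δ / 2) :
    blendTo δ Q f z = Q z := by simp [blendTo, cutR_one hδ h]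

lemma blendTo_smooth {δ r₀ : ℝ} {Q f : R2 → E} (hQ : ContDiff ℝ ∞ Q)
    (hf : ContDiffOn ℝ ∞ f (ball 0 r₀)) : ContDiffOn ℝ ∞ (blendTo δ Q f) (ball 0 r₀) :=
  hf.add ((cutR_smooth δ).contDiffOn.smul (hQ.contDiffOn.sub hf))

/-- `f` near `Q` to first order at `0`: the modification is close to `Q` on the ball. -/
lemma exists_blend_bound {r₀ : ℝ} {Q f : R2 → E} (hQ : ContDiff ℝ ∞ Q)
    (hf : ContDiffOn ℝ ∞ f (ball 0 r₀)) (h0 : Q 0 = f 0) :
    ∃ C : ℝ, 0 < C ∧ ∀ δ : ℝ, 0 < δ → δ ≤ r₀ → ∀ ε : ℝ, 0 ≤ ε →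
      ∀ μ : R2 → ℝ, (∀ z, ‖z‖ < δ → ‖fderiv ℝ Q z - fderiv ℝ f z‖ ≤ μ z) →
        (∀ z, ‖z‖ < δ → ∀ y ∈ segment ℝ 0 z, μ y ≤ ε) →
          ∀ z, ‖z‖ < δ →
            ‖fderiv ℝ (blendTo δ Q f) z - fderiv ℝ Q z‖ ≤ μ z + C / δ * ε * ‖z‖ := by
  obtain ⟨C, hC, hcut⟩ := exists_cutR_deriv_bound
  refine ⟨C, hC, fun δ hδ hδr ε hε μ hμ hseg z hz => ?_⟩
  have hd : ∀ y, ‖y‖ < δ → DifferentiableAt ℝ f y := fun y hy =>
    (hf.contDiffAt (isOpen_ball.mem_nhds (by simp; linarith))).differentiableAt (by simp)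
  have hdQ : ∀ y, DifferentiableAt ℝ Q y := fun y => (hQ.differentiable (by simp)) y
  have hsub : segment ℝ (0 : R2) z ⊆ ball 0 δ :=
    (convex_ball (0 : R2) δ).segment_subset (by simpa using hδ) (by simpa using hz)
  have hR : ‖Q z - f z‖ ≤ ε * ‖z‖ := by
    have := (convex_segment (0 : R2) z).norm_image_sub_le_of_norm_fderiv_le
      (f := fun y => Q y - f y) (C := ε) (x := 0) (y := z)
      (fun y hy => (hdQ y).sub (hd y (by simpa using hsub hy)))
      (fun y hy => by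
        rw [fderiv_fun_sub (hdQ y) (hd y (by simpa using hsub hy))]
        exact (hμ y (by simpa using hsub hy)).trans (hseg z hz y hy))
      (left_mem_segment ℝ 0 z) (right_mem_segment ℝ 0 z)
    simpa [h0] using this
  have hder : HasFDerivAt (blendTo δ Q f)
      (fderiv ℝ f z + (cutR δ z • (fderiv ℝ Q z - fderiv ℝ f z) +
        (fderiv ℝ (cutR δ) z).smulRight (Q z - f z))) z :=
    (hd z hz).hasFDerivAt.fun_add (((cutR_smooth δ).differentiable (by simp) z).hasFDerivAt.fun_smul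
      ((hdQ z).hasFDerivAt.fun_sub (hd z hz).hasFDerivAt))
  rw [hder.fderiv, show fderiv ℝ f z + (cutR δ z • (fderiv ℝ Q z - fderiv ℝ f z) +
        (fderiv ℝ (cutR δ) z).smulRight (Q z - f z)) - fderiv ℝ Q z =
      (cutR δ z - 1) • (fderiv ℝ Q z - fderiv ℝ f z) +
        (fderiv ℝ (cutR δ) z).smulRight (Q z - f z) by rw [sub_smul, one_smul]; abel]
  refine (norm_add_le _ _).trans (add_le_add ?_ ?_)
  · rw [norm_smul, Real.norm_eq_abs]
    refine (mul_le_of_le_one_left (norm_nonneg _) ?_).trans (hμ z hz)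
    exact abs_le.2 ⟨by linarith [cutR_nonneg δ z], by linarith [cutR_le_one δ z]⟩
  · rw [ContinuousLinearMap.norm_smulRight_apply, mul_assoc]
    exact mul_le_mul (hcut δ hδ z) hR (norm_nonneg _) (by positivity)

end

lemma min_mul_norm_le_dquad (a b : ℝ) (z : R2) :
    min |a| |b| * ‖z‖ ≤ 2 * ‖dquad a b z‖ := by
  have h1 : |a * px z| ≤ ‖dquad a b z‖ := by
    have := (dquad a b z).le_opNorm (eb 0)
    simpa [dquad, px, py, eb] using this
  have h2 : |b * py z| ≤ ‖dquad a b z‖ := by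
    have := (dquad a b z).le_opNorm (eb 1)
    simpa [dquad, px, py, eb] using this
  have h3 : ‖z‖ ≤ |px z| + |py z| :=
    le_of_pow_le_pow_left₀ two_ne_zero (by positivity) (by
      rw [norm_sq_eq, add_sq, sq_abs, sq_abs]
      nlinarith [mul_nonneg (abs_nonneg (px z)) (abs_nonneg (py z))])
  rw [abs_mul] at h1 h2
  calc min |a| |b| * ‖z‖ ≤ min |a| |b| * (|px z| + |py z|) :=
        mul_le_mul_of_nonneg_left h3 (le_min (abs_nonneg a) (abs_nonneg b))
    _ ≤ |a| * |px z| + |b| * |py z| := by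
        rw [mul_add]
        exact add_le_add (mul_le_mul_of_nonneg_right (min_le_left _ _) (abs_nonneg _))
          (mul_le_mul_of_nonneg_right (min_le_right _ _) (abs_nonneg _))
    _ ≤ _ := by linarith

/-- A nondegenerate diagonal critical point made exactly quadratic. -/
theorem exists_quadratic {r₀ a b : ℝ} (hr₀ : 0 < r₀) (ha : a ≠ 0) (hb : b ≠ 0) {s : R2 → ℝ}
    (hs : ContDiffOn ℝ ∞ s (ball 0 r₀)) (hd : fderiv ℝ s 0 = 0)
    (hh : HasFDerivAt (fderiv ℝ s) ((a • px).smulRight px + (b • py).smulRight py) 0) :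
    ∃ δ : ℝ, 0 < δ ∧ δ < r₀ ∧
      ContDiffOn ℝ ∞ (blendTo δ (fun z => s 0 + quad a b z) s) (ball 0 r₀) ∧
      (∀ z, ‖z‖ < δ → fderiv ℝ s z = 0 → z = 0) ∧
      ∀ z, ‖z‖ < δ → fderiv ℝ (blendTo δ (fun z => s 0 + quad a b z) s) z = 0 → z = 0 := by
  set Q : R2 → ℝ := fun z => s 0 + quad a b z with hQdef
  have hQ : ContDiff ℝ ∞ Q := contDiff_const.add (quad_smooth a b)
  have hDQ : ∀ z, fderiv ℝ Q z = dquad a b z := fun z =>
    ((hasFDerivAt_quad a b z).const_add (s 0)).fderiv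
  have hQ0 : Q 0 = s 0 := by simp [hQdef, quad]
  obtain ⟨C, hC, hbd⟩ := exists_blend_bound hQ hs hQ0
  set m := min |a| |b| with hm
  have hm0 : 0 < m := lt_min (abs_pos.2 ha) (abs_pos.2 hb)
  set ε := m / (4 * (1 + C)) with hε
  have hε0 : 0 < ε := by positivity
  have hεC : ε * (1 + C) = m / 4 := by rw [hε]; field_simp
  obtain ⟨δ₀, hδ₀, hlit⟩ := Metric.eventually_nhds_iff.1
    ((hasFDerivAt_iff_isLittleO_nhds_zero.1 hh).def hε0)
  have hle : ∀ z : R2, ‖z‖ < δ₀ → ‖fderiv ℝ Q z - fderiv ℝ s z‖ ≤ ε * ‖z‖ := fun z hz => by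
    have := hlit (show dist z 0 < δ₀ by simpa using hz)
    rw [zero_add, hd, sub_zero, norm_sub_rev] at this
    rw [hDQ]
    refine le_trans (le_of_eq ?_) this
    congr 2
  have hpos : ∀ z : R2, z ≠ 0 → ε * (1 + C) * ‖z‖ < ‖dquad a b z‖ := fun z hz => by
    have := min_mul_norm_le_dquad a b z
    have := norm_pos_iff.2 hz
    rw [hεC]; nlinarith
  have hδpos : 0 < min δ₀ r₀ / 2 := by positivity
  have hδ1 : min δ₀ r₀ / 2 < δ₀ := by linarith [min_le_left δ₀ r₀]
  have hδ2 : min δ₀ r₀ / 2 < r₀ := by linarith [min_le_right δ₀ r₀]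
  set δ := min δ₀ r₀ / 2
  refine ⟨δ, hδpos, hδ2, blendTo_smooth hQ hs, fun z hz h0 => ?_, fun z hz h0 => ?_⟩
  · by_contra hne
    have h1 := hle z (hz.trans hδ1)
    rw [h0, sub_zero, hDQ] at h1
    have := hpos z hne
    have : 0 ≤ ε * C * ‖z‖ := by positivity
    linarith
  · by_contra hne
    have h1 := hbd δ hδpos hδ2.le (ε * δ) (by positivity) (fun z => ε * ‖z‖)
      (fun y hy => hle y (hy.trans hδ1))
      (fun w hw y hy => mul_le_mul_of_nonneg_left (by
        have := (convex_ball (0 : R2) δ).segment_subset (by simpa using hδpos)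
          (by simpa using hw) hy
        exact (by simpa using this : ‖y‖ < δ).le) hε0.le) z hz
    rw [h0, zero_sub, norm_neg, hDQ,
      show C / δ * (ε * δ) * ‖z‖ = ε * C * ‖z‖ by field_simp] at h1
    have := hpos z hne
    linarith

/-- A slowly varying cutoff: one near `0`, zero outside radius `δ`. -/
def slowCut (δ N : ℝ) (z : R2) : ℝ :=
  Real.smoothTransition ((Real.log (δ ^ 2) - Real.log (‖z‖ ^ 2)) / N)

lemma exists_transition_bound :
    ∃ T : ℝ, 0 < T ∧ ∀ t : ℝ, ‖deriv Real.smoothTransition t‖ ≤ T := by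
  have hs : HasCompactSupport (deriv Real.smoothTransition) :=
    HasCompactSupport.intro (isCompact_Icc (a := (0 : ℝ)) (b := 1)) fun t ht => by
      rcases not_and_or.1 (show ¬(0 ≤ t ∧ t ≤ 1) from ht) with h | h
      · have : Real.smoothTransition =ᶠ[𝓝 t] fun _ => 0 := by
          filter_upwards [Iio_mem_nhds (not_le.1 h)] with u hu
          exact Real.smoothTransition.zero_of_nonpos (le_of_lt hu)
        simp [this.deriv_eq]
      · have : Real.smoothTransition =ᶠ[𝓝 t] fun _ => 1 := by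
          filter_upwards [Ioi_mem_nhds (not_le.1 h)] with u hu
          exact Real.smoothTransition.one_of_one_le (le_of_lt hu)
        simp [this.deriv_eq]
  obtain ⟨T, hT⟩ := hs.exists_bound_of_continuous
    ((Real.smoothTransition.contDiff (n := 1)).continuous_deriv le_rfl)
  exact ⟨max T 1, by positivity, fun t => (hT t).trans (le_max_left _ _)⟩

/-- `slowCut` set to one at the origin. -/
def slowCut' (δ N : ℝ) (z : R2) : ℝ := if z = 0 then 1 else slowCut δ N z

lemma slowCut'_zero {δ N : ℝ} (hδ : 0 < δ) (hN : 0 < N) {z : R2} (h : δ ≤ ‖z‖) :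
    slowCut' δ N z = 0 := by
  have hz : 0 < ‖z‖ := hδ.trans_le h
  rw [slowCut', if_neg (norm_pos_iff.1 hz), slowCut]
  refine Real.smoothTransition.zero_of_nonpos (div_nonpos_of_nonpos_of_nonneg ?_ hN.le)
  have := Real.log_le_log (by positivity) (pow_le_pow_left₀ hδ.le h 2)
  linarith

lemma slowCut'_one {δ N : ℝ} (hδ : 0 < δ) (hN : 0 < N) {z : R2}
    (h : ‖z‖ ≤ δ * Real.exp (-N / 2)) : slowCut' δ N z = 1 := by
  rcases eq_or_ne z 0 with rfl | hz
  · simp [slowCut']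
  · rw [slowCut', if_neg hz, slowCut]
    refine Real.smoothTransition.one_of_one_le ?_
    have h1 := Real.log_le_log (pow_pos (norm_pos_iff.2 hz) 2)
      (pow_le_pow_left₀ (norm_nonneg z) h 2)
    rw [mul_pow, Real.log_mul (by positivity) (by positivity), ← Real.exp_nat_mul,
      Real.log_exp] at h1
    push_cast at h1
    rw [one_le_div hN]; linarith

lemma slowCut'_smooth {δ N : ℝ} (hδ : 0 < δ) (hN : 0 < N) : ContDiff ℝ ∞ (slowCut' δ N) := by
  rw [contDiff_iff_contDiffAt]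
  intro z
  rcases eq_or_ne z 0 with rfl | hz
  · refine (contDiffAt_const (c := (1 : ℝ))).congr_of_eventuallyEq ?_
    filter_upwards [closedBall_mem_nhds (0 : R2) (show 0 < δ * Real.exp (-N / 2) by positivity)]
      with w hw
    exact slowCut'_one hδ hN (by simpa using hw)
  · have : slowCut' δ N =ᶠ[𝓝 z] slowCut δ N := by
      filter_upwards [isOpen_ne.mem_nhds hz] with w hw
      simp [slowCut', if_neg hw]
    refine ContDiffAt.congr_of_eventuallyEq ?_ this
    exact Real.smoothTransition.contDiff.contDiffAt.comp z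
      ((contDiffAt_const.sub (ContDiffAt.log ((contDiff_norm_sq ℝ).contDiffAt)
        (pow_ne_zero 2 (norm_ne_zero_iff.2 hz)))).div_const N)

lemma slowCut'_mem (δ N : ℝ) (z : R2) : slowCut' δ N z ∈ Icc (0 : ℝ) 1 := by
  rw [slowCut']
  split_ifs
  · simp
  · exact ⟨Real.smoothTransition.nonneg _, Real.smoothTransition.le_one _⟩

lemma slowCut'_deriv {T : ℝ} (hT : ∀ t : ℝ, ‖deriv Real.smoothTransition t‖ ≤ T) {δ N : ℝ}
    (hN : 0 < N) (z v : R2) :
    |fderiv ℝ (slowCut' δ N) z v| * ‖z‖ ≤ 2 * T / N * ‖v‖ := by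
  have hT0 : 0 ≤ T := le_trans (norm_nonneg _) (hT 0)
  rcases eq_or_ne z 0 with rfl | hz
  · simp; positivity
  · have : slowCut' δ N =ᶠ[𝓝 z] slowCut δ N := by
      filter_upwards [isOpen_ne.mem_nhds hz] with w hw
      simp [slowCut', if_neg hw]
    have hn : (0 : ℝ) < ‖z‖ := norm_pos_iff.2 hz
    have hi := (((hasFDerivAt_id z).norm_sq).log (pow_ne_zero 2 hn.ne')).const_sub
      (Real.log (δ ^ 2)) |>.mul_const N⁻¹
    have hfd := ((Real.smoothTransition.contDiff (n := 1)).differentiable one_ne_zero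
      _).hasDerivAt.comp_hasFDerivAt z hi
    have hfd' : HasFDerivAt (slowCut δ N) _ z := hfd.congr_of_eventuallyEq
      (Eventually.of_forall fun w => by simp [slowCut, div_eq_mul_inv])
    rw [this.fderiv_eq, hfd'.fderiv]
    simp only [smul_apply, ContinuousLinearMap.comp_id, neg_apply, innerSL_apply_apply,
      smul_eq_mul, id_eq, nsmul_eq_mul, abs_mul, abs_neg, abs_inv]
    have h1 := hT ((Real.log (δ ^ 2) - Real.log (‖z‖ ^ 2)) * N⁻¹)
    rw [Real.norm_eq_abs] at h1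
    have h2 := abs_real_inner_le_norm z v
    rw [abs_of_pos hN, abs_of_pos (pow_pos hn 2)]
    calc _ ≤ T * (N⁻¹ * ((‖z‖ ^ 2)⁻¹ * (2 * (‖z‖ * ‖v‖)))) * ‖z‖ := by
          push_cast
          rw [abs_two]
          gcongr
      _ = _ := by field_simp

/-- An injective linear map is joined to an isometry by injective maps, uniformly. -/
theorem exists_iso_path (L : R2 →L[ℝ] R3) (hinj : Function.Injective L) :
    ∃ (J : R2 →ₗᵢ[ℝ] R3) (Jl : R2 →L[ℝ] R3) (m : ℝ), 0 < m ∧ (∀ z, Jl z = J z) ∧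
      ∀ t ∈ Icc (0 : ℝ) 1, ∀ v : R2, m * ‖v‖ ≤ ‖L v + t • (Jl v - L v)‖ := by
  -- the isometry: Gram-Schmidt of the image of the standard basis
  have he : ∀ c d : ℝ, L (c • eb 0 + d • eb 1) = 0 → c = 0 ∧ d = 0 := fun c d h => by
    have h0 : c • eb 0 + d • eb 1 = (0 : R2) := hinj (by rw [h, map_zero])
    exact ⟨by simpa [eb] using congrArg (fun z : R2 => z 0) h0,
      by simpa [eb] using congrArg (fun z : R2 => z 1) h0⟩
  set p := L (eb 0) with hp
  set q := L (eb 1) with hq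
  have hp0 : p ≠ 0 := fun h => one_ne_zero (he 1 0 (by simpa [hp] using h)).1
  set α := ‖p‖ with hα
  have hα0 : 0 < α := norm_pos_iff.2 hp0
  set e₁ := α⁻¹ • p with he₁
  set β := ⟪q, e₁⟫ with hβ
  set v := q - β • e₁ with hv
  have hv0 : v ≠ 0 := fun h => one_ne_zero (he (-(β * α⁻¹)) 1 (by
    rw [map_add, map_smul, map_smul, ← hp, ← hq, ← h, hv, he₁, smul_smul]; module)).2
  set γ := ‖v‖ with hγ
  have hγ0 : 0 < γ := norm_pos_iff.2 hv0
  set e₂ := γ⁻¹ • v with he₂
  have h11 : ⟪e₁, e₁⟫ = (1 : ℝ) := by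
    rw [he₁, real_inner_smul_left, real_inner_smul_right, real_inner_self_eq_norm_sq, ← hα]
    field_simp
  have h12 : ⟪e₁, e₂⟫ = (0 : ℝ) := by
    rw [he₂, real_inner_smul_right, hv, inner_sub_right, real_inner_smul_right, h11, hβ,
      real_inner_comm e₁ q]
    ring
  have h22 : ⟪e₂, e₂⟫ = (1 : ℝ) := by
    rw [he₂, real_inner_smul_left, real_inner_smul_right, real_inner_self_eq_norm_sq, ← hγ]
    field_simp
  set Jl : R2 →L[ℝ] R3 := px.smulRight e₁ + py.smulRight e₂ with hJl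
  have hJn : ∀ z, ‖Jl z‖ = ‖z‖ := fun z => by
    refine (sq_eq_sq₀ (norm_nonneg _) (norm_nonneg _)).1 ?_
    rw [← real_inner_self_eq_norm_sq, norm_sq_eq]
    simp only [hJl, add_apply, ContinuousLinearMap.smulRight_apply, inner_add_left,
      inner_add_right, real_inner_smul_left, real_inner_smul_right, h11, h22,
      real_inner_comm e₁ e₂, h12]
    ring
  let J : R2 →ₗᵢ[ℝ] R3 := ⟨Jl.toLinearMap, hJn⟩
  have hJ : ∀ z, Jl z = J z := fun _ => rfl
  -- along the segment from `L` to the isometry the maps stay injective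
  have hmix : ∀ t : ℝ, 0 ≤ t → t ≤ 1 → ∀ z, L z + t • (Jl z - L z) = 0 → z = 0 := by
    intro t ht0 ht1 z hz
    have hLz : L z = (α * px z + β * py z) • e₁ + (γ * py z) • e₂ := by
      conv_lhs => rw [sum_eb z]
      rw [map_add, map_smul, map_smul, ← hp, ← hq, add_smul, mul_smul, mul_smul, mul_smul,
        smul_comm α, smul_comm γ, smul_comm β, he₂, smul_inv_smul₀ hγ0.ne', he₁,
        smul_inv_smul₀ hα0.ne', hv, he₁]
      module
    have hJz : Jl z = px z • e₁ + py z • e₂ := by simp [hJl]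
    rw [hLz, hJz] at hz
    have c1 := congrArg (fun w => ⟪e₁, w⟫) hz
    have c2 := congrArg (fun w => ⟪e₂, w⟫) hz
    simp only [inner_add_right, inner_sub_right, real_inner_smul_right, h11, h12,
      real_inner_comm e₁ e₂, h22, inner_zero_right] at c1 c2
    have k : ∀ x : ℝ, 0 < x → 0 < (1 - t) * x + t := fun x hx => by
      rcases eq_or_lt_of_le ht0 with h | h
      · rw [← h]; linarith
      · nlinarith
    have y0 : py z = 0 := by
      have : ((1 - t) * γ + t) * py z = 0 := by linarith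
      exact (mul_eq_zero.1 this).resolve_left (k γ hγ0).ne'
    have x0 : px z = 0 := by
      rw [y0] at c1
      have : ((1 - t) * α + t) * px z = 0 := by linarith
      exact (mul_eq_zero.1 this).resolve_left (k α hα0).ne'
    rw [sum_eb z, x0, y0]; simp
  obtain ⟨⟨⟨t₀, z₀⟩, hmem, hmin⟩⟩ : Nonempty {w : ℝ × R2 // w ∈ Icc (0:ℝ) 1 ×ˢ sphere (0:R2) 1 ∧
      IsMinOn (fun w : ℝ × R2 => ‖L w.2 + w.1 • (Jl w.2 - L w.2)‖)
        (Icc (0:ℝ) 1 ×ˢ sphere (0:R2) 1) w} := by
    obtain ⟨w, hw, hw'⟩ := ((isCompact_Icc (a := (0 : ℝ)) (b := 1)).prod (isCompact_sphere (0 : R2) 1)).exists_isMinOn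
      (f := fun w : ℝ × R2 => ‖L w.2 + w.1 • (Jl w.2 - L w.2)‖)
      ⟨((0 : ℝ), eb 0), by constructor <;> simp [eb]⟩ (by fun_prop)
    exact ⟨⟨w, hw, hw'⟩⟩
  simp only [mem_prod, mem_Icc, mem_sphere, dist_zero_right] at hmem
  set m := ‖L z₀ + t₀ • (Jl z₀ - L z₀)‖ with hm
  have hm0 : 0 < m := norm_pos_iff.2 fun h => by
    have := hmix t₀ hmem.1.1 hmem.1.2 z₀ h
    rw [this, norm_zero] at hmem; exact zero_ne_one hmem.2
  have hlow : ∀ t ∈ Icc (0 : ℝ) 1, ∀ v : R2, m * ‖v‖ ≤ ‖L v + t • (Jl v - L v)‖ := by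
    intro t ht v
    rcases eq_or_ne v 0 with rfl | hv'
    · simp
    · have hn := norm_pos_iff.2 hv'
      have h1 : m ≤ ‖L (‖v‖⁻¹ • v) + t • (Jl (‖v‖⁻¹ • v) - L (‖v‖⁻¹ • v))‖ := by
        refine isMinOn_iff.1 hmin (t, ‖v‖⁻¹ • v) ⟨ht, ?_⟩
        simp [norm_smul, hn.ne']
      rw [map_smul, map_smul, ← smul_sub, smul_comm t, ← smul_add, norm_smul, norm_inv,
        norm_norm, le_inv_mul_iff₀ hn] at h1
      linarith
  exact ⟨J, Jl, m, hm0, hJ, hlow⟩

/-- An immersion made exactly an affine isometry near a point. -/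
theorem exists_flat {r₀ : ℝ} (hr₀ : 0 < r₀) {f : R2 → R3} (hf : ContDiffOn ℝ ∞ f (ball 0 r₀))
    (hinj : Function.Injective (fderiv ℝ f 0)) :
    ∃ (f' : R2 → R3) (δ δ' : ℝ) (J : R2 →ₗᵢ[ℝ] R3), 0 < δ' ∧ δ' ≤ δ ∧ δ < r₀ ∧
      ContDiffOn ℝ ∞ f' (ball 0 r₀) ∧ (∀ z, δ ≤ ‖z‖ → f' z = f z) ∧
      (∀ z, ‖z‖ < δ → Function.Injective (fderiv ℝ f' z)) ∧
      ∀ z, ‖z‖ ≤ δ' → f' z = f 0 + J z := by
  set L : R2 →L[ℝ] R3 := fderiv ℝ f 0 with hL
  obtain ⟨J, Jl, m, hm0, hJ, hlow⟩ := exists_iso_path L hinj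
  -- step 1: exactly affine
  set Q : R2 → R3 := fun z => f 0 + L z with hQdef
  have hQ : ContDiff ℝ ∞ Q := contDiff_const.add L.contDiff
  obtain ⟨C, hC, hbd⟩ := exists_blend_bound hQ hf (by simp [hQdef])
  have hDQ : ∀ z, fderiv ℝ Q z = L := fun z => (L.hasFDerivAt.const_add (f 0)).fderiv
  set ε := m / (4 * (1 + C)) with hε
  have hε0 : 0 < ε := by positivity
  have hεC : ε * (1 + C) = m / 4 := by rw [hε]; field_simp
  have hc : ContinuousAt (fderiv ℝ f) 0 :=
    (hf.continuousOn_fderiv_of_isOpen isOpen_ball (by simp)).continuousAt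
      (isOpen_ball.mem_nhds (by simpa using hr₀))
  obtain ⟨δ₀, hδ₀, hlit⟩ := Metric.continuousAt_iff.1 hc ε hε0
  have hδpos : 0 < min δ₀ r₀ / 2 := by positivity
  have hδ1 : min δ₀ r₀ / 2 < δ₀ := by linarith [min_le_left δ₀ r₀]
  have hδ2 : min δ₀ r₀ / 2 < r₀ := by linarith [min_le_right δ₀ r₀]
  set δ := min δ₀ r₀ / 2
  set f₁ := blendTo δ Q f with hf₁
  have hf₁d : ∀ z, ‖z‖ < δ → ‖fderiv ℝ f₁ z - L‖ ≤ m / 4 := fun z hz => by
    have h1 := hbd δ hδpos hδ2.le ε hε0.le (fun _ => ε) (fun y hy => by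
      have := hlit (show dist y 0 < δ₀ by simpa using hy.trans hδ1)
      rw [dist_eq_norm, norm_sub_rev, ← hL] at this
      rw [hDQ]; exact this.le) (fun _ _ _ _ => le_rfl) z hz
    rw [hDQ] at h1
    have : C / δ * ε * ‖z‖ ≤ C * ε := by
      calc C / δ * ε * ‖z‖ ≤ C / δ * ε * δ := mul_le_mul_of_nonneg_left hz.le (by positivity)
        _ = C * ε := by field_simp
    linarith
  -- step 2: slowly to the isometry, inside the affine region
  obtain ⟨T, hT0, hT⟩ := exists_transition_bound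
  set N := 8 * T * (1 + ‖Jl - L‖) / m with hN
  have hN0 : 0 < N := by positivity
  set θ := slowCut' (δ / 2) N with hθ
  set f₂ : R2 → R3 := fun z => f₁ z + θ z • (Jl - L) z with hf₂
  have hθd : ∀ z, HasFDerivAt θ (fderiv ℝ θ z) z := fun z =>
    ((slowCut'_smooth (half_pos hδpos) hN0).differentiable (by simp) z).hasFDerivAt
  have hδ' : δ / 2 * Real.exp (-N / 2) ≤ δ / 2 :=
    mul_le_of_le_one_right (by linarith) (Real.exp_le_one_iff.2 (by linarith))
  refine ⟨f₂, δ, δ / 2 * Real.exp (-N / 2), J, by positivity, by linarith, hδ2, ?_, fun z hz => ?_,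
    fun z hz => ?_, fun z hz => ?_⟩
  · exact (blendTo_smooth hQ hf).add
      (((slowCut'_smooth (half_pos hδpos) hN0).smul (Jl - L).contDiff).contDiffOn)
  · simp only [hf₂, hθ, slowCut'_zero (half_pos hδpos) hN0 (by linarith : δ / 2 ≤ ‖z‖), zero_smul,
      add_zero, hf₁, blendTo_outer hδpos _ _ hz]
  · have hf₁a : DifferentiableAt ℝ f₁ z :=
      ((blendTo_smooth hQ hf).contDiffAt
        (isOpen_ball.mem_nhds (by simpa using hz.trans hδ2))).differentiableAt (by simp)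
    have hder : HasFDerivAt f₂ (fderiv ℝ f₁ z + (θ z • (Jl - L) +
        (fderiv ℝ θ z).smulRight ((Jl - L) z))) z :=
      hf₁a.hasFDerivAt.fun_add ((hθd z).fun_smul (Jl - L).hasFDerivAt)
    intro v w hvw
    have h0 : fderiv ℝ f₂ z (v - w) = 0 := by rw [map_sub, sub_eq_zero]; exact hvw
    set u := v - w with hu
    rw [hder.fderiv] at h0
    simp only [add_apply, smul_apply, ContinuousLinearMap.smulRight_apply, sub_apply] at h0
    have e1 := hlow (θ z) (slowCut'_mem _ _ z) u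
    have e2 : ‖(fderiv ℝ f₁ z - L) u‖ ≤ m / 4 * ‖u‖ :=
      ((fderiv ℝ f₁ z - L).le_opNorm u).trans
        (mul_le_mul_of_nonneg_right (hf₁d z hz) (norm_nonneg u))
    have e3 : ‖fderiv ℝ θ z u • (Jl z - L z)‖ ≤ m / 4 * ‖u‖ := by
      rw [norm_smul, Real.norm_eq_abs]
      refine (mul_le_mul_of_nonneg_left ((Jl - L).le_opNorm z) (abs_nonneg _)).trans ?_
      have h1 := slowCut'_deriv hT (δ := δ / 2) hN0 z u
      have h2 : 2 * T / N * ‖Jl - L‖ ≤ m / 4 := by
        rw [div_mul_eq_mul_div, div_le_iff₀ hN0]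
        have : m / 4 * N = 2 * T * (1 + ‖Jl - L‖) := by rw [hN]; field_simp; ring
        rw [this]; nlinarith
      calc |fderiv ℝ θ z u| * (‖Jl - L‖ * ‖z‖) = |fderiv ℝ θ z u| * ‖z‖ * ‖Jl - L‖ := by ring
        _ ≤ 2 * T / N * ‖u‖ * ‖Jl - L‖ := mul_le_mul_of_nonneg_right h1 (norm_nonneg _)
        _ = 2 * T / N * ‖Jl - L‖ * ‖u‖ := by ring
        _ ≤ _ := mul_le_mul_of_nonneg_right h2 (norm_nonneg _)
    have e4 : L u + θ z • (Jl u - L u) =
        -((fderiv ℝ f₁ z - L) u + fderiv ℝ θ z u • (Jl z - L z)) := by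
      rw [sub_apply, eq_neg_iff_add_eq_zero, ← h0]; abel
    rw [e4, norm_neg] at e1
    have := norm_add_le ((fderiv ℝ f₁ z - L) u) (fderiv ℝ θ z u • (Jl z - L z))
    have : ‖u‖ = 0 := by nlinarith [norm_nonneg u]
    exact sub_eq_zero.1 (norm_eq_zero.1 this)
  · simp only [hf₂, hθ, slowCut'_one (half_pos hδpos) hN0 hz, one_smul, hf₁,
      blendTo_inner hδpos _ _ (hz.trans hδ'), hQdef, sub_apply]
    rw [← hJ]
    abel

end Vale.Agent.P205.Full.Start
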