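import Vale.Agent.P205.Full.Start.Hessian
import Vale.Agent.P205.Full.Start.LocalQuad

/-!
# P205 full, START A2: the metric, the Hessian and a parametrisation in a chart
-/

open scoped Manifold ContDiff RealInnerProductSpace Topology
open Bundle Filter Set Metric

noncomputable section

namespace Vale.Agent.P205.Full.Start

variable {M : Type} [TopologicalSpace M] [ChartedSpace R2 M] [IsManifold (𝓡 2) ∞ M]
variable {N : ℕ} {V : Frame M N}

/-- A component of the metric pulled back by `b`. -/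
def gPull (g : Full.Metric M) (b : R2 → M) (v w z : R2) : ℝ :=
  g.inner (b z) (mfderiv (𝓡 2) (𝓡 2) b z v) (mfderiv (𝓡 2) (𝓡 2) b z w)

/-- The metric pulled back by `b`, as a bilinear form. -/
def gBil (g : Full.Metric M) (b : R2 → M) (z : R2) : R2 →L[ℝ] R2 →L[ℝ] ℝ :=
  gPull g b (eb 0) (eb 0) z • px.smulRight px + gPull g b (eb 0) (eb 1) z • px.smulRight py +
    gPull g b (eb 1) (eb 0) z • py.smulRight px + gPull g b (eb 1) (eb 1) z • py.smulRight py

lemma gBil_apply (g : Full.Metric M) (b : R2 → M) (z v w : R2) :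
    gBil g b z v w = gPull g b v w z := by
  set T : R2 →L[ℝ] TangentSpace (𝓡 2) (b z) := mfderiv (𝓡 2) (𝓡 2) b z
  set B := g.inner (b z)
  have hp : ∀ x y : R2, gPull g b x y z = B (T x) (T y) := fun _ _ => rfl
  have hv : T v = px v • T (eb 0) + py v • T (eb 1) := by
    rw [← map_smul, ← map_smul, ← map_add, ← sum_eb v]
  have hw : T w = px w • T (eb 0) + py w • T (eb 1) := by
    rw [← map_smul, ← map_smul, ← map_add, ← sum_eb w]
  rw [hp, hv, hw]
  simp [gBil, hp]
  ring

lemma contDiffOn_gPull (g : Full.Metric M) {b : R2 → M} {s : Set R2} (hs : IsOpen s)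
    (hb : ContMDiffOn (𝓡 2) (𝓡 2) ∞ b s) (v w : R2) : ContDiffOn ℝ ∞ (gPull g b v w) s := by
  have hsec : ∀ v : R2, ContMDiffOn (𝓡 2) ((𝓡 2).prod 𝓘(ℝ, R2)) ∞
      (fun z => TotalSpace.mk' R2 (E := fun x : M => TangentSpace (𝓡 2) x) (b z)
        (mfderiv (𝓡 2) (𝓡 2) b z v)) s := fun v => by
    have hc : ContMDiffOn (𝓡 2) (𝓡 2).tangent ∞
        (fun z : R2 => (⟨z, v⟩ : TangentBundle (𝓡 2) R2)) s :=
      contMDiffOn_vectorSpace_iff_contDiffOn.2 contDiffOn_const
    refine ((hb.contMDiffOn_tangentMapWithin (m := ∞) (by simp) hs.uniqueMDiffOn).comp hc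
      fun z hz => hz).congr fun z hz => ?_
    simp only [Function.comp_def, tangentMapWithin, mfderivWithin_of_isOpen hs hz]
  intro z hz
  have h := ContMDiffWithinAt.clm_bundle_apply₂ (F₁ := R2) (F₂ := R2) (F₃ := ℝ)
    (E₁ := fun x : M => TangentSpace (𝓡 2) x) (E₂ := fun x : M => TangentSpace (𝓡 2) x)
    (E₃ := Bundle.Trivial M ℝ) (b := b) (ψ := fun m => g.inner (b m))
    ((g.contMDiff (b z)).comp_contMDiffWithinAt z (hb z hz)) (hsec v z hz) (hsec w z hz)
  simp only [contMDiffWithinAt_totalSpace] at h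
  exact contMDiffWithinAt_iff_contDiffWithinAt.1 h.2

lemma contDiffOn_gBil (g : Full.Metric M) {b : R2 → M} {s : Set R2} (hs : IsOpen s)
    (hb : ContMDiffOn (𝓡 2) (𝓡 2) ∞ b s) : ContDiffOn ℝ ∞ (gBil g b) s :=
  contDiffOn_clm_apply.2 fun v => contDiffOn_clm_apply.2 fun w =>
    (contDiffOn_gPull g hs hb v w).congr fun z _ => gBil_apply g b z v w

variable [T2Space M] {G S : M → R3}

/-- Nondegeneracy in the frame sense gives a nondegenerate Hessian at the centre of the chart. -/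
theorem hess_injective (hG : IsImm3 G) (hS : IsSection G S) (hV : FrameSmooth V)
    (hs : FrameSpans V) {p : M} (hp : IsNondegCrit G V S p) :
    fderiv ℝ (Sect.psi G S p) (chartAt R2 p p) = 0 ∧
      Function.Injective (fderiv ℝ (fderiv ℝ (Sect.psi G S p)) (chartAt R2 p p)) := by
  set c := chartAt R2 p
  set z := c p
  have hps : p ∈ c.source := mem_chart_source R2 p
  have hzt : z ∈ c.target := c.map_source hps
  have hpz : c.symm z = p := c.left_inv hps
  have hp0 : fderiv ℝ (Sect.psi G S p) z = 0 :=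
    Sect.gr_eq_zero.1 ((Sect.isCrit_iff hG hS hs p hzt).1 (by rw [hpz]; exact hp.1))
  refine ⟨hp0, ?_⟩
  set f : SmoothBumpFunction (𝓡 2) p := Classical.ofNonempty
  set W : Set R2 := c.target ∩ c.symm ⁻¹' interior {y | f y = 1}
  have hWo : IsOpen W := c.continuousOn_symm.isOpen_inter_preimage c.open_target isOpen_interior
  have hz : z ∈ W := ⟨hzt, by
    show c.symm z ∈ interior _
    rw [hpz]; exact mem_interior_iff_mem_nhds.2 f.eventuallyEq_one⟩
  obtain ⟨A, hA⟩ := Sect.exists_smooth_coord hV p hWo (fun u hu => hu.1)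
    (fun u hu => (interior_subset hu.2 :))
  have htn : c.target ∈ 𝓝 z := c.open_target.mem_nhds hzt
  set Hs := fderiv ℝ (fderiv ℝ (Sect.psi G S p)) z
  have hpd : HasFDerivAt (fderiv ℝ (Sect.psi G S p)) Hs z :=
    ((((Sect.contDiffOn_psi hG hS.1 p).fderiv_of_isOpen c.open_target (m := ∞)
      (by simp)).contDiffAt htn).differentiableAt (by simp)).hasFDerivAt
  have key : ∀ i k, nLine G p (D V i (dSec G V S k) p) =
      Hs (A i z) (A k z) • Sect.nu G p z := by
    intro i k
    have hAk : HasFDerivAt (A k) (fderiv ℝ (A k) z) z :=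
      ((((hA k).1).contDiffAt (hWo.mem_nhds hz)).differentiableAt (by simp)).hasFDerivAt
    have hnu : HasFDerivAt (Sect.nu G p) (fderiv ℝ (Sect.nu G p) z) z :=
      (((Sect.contDiffOn_nu hG p).contDiffAt htn).differentiableAt (by simp)).hasFDerivAt
    have hq := (hpd.clm_apply hAk).smul hnu
    set P : R2 → R3 := fun u => fderiv ℝ (Sect.psi G S p) u (A k u) • Sect.nu G p u
    have hev : dSec G V S k =ᶠ[𝓝 p] (P ∘ c) := by
      have h1 : ∀ᶠ y in 𝓝 p, c y ∈ W :=
        (c.continuousAt hps).preimage_mem_nhds (hWo.mem_nhds hz)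
      filter_upwards [h1, c.open_source.mem_nhds hps] with y hy hys
      have h := Sect.dSec_chart hG hS p hy.1 k ((hA k).2 _ hy)
      rwa [c.left_inv hys] at h
    have hD : D V i (dSec G V S k) p = fderiv ℝ P z (A i z) := by
      have hP : DifferentiableAt ℝ P (c p) := hq.differentiableAt
      have h1 := mfderiv_comp (I := 𝓡 2) p hP.mdifferentiableAt
        (mdifferentiableAt_atlas (I := 𝓡 2) (chart_mem_atlas R2 p) hps)
      have e1 := (hA i).2 z hz
      have e2 := (congrArg (fun v => mfderiv (𝓡 2) (𝓡 2) c (c.symm z) v) e1).symm.trans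
        (Sect.mfderiv_chart_symm p hzt (A i z))
      rw [hpz] at e2
      refine (DFunLike.congr_fun (hev.mfderiv_eq.trans h1) (V i p)).trans ?_
      rw [mfderiv_eq_fderiv]
      exact congrArg (fderiv ℝ P z) e2
    have hn := Sect.nLine_chart hG p hzt (fderiv ℝ P z (A i z))
    rw [hpz] at hn
    rw [hD, hn, (show fderiv ℝ P z = _ from hq.fderiv)]
    simp [hp0, real_inner_smul_right, Sect.norm_nu hG p hzt]
  refine LinearMap.ker_eq_bot.1 (LinearMap.ker_eq_bot'.2 fun w (hw : Hs w = 0) => ?_)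
  set T : R2 →L[ℝ] TangentSpace (𝓡 2) (c.symm z) := mfderiv (𝓡 2) (𝓡 2) c.symm z
  obtain ⟨a, ha⟩ := (Submodule.mem_span_range_iff_exists_fun ℝ).1
    (show T w ∈ Submodule.span ℝ (Set.range fun i => V i (c.symm z)) by rw [hs]; trivial)
  have hw' : w = ∑ i, a i • A i z := by
    apply (Sect.bijective_symm p hzt).1
    show T w = T _
    rw [← ha, map_sum]
    exact Finset.sum_congr rfl fun i _ => by rw [map_smul]; exact congrArg (a i • ·) ((hA i).2 z hz).symm
  have h0 : ∑ i, a i • V i p = 0 := hp.2 a fun k => by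
    simp only [key, smul_smul]
    rw [← Finset.sum_smul]
    have : ∑ i, a i * Hs (A i z) (A k z) = Hs w (A k z) := by simp [hw', map_sum, map_smul]
    rw [this, hw]; simp
  have hTw : T w = 0 := by
    rw [← ha]
    rw [← hpz] at h0
    exact h0
  exact (Sect.bijective_symm p hzt).1 (hTw.trans (map_zero T).symm)

omit [T2Space M] in
/-- The quadratic map gives a parametrisation around `p`. -/
theorem exists_param (p : M) (B : R2 ≃L[ℝ] R2) {q : R2 →L[ℝ] R2 →L[ℝ] R2}
    (hq : ∀ v w, q v w = q w v) {O : Set M} (hO : IsOpen O) (hp : p ∈ O) :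
    ∃ (u : OpenPartialHomeomorph R2 M) (R : ℝ), 0 < R ∧ u.source = ball 0 R ∧ u.target ⊆ O ∧
      u.target ⊆ (chartAt R2 p).source ∧ u 0 = p ∧
      ContMDiffOn (𝓡 2) (𝓡 2) ∞ u u.source ∧ ContMDiffOn (𝓡 2) (𝓡 2) ∞ u.symm u.target ∧
      ∀ z ∈ u.source, chartAt R2 p (u z) = chartAt R2 p p + quadMap B q z ∧
        Function.Bijective (dQuadMap B q z) ∧
        ∀ v, mfderiv (𝓡 2) (𝓡 2) u z v = mfderiv (𝓡 2) (𝓡 2) (chartAt R2 p).symm
          (chartAt R2 p p + quadMap B q z) (dQuadMap B q z v) := by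
  set c := chartAt R2 p
  set z₀ := c p
  set Φ : R2 → R2 := fun z => z₀ + quadMap B q z
  have hΦs : ContDiff ℝ ∞ Φ := contDiff_const.add (quadMap_smooth B q)
  have hΦd : ∀ z, HasFDerivAt Φ (dQuadMap B q z) z := fun z =>
    (hasFDerivAt_quadMap B hq z).const_add z₀
  have h0 : HasFDerivAt Φ (B : R2 →L[ℝ] R2) 0 := by
    have e : dQuadMap B q 0 = (B : R2 →L[ℝ] R2) := by ext v; simp [dQuadMap]
    rw [← e]; exact hΦd 0
  set φ := hΦs.contDiffAt.toOpenPartialHomeomorph Φ h0 (by simp) with hφdef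
  have hφ : (φ : R2 → R2) = Φ :=
    ContDiffAt.toOpenPartialHomeomorph_coe hΦs.contDiffAt h0 (by simp)
  have h0s : (0 : R2) ∈ φ.source :=
    ContDiffAt.mem_toOpenPartialHomeomorph_source hΦs.contDiffAt h0 (by simp)
  have hΦ0 : Φ 0 = z₀ := by simp [Φ, quadMap_zero]
  have hunit : ∀ᶠ z in 𝓝 (0 : R2), ∃ A : R2 ≃L[ℝ] R2, dQuadMap B q z = A := by
    have hc : Continuous (fun z => dQuadMap B q z) :=
      (ContinuousLinearMap.compL ℝ R2 R2 R2 (B : R2 →L[ℝ] R2)).continuous.comp
        (continuous_const.add q.continuous)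
    have hB : dQuadMap B q 0 = (B : R2 →L[ℝ] R2) := by ext v; simp [dQuadMap]
    have : ∀ᶠ z in 𝓝 (0 : R2), dQuadMap B q z ∈ range ((↑) : (R2 ≃L[ℝ] R2) → R2 →L[ℝ] R2) :=
      hc.continuousAt.preimage_mem_nhds
        (ContinuousLinearEquiv.isOpen.mem_nhds ⟨B, hB.symm⟩)
    filter_upwards [this] with z hz
    obtain ⟨A, hA⟩ := hz; exact ⟨A, hA.symm⟩
  have hcont : ∀ᶠ z in 𝓝 (0 : R2), Φ z ∈ c.target ∩ c.symm ⁻¹' O :=
    hΦs.continuous.continuousAt.preimage_mem_nhds (by
      rw [hΦ0]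
      exact (c.continuousOn_symm.isOpen_inter_preimage c.open_target hO).mem_nhds
        ⟨c.map_source (mem_chart_source R2 p), by
          show c.symm (c p) ∈ O
          rw [c.left_inv (mem_chart_source R2 p)]; exact hp⟩)
  obtain ⟨R, hR, hball⟩ := Metric.mem_nhds_iff.1
    ((φ.open_source.eventually_mem h0s).and (hunit.and hcont))
  set u := (φ.trans c.symm).restrOpen (ball 0 R) isOpen_ball
  have hsrc : u.source = ball 0 R := by
    refine subset_antisymm (fun z hz => hz.2) fun z hz => ⟨⟨(hball hz).1, ?_⟩, hz⟩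
    show φ z ∈ c.target
    rw [hφ]; exact (hball hz).2.2.1
  have huz : ∀ z, u z = c.symm (Φ z) := fun z => by
    show c.symm (φ z) = _
    rw [hφ]
  have hus : ∀ y, u.symm y = φ.symm (c y) := fun y => rfl
  have hut : ∀ y ∈ u.target, y ∈ c.source ∧ c y ∈ φ.target ∧ y ∈ O := by
    intro y hy
    have hz := u.map_target hy
    rw [hsrc] at hz
    have e := u.right_inv hy
    rw [huz] at e
    have ht := (hball hz).2.2.1
    refine ⟨e ▸ c.map_target ht, ?_, e ▸ (hball hz).2.2.2⟩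
    rw [← e, c.right_inv ht, ← hφ]
    exact φ.map_source (hball hz).1
  refine ⟨u, R, hR, hsrc, fun y hy => (hut y hy).2.2, fun y hy => (hut y hy).1, ?_, ?_, ?_, ?_⟩
  · rw [huz, hΦ0]; exact c.left_inv (mem_chart_source R2 p)
  · rw [hsrc]
    exact ((contMDiffOn_chart_symm (I := 𝓡 2) (x := p)).comp hΦs.contMDiff.contMDiffOn
      fun z hz => (hball hz).2.2.1).congr fun z hz => huz z
  · intro y hy
    have hz := u.map_target hy
    rw [hsrc] at hz
    obtain ⟨A, hA⟩ := (hball hz).2.1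
    have hs1 : ContDiffAt ℝ ∞ φ.symm (c y) := by
      refine φ.contDiffAt_symm (f₀' := A) (hut y hy).2.1 ?_ ?_
      · rw [← hus, ← hA, hφ]; exact hΦd _
      · rw [hφ]; exact hΦs.contDiffAt
    have hcy : ContMDiffAt (𝓡 2) (𝓡 2) ∞ c y :=
      (contMDiffOn_chart (I := 𝓡 2) (x := p)).contMDiffAt (c.open_source.mem_nhds (hut y hy).1)
    exact ((hs1.contMDiffAt.comp y hcy).congr_of_eventuallyEq
      (Eventually.of_forall fun w => hus w)).contMDiffWithinAt
  · intro z hz
    rw [hsrc] at hz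
    have ht := (hball hz).2.2.1
    obtain ⟨A, hA⟩ := (hball hz).2.1
    refine ⟨by rw [huz]; exact c.right_inv ht, by rw [hA]; exact A.bijective, fun v => ?_⟩
    have he : (u : R2 → M) =ᶠ[𝓝 z] (c.symm ∘ Φ) := Eventually.of_forall huz
    rw [he.mfderiv_eq, mfderiv_comp z
      (mdifferentiableAt_atlas_symm (chart_mem_atlas R2 p) ht)
      (hΦd z).differentiableAt.mdifferentiableAt, mfderiv_eq_fderiv, (hΦd z).fderiv]
    rfl

end Vale.Agent.P205.Full.Start
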