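import Vale.Agent.P205.Full.Start.Profile

/-!
# P205 full, START A2: adapted coordinates at a point

For a metric `g` on the plane and a symmetric form `Hs` at `0` there is a quadratic map `Φ` with
pulled-back metric `I + O(r²)` in which `Hs` is diagonal.
-/

open Set Metric Filter
open scoped ContDiff RealInnerProductSpace Topology

noncomputable section

namespace Vale.Agent.P205.Full.Start

/-- The standard basis of the plane. -/
def eb (i : Fin 2) : R2 := EuclideanSpace.single i 1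

/-- A quadratic change of coordinates. -/
def quadMap (B : R2 ≃L[ℝ] R2) (q : R2 →L[ℝ] R2 →L[ℝ] R2) (z : R2) : R2 :=
  B (z + (1 / 2 : ℝ) • q z z)

/-- Its differential, for symmetric `q`. -/
def dQuadMap (B : R2 ≃L[ℝ] R2) (q : R2 →L[ℝ] R2 →L[ℝ] R2) (z : R2) : R2 →L[ℝ] R2 :=
  (B : R2 →L[ℝ] R2).comp (ContinuousLinearMap.id ℝ R2 + q z)

lemma quadMap_zero (B : R2 ≃L[ℝ] R2) (q : R2 →L[ℝ] R2 →L[ℝ] R2) : quadMap B q 0 = 0 := by
  simp [quadMap]

lemma quadMap_smooth (B : R2 ≃L[ℝ] R2) (q : R2 →L[ℝ] R2 →L[ℝ] R2) :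
    ContDiff ℝ ∞ (quadMap B q) :=
  (B : R2 →L[ℝ] R2).contDiff.comp
    (contDiff_id.add (((q.contDiff).clm_apply contDiff_id).const_smul (1 / 2 : ℝ)))

lemma hasFDerivAt_quadMap (B : R2 ≃L[ℝ] R2) {q : R2 →L[ℝ] R2 →L[ℝ] R2}
    (hq : ∀ v w, q v w = q w v) (z : R2) : HasFDerivAt (quadMap B q) (dQuadMap B q z) z := by
  have h1 : HasFDerivAt (fun w => q w w) _ z := (q.hasFDerivAt (x := z)).clm_apply (hasFDerivAt_id z)
  have h2 := (B : R2 →L[ℝ] R2).hasFDerivAt.comp z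
    ((hasFDerivAt_id z).fun_add (h1.const_smul (1 / 2 : ℝ)))
  refine h2.congr_fderiv ?_
  ext v
  simp [dQuadMap, hq v z, ← add_smul]
  norm_num

lemma eb_apply (i j : Fin 2) : eb i j = if j = i then 1 else 0 := by simp [eb]

lemma inner_eb (v : R2) (i : Fin 2) : ⟪v, eb i⟫ = v i := by
  simp [eb, EuclideanSpace.inner_single_right]

lemma inner_R2 (v w : R2) : ⟪v, w⟫ = px v * px w + py v * py w := by
  simp [PiLp.inner_apply, Fin.sum_univ_two, px, py, mul_comm]

lemma sum_eb (v : R2) : v = px v • eb 0 + py v • eb 1 := by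
  ext i; fin_cases i <;> simp [px, py, eb]

/-- A positive form has an orthonormal basis in which a second symmetric form is diagonal. -/
lemma exists_frame (g₀ Hs : R2 →L[ℝ] R2 →L[ℝ] ℝ) (hg : ∀ v w, g₀ v w = g₀ w v)
    (hpos : ∀ v, v ≠ 0 → 0 < g₀ v v) (hH : ∀ v w, Hs v w = Hs w v) :
    ∃ B : R2 ≃L[ℝ] R2, (∀ v w, g₀ (B v) (B w) = ⟪v, w⟫) ∧ Hs (B (eb 0)) (B (eb 1)) = 0 := by
  have he0 : eb 0 ≠ 0 := fun h => by simpa [eb] using congrArg (fun z : R2 => z 0) h
  set α := Real.sqrt (g₀ (eb 0) (eb 0)) with hα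
  have hα0 : 0 < α := Real.sqrt_pos.2 (hpos _ he0)
  have hαs : α ^ 2 = g₀ (eb 0) (eb 0) := Real.sq_sqrt (hpos _ he0).le
  set b₁ := α⁻¹ • eb 0 with hb₁
  set v := eb 1 - g₀ (eb 1) b₁ • b₁ with hv
  have hv0 : v ≠ 0 := fun h => by simpa [hv, hb₁, eb] using congrArg (fun z : R2 => z 1) h
  set β := Real.sqrt (g₀ v v) with hβ
  have hβ0 : 0 < β := Real.sqrt_pos.2 (hpos _ hv0)
  have hβs : β ^ 2 = g₀ v v := Real.sq_sqrt (hpos _ hv0).le
  set b₂ := β⁻¹ • v with hb₂
  have h11 : g₀ b₁ b₁ = 1 := by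
    simp only [hb₁, map_smul, smul_apply, smul_eq_mul]
    field_simp; linarith
  have h21 : g₀ b₂ b₁ = 0 := by
    simp only [hb₂, hv, map_sub, map_smul, sub_apply, smul_apply, smul_eq_mul, h11]
    ring
  have h12 : g₀ b₁ b₂ = 0 := (hg _ _).trans h21
  have h22 : g₀ b₂ b₂ = 1 := by
    simp only [hb₂, map_smul, smul_apply, smul_eq_mul]
    field_simp; linarith
  set f : ℝ → ℝ := fun t => Hs (Real.cos t • b₁ + Real.sin t • b₂)
    (-Real.sin t • b₁ + Real.cos t • b₂) with hf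
  have hfc : Continuous f := by
    simp only [hf, map_add, map_smul, add_apply, smul_apply, smul_eq_mul]
    fun_prop
  have hend : f (Real.pi / 2) = -f 0 := by simp [hf, hH b₂ b₁]
  obtain ⟨t, -, ht⟩ : ∃ t ∈ uIcc 0 (Real.pi / 2), f t = 0 := by
    refine intermediate_value_uIcc hfc.continuousOn ?_
    rw [hend]
    rcases le_total (f 0) 0 with h | h
    · exact mem_uIcc_of_le h (by linarith)
    · exact mem_uIcc_of_ge (by linarith) h
  set c₁ := Real.cos t • b₁ + Real.sin t • b₂ with hc₁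
  set c₂ := -Real.sin t • b₁ + Real.cos t • b₂ with hc₂
  set L : R2 →L[ℝ] R2 := px.smulRight c₁ + py.smulRight c₂ with hL
  have hiso : ∀ v w, g₀ (L v) (L w) = ⟪v, w⟫ := by
    intro v w
    have hcs := Real.cos_sq_add_sin_sq t
    simp only [hL, hc₁, hc₂, add_apply, ContinuousLinearMap.smulRight_apply, map_add, map_smul,
      smul_apply, smul_eq_mul, h11, h12, h21, h22, inner_R2]
    linear_combination (px v * px w + py v * py w) * hcs
  have hinj : Function.Injective L.toLinearMap := fun v w h => by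
    have h' : L (v - w) = 0 := by rw [map_sub, sub_eq_zero]; exact h
    have := hiso (v - w) (v - w)
    rw [h', map_zero, real_inner_self_eq_norm_sq] at this
    exact sub_eq_zero.1 (norm_eq_zero.1 (pow_eq_zero_iff two_ne_zero |>.1 (by simpa using this.symm)))
  refine ⟨(LinearEquiv.ofInjectiveEndo L.toLinearMap hinj).toContinuousLinearEquiv, hiso, ?_⟩
  show Hs (L (eb 0)) (L (eb 1)) = 0
  simpa [hL, px, py, eb] using ht

/-- Coordinates with `g = I + O(r²)` diagonalising `Hs`. -/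
theorem exists_coords {g : R2 → R2 →L[ℝ] R2 →L[ℝ] ℝ} {Dg : R2 →L[ℝ] R2 →L[ℝ] R2 →L[ℝ] ℝ}
    (hd : HasFDerivAt g Dg 0) (hsym : ∀ᶠ z in 𝓝 (0 : R2), ∀ v w, g z v w = g z w v)
    (hpos : ∀ v, v ≠ 0 → 0 < g 0 v v) (Hs : R2 →L[ℝ] R2 →L[ℝ] ℝ)
    (hH : ∀ v w, Hs v w = Hs w v) :
    ∃ (B : R2 ≃L[ℝ] R2) (q : R2 →L[ℝ] R2 →L[ℝ] R2), (∀ v w, q v w = q w v) ∧
      Hs (B (eb 0)) (B (eb 1)) = 0 ∧
      ∀ i j, g 0 (B (eb i)) (B (eb j)) = (if i = j then 1 else 0) ∧
        HasFDerivAt (fun z => g (quadMap B q z) (dQuadMap B q z (eb i)) (dQuadMap B q z (eb j)))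
          (0 : R2 →L[ℝ] ℝ) 0 := by
  have hg0 := hsym.self_of_nhds
  have hDsym : ∀ u v w, Dg u v w = Dg u w v := by
    intro u v w
    have h1 := ((hd.clm_apply (hasFDerivAt_const v (0 : R2))).clm_apply
      (hasFDerivAt_const w (0 : R2)))
    have h2 := ((hd.clm_apply (hasFDerivAt_const w (0 : R2))).clm_apply
      (hasFDerivAt_const v (0 : R2)))
    have he : (fun z => g z v w) =ᶠ[𝓝 0] fun z => g z w v := hsym.mono fun z hz => hz v w
    have := congrArg (fun L : R2 →L[ℝ] ℝ => L u) (h1.unique (h2.congr_of_eventuallyEq he))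
    simpa using this
  obtain ⟨B, hB, hB01⟩ := exists_frame (g 0) Hs hg0 hpos hH
  set P : Fin 2 → Fin 2 → Fin 2 → ℝ := fun k i j => Dg (B (eb k)) (B (eb i)) (B (eb j)) with hP
  have hPs : ∀ k i j, P k i j = P k j i := fun k i j => hDsym _ _ _
  set C : Fin 2 → Fin 2 → Fin 2 → ℝ := fun l k i => -(P k l i + P i l k - P l k i) / 2 with hC
  set q : R2 →L[ℝ] R2 →L[ℝ] R2 := ∑ k, ∑ i, ∑ l,
    C l k i • (EuclideanSpace.proj k : R2 →L[ℝ] ℝ).smulRight
      ((EuclideanSpace.proj i : R2 →L[ℝ] ℝ).smulRight (eb l)) with hq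
  have hqv : ∀ v w, q v w = ∑ k, ∑ i, ∑ l, C l k i • v k • w i • eb l := fun v w => by
    simp [hq, PiLp.proj_apply]
  have hCs : ∀ l k i, C l k i = C l i k := fun l k i => by
    simp only [hC, hPs l k i]; ring
  have hqs : ∀ v w, q v w = q w v := fun v w => by
    rw [hqv, hqv, Finset.sum_comm]
    refine Finset.sum_congr rfl fun k _ => Finset.sum_congr rfl fun i _ =>
      Finset.sum_congr rfl fun l _ => ?_
    rw [hCs l i k, smul_comm (v i)]
  have hqe : ∀ k i l, q (eb k) (eb i) l = C l k i := fun k i l => by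
    rw [hqv]
    simp [eb_apply, Fin.sum_univ_two]
    fin_cases k <;> fin_cases i <;> fin_cases l <;> simp
  refine ⟨B, q, hqs, hB01, fun i j => ⟨?_, ?_⟩⟩
  · rw [hB, inner_eb, eb_apply]
    exact if_congr ⟨Eq.symm, Eq.symm⟩ rfl rfl
  · have hΦ := hasFDerivAt_quadMap B hqs 0
    have hdd : HasFDerivAt (fun z => dQuadMap B q z)
        (((ContinuousLinearMap.compL ℝ R2 R2 R2) (B : R2 →L[ℝ] R2)).comp q) 0 := by
      have := ((ContinuousLinearMap.compL ℝ R2 R2 R2) (B : R2 →L[ℝ] R2)).hasFDerivAt.comp (0 : R2)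
        ((q.hasFDerivAt (x := (0 : R2))).const_add (ContinuousLinearMap.id ℝ R2))
      exact this
    have h0 : HasFDerivAt g Dg (quadMap B q 0) := by rw [quadMap_zero]; exact hd
    have hcomp : HasFDerivAt (fun z => g (quadMap B q z)) (Dg.comp (dQuadMap B q 0)) 0 :=
      by
      have := @HasFDerivAt.comp ℝ _ R2 _ _ R2 _ _ (R2 →L[ℝ] R2 →L[ℝ] ℝ) _ _ (quadMap B q) (dQuadMap B q 0) (0 : R2) g Dg
      exact this h0 hΦ
    refine ((hcomp.clm_apply (hdd.clm_apply (hasFDerivAt_const (eb i) 0))).clm_apply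
      (hdd.clm_apply (hasFDerivAt_const (eb j) 0))).congr_fderiv ?_
    ext u
    rw [sum_eb u]
    have key : ∀ k, Dg (B (eb k)) (B (eb i)) (B (eb j)) + g 0 (B (q (eb k) (eb i))) (B (eb j)) +
        g 0 (B (eb i)) (B (q (eb k) (eb j))) = 0 := fun k => by
      rw [hB, hB, real_inner_comm (q (eb k) (eb j)) (eb i), inner_eb, inner_eb, hqe, hqe]
      have h1 := hPs k i j
      have h2 := hPs i j k
      have h3 := hPs j i k
      simp only [hC, hP] at *
      linarith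
    have k0 := key 0
    have k1 := key 1
    simp [dQuadMap, quadMap_zero]
    linear_combination px u * k0 + py u * k1

end Vale.Agent.P205.Full.Start
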