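import Vale.Agent.P205.Full.Start.Interface

/-!
# P205 full, START: the data consumed by the last spiral (helper36)

`BaseData` is what A1 to A5 (section, flattening, base, twists) hand over to A6 and A7.
Everything is independent of the last frequency. The only parameter is a small `η`; all bounds
are monomials in `η`. The frame `V` is the fixed spanning frame.

With `ψ` the local expression of the section `S` we write `qS = ∑ i, (dψ (V i))²`. The slack is
`sq` and the map `F` fills `g (1 - sq) - dψ²` up to the residual `baseRes`. At each point one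
is either outside the core (`η ^ c ≤ qS` and `η ^ c ≤ sq`) or inside, where `F`, the normal data
and the residual have bounded low derivatives and the Hessian of the section is of size `η⁻⁸`.
-/

open scoped Manifold ContDiff RealInnerProductSpace
open Bundle

namespace Vale.Agent.P205.Full.Start

section

variable {M : Type} [TopologicalSpace M] [ChartedSpace R2 M] [IsManifold (𝓡 2) ∞ M]
variable {E : Type} [NormedAddCommGroup E] [NormedSpace ℝ E]
variable {N : ℕ}

/-- Squared length of the differential of the section, in the frame. -/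
noncomputable def qS (G : M → R3) (V : Frame M N) (S : M → R3) (x : M) : ℝ :=
  ∑ i, dSecSq G V S i i x

/-- The residual left to the last spiral. -/
noncomputable def baseRes (g : Metric M) (G : M → R3) (V : Frame M N) (F : M → R4)
    (S : M → R3) (sq : M → ℝ) (i k : Fin N) : M → ℝ :=
  fun x => gV g V i k x * (1 - sq x) - dSecSq G V S i k x - pullV F V i k x

/-- All word derivatives are bounded by monomials in `η`, linearly in the order. -/
def PolyBd (V : Frame M N) (η : ℝ) (a : ℕ) (C : ℕ → ℝ) (f : M → E) : Prop :=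
  ∀ (w : List (Fin N)) (x : M), ‖DW V w f x‖ ≤ C w.length * η⁻¹ ^ (a * (w.length + 1))

/-- The core conditions at a point. -/
structure InCore (g : Metric M) (G : M → R3) (V : Frame M N) (F : M → R4)
    (nd : NormalData G F) (S : M → R3) (sq : M → ℝ) (η C₀ : ℝ) (x : M) : Prop where
  ddF : ∀ i k, ‖D V i (D V k F) x‖ ≤ C₀
  dn1 : ∀ i, ‖D V i nd.n1 x‖ ≤ C₀
  dO : ∀ i, ‖D V i nd.O x‖ ≤ C₀
  dres : ∀ i j k, |D V j (baseRes g G V F S sq i k) x| ≤ C₀ * Real.sqrt (qS G V S x)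
  ddres : ∀ i j l k, |D V j (D V l (baseRes g G V F S sq i k)) x| ≤ C₀
  hess : η⁻¹ ^ 8 ≤ C₀ * ∑ i, ∑ k, ‖nLine G x (D V i (dSec G V S k) x)‖

/-- The data for the last spiral at parameter `η`. -/
structure BaseData (g : Metric M) (G : M → R3) (V : Frame M N) (η : ℝ) (a c : ℕ) (C₀ : ℝ)
    (C : ℕ → ℝ) where
  F : M → R4
  nd : NormalData G F
  S : M → R3
  sq : M → ℝ
  smooth_F : ContMDiff (𝓡 2) 𝓘(ℝ, R4) ∞ F
  sec_S : IsSection G S
  smooth_sq : ContMDiff (𝓡 2) 𝓘(ℝ, ℝ) ∞ sq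
  poly_F : PolyBd V η a C F
  poly_n1 : PolyBd V η a C nd.n1
  poly_O : PolyBd V η a C nd.O
  poly_S : PolyBd V η a C S
  poly_sq : PolyBd V η a C sq
  bd_S : ∀ x, ‖S x‖ ≤ C₀
  bd_F : ∀ x, ‖F x‖ ≤ C₀
  bd_dF : ∀ i x, ‖D V i F x‖ ≤ C₀
  bd_dS : ∀ i x, ‖dSec G V S i x‖ ≤ C₀
  bd_ddS : ∀ i k x, ‖D V i (dSec G V S k) x‖ ≤ C₀ * η⁻¹ ^ 8
  sq_nonneg : ∀ x, 0 ≤ sq x
  sq_le : ∀ x, sq x ≤ C₀ * η ^ 6 * qS G V S x
  bd_dsq : ∀ i x, |D V i sq x| ≤ C₀ * Real.sqrt (qS G V S x)
  bd_ddsq : ∀ i k x, |D V i (D V k sq) x| ≤ C₀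
  res_le : ∀ i k x, |baseRes g G V F S sq i k x| ≤ C₀ * η * sq x
  region : ∀ x, (η ^ c ≤ qS G V S x ∧ η ^ c ≤ sq x) ∨ InCore g G V F nd S sq η C₀ x

end

/-- What A1 to A5 prove. -/
def BaseDataProp : Prop :=
  ∀ (M : Type) [TopologicalSpace M] [T2Space M] [CompactSpace M] [ChartedSpace R2 M]
    [IsManifold (𝓡 2) ∞ M], ImmersesInR3 M →
    ∀ (g : Metric M) (N : ℕ) (V : Frame M N), FrameSmooth V → FrameSpans V →
    ∃ (G : M → R3) (a c : ℕ) (C₀ : ℝ) (C : ℕ → ℝ) (η₀ : ℝ), IsImm3 G ∧ 0 < η₀ ∧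
      ∀ η : ℝ, 0 < η → η ≤ η₀ → Nonempty (BaseData g G V η a c C₀ C)

end Vale.Agent.P205.Full.Start
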