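import Vale.Agent.P205.Full.Start.FlattenTools

/-!
# P205 full, START A2: flattening at one critical point
-/

open scoped Manifold ContDiff RealInnerProductSpace Topology
open Bundle Filter Set Metric

noncomputable section

namespace Vale.Agent.P205.Full.Start

variable {M : Type} [TopologicalSpace M] [T2Space M] [ChartedSpace R2 M]
  [IsManifold (𝓡 2) ∞ M] {N : ℕ} {V : Frame M N} {G₀ S₀ : M → R3}

/-- A smooth form, read around `z₀`, is differentiable. -/
lemma hasFDerivAt_shift {F : Type} [NormedAddCommGroup F] [NormedSpace ℝ F] {h : R2 → F} {z₀ : R2}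
    (hh : ContDiffAt ℝ ∞ h z₀) :
    HasFDerivAt (fun w => h (z₀ + w)) (fderiv ℝ h z₀) 0 := by
  have h1 : HasFDerivAt h (fderiv ℝ h z₀) (z₀ + 0) := by
    rw [add_zero]; exact (hh.differentiableAt (by simp)).hasFDerivAt
  refine (h1.comp (0 : R2) ((hasFDerivAt_id (0 : R2)).const_add z₀)).congr_fderiv ?_
  exact ContinuousLinearMap.comp_id _

open scoped Classical in
/-- A map changed inside the domain of a parametrisation. -/
def glue (u : OpenPartialHomeomorph R2 M) (k : R2 → R3) (f₀ : M → R3) (y : M) : R3 :=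
  if y ∈ u.target then k (u.symm y) else f₀ y

omit [T2Space M] [ChartedSpace R2 M] [IsManifold (𝓡 2) ∞ M] in
lemma glue_apply (u : OpenPartialHomeomorph R2 M) (k : R2 → R3) (f₀ : M → R3) {z : R2}
    (hz : z ∈ u.source) : glue u k f₀ (u z) = k z := by
  rw [glue, if_pos (u.map_source hz), u.left_inv hz]

omit [T2Space M] [ChartedSpace R2 M] [IsManifold (𝓡 2) ∞ M] in
lemma glue_outside {u : OpenPartialHomeomorph R2 M} {k : R2 → R3} {f₀ : M → R3} {ρ : ℝ}
    (hk : ∀ z ∈ u.source, ρ ≤ ‖z‖ → k z = f₀ (u z)) {y : M} (hy : y ∉ u '' closedBall 0 ρ) :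
    glue u k f₀ y = f₀ y := by
  rw [glue]
  split_ifs with h
  · have hρ : ρ ≤ ‖u.symm y‖ := by
      by_contra hlt
      exact hy ⟨u.symm y, by simpa using (not_le.1 hlt).le, u.right_inv h⟩
    rw [hk _ (u.map_target h) hρ, u.right_inv h]
  · rfl

omit [IsManifold (𝓡 2) ∞ M] in
lemma contMDiff_glue {u : OpenPartialHomeomorph R2 M} {k : R2 → R3} {f₀ : M → R3} {ρ : ℝ}
    (hf₀ : ContMDiff (𝓡 2) 𝓘(ℝ, R3) ∞ f₀) (hk : ContDiffOn ℝ ∞ k u.source)
    (hu : ContMDiffOn (𝓡 2) (𝓡 2) ∞ u.symm u.target) (hρ : closedBall 0 ρ ⊆ u.source)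
    (heq : ∀ z ∈ u.source, ρ ≤ ‖z‖ → k z = f₀ (u z)) :
    ContMDiff (𝓡 2) 𝓘(ℝ, R3) ∞ (glue u k f₀) := by
  intro y
  by_cases hy : y ∈ u.target
  · have h : ContMDiffOn (𝓡 2) 𝓘(ℝ, R3) ∞ (fun w => k (u.symm w)) u.target :=
      hk.contMDiffOn.comp hu fun w hw => u.map_target hw
    refine (h.contMDiffAt (u.open_target.mem_nhds hy)).congr_of_eventuallyEq ?_
    filter_upwards [u.open_target.mem_nhds hy] with w hw
    rw [glue, if_pos hw]
  · have hK : IsClosed (u '' closedBall 0 ρ) :=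
      ((isCompact_closedBall 0 ρ).image_of_continuousOn (u.continuousOn.mono hρ)).isClosed
    refine (hf₀ y).congr_of_eventuallyEq ?_
    filter_upwards [hK.isOpen_compl.mem_nhds (fun ⟨z, hz, e⟩ => hy (e ▸ u.map_source (hρ hz)))]
      with w hw using glue_outside heq hw

/-- A continuous sign on a connected set is constant. -/
lemma sign_const {U : Set R2} (hU : IsPreconnected U) {τ : R2 → ℝ} (hτ : ContinuousOn τ U)
    (h1 : ∀ z ∈ U, τ z * τ z = 1) {x y : R2} (hx : x ∈ U) (hy : y ∈ U) : τ x = τ y := by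
  by_contra hne
  have hsum : τ x = -τ y := by
    have : (τ x - τ y) * (τ x + τ y) = 0 := by linear_combination h1 x hx - h1 y hy
    rcases mul_eq_zero.1 this with h | h
    · exact absurd (sub_eq_zero.1 h) hne
    · linarith
  obtain ⟨w, hw, hw0⟩ : (0 : ℝ) ∈ τ '' U := by
    rcases le_total (τ y) 0 with h | h
    · exact hU.intermediate_value hy hx hτ ⟨h, by linarith⟩
    · exact hU.intermediate_value hx hy hτ ⟨by linarith, h⟩
  have := h1 w hw
  rw [hw0] at this
  norm_num at this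

/-- The Hessian at a critical point in quadratic coordinates that diagonalise it. -/
lemma hess_pullback {ψ : R2 → ℝ} {W : Set R2} (hW : IsOpen W) (hψ : ContDiffOn ℝ ∞ ψ W)
    {z₀ : R2} (hz : z₀ ∈ W) (h0 : fderiv ℝ ψ z₀ = 0) {Hs : R2 →L[ℝ] R2 →L[ℝ] ℝ}
    (hd : HasFDerivAt (fderiv ℝ ψ) Hs z₀) (hsym : ∀ v w, Hs v w = Hs w v)
    (hinj : Function.Injective Hs) (B : R2 ≃L[ℝ] R2) {q : R2 →L[ℝ] R2 →L[ℝ] R2}
    (hq : ∀ v w, q v w = q w v) (h01 : Hs (B (eb 0)) (B (eb 1)) = 0) :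
    ∃ a b : ℝ, a ≠ 0 ∧ b ≠ 0 ∧
      HasFDerivAt (fderiv ℝ fun z => ψ (z₀ + quadMap B q z))
        ((a • px).smulRight px + (b • py).smulRight py) 0 := by
  set a := Hs (B (eb 0)) (B (eb 0)) with ha
  set b := Hs (B (eb 1)) (B (eb 1)) with hb
  have hB10 : Hs (B (eb 1)) (B (eb 0)) = 0 := (hsym _ _).trans h01
  have hdiag : ∀ v w, Hs (B v) (B w) = a * px v * px w + b * py v * py w := fun v w => by
    rw [sum_eb v, sum_eb w]
    simp only [map_add, map_smul, add_apply, smul_apply, smul_eq_mul, h01, hB10, ← ha, ← hb]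
    simp [px, py, eb]
    ring
  have hker : ∀ v, (∀ w, Hs (B v) (B w) = 0) → v = 0 := fun v h => by
    refine B.injective (hinj ?_)
    rw [map_zero, map_zero]
    ext w
    obtain ⟨w', rfl⟩ := B.surjective w
    simpa using h w'
  refine ⟨a, b, fun h => ?_, fun h => ?_, ?_⟩
  · have h0 := hker (eb 0) fun w => by rw [hdiag, h]; simp [py, eb]
    simpa [eb] using congrArg (fun z : R2 => z 0) h0
  · have h0 := hker (eb 1) fun w => by rw [hdiag, h]; simp [px, eb]
    simpa [eb] using congrArg (fun z : R2 => z 1) h0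
  have hΦ : ∀ z, HasFDerivAt (fun z => z₀ + quadMap B q z) (dQuadMap B q z) z := fun z =>
    (hasFDerivAt_quadMap B hq z).const_add z₀
  have hΦ0 : z₀ + quadMap B q 0 = z₀ := by simp [quadMap_zero]
  have hdQ0 : dQuadMap B q 0 = (B : R2 →L[ℝ] R2) := by ext v; simp [dQuadMap]
  have hc1 : HasFDerivAt (fun z => fderiv ℝ ψ (z₀ + quadMap B q z))
      (Hs.comp (dQuadMap B q 0)) 0 :=
    HasFDerivAt.comp (0 : R2) (hΦ0.symm ▸ hd) (hΦ 0)
  have hd1 : HasFDerivAt (fun z => dQuadMap B q z)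
      (((ContinuousLinearMap.compL ℝ R2 R2 R2) (B : R2 →L[ℝ] R2)).comp q) 0 :=
    ((ContinuousLinearMap.compL ℝ R2 R2 R2) (B : R2 →L[ℝ] R2)).hasFDerivAt.comp (0 : R2)
      ((q.hasFDerivAt (x := (0 : R2))).const_add (ContinuousLinearMap.id ℝ R2))
  have he : (fderiv ℝ fun z => ψ (z₀ + quadMap B q z)) =ᶠ[𝓝 0]
      fun z => (fderiv ℝ ψ (z₀ + quadMap B q z)).comp (dQuadMap B q z) := by
    have hW' : ∀ᶠ z in 𝓝 (0 : R2), z₀ + quadMap B q z ∈ W :=
      (hΦ 0).continuousAt.preimage_mem_nhds (hW.mem_nhds (by rw [hΦ0]; exact hz))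
    filter_upwards [hW'] with z hzW
    exact (((hψ.contDiffAt (hW.mem_nhds hzW)).differentiableAt
      (by simp)).hasFDerivAt.comp z (hΦ z)).fderiv
  refine ((hc1.clm_comp hd1).congr_of_eventuallyEq he).congr_fderiv ?_
  ext v w
  simp only [add_apply, ContinuousLinearMap.comp_apply, ContinuousLinearMap.compL_apply,
    ContinuousLinearMap.flip_apply, hΦ0, h0, hdQ0, zero_apply, ContinuousLinearEquiv.coe_coe,
    zero_add, hdiag, ContinuousLinearMap.smulRight_apply, smul_apply, smul_eq_mul]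

/-- The coordinates, the flattened data and the normal form at one critical point. -/
theorem exists_local (g : Full.Metric M) (hG : IsImm3 G₀) (hS : IsSection G₀ S₀)
    (hV : FrameSmooth V) (hs : FrameSpans V) {p : M} (hp : IsNondegCrit G₀ V S₀ p)
    {O : Set M} (hO : IsOpen O) (hpO : p ∈ O)
    (honly : ∀ x ∈ O, IsCrit G₀ V S₀ x → x = p) :
    ∃ (G₁ S₁ : M → R3) (K : Set M) (P : FlatPoint g G₁ S₁ p), IsCompact K ∧ K ⊆ O ∧
      P.u.target ⊆ O ∧ IsImm3 G₁ ∧ IsSection G₁ S₁ ∧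
      (∀ x ∉ K, G₁ x = G₀ x ∧ S₁ x = S₀ x) ∧ ∀ x ∈ O, (IsCrit G₁ V S₁ x ↔ x = p) := by
  set c := chartAt R2 p with hc
  set z₀ := c p with hz₀
  have hps : p ∈ c.source := mem_chart_source R2 p
  have hzt : z₀ ∈ c.target := c.map_source hps
  have htn : c.target ∈ 𝓝 z₀ := c.open_target.mem_nhds hzt
  obtain ⟨hψ0, hHinj⟩ := hess_injective hG hS hV hs hp
  set ψ := Sect.psi G₀ S₀ p with hψ
  have hψs : ContDiffOn ℝ ∞ ψ c.target := Sect.contDiffOn_psi hG hS.1 p
  set Hs : R2 →L[ℝ] R2 →L[ℝ] ℝ := fderiv ℝ (fderiv ℝ ψ) z₀ with hHs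
  have hψd : HasFDerivAt (fderiv ℝ ψ) Hs z₀ :=
    (((hψs.fderiv_of_isOpen c.open_target (m := ∞) (by simp)).contDiffAt htn).differentiableAt
      (by simp)).hasFDerivAt
  have hHsym : ∀ v w, Hs v w = Hs w v := fun v w =>
    ((hψs.contDiffAt htn).isSymmSndFDerivAt (by
      simp only [minSmoothness_of_isRCLikeNormedField]
      exact WithTop.coe_le_coe.2 le_top)) v w
  -- the metric near the centre
  set gs : R2 → R2 →L[ℝ] R2 →L[ℝ] ℝ := fun w => gBil g c.symm (z₀ + w) with hgs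
  have hgd := hasFDerivAt_shift
    ((contDiffOn_gBil g c.open_target (Sect.contMDiffOn_symm p)).contDiffAt htn)
  have hgsym : ∀ᶠ z in 𝓝 (0 : R2), ∀ v w, gs z v w = gs z w v :=
    Eventually.of_forall fun z v w => by
      simp only [hgs, gBil_apply, gPull]
      exact g.symm _ _ _
  have hgpos : ∀ v, v ≠ 0 → 0 < gs 0 v v := fun v hv => by
    simp only [hgs, gBil_apply, gPull, add_zero]
    exact g.pos _ _ fun h => hv ((Sect.bijective_symm p hzt).1 (h.trans (map_zero _).symm))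
  obtain ⟨B, q, hq, hB01, hmet⟩ := exists_coords hgd hgsym hgpos Hs hHsym
  obtain ⟨u, R, hR, hsrc, htO, htc, hu0, hus, husy, huv⟩ := exists_param p B hq hO hpO
  set Φ : R2 → R2 := fun z => z₀ + quadMap B q z with hΦ
  have hΦs : ContDiff ℝ ∞ Φ := contDiff_const.add (quadMap_smooth B q)
  have hΦd : ∀ z, HasFDerivAt Φ (dQuadMap B q z) z := fun z =>
    (hasFDerivAt_quadMap B hq z).const_add z₀
  have hΦt : ∀ z ∈ u.source, Φ z ∈ c.target ∧ c.symm (Φ z) = u z := fun z hz => by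
    have h := htc (u.map_source hz)
    have e : c (u z) = Φ z := (huv z hz).1
    exact ⟨e ▸ c.map_source h, by rw [← e]; exact c.left_inv h⟩
  have hΦ0 : Φ 0 = z₀ := by simp [hΦ, quadMap_zero]
  have hdQ0 : dQuadMap B q 0 = (B : R2 →L[ℝ] R2) := by ext v; simp [dQuadMap]
  have hnhd : ∀ z ∈ u.source, u.source ∈ 𝓝 z := fun z hz => u.open_source.mem_nhds hz
  have humd : ∀ z ∈ u.source, MDifferentiableAt (𝓡 2) (𝓡 2) u z := fun z hz =>
    (hus.contMDiffAt (hnhd z hz)).mdifferentiableAt (by simp)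
  have hbij : ∀ z ∈ u.source, Function.Bijective (mfderiv (𝓡 2) (𝓡 2) u z) := by
    intro z hz
    have hb := (Sect.bijective_symm p (hΦt z hz).1).comp (huv z hz).2.1
    have he : (fun v : R2 => mfderiv (𝓡 2) (𝓡 2) u z v) = fun v : R2 =>
        mfderiv (𝓡 2) (𝓡 2) c.symm (Φ z) (dQuadMap B q z v) :=
      funext fun v => (huv z hz).2.2 v
    exact (congrArg Function.Bijective he).mpr hb
  have hmem0 : (0 : R2) ∈ u.source := by rw [hsrc]; exact mem_ball_self hR
  have hball : ∀ z : R2, z ∈ u.source ↔ ‖z‖ < R := fun z => by rw [hsrc]; simp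
  -- the immersion in the coordinates, and its flattening
  set f : R2 → R3 := fun z => G₀ (u z) with hf
  have hfs : ContDiffOn ℝ ∞ f u.source :=
    contMDiffOn_iff_contDiffOn.1 (hG.1.comp_contMDiffOn hus)
  have hfd : ∀ z ∈ u.source, ∀ a, fderiv ℝ f z a =
      mfderiv (𝓡 2) 𝓘(ℝ, R3) G₀ (u z) (mfderiv (𝓡 2) (𝓡 2) u z a) := fun z hz a =>
    fderiv_comp_param (hG.1.mdifferentiable (by simp) _) (humd z hz)
      (Eventually.of_forall fun _ => rfl) a
  have hfinj : ∀ z ∈ u.source, Function.Injective (fderiv ℝ f z) := fun z hz a b h => by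
    rw [hfd z hz, hfd z hz] at h
    exact (hbij z hz).1 (hG.2 _ h)
  obtain ⟨f', δ, δ', J, hδ', hδ'δ, hδR, hf's, hf'eq, hf'inj, hf'J⟩ :=
    exists_flat hR (hsrc ▸ hfs) (hfinj 0 hmem0)
  have hδ : 0 < δ := hδ'.trans_le hδ'δ
  have hf'out : ∀ z ∈ u.source, δ ≤ ‖z‖ → fderiv ℝ f' z = fderiv ℝ f z := fun z hz hd =>
    fderiv_eq_outer hδ hf's (hsrc ▸ hfs) hf'eq ((hball z).1 hz) hd
  have hf'all : ∀ z ∈ u.source, Function.Injective (fderiv ℝ f' z) := fun z hz => by
    rcases lt_or_ge ‖z‖ δ with h | h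
    · exact hf'inj z h
    · rw [hf'out z hz h]; exact hfinj z hz
  rw [← hsrc] at hf's
  -- the old normal in the coordinates
  set ν₀ : R2 → R3 := fun z => Sect.nu G₀ p (Φ z) with hν₀
  have hν₀s : ContDiffOn ℝ ∞ ν₀ u.source :=
    (Sect.contDiffOn_nu hG p).comp hΦs.contDiffOn fun z hz => (hΦt z hz).1
  have hν₀1 : ∀ z ∈ u.source, ‖ν₀ z‖ = 1 := fun z hz => Sect.norm_nu hG p (hΦt z hz).1
  have hν₀p : ∀ z ∈ u.source, ∀ v, nLine G₀ (u z) v = ⟪ν₀ z, v⟫ • ν₀ z := fun z hz v => by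
    rw [← (hΦt z hz).2]; exact Sect.nLine_chart hG p (hΦt z hz).1 v
  have hcrn : ContDiffOn ℝ ∞ (fun z => crn (fderiv ℝ f z)) u.source :=
    contDiffOn_crn (hfs.fderiv_of_isOpen u.open_source (by simp)) hfinj
  set τ : R2 → ℝ := fun z => ⟪ν₀ z, crn (fderiv ℝ f z)⟫ with hτ
  have hτp : ∀ z ∈ u.source, crn (fderiv ℝ f z) = τ z • ν₀ z := fun z hz =>
    normal_unique (norm_crn (hfinj z hz)) (hν₀p z hz)
      (nLine_of_param (hfinj z hz) (hbij z hz).2 (hfd z hz))
  have hτ1 : ∀ z ∈ u.source, τ z * τ z = 1 := fun z hz => by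
    have h := norm_crn (hfinj z hz)
    rw [hτp z hz, norm_smul, hν₀1 z hz, mul_one, Real.norm_eq_abs] at h
    rw [← abs_mul_abs_self, h, one_mul]
  have hτc : ∀ z ∈ u.source, τ z = τ 0 := fun z hz =>
    sign_const (by rw [hsrc]; exact (convex_ball _ _).isPreconnected)
      (hν₀s.continuousOn.inner hcrn.continuousOn) hτ1 hz hmem0
  set n' : R2 → R3 := fun z => τ 0 • crn (fderiv ℝ f' z) with hn'
  have hn's : ContDiffOn ℝ ∞ n' u.source :=
    (contDiffOn_crn (hf's.fderiv_of_isOpen u.open_source (by simp)) hf'all).const_smul (τ 0)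
  have hn'1 : ∀ z ∈ u.source, ‖n' z‖ = 1 := fun z hz => by
    simp only [hn', norm_smul, norm_crn (hf'all z hz), mul_one, Real.norm_eq_abs]
    exact (abs_eq zero_le_one).2 (mul_self_eq_one_iff.1 (hτ1 0 hmem0))
  have hn'out : ∀ z ∈ u.source, δ ≤ ‖z‖ → n' z = ν₀ z := fun z hz hd => by
    simp only [hn', hf'out z hz hd]
    rw [hτp z hz, hτc z hz, smul_smul, hτ1 0 hmem0, one_smul]
  -- the scalar of the section and its exact quadratic version
  set s : R2 → ℝ := fun z => ψ (Φ z) with hsdef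
  have hss : ContDiffOn ℝ ∞ s u.source :=
    hψs.comp hΦs.contDiffOn fun z hz => (hΦt z hz).1
  have hsec : ∀ z ∈ u.source, S₀ (u z) = s z • ν₀ z := fun z hz => by
    rw [← (hΦt z hz).2]; exact Sect.section_eq hG hS p (hΦt z hz).1
  have hcrit₀ : ∀ z ∈ u.source, IsCrit G₀ V S₀ (u z) ↔ fderiv ℝ s z = 0 := fun z hz =>
    isCrit_param (humd z hz) (hbij z hz) (hS.1.mdifferentiable (by simp) _) hs
      ((hss.contDiffAt (hnhd z hz)).differentiableAt (by simp))
      ((hν₀s.contDiffAt (hnhd z hz)).differentiableAt (by simp))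
      (Filter.eventually_of_mem (hnhd z hz) hν₀1) (Filter.eventually_of_mem (hnhd z hz) hsec)
      (hν₀p z hz)
  have hs0 : fderiv ℝ s 0 = 0 := (hcrit₀ 0 hmem0).1 (by rw [hu0]; exact hp.1)
  have honly' : ∀ z ∈ u.source, fderiv ℝ s z = 0 → z = 0 := fun z hz h =>
    u.injOn hz hmem0 (by rw [hu0]; exact honly _ (htO (u.map_source hz)) ((hcrit₀ z hz).2 h))
  obtain ⟨a, b, hane, hbne, hhess⟩ :=
    hess_pullback c.open_target hψs hzt hψ0 hψd hHsym hHinj B hq hB01
  obtain ⟨δq, hδq, hδqR, hs's, -, hs'crit⟩ := exists_quadratic hR hane hbne (hsrc ▸ hss) hs0 hhess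
  set s' := blendTo δq (fun z => s 0 + quad a b z) s with hs'
  have hs'out : ∀ z ∈ u.source, δq ≤ ‖z‖ → fderiv ℝ s' z = fderiv ℝ s z := fun z hz hd =>
    fderiv_eq_outer hδq hs's (hsrc ▸ hss) (fun w hw => blendTo_outer hδq _ _ hw)
      ((hball z).1 hz) hd
  have hs'0 : fderiv ℝ s' 0 = 0 := by
    have he : s' =ᶠ[𝓝 0] fun z => s 0 + quad a b z := by
      filter_upwards [closedBall_mem_nhds (0 : R2) (half_pos hδq)] with z hz
      exact blendTo_inner hδq _ _ (by simpa using hz)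
    rw [he.fderiv_eq, ((hasFDerivAt_quad a b 0).const_add (s 0)).fderiv]
    simp [dquad]
  rw [← hsrc] at hs's
  -- the new data
  set ρ := max δ δq with hρ
  have hρR : closedBall 0 ρ ⊆ u.source := fun z hz =>
    (hball z).2 ((mem_closedBall_zero_iff.1 hz).trans_lt (max_lt hδR hδqR))
  set k : R2 → R3 := fun z => s' z • n' z with hk
  have hks : ContDiffOn ℝ ∞ k u.source := hs's.smul hn's
  have hfeq : ∀ z ∈ u.source, ρ ≤ ‖z‖ → f' z = G₀ (u z) := fun z _ hd =>
    hf'eq z ((le_max_left _ _).trans hd)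
  have hkeq : ∀ z ∈ u.source, ρ ≤ ‖z‖ → k z = S₀ (u z) := fun z hz hd => by
    simp only [hk, hn'out z hz ((le_max_left _ _).trans hd), hs',
      blendTo_outer hδq _ _ ((le_max_right _ _).trans hd), hsec z hz]
  set G₁ := glue u f' G₀ with hG₁
  set S₁ := glue u k S₀ with hS₁
  set K := u '' closedBall 0 ρ with hK
  have hKc : IsCompact K :=
    (isCompact_closedBall 0 ρ).image_of_continuousOn (u.continuousOn.mono hρR)
  have hKt : K ⊆ u.target := by
    rintro _ ⟨z, hz, rfl⟩; exact u.map_source (hρR hz)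
  have hG₁s : ContMDiff (𝓡 2) 𝓘(ℝ, R3) ∞ G₁ := contMDiff_glue hG.1 hf's husy hρR hfeq
  have hS₁s : ContMDiff (𝓡 2) 𝓘(ℝ, R3) ∞ S₁ := contMDiff_glue hS.1 hks husy hρR hkeq
  have hG₁d : ∀ z ∈ u.source, ∀ a, fderiv ℝ f' z a =
      mfderiv (𝓡 2) 𝓘(ℝ, R3) G₁ (u z) (mfderiv (𝓡 2) (𝓡 2) u z a) := fun z hz a =>
    fderiv_comp_param (hG₁s.mdifferentiable (by simp) _) (humd z hz)
      (Filter.eventually_of_mem (hnhd z hz) fun w hw => glue_apply u f' G₀ hw) a
  have hn'p : ∀ z ∈ u.source, ∀ v, nLine G₁ (u z) v = ⟪n' z, v⟫ • n' z := fun z hz v => by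
    rw [nLine_of_param (hf'all z hz) (hbij z hz).2 (hG₁d z hz) v]
    simp only [hn', real_inner_smul_left, smul_smul]
    rw [mul_right_comm, hτ1 0 hmem0, one_mul]
  have hout : ∀ x ∉ K, G₁ =ᶠ[𝓝 x] (fun y => (1 : ℝ) • G₀ y) ∧
      S₁ =ᶠ[𝓝 x] (fun y => (1 : ℝ) • S₀ y) := fun x hx => by
    constructor <;> filter_upwards [hKc.isClosed.isOpen_compl.mem_nhds hx] with y hy <;>
      rw [one_smul]
    exacts [glue_outside hfeq hy, glue_outside hkeq hy]
  have hGmd := fun x => hG.1.mdifferentiable (by simp) x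
  have hGI : IsImm3 G₁ := ⟨hG₁s, fun x => by
    by_cases hx : x ∈ u.target
    · have h := injective_of_param (hf'all _ (u.map_target hx)) (hbij _ (u.map_target hx)).2
        (hG₁d _ (u.map_target hx))
      rwa [u.right_inv hx] at h
    · exact injective_of_eventually one_ne_zero (hGmd x) (hout x fun h => hx (hKt h)).1 (hG.2 x)⟩
  have hSI : IsSection G₁ S₁ := ⟨hS₁s, fun x => by
    by_cases hx : x ∈ u.target
    · obtain ⟨z, hz, rfl⟩ : ∃ z ∈ u.source, u z = x :=
        ⟨_, u.map_target hx, u.right_inv hx⟩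
      rw [hn'p z hz, hS₁, glue_apply u k S₀ hz]
      simp only [hk, real_inner_smul_right, real_inner_self_eq_norm_sq, hn'1 z hz]
      simp
    · have hxK : x ∉ K := fun h => hx (hKt h)
      rw [nLine_eq_of_eventually one_ne_zero (hGmd x) (hout x hxK).1, hS₁,
        glue_outside hkeq hxK, hS.2]⟩
  have hcrit₁ : ∀ x ∈ O, IsCrit G₁ V S₁ x ↔ x = p := by
    intro x hxO
    by_cases hx : x ∈ u.target
    · obtain ⟨z, hz, rfl⟩ : ∃ z ∈ u.source, u z = x :=
        ⟨_, u.map_target hx, u.right_inv hx⟩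
      rw [isCrit_param (σ := s') (humd z hz) (hbij z hz) (hS₁s.mdifferentiable (by simp) _) hs
        ((hs's.contDiffAt (hnhd z hz)).differentiableAt (by simp))
        ((hn's.contDiffAt (hnhd z hz)).differentiableAt (by simp))
        (Filter.eventually_of_mem (hnhd z hz) hn'1)
        (Filter.eventually_of_mem (hnhd z hz) fun w hw => glue_apply u k S₀ hw) (hn'p z hz)]
      constructor
      · intro h
        have hz0 : z = 0 := by
          rcases lt_or_ge ‖z‖ δq with hl | hl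
          · exact hs'crit z hl h
          · exact honly' z hz (by rw [← hs'out z hz hl]; exact h)
        rw [hz0, hu0]
      · intro h
        rw [u.injOn hz hmem0 (h.trans hu0.symm)]
        exact hs'0
    · have hxK : x ∉ K := fun h => hx (hKt h)
      rw [isCrit_of_eventually one_ne_zero (hGmd x) (hout x hxK).1
        (hS.1.mdifferentiable (by simp) x) (hout x hxK).2]
      have hne : x ≠ p := fun h => hx (by rw [h, ← hu0]; exact u.map_source hmem0)
      exact ⟨fun h => absurd (honly x hxO h) hne, fun h => absurd h hne⟩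
  -- the normal form on a small ball
  set r := min δ' (δq / 2) with hr
  have hr0 : 0 < r := lt_min hδ' (half_pos hδq)
  set u' := u.restrOpen (ball 0 r) isOpen_ball with hu'
  have hu's : u'.source = ball 0 r := by
    refine subset_antisymm (fun z hz => hz.2) fun z hz => ⟨(hball z).2 ?_, hz⟩
    linarith [mem_ball_zero_iff.1 hz, min_le_left δ' (δq / 2)]
  have hin : ∀ z ∈ u'.source, z ∈ u.source ∧ ‖z‖ < δ' ∧ ‖z‖ ≤ δq / 2 := fun z hz => by
    have h := mem_ball_zero_iff.1 hz.2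
    exact ⟨hz.1, h.trans_le (min_le_left _ _), (h.trans_le (min_le_right _ _)).le⟩
  have hfJ : ∀ z, ‖z‖ < δ' → fderiv ℝ f' z = J.toContinuousLinearMap := fun z hz => by
    have he : f' =ᶠ[𝓝 z] fun w => f 0 + J.toContinuousLinearMap w := by
      filter_upwards [continuous_norm.continuousAt.eventually_lt_const hz] with w hw
      exact hf'J w hw.le
    rw [he.fderiv_eq, (J.toContinuousLinearMap.hasFDerivAt.const_add (f 0)).fderiv]
  have hn'c : ∀ z, ‖z‖ < δ' → n' z = n' 0 := fun z hz => by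
    simp only [hn', hfJ z hz, hfJ 0 (by simpa using hδ')]
  have hGp : G₁ p = f 0 := by
    rw [← hu0, hG₁, glue_apply u f' G₀ hmem0, hf'J 0 (by simpa using hδ'.le), map_zero, add_zero]
  have hgu : ∀ v w, ∀ z ∈ u.source, gPull g u' v w z =
      gs (quadMap B q z) (dQuadMap B q z v) (dQuadMap B q z w) := fun v w z hz => by
    simp only [hgs, gBil_apply, gPull]
    have hsub : ∀ (y : M) (a b : R2), u z = y → g.inner (u z) a b = g.inner y a b := by
      rintro y a b rfl; rfl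
    refine Eq.trans ?_ (hsub _ _ _ (hΦt z hz).2.symm)
    exact congrArg₂ (fun a b => g.inner (u z) a b) ((huv z hz).2.2 v) ((huv z hz).2.2 w)
  let P : FlatPoint g G₁ S₁ p :=
    { u := u'
      R := r
      R_pos := hr0
      source_eq := hu's
      smooth_u := hus.mono fun z hz => hz.1
      smooth_symm := husy.mono fun y hy => hy.1
      bijective := fun z hz => hbij z hz.1
      u_zero := hu0
      metric_zero := fun i j => by
        rw [hgu _ _ 0 hmem0, ← (hmet i j).1]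
        simp [hgs, hc, quadMap_zero, hdQ0]
      metric_deriv := fun i j => (hmet i j).2.congr_of_eventuallyEq
        (Filter.eventually_of_mem (hnhd 0 hmem0) (hgu (eb i) (eb j)))
      J := J
      μ := 1
      μ_pos := one_pos
      map_eq := fun z hz => by
        rw [hGp, one_smul]
        exact (glue_apply u f' G₀ hz.1).trans (hf'J z (hin z hz).2.1.le)
      n := n' 0
      norm_n := hn'1 0 hmem0
      orth_n := fun v => by
        simp only [hn', hfJ 0 (by simpa using hδ'), real_inner_smul_left]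
        exact mul_eq_zero_of_right _ (inner_crn J.toContinuousLinearMap v)
      nLine_eq := fun z hz v => (hn'p z hz.1 v).trans (by rw [hn'c z (hin z hz).2.1])
      a := a
      b := b
      c₀ := s 0
      a_ne := hane
      b_ne := hbne
      sec_eq := fun z hz => by
        refine (glue_apply u k S₀ hz.1).trans ?_
        simp only [hk, hs', blendTo_inner hδq _ _ (hin z hz).2.2, hn'c z (hin z hz).2.1] }
  exact ⟨G₁, S₁, K, P, hKc, hKt.trans htO, fun y hy => htO hy.1, hGI, hSI,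
    fun x hx => ⟨glue_outside hfeq hx, glue_outside hkeq hx⟩, hcrit₁⟩

end Vale.Agent.P205.Full.Start
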