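import Vale.Agent.P205.Full.Start.FlatPoint
import Vale.Agent.P205.Full.Start.NormalSmooth
import Vale.Agent.P205.Full.Open.Compare

/-!
# P205 full, START A2: tools for the flattening

Normal of a linear map, chain rule through a parametrisation, locality and homogeneity of the
notions used, and the transfer of a normal form.
-/

open scoped Manifold ContDiff RealInnerProductSpace Topology
open Bundle Filter Set Metric

noncomputable section

namespace Vale.Agent.P205.Full.Start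

/-- The unit normal of a linear map of the plane in space. -/
def crn (L : R2 →L[ℝ] R3) : R3 :=
  ‖Sect.cr (L (eb 0)) (L (eb 1))‖⁻¹ • Sect.cr (L (eb 0)) (L (eb 1))

lemma cr_ne_of_injective {L : R2 →L[ℝ] R3} (hL : Function.Injective L) :
    Sect.cr (L (eb 0)) (L (eb 1)) ≠ 0 := by
  refine Sect.cr_ne_zero (LinearIndependent.pair_iff.2 fun s t hst => ?_)
  have h : L (s • eb 0 + t • eb 1) = L 0 := by simpa using hst
  have h' := hL h
  exact ⟨by simpa [eb] using congrArg (fun v : R2 => v 0) h',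
    by simpa [eb] using congrArg (fun v : R2 => v 1) h'⟩

lemma norm_crn {L : R2 →L[ℝ] R3} (hL : Function.Injective L) : ‖crn L‖ = 1 :=
  norm_smul_inv_norm (𝕜 := ℝ) (cr_ne_of_injective hL)

lemma inner_crn (L : R2 →L[ℝ] R3) (v : R2) : ⟪crn L, L v⟫ = 0 := by
  rw [sum_eb v, map_add, map_smul, map_smul, inner_add_right, real_inner_smul_right,
    real_inner_smul_right, crn, real_inner_smul_left, real_inner_smul_left, Sect.inner_cr_left,
    Sect.inner_cr_right]
  ring

lemma proj_crn {L : R2 →L[ℝ] R3} (hL : Function.Injective L) (v : R3) :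
    (LinearMap.range L.toLinearMap : Submodule ℝ R3)ᗮ.starProjection v =
      ⟪crn L, v⟫ • crn L := by
  have h1 := norm_crn hL
  have hne : crn L ≠ 0 := fun h => by simp [h] at h1
  have hle : (ℝ ∙ crn L) ≤ (LinearMap.range L.toLinearMap : Submodule ℝ R3)ᗮ := by
    rw [Submodule.span_singleton_le_iff_mem, Submodule.mem_orthogonal]
    rintro w ⟨a, rfl⟩
    rw [real_inner_comm]
    exact inner_crn L a
  have heq : (LinearMap.range L.toLinearMap : Submodule ℝ R3)ᗮ = ℝ ∙ crn L := by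
    refine (Submodule.eq_of_le_of_finrank_eq hle ?_).symm
    have h3 := Submodule.finrank_add_finrank_orthogonal
      (LinearMap.range L.toLinearMap : Submodule ℝ R3)
    rw [LinearMap.finrank_range_of_inj hL, finrank_euclideanSpace_fin,
      finrank_euclideanSpace_fin] at h3
    rw [finrank_span_singleton hne]
    omega
  refine Submodule.eq_starProjection_of_mem_of_inner_eq_zero ?_ ?_
  · rw [heq]
    exact Submodule.smul_mem _ _ (Submodule.mem_span_singleton_self _)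
  · intro w hw
    rw [heq] at hw
    obtain ⟨a, rfl⟩ := Submodule.mem_span_singleton.1 hw
    rw [real_inner_smul_right, inner_sub_left, real_inner_smul_left, real_inner_self_eq_norm_sq,
      h1, real_inner_comm]
    ring

lemma contDiffOn_crn {D : R2 → R2 →L[ℝ] R3} {s : Set R2} (hD : ContDiffOn ℝ ∞ D s)
    (hinj : ∀ z ∈ s, Function.Injective (D z)) : ContDiffOn ℝ ∞ (fun z => crn (D z)) s := by
  have hd : ∀ i j, ContDiffOn ℝ ∞ (fun z => D z (eb i) j) s := fun i j =>
    (contDiff_piLp_apply (p := 2)).comp_contDiffOn (hD.clm_apply contDiffOn_const)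
  have hn : ContDiffOn ℝ ∞ (fun z => Sect.cr (D z (eb 0)) (D z (eb 1))) s := by
    rw [contDiffOn_piLp]
    intro j
    fin_cases j <;> simp only [Sect.cr, cross_apply] <;>
      exact ((hd _ _).mul (hd _ _)).sub ((hd _ _).mul (hd _ _))
  exact ((hn.norm ℝ fun z hz => cr_ne_of_injective (hinj z hz)).inv
    fun z hz => norm_ne_zero_iff.2 (cr_ne_of_injective (hinj z hz))).smul hn

/-- Two smooth functions agreeing outside a ball have the same differential there. -/
lemma fderiv_eq_outer {E : Type} [NormedAddCommGroup E] [NormedSpace ℝ E] {R δ : ℝ} (hδ : 0 < δ)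
    {f g : R2 → E} (hf : ContDiffOn ℝ ∞ f (ball 0 R)) (hg : ContDiffOn ℝ ∞ g (ball 0 R))
    (h : ∀ z, δ ≤ ‖z‖ → f z = g z) {z : R2} (hzR : ‖z‖ < R) (hz : δ ≤ ‖z‖) :
    fderiv ℝ f z = fderiv ℝ g z := by
  have hzb : ball (0 : R2) R ∈ 𝓝 z := isOpen_ball.mem_nhds (by simpa using hzR)
  have hcf := (hf.continuousOn_fderiv_of_isOpen isOpen_ball (by simp)).continuousAt hzb
  have hcg := (hg.continuousOn_fderiv_of_isOpen isOpen_ball (by simp)).continuousAt hzb
  have ht : Tendsto (fun t : ℝ => t • z) (𝓝[>] 1) (𝓝 z) := by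
    have h1 : Tendsto (fun t : ℝ => t • z) (𝓝 1) (𝓝 ((1 : ℝ) • z)) :=
      (continuous_id.smul continuous_const).continuousAt
    rw [one_smul] at h1
    exact h1.mono_left nhdsWithin_le_nhds
  have he : (fun t : ℝ => fderiv ℝ f (t • z)) =ᶠ[𝓝[>] 1] fun t => fderiv ℝ g (t • z) := by
    filter_upwards [self_mem_nhdsWithin] with t (ht1 : 1 < t)
    have hlt : δ < ‖t • z‖ := by
      rw [norm_smul, Real.norm_eq_abs, abs_of_pos (by linarith : (0 : ℝ) < t)]
      nlinarith
    have : f =ᶠ[𝓝 (t • z)] g := by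
      filter_upwards [continuous_norm.continuousAt.eventually_const_lt hlt] with w hw
      exact h w hw.le
    exact this.fderiv_eq
  exact tendsto_nhds_unique (hcf.tendsto.comp ht) ((hcg.tendsto.comp ht).congr' he.symm)

variable {M : Type} [TopologicalSpace M] [ChartedSpace R2 M] [IsManifold (𝓡 2) ∞ M]
variable {N : ℕ} {V : Frame M N} {G G₁ S S₁ : M → R3} {g : Full.Metric M}

omit [IsManifold (𝓡 2) ∞ M] in
/-- The chain rule through a parametrisation. -/
lemma fderiv_comp_param {E : Type} [NormedAddCommGroup E] [NormedSpace ℝ E] {h : M → E}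
    {u : R2 → M} {z : R2} {k : R2 → E} (hh : MDifferentiableAt (𝓡 2) 𝓘(ℝ, E) h (u z))
    (hu : MDifferentiableAt (𝓡 2) (𝓡 2) u z) (he : ∀ᶠ w in 𝓝 z, h (u w) = k w) (a : R2) :
    fderiv ℝ k z a = mfderiv (𝓡 2) 𝓘(ℝ, E) h (u z) (mfderiv (𝓡 2) (𝓡 2) u z a) := by
  have h1 := mfderiv_comp z hh hu
  rw [mfderiv_eq_fderiv] at h1
  rw [← Filter.EventuallyEq.fderiv_eq (f₁ := h ∘ u) he]
  exact DFunLike.congr_fun h1 a

omit [IsManifold (𝓡 2) ∞ M] in
/-- The normal line, given a parametrisation of the tangent plane. -/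
lemma nLine_of_param {x : M} {L : R2 →L[ℝ] R3} (hL : Function.Injective L)
    {T : R2 → TangentSpace (𝓡 2) x} (hT : Function.Surjective T)
    (h : ∀ a, L a = mfderiv (𝓡 2) 𝓘(ℝ, R3) G x (T a)) (v : R3) :
    nLine G x v = ⟪crn L, v⟫ • crn L := by
  have e : (LinearMap.range (mfderiv (𝓡 2) 𝓘(ℝ, R3) G x).toLinearMap : Submodule ℝ R3) =
      LinearMap.range L.toLinearMap := by
    ext w
    constructor
    · rintro ⟨t, rfl⟩
      obtain ⟨a, rfl⟩ := hT t
      exact ⟨a, h a⟩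
    · rintro ⟨a, rfl⟩
      exact ⟨T a, (h a).symm⟩
  rw [nLine]
  simp only [e]
  exact proj_crn hL v

omit [IsManifold (𝓡 2) ∞ M] in
/-- Injectivity, given a parametrisation of the tangent plane. -/
lemma injective_of_param {x : M} {L : R2 →L[ℝ] R3} (hL : Function.Injective L)
    {T : R2 → TangentSpace (𝓡 2) x} (hT : Function.Surjective T)
    (h : ∀ a, L a = mfderiv (𝓡 2) 𝓘(ℝ, R3) G x (T a)) :
    Function.Injective (mfderiv (𝓡 2) 𝓘(ℝ, R3) G x) := by
  intro s t hst
  obtain ⟨a, rfl⟩ := hT s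
  obtain ⟨b, rfl⟩ := hT t
  exact congrArg T (hL (by rw [h, h, hst]))

omit [IsManifold (𝓡 2) ∞ M] in
/-- A unit field spanning the normal line is determined up to sign. -/
lemma normal_unique {x : M} {n m : R3} (hm : ‖m‖ = 1)
    (h1 : ∀ v, nLine G x v = ⟪n, v⟫ • n) (h2 : ∀ v, nLine G x v = ⟪m, v⟫ • m) :
    m = ⟪n, m⟫ • n := by
  rw [← h1, h2, real_inner_self_eq_norm_sq, hm, one_pow, one_smul]

/-- The differential of a section written in a parametrisation. -/
lemma isCrit_param {u : R2 → M} {z : R2} (hu : MDifferentiableAt (𝓡 2) (𝓡 2) u z)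
    (hb : Function.Bijective (mfderiv (𝓡 2) (𝓡 2) u z))
    (hS : MDifferentiableAt (𝓡 2) 𝓘(ℝ, R3) S (u z)) (hs : FrameSpans V)
    {σ : R2 → ℝ} {n : R2 → R3} (hσ : DifferentiableAt ℝ σ z) (hn : DifferentiableAt ℝ n z)
    (hn1 : ∀ᶠ w in 𝓝 z, ‖n w‖ = 1) (hSu : ∀ᶠ w in 𝓝 z, S (u w) = σ w • n w)
    (hproj : ∀ v, nLine G (u z) v = ⟪n z, v⟫ • n z) :
    IsCrit G V S (u z) ↔ fderiv ℝ σ z = 0 := by
  have hd : ∀ a, fderiv ℝ (fun w => σ w • n w) z a =
      mfderiv (𝓡 2) 𝓘(ℝ, R3) S (u z) (mfderiv (𝓡 2) (𝓡 2) u z a) :=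
    fun a => fderiv_comp_param hS hu hSu a
  have h1 : ∀ a, ⟪n z, fderiv ℝ n z a⟫ = 0 := by
    intro a
    have hc : (fun w => ⟪n w, n w⟫) =ᶠ[𝓝 z] fun _ => (1 : ℝ) := by
      filter_upwards [hn1] with w hw
      rw [real_inner_self_eq_norm_sq, hw, one_pow]
    have := DFunLike.congr_fun (hc.fderiv_eq (𝕜 := ℝ)) a
    rw [fderiv_inner_apply ℝ hn hn, fderiv_const_apply, real_inner_comm (n z)] at this
    simp at this
    linarith
  have hnz : ‖n z‖ = 1 := hn1.self_of_nhds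
  have hne : n z ≠ 0 := fun h => by simp [h] at hnz
  have key : ∀ a, nLine G (u z) (fderiv ℝ (fun w => σ w • n w) z a) = fderiv ℝ σ z a • n z := by
    intro a
    rw [hproj, (hσ.hasFDerivAt.fun_smul hn.hasFDerivAt).fderiv]
    simp [inner_add_right, real_inner_smul_right, h1 a, hnz]
  have hw0 : ∀ i, ∃ a : R2, mfderiv (𝓡 2) (𝓡 2) u z a = V i (u z) := fun i => hb.2 _
  choose w hw using hw0
  have hdS : ∀ i, dSec G V S i (u z) = fderiv ℝ σ z (w i) • n z := by
    intro i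
    rw [← key, hd, hw]
    rfl
  constructor
  · intro h
    have hwi : ∀ i, fderiv ℝ σ z (w i) = 0 := fun i => by
      have := h i
      rw [hdS] at this
      simpa [hne] using this
    set T : R2 →L[ℝ] TangentSpace (𝓡 2) (u z) := mfderiv (𝓡 2) (𝓡 2) u z
    refine ContinuousLinearMap.ext fun a => ?_
    obtain ⟨c, hc⟩ := (Submodule.mem_span_range_iff_exists_fun ℝ).1
      (show T a ∈ Submodule.span ℝ (Set.range fun i => V i (u z)) by rw [hs]; trivial)
    have ha : a = ∑ i, c i • w i := by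
      apply hb.1
      show T a = T _
      rw [← hc, map_sum]
      exact Finset.sum_congr rfl fun i _ => by
        rw [map_smul]; exact congrArg (c i • ·) (hw i).symm
    simp [ha, map_sum, hwi]
  · intro h i
    rw [hdS, h]
    simp

omit [IsManifold (𝓡 2) ∞ M] in
lemma mfderiv_eq_smul {f f₁ : M → R3} {ν : ℝ} {x : M}
    (hf : MDifferentiableAt (𝓡 2) 𝓘(ℝ, R3) f₁ x) (he : f =ᶠ[𝓝 x] fun y => ν • f₁ y)
    (v : TangentSpace (𝓡 2) x) :
    (mfderiv (𝓡 2) 𝓘(ℝ, R3) f x v : R3) = ν • (mfderiv (𝓡 2) 𝓘(ℝ, R3) f₁ x v : R3) := by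
  refine (DFunLike.congr_fun he.mfderiv_eq v).trans ?_
  have h := DFunLike.congr_fun (const_smul_mfderiv hf ν) v
  exact h

omit [IsManifold (𝓡 2) ∞ M] in
lemma nLine_eq_of_eventually {ν : ℝ} (hν : ν ≠ 0) {x : M}
    (hG : MDifferentiableAt (𝓡 2) 𝓘(ℝ, R3) G₁ x) (he : G =ᶠ[𝓝 x] fun y => ν • G₁ y) :
    nLine G x = nLine G₁ x := by
  have e : (LinearMap.range (mfderiv (𝓡 2) 𝓘(ℝ, R3) G x).toLinearMap : Submodule ℝ R3) =
      LinearMap.range (mfderiv (𝓡 2) 𝓘(ℝ, R3) G₁ x).toLinearMap := by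
    ext w
    constructor
    · rintro ⟨t, rfl⟩
      exact ⟨ν • t, by
        refine Eq.trans ?_ (mfderiv_eq_smul hG he t).symm
        exact map_smul (mfderiv (𝓡 2) 𝓘(ℝ, R3) G₁ x) ν t⟩
    · rintro ⟨t, rfl⟩
      exact ⟨ν⁻¹ • t, by
        refine Eq.trans (mfderiv_eq_smul hG he (ν⁻¹ • t)) ?_
        rw [map_smul]
        exact smul_inv_smul₀ hν _⟩
  simp only [nLine, e]
  rfl

omit [IsManifold (𝓡 2) ∞ M] in
lemma injective_of_eventually {ν : ℝ} (hν : ν ≠ 0) {x : M}
    (hG : MDifferentiableAt (𝓡 2) 𝓘(ℝ, R3) G₁ x) (he : G =ᶠ[𝓝 x] fun y => ν • G₁ y)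
    (hinj : Function.Injective (mfderiv (𝓡 2) 𝓘(ℝ, R3) G₁ x)) :
    Function.Injective (mfderiv (𝓡 2) 𝓘(ℝ, R3) G x) := fun v w h => by
  refine hinj (smul_right_injective R3 hν ?_)
  exact ((mfderiv_eq_smul hG he v).symm.trans h).trans (mfderiv_eq_smul hG he w)

lemma isCrit_of_eventually {ν : ℝ} (hν : ν ≠ 0) {x : M}
    (hG : MDifferentiableAt (𝓡 2) 𝓘(ℝ, R3) G₁ x) (heG : G =ᶠ[𝓝 x] fun y => ν • G₁ y)
    (hS : MDifferentiableAt (𝓡 2) 𝓘(ℝ, R3) S₁ x) (heS : S =ᶠ[𝓝 x] fun y => ν • S₁ y) :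
    IsCrit G V S x ↔ IsCrit G₁ V S₁ x := by
  have h : ∀ i, dSec G V S i x = ν • dSec G₁ V S₁ i x := by
    intro i
    simp only [dSec, nLine_eq_of_eventually hν hG heG]
    rw [← map_smul]
    exact congrArg _ (mfderiv_eq_smul hS heS (V i x))
  simp only [IsCrit, h, smul_eq_zero, hν, false_or]

/-- A normal form is kept by a scaling and by changes away from its domain. -/
def FlatPoint.transfer {p : M} (P : FlatPoint g G₁ S₁ p) {O : Set M} (hO : IsOpen O)
    (htO : P.u.target ⊆ O) (hG₁ : ContMDiff (𝓡 2) 𝓘(ℝ, R3) ∞ G₁) {ν : ℝ} (hν : 0 < ν)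
    (hG : ∀ y ∈ O, G y = ν • G₁ y) (hS : ∀ y ∈ O, S y = ν • S₁ y) : FlatPoint g G S p where
  u := P.u
  R := P.R
  R_pos := P.R_pos
  source_eq := P.source_eq
  smooth_u := P.smooth_u
  smooth_symm := P.smooth_symm
  bijective := P.bijective
  u_zero := P.u_zero
  metric_zero := P.metric_zero
  metric_deriv := P.metric_deriv
  J := P.J
  μ := ν * P.μ
  μ_pos := mul_pos hν P.μ_pos
  map_eq z hz := by
    have h0 := P.u.map_source (show (0 : R2) ∈ P.u.source by
      rw [P.source_eq]; exact mem_ball_self P.R_pos)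
    have hp : p ∈ O := by rw [P.u_zero] at h0; exact htO h0
    rw [hG _ (htO (P.u.map_source hz)), hG p hp, P.map_eq z hz, smul_add, smul_smul]
  n := P.n
  norm_n := P.norm_n
  orth_n := P.orth_n
  nLine_eq z hz v := by
    rw [nLine_eq_of_eventually hν.ne' (hG₁.mdifferentiable (by simp) _)
      (Filter.eventually_of_mem (hO.mem_nhds (htO (P.u.map_source hz))) hG)]
    exact P.nLine_eq z hz v
  a := ν * P.a
  b := ν * P.b
  c₀ := ν * P.c₀
  a_ne := mul_ne_zero hν.ne' P.a_ne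
  b_ne := mul_ne_zero hν.ne' P.b_ne
  sec_eq z hz := by
    rw [hS _ (htO (P.u.map_source hz)), P.sec_eq z hz, smul_smul]
    congr 1
    simp only [quad]
    ring

end Vale.Agent.P205.Full.Start
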