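import Vale.Agent.P205.Full.Start.Normal

/-!
# P205 full, START A1: the Hessian of a section in a chart and the frozen frame definitions
-/

open scoped Manifold ContDiff RealInnerProductSpace Topology
open Bundle Filter Set

namespace Vale.Agent.P205.Full.Start.Sect

/-- Values of a linear form on the basis. -/
noncomputable def gL : (R2 →L[ℝ] ℝ) →L[ℝ] R2 :=
  ((EuclideanSpace.equiv (Fin 2) ℝ).symm.toContinuousLinearMap).comp
    (ContinuousLinearMap.pi fun i => ContinuousLinearMap.apply ℝ ℝ (e2 i))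

/-- Gradient of a function of two variables. -/
noncomputable def gr (f : R2 → ℝ) (z : R2) : R2 := gL (fderiv ℝ f z)

theorem gL_apply (l : R2 →L[ℝ] ℝ) (i : Fin 2) : gL l i = l (e2 i) := rfl

theorem e2_expand (u : R2) : u = u 0 • e2 0 + u 1 • e2 1 := by
  ext i
  fin_cases i <;> simp [e2]

theorem gL_injective : Function.Injective gL := by
  intro l l' h
  refine ContinuousLinearMap.ext fun u => ?_
  have h0 := congrArg (fun v : R2 => v 0) h
  have h1 := congrArg (fun v : R2 => v 1) h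
  simp only [gL_apply] at h0 h1
  rw [e2_expand u, map_add, map_add, map_smul, map_smul, map_smul, map_smul, h0, h1]

theorem gr_eq_zero {f : R2 → ℝ} {z : R2} : gr f z = 0 ↔ fderiv ℝ f z = 0 := by
  rw [gr, ← map_zero gL, gL_injective.eq_iff]

theorem injective_of_det_ne_zero {A : R2 →L[ℝ] R2} (h : A.det ≠ 0) : Function.Injective A := by
  have h' : LinearMap.det (A : R2 →ₗ[ℝ] R2) ≠ 0 := h
  exact LinearMap.ker_eq_bot.1 (by_contra fun hne => h'
    (LinearMap.det_eq_zero_iff_ker_ne_bot.2 hne))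

variable {M : Type} [TopologicalSpace M] [ChartedSpace R2 M] [IsManifold (𝓡 2) ∞ M]
variable {G S : M → R3} {N : ℕ} {V : Frame M N}

/-- Derivatives of smooth functions along a smooth frame are continuous and smooth. -/
theorem contMDiff_D {E : Type} [NormedAddCommGroup E] [NormedSpace ℝ E] (hV : FrameSmooth V)
    {f : M → E} (hf : ContMDiff (𝓡 2) 𝓘(ℝ, E) ∞ f) (i : Fin N) :
    ContMDiff (𝓡 2) 𝓘(ℝ, E) ∞ (D V i f) :=
  (contMDiff_snd_tangentBundle_modelSpace E 𝓘(ℝ, E)).comp
    ((hf.contMDiff_tangentMap (by simp)).comp (hV i))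

/-- `dSec` in a chart. -/
theorem dSec_chart (hG : IsImm3 G) (hS : IsSection G S) (c : M) {z : R2}
    (hz : z ∈ (chartAt R2 c).target) (i : Fin N) {w : R2}
    (hw : mfderiv (𝓡 2) (𝓡 2) (chartAt R2 c).symm z w = V i ((chartAt R2 c).symm z)) :
    dSec G V S i ((chartAt R2 c).symm z) = fderiv ℝ (psi G S c) z w • nu G c z := by
  rw [← nLine_fderiv hG hS c hz, fderiv_inChart hS.1 c hz, hw]
  rfl

/-- Frame vectors in the chart: existence. -/
theorem exists_coord (c : M) {z : R2} (hz : z ∈ (chartAt R2 c).target) (i : Fin N) :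
    ∃ w : R2, mfderiv (𝓡 2) (𝓡 2) (chartAt R2 c).symm z w = V i ((chartAt R2 c).symm z) :=
  (bijective_symm c hz).2 _

theorem coord_span (hs : FrameSpans V) (c : M) {z : R2} (hz : z ∈ (chartAt R2 c).target)
    {W : Fin N → R2}
    (hW : ∀ i, mfderiv (𝓡 2) (𝓡 2) (chartAt R2 c).symm z (W i) = V i ((chartAt R2 c).symm z))
    {l : R2 →L[ℝ] ℝ} (hl : ∀ i, l (W i) = 0) : l = 0 := by
  refine ContinuousLinearMap.ext fun u => ?_
  set dφ := mfderiv (𝓡 2) (𝓡 2) (chartAt R2 c) ((chartAt R2 c).symm z)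
  set L : TangentSpace (𝓡 2) ((chartAt R2 c).symm z) →ₗ[ℝ] ℝ :=
    l.toLinearMap.comp (show TangentSpace (𝓡 2) ((chartAt R2 c).symm z) →ₗ[ℝ] R2 from
      dφ.toLinearMap)
  have hk : Submodule.span ℝ (Set.range fun i => V i ((chartAt R2 c).symm z)) ≤
      LinearMap.ker L := by
    rw [Submodule.span_le]
    rintro v ⟨i, rfl⟩
    show l (dφ (V i ((chartAt R2 c).symm z))) = 0
    rw [← hW i, mfderiv_chart_symm c hz]
    exact hl i
  have hu := hk (by rw [hs]; exact Submodule.mem_top :
    mfderiv (𝓡 2) (𝓡 2) (chartAt R2 c).symm z u ∈ _)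
  have hu' : l (dφ (mfderiv (𝓡 2) (𝓡 2) (chartAt R2 c).symm z u)) = 0 := hu
  rw [mfderiv_chart_symm c hz] at hu'
  exact hu'

theorem isCrit_iff (hG : IsImm3 G) (hS : IsSection G S) (hs : FrameSpans V) (c : M) {z : R2}
    (hz : z ∈ (chartAt R2 c).target) :
    IsCrit G V S ((chartAt R2 c).symm z) ↔ gr (psi G S c) z = 0 := by
  choose W hW using fun i => exists_coord (V := V) c hz i
  have hne : nu G c z ≠ 0 := fun h => by simpa [h] using norm_nu hG c hz
  rw [gr_eq_zero]
  constructor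
  · intro h
    refine coord_span hs c hz hW fun i => ?_
    have := h i
    rw [dSec_chart hG hS c hz i (hW i)] at this
    simpa [hne] using this
  · intro h i
    rw [dSec_chart hG hS c hz i (hW i), h]
    simp

variable [T2Space M]

/-- Smooth coordinates of the frame vectors near `z`, given cut-off coordinate functions. -/
theorem exists_smooth_coord (hV : FrameSmooth V) (c : M) {f : SmoothBumpFunction (𝓡 2) c}
    {W : Set R2} (hWo : IsOpen W) (hWt : W ⊆ (chartAt R2 c).target)
    (hW1 : ∀ z ∈ W, f ((chartAt R2 c).symm z) = 1) :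
    ∃ A : Fin N → R2 → R2, ∀ i, ContDiffOn ℝ ∞ (A i) W ∧
      ∀ z ∈ W, mfderiv (𝓡 2) (𝓡 2) (chartAt R2 c).symm z (A i z) = V i ((chartAt R2 c).symm z) := by
  set h : M → R2 := fun y => f y • chartAt R2 c y
  have hh : ContMDiff (𝓡 2) 𝓘(ℝ, R2) ∞ h := f.contMDiff_smul contMDiffOn_chart
  refine ⟨fun i => inChart (D V i h) c, fun i => ⟨?_, fun z hz => ?_⟩⟩
  · exact (contDiffOn_inChart (contMDiff_D hV hh i) c).mono hWt
  · obtain ⟨w, hw⟩ := exists_coord (V := V) c (hWt hz) i
    have he : inChart h c =ᶠ[𝓝 z] id := by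
      filter_upwards [hWo.mem_nhds hz] with u hu
      show f _ • chartAt R2 c ((chartAt R2 c).symm u) = u
      rw [hW1 u hu, one_smul, (chartAt R2 c).right_inv (hWt hu)]
    have h1 : inChart (D V i h) c z = w := by
      show mfderiv (𝓡 2) 𝓘(ℝ, R2) h ((chartAt R2 c).symm z) (V i _) = w
      rw [← hw, ← fderiv_inChart hh c (hWt hz), he.fderiv_eq, fderiv_id]
      rfl
    show mfderiv (𝓡 2) (𝓡 2) (chartAt R2 c).symm z (inChart (D V i h) c z) = _
    exact (congrArg (fun v => mfderiv (𝓡 2) (𝓡 2) (chartAt R2 c).symm z v) h1).trans hw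

/-- A nondegenerate Hessian in one chart gives nondegeneracy in the frame sense. -/
theorem isNondegCrit_of_chart (hG : IsImm3 G) (hS : IsSection G S) (hV : FrameSmooth V)
    (hs : FrameSpans V) (c : M) {f : SmoothBumpFunction (𝓡 2) c}
    {W : Set R2} (hWo : IsOpen W) (hWt : W ⊆ (chartAt R2 c).target)
    (hW1 : ∀ z ∈ W, f ((chartAt R2 c).symm z) = 1) {z : R2} (hz : z ∈ W)
    (h0 : gr (psi G S c) z = 0) (hd : (fderiv ℝ (gr (psi G S c)) z).det ≠ 0) :
    IsNondegCrit G V S ((chartAt R2 c).symm z) := by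
  obtain ⟨A, hA⟩ := exists_smooth_coord hV c hWo hWt hW1
  have hzt := hWt hz
  have htn : (chartAt R2 c).target ∈ 𝓝 z := (chartAt R2 c).open_target.mem_nhds hzt
  have hne : nu G c z ≠ 0 := fun h => by simpa [h] using norm_nu hG c hzt
  have hp0 : fderiv ℝ (psi G S c) z = 0 := gr_eq_zero.1 h0
  set Hs := fderiv ℝ (fderiv ℝ (psi G S c)) z
  have hpd : HasFDerivAt (fderiv ℝ (psi G S c)) Hs z :=
    ((((contDiffOn_psi hG hS.1 c).fderiv_of_isOpen (chartAt R2 c).open_target (m := ∞)
      (by simp)).contDiffAt htn).differentiableAt (by simp)).hasFDerivAt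
  have hgr : fderiv ℝ (gr (psi G S c)) z = gL.comp Hs := (gL.hasFDerivAt.comp z hpd).fderiv
  refine ⟨(isCrit_iff hG hS hs c hzt).2 h0, fun a ha => ?_⟩
  have key : ∀ i k, nLine G ((chartAt R2 c).symm z)
      (D V i (dSec G V S k) ((chartAt R2 c).symm z)) =
        Hs (A i z) (A k z) • nu G c z := by
    intro i k
    have hAk : HasFDerivAt (A k) (fderiv ℝ (A k) z) z :=
      ((((hA k).1).contDiffAt (hWo.mem_nhds hz)).differentiableAt (by simp)).hasFDerivAt
    have hnu : HasFDerivAt (nu G c) (fderiv ℝ (nu G c) z) z :=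
      (((contDiffOn_nu hG c).contDiffAt htn).differentiableAt (by simp)).hasFDerivAt
    have hq := (hpd.clm_apply hAk).smul hnu
    set P : R2 → R3 := fun u => fderiv ℝ (psi G S c) u (A k u) • nu G c u
    have hx : (chartAt R2 c).symm z ∈ (chartAt R2 c).source := (chartAt R2 c).map_target hzt
    have hnh : dSec G V S k =ᶠ[𝓝 ((chartAt R2 c).symm z)] (P ∘ chartAt R2 c) := by
      have h1 : ∀ᶠ y in 𝓝 ((chartAt R2 c).symm z), chartAt R2 c y ∈ W := by
        refine ((chartAt R2 c).continuousAt hx).preimage_mem_nhds ?_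
        rw [(chartAt R2 c).right_inv hzt]
        exact hWo.mem_nhds hz
      filter_upwards [h1, (chartAt R2 c).open_source.mem_nhds hx] with y hy hys
      have := dSec_chart hG hS c (hWt hy) k ((hA k).2 _ hy)
      rwa [(chartAt R2 c).left_inv hys] at this
    have hP : DifferentiableAt ℝ P (chartAt R2 c ((chartAt R2 c).symm z)) := by
      rw [(chartAt R2 c).right_inv hzt]
      exact hq.differentiableAt
    have hD : D V i (dSec G V S k) ((chartAt R2 c).symm z) = fderiv ℝ P z (A i z) := by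
      unfold D
      rw [hnh.mfderiv_eq, mfderiv_comp _ hP.mdifferentiableAt
        (mdifferentiableAt_atlas (chart_mem_atlas R2 c) hx), mfderiv_eq_fderiv,
        ← (hA i).2 z hz]
      show fderiv ℝ P (chartAt R2 c ((chartAt R2 c).symm z))
        (mfderiv (𝓡 2) (𝓡 2) (chartAt R2 c) ((chartAt R2 c).symm z)
          (mfderiv (𝓡 2) (𝓡 2) (chartAt R2 c).symm z (A i z))) = _
      rw [mfderiv_chart_symm c hzt, (chartAt R2 c).right_inv hzt]
    rw [hD, (show fderiv ℝ P z = _ from hq.fderiv), nLine_chart hG c hzt]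
    simp [hp0, real_inner_smul_right, norm_nu hG c hzt]
  set w : R2 := ∑ i, a i • A i z
  have hw : Hs w = 0 := by
    refine coord_span hs c hzt (fun i => (hA i).2 z hz) fun k => ?_
    have := ha k
    simp only [key, smul_smul] at this
    rw [← Finset.sum_smul, smul_eq_zero] at this
    simpa [w, map_sum, map_smul] using this.resolve_right hne
  have hw0 : w = 0 := by
    apply injective_of_det_ne_zero hd
    rw [hgr, map_zero, ContinuousLinearMap.comp_apply, hw, map_zero]
  set T : R2 →L[ℝ] TangentSpace (𝓡 2) ((chartAt R2 c).symm z) :=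
    mfderiv (𝓡 2) (𝓡 2) (chartAt R2 c).symm z
  calc ∑ i, a i • V i ((chartAt R2 c).symm z) = ∑ i, a i • T (A i z) :=
        Finset.sum_congr rfl fun i _ => congrArg (a i • ·) ((hA i).2 z hz).symm
    _ = T w := by simp only [w, map_sum, map_smul]
    _ = 0 := by rw [hw0, map_zero]

end Vale.Agent.P205.Full.Start.Sect
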