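import Vale.Agent.P205.Full.Stmts

/-!
# Module START: shared definitions (frozen interface, helper55)

Odd functions are sections of the normal line of a fixed immersion `G : M → ℝ³`. Only
orientation-free (even) expressions are ever formed.
-/

open scoped Manifold ContDiff RealInnerProductSpace
open Bundle

namespace Vale.Agent.P205.Full.Start

section
variable {M : Type} [TopologicalSpace M] [ChartedSpace R2 M] [IsManifold (𝓡 2) ∞ M]
variable {N : ℕ}

/-- Smooth immersion in `ℝ³`. -/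
def IsImm3 (G : M → R3) : Prop :=
  ContMDiff (𝓡 2) 𝓘(ℝ, R3) ∞ G ∧ ∀ x, Function.Injective (mfderiv (𝓡 2) 𝓘(ℝ, R3) G x)

/-- Projection on the normal line. -/
noncomputable def nLine (G : M → R3) (x : M) : R3 →L[ℝ] R3 :=
  ((LinearMap.range (mfderiv (𝓡 2) 𝓘(ℝ, R3) G x).toLinearMap)ᗮ : Submodule ℝ R3).starProjection

/-- An odd function: a smooth section of the normal line. -/
def IsSection (G : M → R3) (S : M → R3) : Prop :=
  ContMDiff (𝓡 2) 𝓘(ℝ, R3) ∞ S ∧ ∀ x, nLine G x (S x) = S x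

/-- Differential of a section, in the normal line (this is `dψ • N`). -/
noncomputable def dSec (G : M → R3) (V : Frame M N) (S : M → R3) (i : Fin N) : M → R3 :=
  fun x => nLine G x (D V i S x)

/-- `dψ ⊗ dψ`. -/
noncomputable def dSecSq (G : M → R3) (V : Frame M N) (S : M → R3) (i k : Fin N) : M → ℝ :=
  fun x => ⟪dSec G V S i x, dSec G V S k x⟫

/-- `x` is a critical point of the section. -/
def IsCrit (G : M → R3) (V : Frame M N) (S : M → R3) (x : M) : Prop :=
  ∀ i, dSec G V S i x = 0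

/-- Nondegenerate critical point (`V` spanning): no nonzero combination `∑ c_i V_i` kills
the Hessian. -/
def IsNondegCrit (G : M → R3) (V : Frame M N) (S : M → R3) (x : M) : Prop :=
  IsCrit G V S x ∧ ∀ c : Fin N → ℝ,
    (∀ k, ∑ i, c i • nLine G x (D V i (dSec G V S k) x) = 0) → ∑ i, c i • V i x = 0

/-- Normal data along `F : M → ℝ⁴`: an even unit normal `n1` and the odd normal, as a map `O`
from the normal line of `G` isometrically to the normal line orthogonal to `n1`. -/
structure NormalData (G : M → R3) (F : M → R4) where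
  n1 : M → R4
  O : M → (R3 →L[ℝ] R4)
  smooth_n1 : ContMDiff (𝓡 2) 𝓘(ℝ, R4) ∞ n1
  smooth_O : ContMDiff (𝓡 2) 𝓘(ℝ, R3 →L[ℝ] R4) ∞ O
  unit_n1 : ∀ x, ‖n1 x‖ = 1
  normal_n1 : ∀ x, n1 x ∈ (tanPlane F x)ᗮ
  normal_O : ∀ x v, O x v ∈ (tanPlane F x)ᗮ ∧ ⟪n1 x, O x v⟫ = 0
  O_line : ∀ x v, O x (nLine G x v) = O x v
  iso_O : ∀ x v, ‖O x v‖ = ‖nLine G x v‖

/-- `cos|S| n1 + sinc|S| O S`: the spiral direction at phase `S`. -/
noncomputable def spin {G : M → R3} {F : M → R4} (nd : NormalData G F) (S : M → R3) : M → R4 :=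
  fun x => Real.cos ‖S x‖ • nd.n1 x + Real.sinc ‖S x‖ • nd.O x (S x)

end

end Vale.Agent.P205.Full.Start
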