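import Vale.Agent.P205.Full.Statement

/-!
# Module START, A3: the cubic jet at a critical point

A quadratic symmetric tensor `T` on `ℝ²` is, exactly, `2 sym ∇(X, Y) + dz²` with cubics `X`, `Y` and
`z = (x² + κ y²)/2`, `κ = b₂ - a₃ - c₁`. So the pull-back by `jetMap` is `α² I + T` up to a
quartic tensor.
-/

open scoped RealInnerProductSpace ContDiff

namespace Vale.Agent.P205.Full.Start

/-- Coefficients of a quadratic symmetric tensor: each entry on `x²`, `xy`, `y²`. -/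
structure QT where
  a1 : ℝ
  a2 : ℝ
  a3 : ℝ
  b1 : ℝ
  b2 : ℝ
  b3 : ℝ
  c1 : ℝ
  c2 : ℝ
  c3 : ℝ

namespace QT

variable (T : QT)

/-- The entry `11`. -/
def t11 (u : R2) : ℝ := T.a1 * u 0 ^ 2 + T.a2 * (u 0 * u 1) + T.a3 * u 1 ^ 2

/-- The entry `12`. -/
def t12 (u : R2) : ℝ := T.b1 * u 0 ^ 2 + T.b2 * (u 0 * u 1) + T.b3 * u 1 ^ 2

/-- The entry `22`. -/
def t22 (u : R2) : ℝ := T.c1 * u 0 ^ 2 + T.c2 * (u 0 * u 1) + T.c3 * u 1 ^ 2

/-- The tensor at `u`, as a bilinear form. -/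
def eval (u v w : R2) : ℝ :=
  T.t11 u * (v 0 * w 0) + T.t12 u * (v 0 * w 1 + v 1 * w 0) + T.t22 u * (v 1 * w 1)

/-- The obstruction, realised as the determinant of the Hessian of the height. -/
def kap : ℝ := T.b2 - T.a3 - T.c1

/-- A bound for all the coefficients. -/
def Le (M : ℝ) : Prop :=
  |T.a1| ≤ M ∧ |T.a2| ≤ M ∧ |T.a3| ≤ M ∧ |T.b1| ≤ M ∧ |T.b2| ≤ M ∧ |T.b3| ≤ M ∧
    |T.c1| ≤ M ∧ |T.c2| ≤ M ∧ |T.c3| ≤ M ∧ T.kap ^ 2 ≤ M

/-- `dψ²` for `ψ = (a x² + b y²)/2`. -/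
def dpsiSq (a b : ℝ) : QT := ⟨a ^ 2, 0, 0, 0, a * b, 0, 0, 0, b ^ 2⟩

/-- `c r² I`. -/
def radial (c : ℝ) : QT := ⟨c, 0, c, 0, 0, 0, c, 0, c⟩

instance : Sub QT :=
  ⟨fun S T => ⟨S.a1 - T.a1, S.a2 - T.a2, S.a3 - T.a3, S.b1 - T.b1, S.b2 - T.b2, S.b3 - T.b3,
    S.c1 - T.c1, S.c2 - T.c2, S.c3 - T.c3⟩⟩

lemma eval_sub (S : QT) (u v w : R2) : (S - T).eval u v w = S.eval u v w - T.eval u v w := by
  show QT.eval ⟨_, _, _, _, _, _, _, _, _⟩ u v w = _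
  simp only [eval, t11, t12, t22]; ring

lemma eval_dpsiSq (a b : ℝ) (u v w : R2) :
    (dpsiSq a b).eval u v w = (a * u 0 * v 0 + b * u 1 * v 1) * (a * u 0 * w 0 + b * u 1 * w 1) := by
  simp only [eval, t11, t12, t22, dpsiSq]; ring

lemma eval_radial (c : ℝ) (u v w : R2) :
    (radial c).eval u v w = c * (u 0 ^ 2 + u 1 ^ 2) * (v 0 * w 0 + v 1 * w 1) := by
  simp only [eval, t11, t12, t22, radial]; ring

/-- Only `a b` enters the obstruction, not `a²` or `b²`. -/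
lemma kap_sub_dpsiSq_radial (a b c : ℝ) :
    ((T - dpsiSq a b) - radial c).kap = T.kap - a * b + 2 * c := by
  show (T.b2 - a * b - 0) - (T.a3 - 0 - c) - (T.c1 - 0 - c) = _
  simp only [kap]; ring

/-- `∂X/∂x`. -/
noncomputable def Xx (u : R2) : ℝ :=
  (T.a1 - 1) / 2 * u 0 ^ 2 + T.a2 / 2 * (u 0 * u 1) + T.a3 / 2 * u 1 ^ 2

/-- `∂X/∂y`. -/
noncomputable def Xy (u : R2) : ℝ :=
  T.a2 / 4 * u 0 ^ 2 + T.a3 * (u 0 * u 1) + (T.b3 - T.c2 / 4) * u 1 ^ 2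

/-- `∂Y/∂x`. -/
noncomputable def Yx (u : R2) : ℝ :=
  (T.b1 - T.a2 / 4) * u 0 ^ 2 + T.c1 * (u 0 * u 1) + T.c2 / 4 * u 1 ^ 2

/-- `∂Y/∂y`. -/
noncomputable def Yy (u : R2) : ℝ :=
  T.c1 / 2 * u 0 ^ 2 + T.c2 / 2 * (u 0 * u 1) + (T.c3 - T.kap ^ 2) / 2 * u 1 ^ 2

/-- The cubic `X`. -/
noncomputable def jX (u : R2) : ℝ :=
  (T.a1 - 1) / 6 * u 0 ^ 3 + T.a2 / 4 * (u 0 ^ 2 * u 1) + T.a3 / 2 * (u 0 * u 1 ^ 2)
    + (T.b3 - T.c2 / 4) / 3 * u 1 ^ 3

/-- The cubic `Y`. -/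
noncomputable def jY (u : R2) : ℝ :=
  (T.b1 - T.a2 / 4) / 3 * u 0 ^ 3 + T.c1 / 2 * (u 0 ^ 2 * u 1) + T.c2 / 4 * (u 0 * u 1 ^ 2)
    + (T.c3 - T.kap ^ 2) / 6 * u 1 ^ 3

/-- The height `z`. -/
noncomputable def jZ (u : R2) : ℝ := (u 0 ^ 2 + T.kap * u 1 ^ 2) / 2

/-- **Linear lemma.** `2 sym ∇(X,Y) + dz² = T`. -/
theorem solve (u : R2) :
    2 * T.Xx u + u 0 ^ 2 = T.t11 u ∧
      T.Xy u + T.Yx u + u 0 * (T.kap * u 1) = T.t12 u ∧
      2 * T.Yy u + (T.kap * u 1) ^ 2 = T.t22 u := by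
  simp only [Xx, Xy, Yx, Yy, t11, t12, t22, kap]
  refine ⟨?_, ?_, ?_⟩ <;> ring

/-- The base map at the critical point: a graph in `ℝ³ × 0`. -/
noncomputable def jetMap (α : ℝ) (u : R2) : R4 :=
  (α * u 0 + T.jX u / α) • EuclideanSpace.single 0 1 +
    (α * u 1 + T.jY u / α) • EuclideanSpace.single 1 1 + T.jZ u • EuclideanSpace.single 2 1

lemma contDiff_jetMap (α : ℝ) : ContDiff ℝ ∞ (T.jetMap α) := by
  unfold jetMap jX jY jZ
  fun_prop

/-- The differential of the base map. -/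
lemma fderiv_jetMap (α : ℝ) (u v : R2) :
    fderiv ℝ (T.jetMap α) u v =
      (α * v 0 + (T.Xx u * v 0 + T.Xy u * v 1) / α) • EuclideanSpace.single 0 1 +
        (α * v 1 + (T.Yx u * v 0 + T.Yy u * v 1) / α) • EuclideanSpace.single 1 1 +
        (u 0 * v 0 + T.kap * u 1 * v 1) • EuclideanSpace.single 2 1 := by
  have hd : DifferentiableAt ℝ (T.jetMap α) u :=
    (T.contDiff_jetMap α).differentiable (by simp) u
  refine HasLineDerivAt.unique (hd.hasFDerivAt.hasLineDerivAt v) ?_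
  unfold HasLineDerivAt
  have hc : ∀ i, HasDerivAt (fun t : ℝ => (u + t • v) i) (v i) 0 := fun i => by
    simpa using ((hasDerivAt_id (0 : ℝ)).mul_const (v i)).const_add (u i)
  have h0 := hc 0
  have h1 := hc 1
  simp only [jetMap]
  refine ((HasDerivAt.smul_const ?_ _).add (HasDerivAt.smul_const ?_ _)).add
    (HasDerivAt.smul_const ?_ _)
  · refine ((h0.const_mul α).add (((((((h0.pow 3).const_mul _).add
      (((h0.pow 2).mul h1).const_mul _)).add ((h0.mul (h1.pow 2)).const_mul _)).add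
      ((h1.pow 3).const_mul _))).div_const α)).congr_deriv ?_
    simp only [Xx, Xy, zero_smul, add_zero, Pi.pow_apply]
    push_cast
    ring
  · refine ((h1.const_mul α).add (((((((h0.pow 3).const_mul _).add
      (((h0.pow 2).mul h1).const_mul _)).add ((h0.mul (h1.pow 2)).const_mul _)).add
      ((h1.pow 3).const_mul _))).div_const α)).congr_deriv ?_
    simp only [Yx, Yy, zero_smul, add_zero, Pi.pow_apply]
    push_cast
    ring
  · refine (((h0.pow 2).add ((h1.pow 2).const_mul _)).div_const 2).congr_deriv ?_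
    simp only [zero_smul, add_zero]
    push_cast
    ring

/-- The quartic error tensor of the jet. -/
noncomputable def err (α : ℝ) (u v w : R2) : ℝ :=
  ((T.Xx u * v 0 + T.Xy u * v 1) * (T.Xx u * w 0 + T.Xy u * w 1) +
    (T.Yx u * v 0 + T.Yy u * v 1) * (T.Yx u * w 0 + T.Yy u * w 1)) / α ^ 2

/-- **The pull-back of the base map, exactly.** -/
theorem pull_jetMap {α : ℝ} (hα : α ≠ 0) (u v w : R2) :
    ⟪fderiv ℝ (T.jetMap α) u v, fderiv ℝ (T.jetMap α) u w⟫ =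
      α ^ 2 * ⟪v, w⟫ + T.eval u v w + T.err α u v w := by
  obtain ⟨h1, h2, h3⟩ := T.solve u
  rw [fderiv_jetMap, fderiv_jetMap]
  simp only [inner_add_left, inner_add_right, real_inner_smul_left, real_inner_smul_right,
    EuclideanSpace.inner_single_left, map_one, PiLp.single_apply, Fin.reduceEq, if_false, if_true,
    mul_one, mul_zero, add_zero, zero_add]
  rw [PiLp.inner_apply, Fin.sum_univ_two]
  simp only [eval, err, ← h1, ← h2, ← h3, RCLike.inner_apply, conj_trivial]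
  field_simp
  ring

end QT

end Vale.Agent.P205.Full.Start
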