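import Vale.Agent.P205.Full.Start.SpiralData
import Vale.Agent.P205.Full.Stage.Calculus
import Vale.Agent.P205.Full.Stage.CalculusBd

/-!
# P205 full, START A7: the frame at scale `ℓ` against the fixed frame

Bounds pass from `V` to `ℓ V` at no cost and back at one factor `ℓ⁻¹` for each derivative. Also:
the second fundamental form under a small change of the map.
-/

open scoped Manifold ContDiff RealInnerProductSpace Topology
open Bundle Filter

noncomputable section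

namespace Vale.Agent.P205.Full.Start

section

variable {M : Type} [TopologicalSpace M] [ChartedSpace R2 M] [IsManifold (𝓡 2) ∞ M]
variable {E : Type} [NormedAddCommGroup E] [NormedSpace ℝ E]
variable {N : ℕ} {V : Frame M N} {ℓ : M → ℝ}

/-- The differential of a map to `ℝ⁴`, valued in `ℝ⁴`. -/
def dV4 (F : M → R4) (x : M) (v : TangentSpace (𝓡 2) x) : R4 := mfderiv (𝓡 2) 𝓘(ℝ, R4) F x v

theorem D_eq_dV4 (F : M → R4) (i : Fin N) (x : M) : D V i F x = dV4 F x (V i x) := rfl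

theorem dV4_sum (F : M → R4) (x : M) (a : Fin N → ℝ) :
    dV4 F x (∑ l, a l • V l x) = ∑ l, a l • D V l F x := by
  show mfderiv (𝓡 2) 𝓘(ℝ, R4) F x _ = _
  rw [map_sum]
  exact Finset.sum_congr rfl fun l _ => map_smul _ _ _

theorem D_scaled (ℓ : M → ℝ) (V : Frame M N) (i : Fin N) (f : M → E) (x : M) :
    D (scaled ℓ V) i f x = ℓ x • D V i f x :=
  map_smul (mfderiv (𝓡 2) 𝓘(ℝ, E) f x) (ℓ x) (V i x)

theorem frameSmooth_scaled (hV : FrameSmooth V) (hℓ : ContMDiff (𝓡 2) 𝓘(ℝ, ℝ) ∞ ℓ) :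
    FrameSmooth (scaled ℓ V) :=
  fun i => hℓ.smul_section (hV i)

theorem gV_scaled (g : Metric M) (i k : Fin N) :
    gV g (scaled ℓ V) i k = fun x => ℓ x ^ 2 * gV g V i k x := by
  funext x
  simp only [gV, scaled, map_smul, smul_apply, smul_eq_mul]
  ring

theorem pullV_scaled (F : M → R4) (i k : Fin N) :
    pullV F (scaled ℓ V) i k = fun x => ℓ x ^ 2 * pullV F V i k x := by
  funext x
  simp only [pullV, D_scaled, real_inner_smul_left, real_inner_smul_right]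
  ring

theorem sff_scaled (hV : FrameSmooth V) (hℓ : ContMDiff (𝓡 2) 𝓘(ℝ, ℝ) ∞ ℓ) {F : M → R4}
    (hF : ContMDiff (𝓡 2) 𝓘(ℝ, R4) ∞ F) (i k : Fin N) (x : M) :
    sff F (scaled ℓ V) i k x = ℓ x ^ 2 • sff F V i k x := by
  have e : D (scaled ℓ V) k F = fun y => ℓ y • D V k F y := funext fun y => D_scaled ℓ V k F y
  have h := D_smul (V := V) (i := i) (mdiffAt_of_smoothAt (hℓ x))
    (mdiffAt_of_smoothAt (contMDiffAt_D hV k (hF x)))
  simp only [sff, D_scaled (f := D (scaled ℓ V) k F)]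
  rw [e, h, map_smul, map_add, map_smul, map_smul]
  have h0 : (tanPlane F x)ᗮ.starProjection (D V k F x) = 0 :=
    (Submodule.starProjection_apply_eq_zero_iff _).2
      (Submodule.le_orthogonal_orthogonal _ (D_mem_tanPlane F k x))
  rw [h0, smul_zero, zero_add, smul_smul, ← sq]

theorem sffSize_scaled (hV : FrameSmooth V) (hℓ : ContMDiff (𝓡 2) 𝓘(ℝ, ℝ) ∞ ℓ) {F : M → R4}
    (hF : ContMDiff (𝓡 2) 𝓘(ℝ, R4) ∞ F) (x : M) :
    sffSize F (scaled ℓ V) x = ℓ x ^ 2 * sffSize F V x := by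
  simp only [sffSize, sff_scaled hV hℓ hF, norm_smul, Finset.mul_sum, Real.norm_eq_abs,
    abs_of_nonneg (sq_nonneg (ℓ x))]

/-- The second fundamental form under a small change of the map, at a point. -/
theorem norm_sff_le_perturb {F F' : M → R4} {x : M} (i k : Fin N) {A d : ℝ} (hA : 0 ≤ A)
    (hd : 0 ≤ d)
    (hcoef : ∀ v, ∃ a : Fin N → ℝ, v = ∑ l, a l • V l x ∧
      ∑ l, |a l| ≤ A * ‖dV4 F' x v‖)
    (hclose : ∀ l, ‖D V l F' x - D V l F x‖ ≤ d) :
    ‖sff F V i k x‖ ≤ ‖sff F' V i k x‖ + ‖D V i (D V k F') x - D V i (D V k F) x‖ +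
      A * d * ‖D V i (D V k F') x‖ := by
  set u : R4 := D V i (D V k F) x with hu
  set u' : R4 := D V i (D V k F') x with hu'
  set t : R4 := (tanPlane F' x).starProjection u' with ht
  have hsp : sff F' V i k x = u' - t := Submodule.starProjection_orthogonal_val u'
  obtain ⟨v, hv⟩ : ∃ v, dV4 F' x v = t :=
    (Submodule.starProjection_apply_mem (tanPlane F' x) u' : t ∈ tanPlane F' x)
  obtain ⟨a, ha, hab⟩ := hcoef v
  rw [hv] at hab
  have hts : ∑ l, a l • D V l F' x = t := by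
    rw [← hv, ha, dV4_sum]
  set r : R4 := ∑ l, a l • D V l F x with hr
  have hrm : r ∈ tanPlane F x :=
    Submodule.sum_mem _ fun l _ => Submodule.smul_mem _ _ (D_mem_tanPlane F l x)
  have h1 : sff F V i k x = (tanPlane F x)ᗮ.starProjection (u - r) := by
    rw [map_sub, (Submodule.starProjection_apply_eq_zero_iff _).2
      (Submodule.le_orthogonal_orthogonal _ hrm), sub_zero]
    rfl
  have h2 : ‖t - r‖ ≤ A * d * ‖u'‖ := by
    rw [← hts, hr, ← Finset.sum_sub_distrib]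
    calc ‖∑ l, (a l • D V l F' x - a l • D V l F x)‖ ≤ ∑ l, |a l| * d := by
          refine (norm_sum_le _ _).trans (Finset.sum_le_sum fun l _ => ?_)
          rw [← smul_sub, norm_smul, Real.norm_eq_abs]
          exact mul_le_mul_of_nonneg_left (hclose l) (abs_nonneg _)
      _ = (∑ l, |a l|) * d := by rw [Finset.sum_mul]
      _ ≤ A * ‖t‖ * d := mul_le_mul_of_nonneg_right hab hd
      _ ≤ A * ‖u'‖ * d := mul_le_mul_of_nonneg_right
          (mul_le_mul_of_nonneg_left ((tanPlane F' x).norm_starProjection_apply_le u') hA) hd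
      _ = A * d * ‖u'‖ := by ring
  rw [h1, hsp]
  refine ((tanPlane F x)ᗮ.norm_starProjection_apply_le _).trans ?_
  calc ‖u - r‖ = ‖(u' - t) + (u - u') + (t - r)‖ := by congr 1; abel
    _ ≤ ‖u' - t‖ + ‖u - u'‖ + ‖t - r‖ := norm_add₃_le
    _ ≤ _ := by rw [norm_sub_rev u u']; linarith

end

/-- Bounds in the fixed frame give bounds in the scaled frame. -/
theorem exists_scaled_of_fixed (N K : ℕ) (B : ℝ) (E : Type) [NormedAddCommGroup E]
    [NormedSpace ℝ E] :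
    ∃ C : ℝ, 1 ≤ C ∧
      ∀ (M : Type) [TopologicalSpace M] [ChartedSpace R2 M] [IsManifold (𝓡 2) ∞ M]
        (V : Frame M N) (ℓ : M → ℝ) (f : M → E) (c : ℝ), FrameSmooth V →
        ContMDiff (𝓡 2) 𝓘(ℝ, ℝ) ∞ ℓ → (∀ x, 0 ≤ ℓ x ∧ ℓ x ≤ 1) → Bd (scaled ℓ V) K B ℓ ℓ →
        ContMDiff (𝓡 2) 𝓘(ℝ, E) ∞ f → 0 ≤ c → Bd V K c (fun _ => 1) f →
        Bd (scaled ℓ V) K (C * c) (fun _ => 1) f := by
  induction K with
  | zero =>
    exact ⟨1, le_rfl, fun M _ _ _ V ℓ f c _ _ _ _ _ _ hf => bdOn_zero_iff.2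
      fun x hx => (BdOn.norm_le hf hx).trans_eq (by rw [one_mul])⟩
  | succ K ih =>
    obtain ⟨C, hC1, hC⟩ := ih
    refine ⟨max 1 (2 ^ K * max B 0 * C), le_max_left _ _,
      fun M _ _ _ V ℓ f c hV hℓ hℓ1 hbℓ hf hc hb => bdOn_succ_iff.2 ⟨fun x hx => ?_, fun i => ?_⟩⟩
    · rw [mul_one]
      exact (hb.norm_le hx).trans_eq (mul_one c) |>.trans (le_mul_of_one_le_left hc (le_max_left _ _))
    have hW := frameSmooth_scaled hV hℓ
    have h1 := hC M V ℓ (D V i f) c hV hℓ hℓ1 (hbℓ.mono_order K.le_succ) (contMDiff_D hV i hf) hc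
      (BdOn.deriv hb i)
    have h2 := BdOn.smul hW (fun x _ => hℓ x) (fun x _ => contMDiff_D hV i hf x)
      ((hbℓ.mono_order K.le_succ).mono_const (le_max_left B 0) fun x _ => (hℓ1 x).1) h1
    refine (h2.mono_bound fun x _ => ?_).congr fun x _ =>
      Eventually.of_forall fun y => (D_scaled ℓ V i f y).symm
    rw [mul_one, mul_one]
    refine (mul_le_of_le_one_right (by positivity) (hℓ1 x).2).trans ?_
    refine le_trans (le_of_eq ?_) (mul_le_mul_of_nonneg_right (le_max_right _ _) hc)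
    ring

/-- Bounds in the scaled frame give bounds in the fixed frame, one `ℓ⁻¹` for each derivative. -/
theorem exists_fixed_of_scaled (N K : ℕ) (B : ℝ) (E : Type) [NormedAddCommGroup E]
    [NormedSpace ℝ E] :
    ∃ C : ℝ, 1 ≤ C ∧
      ∀ (M : Type) [TopologicalSpace M] [ChartedSpace R2 M] [IsManifold (𝓡 2) ∞ M]
        (V : Frame M N) (ℓ : M → ℝ) (f : M → E) (μ : M → ℝ) (c : ℝ), FrameSmooth V →
        ContMDiff (𝓡 2) 𝓘(ℝ, ℝ) ∞ ℓ → (∀ x, 0 < ℓ x) → Bd (scaled ℓ V) K B ℓ ℓ →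
        ContMDiff (𝓡 2) 𝓘(ℝ, E) ∞ f → 0 ≤ c → (∀ x, 0 ≤ μ x) → Bd (scaled ℓ V) K c μ f →
        ∀ w : List (Fin N), w.length ≤ K → ∀ x,
          ‖DW V w f x‖ ≤ C * c * ((ℓ x)⁻¹ ^ w.length * μ x) := by
  induction K with
  | zero =>
    refine ⟨1, le_rfl, fun M _ _ _ V ℓ f μ c _ _ _ _ _ _ _ hb w hw x => ?_⟩
    rw [List.length_eq_zero_iff.1 (Nat.le_zero.1 hw)]
    simpa using hb [] le_rfl x (Set.mem_univ x)
  | succ K ih =>
    obtain ⟨C, hC1, hC⟩ := ih
    obtain ⟨C', hC'1, hC'⟩ := exists_bdOn_inv N K B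
    refine ⟨max 1 (C * (2 ^ K * C')), le_max_left _ _,
      fun M _ _ _ V ℓ f μ c hV hℓ hℓ0 hbℓ hf hc hμ hb w hw x => ?_⟩
    rcases List.eq_nil_or_concat' w with rfl | ⟨w', i, rfl⟩
    · simp only [DW_nil, List.length_nil, pow_zero, one_mul]
      exact (hb.norm_le (Set.mem_univ x)).trans (mul_le_mul_of_nonneg_right
        (le_mul_of_one_le_left hc (le_max_left _ _)) (hμ x))
    have hW := frameSmooth_scaled hV hℓ
    have hinv := hC' M (scaled ℓ V) Set.univ ℓ hW (fun y _ => hℓ y) (fun y _ => hℓ0 y)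
      (hbℓ.mono_order K.le_succ)
    have hsm : ∀ y, ContMDiffAt (𝓡 2) 𝓘(ℝ, ℝ) ∞ (fun z => (ℓ z)⁻¹) y :=
      fun y => (hℓ y).inv₀ (hℓ0 y).ne'
    have h1 : Bd (scaled ℓ V) K (2 ^ K * C' * c) (fun y => (ℓ y)⁻¹ * μ y) (D V i f) :=
      (BdOn.smul hW (fun y _ => hsm y) (fun y _ => contMDiff_D hW i hf y) hinv
        (BdOn.deriv hb i)).congr fun y _ => Eventually.of_forall fun z => by
          show (ℓ z)⁻¹ • D (scaled ℓ V) i f z = D V i f z
          rw [D_scaled, smul_smul, inv_mul_cancel₀ (hℓ0 z).ne', one_smul]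
    rw [List.length_append, List.length_singleton] at hw ⊢
    rw [DW_snoc]
    refine (hC M V ℓ (D V i f) _ _ hV hℓ hℓ0 (hbℓ.mono_order K.le_succ) (contMDiff_D hV i hf)
      (by positivity) (fun y => mul_nonneg (inv_nonneg.2 (hℓ0 y).le) (hμ y)) h1 w'
      (by omega) x).trans ?_
    refine le_trans (le_of_eq ?_) (mul_le_mul_of_nonneg_right (mul_le_mul_of_nonneg_right
      (le_max_right 1 _) hc) (mul_nonneg (pow_nonneg (inv_nonneg.2 (hℓ0 x).le) _) (hμ x)))
    rw [pow_succ]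
    ring

end Vale.Agent.P205.Full.Start
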