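import Vale.Agent.P205.Full.Start.Staircase
import Vale.Agent.P205.Full.Start.Scaled
import Vale.Agent.P205.Full.Start.FrameBounds

/-!
# P205 full, START A7: phases at a variable scale

For a scale `ℓ ≤ 1` with bounded logarithmic derivatives: finitely many phases, equal to
`e^{-κ n} ⟨a, G⟩` in the zone where `log ℓ` is near `κ n`, with cutoffs, so that every unit
covector is within `1/100` of some `ℓ dY` where the cutoff is one.
-/

open scoped Manifold ContDiff RealInnerProductSpace Topology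
open Bundle Filter

noncomputable section

namespace Vale.Agent.P205.Full.Start

section

variable {M : Type} [TopologicalSpace M] [ChartedSpace R2 M] [IsManifold (𝓡 2) ∞ M]
variable {N : ℕ}

/-- Sine and cosine of a function with bounded derivatives. -/
theorem exists_bd_cos_sin (N K : ℕ) (B : ℝ) :
    ∃ C : ℝ, 1 ≤ C ∧
      ∀ (M : Type) [TopologicalSpace M] [ChartedSpace R2 M] [IsManifold (𝓡 2) ∞ M]
        (W : Frame M N) (s : M → ℝ), FrameSmooth W → ContMDiff (𝓡 2) 𝓘(ℝ, ℝ) ∞ s →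
        (∀ i, Bd W K B (fun _ => 1) (D W i s)) →
        Bd W K C (fun _ => 1) (fun y => Real.cos (s y)) ∧
          Bd W K C (fun _ => 1) (fun y => Real.sin (s y)) := by
  induction K with
  | zero =>
    exact ⟨1, le_rfl, fun M _ _ _ W s _ _ _ =>
      ⟨bdOn_zero_iff.2 fun x _ => by simpa using Real.abs_cos_le_one (s x),
        bdOn_zero_iff.2 fun x _ => by simpa using Real.abs_sin_le_one (s x)⟩⟩
  | succ K ih =>
    obtain ⟨C, hC1, hC⟩ := ih
    refine ⟨max 1 (2 ^ K * C * max B 0), le_max_left _ _, fun M _ _ _ W s hW hs hb => ?_⟩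
    obtain ⟨hcos, hsin⟩ := hC M W s hW hs fun i => (hb i).mono_order K.le_succ
    have hDs : ∀ i, Bd W K (max B 0) (fun _ => 1) (D W i s) := fun i =>
      ((hb i).mono_order K.le_succ).mono_const (le_max_left B 0) fun _ _ => zero_le_one
    have scos : ∀ y, ContMDiffAt (𝓡 2) 𝓘(ℝ, ℝ) ∞ (fun z => Real.cos (s z)) y := fun y =>
      Real.contDiff_cos.contDiffAt.comp_contMDiffAt (hs y)
    have ssin : ∀ y, ContMDiffAt (𝓡 2) 𝓘(ℝ, ℝ) ∞ (fun z => Real.sin (s z)) y := fun y =>
      Real.contDiff_sin.contDiffAt.comp_contMDiffAt (hs y)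
    have sD : ∀ i y, ContMDiffAt (𝓡 2) 𝓘(ℝ, ℝ) ∞ (D W i s) y := fun i y => contMDiff_D hW i hs y
    have hle : ∀ x ∈ (Set.univ : Set M), 2 ^ K * C * max B 0 * ((1 : ℝ) * 1) ≤
        max 1 (2 ^ K * C * max B 0) * 1 := fun x _ => by simp
    constructor
    · refine bdOn_succ_iff.2 ⟨fun x _ => ?_, fun i => ?_⟩
      · rw [mul_one]; exact le_trans (by simpa using Real.abs_cos_le_one (s x)) (le_max_left _ _)
      · refine ((BdOn.neg hW (fun y _ => contMDiffAt_bilin (ContinuousLinearMap.mul ℝ ℝ) (ssin y)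
          (sD i y)) (BdOn.mul hW (fun y _ => ssin y) (fun y _ => sD i y) hsin
            (hDs i))).mono_bound hle).congr fun x _ => ?_
        refine Eventually.of_forall fun y => ?_
        rw [D_comp (φ := Real.cos) Real.differentiable_cos.differentiableAt
          (mdiffAt_of_smoothAt (hs y)), (Real.hasDerivAt_cos (s y)).hasFDerivAt.fderiv]
        simp [mul_comm]
    · refine bdOn_succ_iff.2 ⟨fun x _ => ?_, fun i => ?_⟩
      · rw [mul_one]; exact le_trans (by simpa using Real.abs_sin_le_one (s x)) (le_max_left _ _)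
      · refine ((BdOn.mul hW (fun y _ => scos y) (fun y _ => sD i y) hcos
          (hDs i)).mono_bound hle).congr fun x _ => ?_
        refine Eventually.of_forall fun y => ?_
        rw [D_comp (φ := Real.sin) Real.differentiable_sin.differentiableAt
          (mdiffAt_of_smoothAt (hs y)), (Real.hasDerivAt_sin (s y)).hasFDerivAt.fderiv]
        simp [mul_comm]

/-- The differential of a map to `ℝ³`, valued in `ℝ³`. -/
def d3 (G : M → R3) (x : M) : TangentSpace (𝓡 2) x →L[ℝ] R3 := mfderiv (𝓡 2) 𝓘(ℝ, R3) G x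

theorem D_eq_d3 (G : M → R3) (V : Frame M N) (i : Fin N) (x : M) :
    D V i G x = d3 G x (V i x) := rfl

/-- The pull-back of the inner product by `G`. -/
def pull3 (G : M → R3) (x : M) :
    TangentSpace (𝓡 2) x →L[ℝ] TangentSpace (𝓡 2) x →L[ℝ] ℝ :=
  ((innerSL ℝ : R3 →L[ℝ] R3 →L[ℝ] ℝ).bilinearComp (d3 G x : R2 →L[ℝ] R3) (d3 G x : R2 →L[ℝ] R3) :
    R2 →L[ℝ] R2 →L[ℝ] ℝ)

theorem pull3_apply (G : M → R3) (x : M) (v w : TangentSpace (𝓡 2) x) :
    pull3 G x v w = ⟪d3 G x v, d3 G x w⟫ := rfl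

theorem metric_nonneg (g : Metric M) (x : M) (v : TangentSpace (𝓡 2) x) : 0 ≤ g.inner x v v := by
  by_cases h : v = 0
  · simp [h]
  · exact (g.pos x v h).le

theorem metric_cs_unit (g : Metric M) {x : M} {u : TangentSpace (𝓡 2) x}
    (hu : g.inner x u u = 1) (v : TangentSpace (𝓡 2) x) :
    g.inner x u v ^ 2 ≤ g.inner x v v := by
  have h := metric_nonneg g x ((-g.inner x u v) • u + g.inner x u u • v)
  rw [bilin_comb (g.inner x) (g.symm x), hu] at h
  nlinarith [h]

/-- Every functional is `⟪a, dG ·⟫` with `a` in the image of `dG`. -/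
theorem exists_preimage (A : R2 →L[ℝ] R3) (hA : Function.Injective A) (φ : R2 →L[ℝ] ℝ) :
    ∃ w, ∀ v, ⟪A w, A v⟫ = φ v := by
  set T : R2 →ₗ[ℝ] R2 := ((ContinuousLinearMap.adjoint A).comp A).toLinearMap with hT
  have hinj : Function.Injective T := by
    refine (injective_iff_map_eq_zero T).2 fun w hw => hA ?_
    have h0 : (⟪T w, w⟫ : ℝ) = 0 := by rw [hw, inner_zero_left]
    have h1 : (⟪A w, A w⟫ : ℝ) = 0 := by
      rw [← h0]; exact (ContinuousLinearMap.adjoint_inner_left A w (A w)).symm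
    rw [map_zero]
    exact inner_self_eq_zero.1 h1
  obtain ⟨w, hw⟩ := LinearMap.injective_iff_surjective.1 hinj
    ((InnerProductSpace.toDual ℝ R2).symm φ)
  refine ⟨w, fun v => ?_⟩
  rw [← InnerProductSpace.toDual_symm_apply (y := φ), ← hw]
  exact (ContinuousLinearMap.adjoint_inner_left A v (A w)).symm

/-- The constants of an immersion in `ℝ³` against a metric. -/
theorem exists_imm_bounds [CompactSpace M] (g : Metric M) {V : Frame M N} (hV : FrameSmooth V)
    (hspan : FrameSpans V) {G : M → R3} (hG : IsImm3 G) :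
    ∃ C : ℝ, 1 ≤ C ∧ (∀ x v, ‖d3 G x v‖ ≤ C * Real.sqrt (g.inner x v v)) ∧
      ∀ x (u : TangentSpace (𝓡 2) x), g.inner x u u = 1 →
        ∃ a : R3, ‖a‖ ≤ C ∧ ∀ v, ⟪a, d3 G x v⟫ = g.inner x u v := by
  obtain ⟨Cm, hCm, hcoef, -, hup, -⟩ := exists_metric_bounds g hV hspan
  obtain ⟨S, hS⟩ : ∃ S : ℝ, ∀ i x, ‖D V i G x‖ ≤ S := by
    choose c hc0 hc using fun i => exists_bd_of_contMDiff hV 0 (contMDiff_D hV i hG.1)
    exact ⟨∑ i, c i, fun i x => ((hc i).norm_le (Set.mem_univ x)).trans <| by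
      rw [mul_one]; exact Finset.single_le_sum (fun k _ => hc0 k) (Finset.mem_univ i)⟩
  have hne : ∀ x v, v ≠ 0 → d3 G x v ≠ 0 := fun x v hv h0 =>
    hv (hG.2 x (h0.trans (map_zero (d3 G x)).symm))
  obtain ⟨Cb, hCb, hb⟩ := exists_coef_bound hspan (pull3 G) (fun x u v => real_inner_comm (d3 G x v) (d3 G x u))
    (fun x v hv => real_inner_self_pos.2 (hne x v hv))
    (fun i k => (contMDiff_D hV i hG.1).continuous.inner (contMDiff_D hV k hG.1).continuous)
  have hC1 : 1 ≤ 1 + Cm * |S| + Cb * Cm := by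
    nlinarith [mul_nonneg (zero_le_one.trans hCm) (abs_nonneg S),
      mul_nonneg hCb.le (zero_le_one.trans hCm)]
  refine ⟨1 + Cm * |S| + Cb * Cm, hC1, fun x v => ?_, fun x u hu => ?_⟩
  · obtain ⟨a, ha, hab⟩ := hcoef x v
    calc ‖d3 G x v‖ = ‖∑ i, a i • D V i G x‖ := by
          rw [ha, map_sum]; simp only [map_smul, D_eq_d3]
      _ ≤ ∑ i, |a i| * |S| := (norm_sum_le _ _).trans <| Finset.sum_le_sum fun i _ => by
          rw [norm_smul, Real.norm_eq_abs]
          exact mul_le_mul_of_nonneg_left ((hS i x).trans (le_abs_self S)) (abs_nonneg _)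
      _ ≤ Cm * Real.sqrt (g.inner x v v) * |S| := by
          rw [← Finset.sum_mul]; exact mul_le_mul_of_nonneg_right hab (abs_nonneg _)
      _ ≤ (1 + Cm * |S| + Cb * Cm) * Real.sqrt (g.inner x v v) := by
          nlinarith [Real.sqrt_nonneg (g.inner x v v),
            mul_nonneg (mul_nonneg hCb.le (zero_le_one.trans hCm)) (Real.sqrt_nonneg (g.inner x v v))]
  · obtain ⟨w, hw⟩ : ∃ w : TangentSpace (𝓡 2) x, ∀ v : TangentSpace (𝓡 2) x,
        ⟪d3 G x w, d3 G x v⟫ = g.inner x u v :=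
      exists_preimage (d3 G x : R2 →L[ℝ] R3) (fun p q h => hG.2 x h) (g.inner x u)
    refine ⟨d3 G x w, ?_, fun v => hw v⟩
    obtain ⟨a, ha, hab⟩ := hb x w
    have hcs : g.inner x u w ^ 2 ≤ g.inner x w w := metric_cs_unit g hu w
    have hww : g.inner x w w ≤ Cb * Cm * ‖d3 G x w‖ ^ 2 := by
      have h1 : g.inner x w w = ∑ i, a i * g.inner x (V i x) w := by
        conv_lhs => arg 1; arg 2; rw [ha]
        simp [map_sum, map_smul, sum_apply, smul_apply, smul_eq_mul]
      have h2 := Finset.sum_mul_sq_le_sq_mul_sq Finset.univ a fun i => g.inner x (V i x) w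
      rw [← h1] at h2
      rw [pull3_apply, real_inner_self_eq_norm_sq] at hab
      rcases le_or_gt (g.inner x w w) 0 with h0 | h0
      · exact h0.trans (by positivity)
      · have h3 := h2.trans (mul_le_mul hab (hup x w) (Finset.sum_nonneg fun i _ => sq_nonneg _)
          (by positivity))
        nlinarith [h3]
    have hself : ‖d3 G x w‖ ^ 2 = g.inner x u w := by
      rw [← real_inner_self_eq_norm_sq]; exact hw w
    have h4 : (‖d3 G x w‖ ^ 2) ^ 2 ≤ Cb * Cm * ‖d3 G x w‖ ^ 2 := by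
      rw [hself] at hww ⊢; exact hcs.trans hww
    have hn := norm_nonneg (d3 G x w)
    have hCC : 0 ≤ Cb * Cm := mul_nonneg hCb.le (zero_le_one.trans hCm)
    by_contra hlt
    push_neg at hlt
    have h5 : ‖d3 G x w‖ ^ 2 ≤ Cb * Cm := by
      rcases (sq_nonneg ‖d3 G x w‖).eq_or_lt with h0 | h0
      · rw [← h0]; exact hCC
      · exact le_of_mul_le_mul_right (by rw [← sq]; exact h4) h0
    nlinarith [mul_nonneg (zero_le_one.trans hCm) (abs_nonneg S), h5, hlt, hn]

/-- The width of a zone. -/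
def kap : ℝ := 1 / 200

/-- The zone coordinate of colour `c`. -/
def zone (ℓ : M → ℝ) (c : ℕ) (x : M) : ℝ := Real.log (ℓ x) / kap - c

/-- The factor of the phases of colour `c`, about `1 / ℓ` where the cutoff is one. -/
def zoneScale (ℓ : M → ℝ) (c : ℕ) (x : M) : ℝ := Real.exp (-(kap * (stair (zone ℓ c x) + c)))

omit [TopologicalSpace M] [ChartedSpace R2 M] [IsManifold (𝓡 2) ∞ M] in
theorem scale_mul {ℓ : M → ℝ} {x : M} (h : 0 < ℓ x) (c : ℕ) :
    zoneScale ℓ c x * ℓ x = Real.exp (-(kap * (stair (zone ℓ c x) - zone ℓ c x))) := by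
  rw [zoneScale]
  conv_lhs => arg 2; rw [← Real.exp_log h]
  rw [← Real.exp_add]
  congr 1
  rw [zone, kap]
  ring

/-- Phases and cutoffs at the scale `ℓ`. -/
theorem exists_phases [CompactSpace M] (g : Metric M) {V : Frame M N} (hV : FrameSmooth V)
    (hspan : FrameSpans V) {G : M → R3} (hG : IsImm3 G) :
    ∃ P : ℕ, ∀ (K : ℕ) (B : ℝ), ∃ B' : ℝ, ∀ ℓ : M → ℝ, ContMDiff (𝓡 2) 𝓘(ℝ, ℝ) ∞ ℓ →
      (∀ x, 0 < ℓ x ∧ ℓ x ≤ 1) → Bd (scaled ℓ V) (K + 1) B ℓ ℓ →
      ∃ Y χ : Fin P → M → ℝ,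
        (∀ p, ContMDiff (𝓡 2) 𝓘(ℝ, ℝ) ∞ (Y p)) ∧ (∀ p, ContMDiff (𝓡 2) 𝓘(ℝ, ℝ) ∞ (χ p)) ∧
        (∀ p, Bd (scaled ℓ V) K B' (fun _ => 1) (χ p)) ∧
        (∀ p i, BdOn (scaled ℓ V) (tsupport (χ p)) K B' (fun _ => 1) (D (scaled ℓ V) i (Y p))) ∧
        ∀ x (u : TangentSpace (𝓡 2) x), g.inner x u u = 1 →
          ∃ p, χ p x = 1 ∧ ∀ v : TangentSpace (𝓡 2) x,
            |ℓ x * dR (Y p) x v - g.inner x u v| ≤ 1 / 100 * Real.sqrt (g.inner x v v) := by
  classical
  obtain ⟨C₀, hC₀, hup, hreal⟩ := exists_imm_bounds g hV hspan hG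
  obtain ⟨R₀, hR₀⟩ := exists_stair_bound
  set h : ℝ := 1 / (1000 * C₀) with hh
  have hhp : 0 < h := by positivity
  obtain ⟨t, -, htfin, htcov⟩ :=
    finite_cover_balls_of_compact (isCompact_closedBall (0 : R3) C₀) hhp
  have := htfin.fintype
  set e : Fin (Fintype.card (↥t × Fin 5)) ≃ ↥t × Fin 5 := (Fintype.equivFin _).symm with he
  refine ⟨Fintype.card (↥t × Fin 5), fun K B => ?_⟩
  obtain ⟨Ci, hCi1, hCi⟩ := exists_bdOn_inv N K B
  obtain ⟨Cs, hCs1, hCs⟩ := exists_bd_cos_sin N K (|om / kap| * (2 ^ K * Ci * max B 0))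
  obtain ⟨Cb, hCb0, hCb⟩ := exists_bdOn_comp_contDiff N K Cs
    (φ := fun z : ℝ => Real.smoothTransition (2 * z))
    (Real.smoothTransition.contDiff.comp (contDiff_const.mul contDiff_id))
  obtain ⟨Cf, hCf1, hCf⟩ := exists_scaled_of_fixed N K B ℝ
  choose cy hcy0 hcy using fun q : ↥t × Fin N =>
    exists_bd_of_contMDiff hV K (contMDiff_D hV q.2 (f := fun x => innerSL ℝ q.1.1 (G x))
      ((innerSL ℝ q.1.1).contDiff.comp_contMDiff hG.1))
  set B' := Cb + ∑ q, Real.exp (kap * |R₀|) * (2 ^ K * max B 0 * (Cf * cy q)) with hB'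
  have hB'q : ∀ q, Real.exp (kap * |R₀|) * (2 ^ K * max B 0 * (Cf * cy q)) ≤ B' := fun q =>
    le_add_of_nonneg_of_le hCb0 (Finset.single_le_sum
      (f := fun q => Real.exp (kap * |R₀|) * (2 ^ K * max B 0 * (Cf * cy q)))
      (fun q _ => by have := hcy0 q; positivity) (Finset.mem_univ q))
  refine ⟨B', fun ℓ hℓ hℓ1 hbℓ => ?_⟩
  have hW := frameSmooth_scaled hV hℓ
  have hℓne : ∀ x, ℓ x ≠ 0 := fun x => (hℓ1 x).1.ne'
  have hzone : ∀ c, ContMDiff (𝓡 2) 𝓘(ℝ, ℝ) ∞ (zone ℓ c) := fun c x => by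
    have hl : ContDiffAt ℝ ∞ (fun z : ℝ => Real.log z / kap - (c : ℝ)) (ℓ x) :=
      ((Real.contDiffAt_log.2 (hℓne x)).div_const _).sub contDiffAt_const
    exact hl.comp_contMDiffAt (hℓ x)
  have hscale : ∀ c, ContMDiff (𝓡 2) 𝓘(ℝ, ℝ) ∞ (zoneScale ℓ c) := fun c =>
    (Real.contDiff_exp.comp ((contDiff_const.mul (stair_smooth.add contDiff_const)).neg)
      ).comp_contMDiff (hzone c)
  have hy : ∀ a : ↥t, ContMDiff (𝓡 2) 𝓘(ℝ, ℝ) ∞ fun x => innerSL ℝ a.1 (G x) := fun a =>
    (innerSL ℝ a.1).contDiff.comp_contMDiff hG.1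
  have hbump : ∀ c : Fin 5, ContMDiff (𝓡 2) 𝓘(ℝ, ℝ) ∞ fun x => bump (zone ℓ c x) := fun c =>
    (Real.smoothTransition.contDiff.comp (contDiff_const.mul
      (Real.contDiff_cos.comp (contDiff_const.mul contDiff_id)))).comp_contMDiff (hzone c)
  refine ⟨fun p x => zoneScale ℓ (e p).2 x * innerSL ℝ (e p).1.1 (G x),
    fun p x => bump (zone ℓ (e p).2 x), fun p => (hscale _).mul (hy _), fun p => hbump _,
    fun p => ?_, fun p i => ?_, fun x u hu => ?_⟩
  · set c : ℕ := ((e p).2 : ℕ)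
    have hs : ContMDiff (𝓡 2) 𝓘(ℝ, ℝ) ∞ fun x => om * zone ℓ c x :=
      contMDiff_const.mul (hzone c)
    have hDs : ∀ i, Bd (scaled ℓ V) K (|om / kap| * (2 ^ K * Ci * max B 0)) (fun _ => 1)
        (D (scaled ℓ V) i fun x => om * zone ℓ c x) := fun i => by
      have hsm : ∀ y, ContMDiffAt (𝓡 2) 𝓘(ℝ, ℝ) ∞ (fun z => (ℓ z)⁻¹) y :=
        fun y => (hℓ y).inv₀ (hℓne y)
      have sDl := fun y (_ : y ∈ (Set.univ : Set M)) => contMDiff_D hW i hℓ y
      have h1 := BdOn.const_smul hW (om / kap)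
        (fun y hy => contMDiffAt_bilin (ContinuousLinearMap.mul ℝ ℝ) (hsm y) (sDl y hy))
        (BdOn.mul hW (fun y _ => hsm y) sDl
          (hCi M (scaled ℓ V) Set.univ ℓ hW (fun y _ => hℓ y) (fun y _ => (hℓ1 y).1)
            (hbℓ.mono_order K.le_succ))
          ((BdOn.deriv hbℓ i).mono_const (le_max_left B 0) fun y _ => (hℓ1 y).1.le))
      refine (h1.mono_bound fun y _ => ?_).congr fun y _ => Eventually.of_forall fun z => ?_
      · rw [inv_mul_cancel₀ (hℓne y)]
      · have hd : HasDerivAt (fun r : ℝ => om * (Real.log r / kap - (c : ℝ)))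
            (om * ((ℓ z)⁻¹ / kap)) (ℓ z) :=
          (((Real.hasDerivAt_log (hℓne z)).div_const kap).sub_const _).const_mul om
        show (om / kap) • ((ℓ z)⁻¹ * D (scaled ℓ V) i ℓ z) = _
        rw [show (fun x => om * zone ℓ c x) =
          fun x => (fun r : ℝ => om * (Real.log r / kap - (c : ℝ))) (ℓ x) from rfl,
          D_comp hd.hasFDerivAt.differentiableAt (mdiffAt_of_smoothAt (hℓ z)),
          hd.hasFDerivAt.fderiv]
        simp only [ContinuousLinearMap.toSpanSingleton_apply, smul_eq_mul]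
        ring
    have hu := hCb M (scaled ℓ V) Set.univ _ hW
      (fun y _ => Real.contDiff_cos.contDiffAt.comp_contMDiffAt (hs y))
      (hCs M (scaled ℓ V) _ hW hs hDs).1
    exact hu.mono_const (le_add_of_nonneg_right (Finset.sum_nonneg fun q _ => by
      have := hcy0 q; positivity)) fun _ _ => zero_le_one
  · intro w hw x hx
    set c : ℕ := ((e p).2 : ℕ)
    set a : ↥t := (e p).1
    have hcos := tsupport_bump_comp (hzone c).continuous hx
    have hev : ∀ᶠ z in 𝓝 x, zoneScale ℓ c z * innerSL ℝ a.1 (G z) =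
        zoneScale ℓ c x • innerSL ℝ a.1 (G z) := by
      filter_upwards [(hzone c).continuous.continuousAt.eventually
        (stair_eventually_const hcos)] with z hz
      simp only [zoneScale, hz, smul_eq_mul]
    have hev2 : D (scaled ℓ V) i (fun z => zoneScale ℓ c z * innerSL ℝ a.1 (G z)) =ᶠ[𝓝 x]
        fun z => zoneScale ℓ c x • D (scaled ℓ V) i (fun z => innerSL ℝ a.1 (G z)) z :=
      (D_congr_eventually hev).trans (Eventually.of_forall fun z =>
        D_const_smul _ (mdiffAt_of_smoothAt (hy a z)))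
    rw [DW_congr hev2 w, DW_const_smul hW _ w (contMDiff_D hW i (hy a) x), norm_smul,
      Real.norm_eq_abs, show |zoneScale ℓ c x| = zoneScale ℓ c x from abs_of_pos (Real.exp_pos _)]
    have h1 : Bd (scaled ℓ V) K (2 ^ K * max B 0 * (Cf * cy (a, i))) (fun y => ℓ y * 1)
        (D (scaled ℓ V) i fun z => innerSL ℝ a.1 (G z)) :=
      (BdOn.smul hW (fun y _ => hℓ y) (fun y _ => contMDiff_D hV i (hy a) y)
        ((hbℓ.mono_order K.le_succ).mono_const (le_max_left B 0) fun y _ => (hℓ1 y).1.le)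
        (hCf M V ℓ _ _ hV hℓ (fun y => ⟨(hℓ1 y).1.le, (hℓ1 y).2⟩) (hbℓ.mono_order K.le_succ)
          (contMDiff_D hV i (hy a)) (hcy0 (a, i)) (hcy (a, i)))).congr
        fun y _ => Eventually.of_forall fun z => (D_scaled ℓ V i _ z).symm
    have hel : zoneScale ℓ c x * ℓ x ≤ Real.exp (kap * |R₀|) := by
      rw [scale_mul (hℓ1 x).1]
      refine Real.exp_le_exp.2 ?_
      rw [← mul_neg]
      exact mul_le_mul_of_nonneg_left
        ((neg_le_abs _).trans ((hR₀ _).trans (le_abs_self _))) (by norm_num [kap])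
    refine (mul_le_mul_of_nonneg_left (h1 w hw x (Set.mem_univ x)) (Real.exp_pos _).le).trans ?_
    simp only [mul_one]
    calc zoneScale ℓ c x * (2 ^ K * max B 0 * (Cf * cy (a, i)) * ℓ x)
        = zoneScale ℓ c x * ℓ x * (2 ^ K * max B 0 * (Cf * cy (a, i))) := by ring
      _ ≤ Real.exp (kap * |R₀|) * (2 ^ K * max B 0 * (Cf * cy (a, i))) :=
          mul_le_mul_of_nonneg_right hel (by have := hcy0 (a, i); positivity)
      _ ≤ B' := hB'q _
  · obtain ⟨b, hbn, hbv⟩ := hreal x u hu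
    obtain ⟨a', ha', hba⟩ : ∃ a' ∈ t, b ∈ Metric.ball a' h := by
      simpa only [Set.mem_iUnion, exists_prop] using htcov (mem_closedBall_zero_iff.2 hbn)
    set v₀ : ℝ := Real.log (ℓ x) / kap with hv₀
    set m : ℤ := round v₀ with hm
    obtain ⟨c, n, hc5, hmn⟩ : ∃ (c : ℕ) (n : ℤ), c < 5 ∧ m = 5 * n + c :=
      ⟨(m % 5).toNat, m / 5, by omega, by omega⟩
    set r := v₀ - m with hr
    have hr2 : |r| ≤ 1 / 2 := abs_sub_round v₀
    have hz : zone ℓ c x = (n : ℝ) * 5 + r := by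
      have : (m : ℝ) = 5 * (n : ℝ) + c := by exact_mod_cast congrArg (fun z : ℤ => (z : ℝ)) hmn
      rw [zone, hr, ← hv₀, this]
      ring
    set q : ↥t × Fin 5 := (⟨a', ha'⟩, ⟨c, hc5⟩) with hq
    refine ⟨e.symm q, ?_, fun v => ?_⟩
    · show bump (zone ℓ ((e (e.symm q)).2 : ℕ) x) = 1
      rw [Equiv.apply_symm_apply]
      show bump (zone ℓ c x) = 1
      rw [hz, bump_eq_one hr2]
    · simp only [Equiv.apply_symm_apply]
      show |ℓ x * dR (fun z => zoneScale ℓ c z * innerSL ℝ a' (G z)) x v - _| ≤ _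
      have hcos : 0 ≤ Real.cos (om * zone ℓ c x) := by
        rw [hz, cos_om_int]; linarith [cos_om_of_abs_le hr2]
      have hev : (fun z => zoneScale ℓ c z * innerSL ℝ a' (G z)) =ᶠ[𝓝 x]
          fun z => (zoneScale ℓ c x • innerSL ℝ a') (G z) := by
        filter_upwards [(hzone c).continuous.continuousAt.eventually
          (stair_eventually_const hcos)] with z hz
        simp only [zoneScale, hz, smul_apply, smul_eq_mul]
      have hdR : dR (fun z => zoneScale ℓ c z * innerSL ℝ a' (G z)) x v =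
          zoneScale ℓ c x * ⟪a', d3 G x v⟫ := by
        unfold dR
        rw [hev.mfderiv_eq]
        have hcomp := (zoneScale ℓ c x • innerSL ℝ a').hasFDerivAt.hasMFDerivAt.comp x
          (mdiffAt_of_smoothAt (hG.1 x)).hasMFDerivAt
        simp only [Function.comp_def] at hcomp
        rw [hcomp.mfderiv]
        rfl
      rw [hdR]
      set s := Real.sqrt (g.inner x v v) with hs
      have hs0 : 0 ≤ s := Real.sqrt_nonneg _
      have hq' : zoneScale ℓ c x * ℓ x = Real.exp (kap * r) := by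
        rw [scale_mul (hℓ1 x).1, hz, stair_eq hr2]
        congr 1
        ring
      have hkr : |kap * r| ≤ 1 / 400 := by
        rw [abs_mul, kap, abs_of_pos (by norm_num : (0 : ℝ) < 1 / 200)]
        linarith
      have hq1 : |Real.exp (kap * r) - 1| ≤ 1 / 200 :=
        (Real.abs_exp_sub_one_le (hkr.trans (by norm_num))).trans (by linarith)
      have hg : |g.inner x u v| ≤ s := by
        refine Real.le_sqrt_of_sq_le ?_
        rw [sq_abs]
        exact metric_cs_unit g hu v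
      have hd : |⟪a' - b, d3 G x v⟫| ≤ 1 / 1000 * s := by
        refine (abs_real_inner_le_norm _ _).trans ?_
        refine (mul_le_mul (le_of_lt ?_) (hup x v) (norm_nonneg _) hhp.le).trans (le_of_eq ?_)
        · rw [norm_sub_rev]; exact mem_ball_iff_norm.1 hba
        · rw [hh, hs]; field_simp
      have hval : ℓ x * (zoneScale ℓ c x * ⟪a', d3 G x v⟫) - g.inner x u v =
          (Real.exp (kap * r) - 1) * g.inner x u v + Real.exp (kap * r) * ⟪a' - b, d3 G x v⟫ := by
        rw [← hq', inner_sub_left, hbv v]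
        ring
      rw [hval]
      refine (abs_add_le _ _).trans ?_
      rw [abs_mul, abs_mul, Real.abs_exp]
      have he2 : Real.exp (kap * r) ≤ 2 := by linarith [(abs_le.1 hq1).2]
      have h1 := mul_le_mul hq1 hg (abs_nonneg _) (by norm_num)
      have h2 := mul_le_mul he2 hd (abs_nonneg _) (by norm_num)
      linarith

end

end Vale.Agent.P205.Full.Start
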