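import Vale.Agent.P205.Full.Start.SpiralCtx
import Vale.Agent.P205.Full.Start.SpiralId

/-!
# P205 full, START A6: bounds of the ingredients of the last spiral at its own scale (helper36)
-/

open scoped Manifold ContDiff RealInnerProductSpace Topology
open Bundle Filter

set_option linter.unusedSectionVars false

namespace Vale.Agent.P205.Full.Start

variable {M : Type} [TopologicalSpace M] [ChartedSpace R2 M] [IsManifold (𝓡 2) ∞ M]
variable {N : ℕ} {ι : Type} {g : Metric M} {V : Frame M N}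
variable {E : Type} [NormedAddCommGroup E] [NormedSpace ℝ E]

namespace Ctx

variable (X : Ctx g V ι)

lemma psiD_sq_sum {p : ι} {x : M} (hx : x ∈ X.U p) :
    qS X.G V (X.S p) x = ∑ i, X.psiD p i x ^ 2 :=
  sum_dSecSq_eq (X.data p).sec_S (X.loc p) hx

lemma abs_psiD_le {p : ι} {x : M} (hx : x ∈ X.U p) (i : Fin N) :
    |X.psiD p i x| ≤ Real.sqrt (qS X.G V (X.S p) x) := by
  rw [← Real.sqrt_sq_eq_abs, X.psiD_sq_sum hx]
  exact Real.sqrt_le_sqrt (Finset.single_le_sum (f := fun j => X.psiD p j x ^ 2)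
    (fun j _ => sq_nonneg _) (Finset.mem_univ i))

lemma abs_psiD_le_u {p : ι} {x : M} (hx : x ∈ X.U p) (i : Fin N) :
    |X.psiD p i x| ≤ Real.sqrt (X.u p x) :=
  (X.abs_psiD_le hx i).trans (Real.sqrt_le_sqrt (X.qS_le_u p x))

lemma abs_DpsiD_le {p : ι} {x : M} (hx : x ∈ X.U p) (j i : Fin N) :
    |D V j (X.psiD p i) x| ≤ |X.C₀| * X.R p ^ 8 :=
  (abs_DD_lpsi_le X.frame (X.data p).sec_S (X.loc p) hx j i).trans
    (((X.data p).bd_ddS j i x).trans
      (mul_le_mul_of_nonneg_right (le_abs_self _) (pow_nonneg (X.R_pos p).le 8)))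

lemma sqrt_u_ge_inv (p : ι) (x : M) : (X.Lam p)⁻¹ ≤ Real.sqrt (X.u p x) := by
  refine le_trans ?_ (X.sqrt_u_ge p x)
  rw [inv_eq_one_div]
  exact div_le_div_of_nonneg_right (one_le_pow₀ (X.one_le_R p)) (X.Lam_pos p).le

lemma psiD_UB {K : ℕ} (hτ : ∀ k, k + 1 ≤ K → UB X.W X.U k X.tau X.tau) (i : Fin N) :
    UB X.W X.U K (fun p x => Real.sqrt (X.u p x)) (fun p => X.psiD p i) := by
  refine UB.low X.frame (fun p => X.one_le_Q p) (fun p x _ => X.tau_pos p x)
    (fun p x _ => X.Q_tau_le p x) (fun p => X.contMDiff_tau) hτ (X.pb_psiD i K)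
    (fun p x _ => Real.sqrt_nonneg _) (c := |X.C₀| + 1) (n := 2) (fun p x hx => ?_)
    (fun p w hw x hx => ?_)
  · have h1 : X.tau p x ≤ (X.Lam p)⁻¹ := by
      rw [inv_eq_one_div, le_div_iff₀ (X.Lam_pos p)]
      exact X.tau_Lam_le p x
    calc (X.Q p * X.tau p x) ^ 2 * X.Q p ^ 2
        = X.tau p x * (X.tau p x * X.Q p ^ 4) := by ring
      _ ≤ X.tau p x := mul_le_of_le_one_right (X.tau_pos p x).le (X.tau_Q_le p x (by norm_num))
      _ ≤ (X.Lam p)⁻¹ := h1
      _ ≤ Real.sqrt (X.u p x) := X.sqrt_u_ge_inv p x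
      _ ≤ _ := le_mul_of_one_le_left (Real.sqrt_nonneg _) (le_add_of_nonneg_left (abs_nonneg _))
  · rcases w with _ | ⟨j, _ | ⟨k, w⟩⟩
    · simpa using (X.abs_psiD_le_u hx i).trans
        (le_mul_of_one_le_left (Real.sqrt_nonneg _) (le_add_of_nonneg_left (abs_nonneg _)))
    · simp only [List.length_cons, List.length_nil, zero_add, pow_one, DW_cons, DW_nil,
        Real.norm_eq_abs]
      refine (mul_le_mul_of_nonneg_right (X.abs_DpsiD_le hx j i) (X.tau_pos p x).le).trans ?_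
      rw [mul_assoc]
      refine mul_le_mul (le_add_of_nonneg_right zero_le_one) ?_
        (mul_nonneg (pow_nonneg (X.R_pos p).le 8) (X.tau_pos p x).le) (by positivity)
      have hs := X.sqrt_u_pos p x
      have := X.u_ge p x
      have hL := X.Lam_pos p
      rw [tau, mul_inv, mul_comm (X.Lam p ^ 2)⁻¹, ← mul_assoc, ← div_eq_mul_inv,
        ← div_eq_mul_inv, div_div, div_le_iff₀ (by positivity)]
      rw [div_le_iff₀ (by positivity)] at this
      nlinarith [Real.mul_self_sqrt (X.u_pos p x).le]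
    · simp at hw

lemma u_UB {K : ℕ} (hτ : ∀ k, k + 1 ≤ K → UB X.W X.U k X.tau X.tau) :
    UB X.W X.U K X.u X.u := by
  have hW : ∀ p, FrameSmooth (X.W p) := fun p => X.frameSmooth_W
  have h1 : UB X.W X.U K X.u (fun p y => ∑ i, X.psiD p i y * X.psiD p i y) :=
    UB.sum hW fun i => (UB.mul hW (X.psiD_UB hτ i) (X.psiD_UB hτ i)).mono zero_le_one
      fun p x _ => by rw [one_mul, Real.mul_self_sqrt (X.u_pos p x).le]
  have h2 : UB X.W X.U K X.u (fun p (_ : M) => X.R p ^ 8 / X.Lam p ^ 2) :=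
    (UB.const hW _).mono zero_le_one fun p x _ => by
      rw [one_mul, Real.norm_eq_abs, abs_of_pos (div_pos (pow_pos (X.R_pos p) 8)
        (pow_pos (X.Lam_pos p) 2))]
      exact X.u_ge p x
  refine (h1.add hW h2).congr (fun p => X.contMDiff_u) fun p x hx => ?_
  filter_upwards [(X.loc p).isOpen.mem_nhds hx] with y hy
  simp only [u, X.psiD_sq_sum hy, pow_two]

lemma tau_UB (K : ℕ) : UB X.W X.U K X.tau X.tau := by
  induction K using Nat.strong_induction_on with
  | _ K ih =>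
    obtain ⟨-, B, -, hb⟩ := X.u_UB (K := K) fun k hk => ih k (by omega)
    obtain ⟨C, hC, hc⟩ := exists_bdOn_rpow N K B (-(1 / 2))
    refine ⟨fun p => X.contMDiff_tau, C, zero_le_one.trans hC, fun p => ?_⟩
    have hs : ∀ y, ContMDiffAt (𝓡 2) 𝓘(ℝ, ℝ) ∞ (fun z => X.u p z ^ (-(1 / 2) : ℝ)) y :=
      fun y => ContDiffAt.comp_contMDiffAt
        (Real.contDiffAt_rpow_const_of_ne (X.u_pos p y).ne') (X.contMDiff_u y)
    have he : ∀ y, X.tau p y = (X.Lam p ^ 2)⁻¹ * X.u p y ^ (-(1 / 2) : ℝ) := fun y => by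
      rw [tau, mul_inv, Real.rpow_neg (X.u_pos p y).le, Real.sqrt_eq_rpow]
    have h := hc M (X.W p) (X.U p) (X.u p) X.frameSmooth_W (fun y _ => X.contMDiff_u y)
      (fun y _ => X.u_pos p y) (hb p)
    refine ((BdOn.const_smul X.frameSmooth_W (X.Lam p ^ 2)⁻¹ (fun y _ => hs y) h).mono_bound
      fun y _ => le_of_eq ?_).congr fun y _ => Eventually.of_forall fun z => (he z).symm
    rw [abs_of_pos (inv_pos.2 (pow_pos (X.Lam_pos p) 2)), he]
    ring

lemma psiD_bd (K : ℕ) (i : Fin N) :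
    UB X.W X.U K (fun p x => Real.sqrt (X.u p x)) (fun p => X.psiD p i) :=
  X.psiD_UB (fun k _ => X.tau_UB k) i

lemma u_bd (K : ℕ) : UB X.W X.U K X.u X.u := X.u_UB fun k _ => X.tau_UB k

/-! ## Passage to the scale of the spiral -/

variable {X} {e : ℕ} {f : ι → M → E} {μ : ι → M → ℝ} {c : ℝ}

lemma scale0 (hf : X.PB e f) (hc : 0 ≤ c) (hμ : ∀ p, ∀ x ∈ X.U p, 0 ≤ μ p x)
    (h : ∀ p, ∀ x ∈ X.U p, X.Q p ^ e ≤ c * μ p x) (K : ℕ) : UB X.W X.U K μ f :=
  UB.low X.frame (fun p => X.one_le_Q p) (fun p x _ => X.tau_pos p x)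
    (fun p x _ => X.Q_tau_le p x) (fun p => X.contMDiff_tau) (fun k _ => X.tau_UB k) (hf K) hμ
    (c := c) (n := 0) (fun p x hx => by simpa using h p x hx) (fun p w hw => absurd hw (by omega))

lemma scale1 (hf : X.PB e f) (he : e ≤ 6) (hc : 0 ≤ c) {c' : ℝ} (hc' : 0 ≤ c')
    (hμ : ∀ p, ∀ x ∈ X.U p, 0 ≤ μ p x) (h1 : ∀ p, ∀ x ∈ X.U p, 1 ≤ c' * μ p x)
    (h : ∀ p, ∀ x ∈ X.U p, ‖f p x‖ ≤ c * μ p x) (K : ℕ) : UB X.W X.U K μ f := by
  refine UB.low X.frame (fun p => X.one_le_Q p) (fun p x _ => X.tau_pos p x)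
    (fun p x _ => X.Q_tau_le p x) (fun p => X.contMDiff_tau) (fun k _ => X.tau_UB k) (hf K) hμ
    (c := c + c') (n := 1) (fun p x hx => ?_) (fun p w hw x hx => ?_)
  · calc (X.Q p * X.tau p x) ^ 1 * X.Q p ^ e = X.tau p x * X.Q p ^ (e + 1) := by ring
      _ ≤ 1 := X.tau_Q_le p x (by omega)
      _ ≤ c' * μ p x := h1 p x hx
      _ ≤ _ := mul_le_mul_of_nonneg_right (le_add_of_nonneg_left hc) (hμ p x hx)
  · obtain rfl : w = [] := List.length_eq_zero_iff.1 (by omega)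
    simpa using (h p x hx).trans
      (mul_le_mul_of_nonneg_right (le_add_of_nonneg_right hc') (hμ p x hx))

lemma scale3 (hf : X.PB e f) (he : e ≤ 4) (hc : 0 ≤ c)
    (hμ : ∀ p, ∀ x ∈ X.U p, 0 ≤ μ p x) (hμ1 : ∀ p, ∀ x ∈ X.U p, 1 ≤ X.Lam p ^ 2 * μ p x)
    (h0 : ∀ p, ∀ x ∈ X.U p, ‖f p x‖ ≤ c * μ p x)
    (h1 : ∀ p j, ∀ x ∈ X.U p, ‖D V j (f p) x‖ * X.tau p x ≤ c * μ p x)
    (h2 : ∀ p j l, ∀ x ∈ X.U p, ‖D V j (D V l (f p)) x‖ * X.tau p x ^ 2 ≤ c * μ p x) (K : ℕ) :
    UB X.W X.U K μ f := by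
  refine UB.low X.frame (fun p => X.one_le_Q p) (fun p x _ => X.tau_pos p x)
    (fun p x _ => X.Q_tau_le p x) (fun p => X.contMDiff_tau) (fun k _ => X.tau_UB k) (hf K) hμ
    (c := c + 1) (n := 3) (fun p x hx => ?_) (fun p w hw x hx => ?_)
  · calc (X.Q p * X.tau p x) ^ 3 * X.Q p ^ e
        = X.tau p x ^ 2 * (X.tau p x * X.Q p ^ (e + 3)) := by ring
      _ ≤ X.tau p x ^ 2 := mul_le_of_le_one_right (sq_nonneg _) (X.tau_Q_le p x (by omega))
      _ ≤ X.tau p x ^ 2 * (X.Lam p ^ 2 * μ p x) :=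
          le_mul_of_one_le_right (sq_nonneg _) (hμ1 p x hx)
      _ ≤ 1 * μ p x := by
          rw [← mul_assoc]
          exact mul_le_mul_of_nonneg_right (X.tau_sq_le p x) (hμ p x hx)
      _ ≤ _ := mul_le_mul_of_nonneg_right (le_add_of_nonneg_left hc) (hμ p x hx)
  · have hcc : c * μ p x ≤ (c + 1) * μ p x :=
      mul_le_mul_of_nonneg_right (le_add_of_nonneg_right zero_le_one) (hμ p x hx)
    rcases w with _ | ⟨j, _ | ⟨l, _ | ⟨m, w⟩⟩⟩
    · simpa using (h0 p x hx).trans hcc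
    · simpa [DW_cons] using (h1 p j x hx).trans hcc
    · simpa [DW_cons] using (h2 p j l x hx).trans hcc
    · simp only [List.length_cons] at hw; omega

variable (X)

lemma outer_small {p : ι} {x : M} {e j : ℕ} (he : e ≤ 7) (hj : 1 ≤ j)
    (h : X.η p ^ X.c ≤ X.sq p x) :
    X.Q p ^ e * X.tau p x ^ j ≤ 2 * (X.η p * X.sig p x) := by
  have hη := X.η_pos p
  have ht := X.tau_pos p x
  have hQ := X.Q_pos p
  have ht1 : X.tau p x ≤ 1 :=
    le_trans (le_mul_of_one_le_right ht.le (X.one_le_Lam p)) (X.tau_Lam_le p x)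
  calc X.Q p ^ e * X.tau p x ^ j ≤ X.Q p ^ e * X.tau p x :=
        mul_le_mul_of_nonneg_left (pow_le_of_le_one ht.le ht1 (by omega)) (by positivity)
    _ = X.η p ^ (X.c + 1) * (X.tau p x * (X.Q p ^ e * X.R p ^ (X.c + 1))) := by
        linear_combination (-(X.Q p ^ e * X.tau p x)) * X.eta_pow_R p (X.c + 1)
    _ ≤ X.η p ^ (X.c + 1) :=
        mul_le_of_le_one_right (by positivity) (X.tau_QR_le p x he (by omega))
    _ = X.η p * X.η p ^ X.c := by rw [pow_succ']
    _ ≤ X.η p * (2 * X.sig p x) :=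
        mul_le_mul_of_nonneg_left (h.trans (X.sq_le_sig p x)) hη.le
    _ = _ := by ring

lemma one_le_Lam_eta_sig (p : ι) (x : M) : 1 ≤ X.Lam p ^ 2 * (X.η p * X.sig p x) :=
  le_of_le_of_eq (X.one_le_m p x) (by simp only [m]; ring)

lemma one_le_Lam_sig (p : ι) (x : M) : 1 ≤ X.Lam p ^ 2 * X.sig p x :=
  (X.one_le_Lam_eta_sig p x).trans (mul_le_mul_of_nonneg_left
    (mul_le_of_le_one_left (X.sig_pos p x).le ((X.η_le p).trans (by norm_num))) (sq_nonneg _))

/-! ## The ingredients -/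

/-- `D V i` of the base map. -/
lemma DF0_bd (i : Fin N) (K : ℕ) :
    UB X.W X.U K (fun _ _ => 1) (fun p => D V i (X.F0 p)) :=
  scale1 (X.pb_F0.deriv i) (by norm_num) (abs_nonneg X.C₀) zero_le_one
    (fun _ _ _ => zero_le_one) (fun _ _ _ => by norm_num)
    (fun p x _ => by rw [mul_one]; exact ((X.data p).bd_dF i x).trans (le_abs_self _)) K

lemma n1_bd (K : ℕ) : UB X.W X.U K (fun _ _ => 1) X.n1 :=
  scale1 X.pb_n1 (by norm_num) zero_le_one zero_le_one (fun _ _ _ => zero_le_one)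
    (fun _ _ _ => by norm_num) (fun p x _ => by rw [mul_one]; exact ((X.data p).nd.unit_n1 x).le) K

lemma n2_bd (K : ℕ) : UB X.W X.U K (fun _ _ => 1) X.n2 :=
  scale1 X.pb_n2 (by norm_num) zero_le_one zero_le_one (fun _ _ _ => zero_le_one)
    (fun _ _ _ => by norm_num) (fun p x hx => by
      rw [mul_one]; exact (norm_oddN (X.data p).nd (X.loc p) hx).le) K

/-- Zero order bound of a quantity bounded in the core. -/
lemma core_scale {f : ι → M → E} {e : ℕ} (hf : X.PB e f) (he : e ≤ 6) {d : ℝ}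
    (h : ∀ p, ∀ x ∈ X.U p,
      InCore g X.G V (X.F0 p) (X.data p).nd (X.S p) (X.sq p) (X.η p) X.C₀ x → ‖f p x‖ ≤ d)
    (K : ℕ) : UB X.W X.U K X.m f := by
  obtain ⟨c, hc, hb⟩ := hf.point 0
  refine scale1 hf he (c := 2 * c + max d 0) (by positivity) zero_le_one
    (fun p x _ => X.m_nonneg p x) (fun p x _ => by rw [one_mul]; exact X.one_le_m p x)
    (fun p x hx => ?_) K
  have hm := X.m_nonneg p x
  rcases (X.data p).region x with h' | h'
  · have := hb p [] le_rfl x hx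
    simp only [DW_nil, List.length_nil, zero_add] at this
    refine this.trans ((mul_le_mul_of_nonneg_left (X.outer_m p x (by omega) h'.2) hc).trans ?_)
    nlinarith [mul_nonneg (le_max_right d 0) hm]
  · refine (h p x hx h').trans ((le_max_left d 0).trans ?_)
    nlinarith [mul_le_mul_of_nonneg_left (X.one_le_m p x) (le_max_right d 0), mul_nonneg hc hm]

lemma ddF0_bd (i k : Fin N) (K : ℕ) :
    UB X.W X.U K X.m (fun p => D V i (D V k (X.F0 p))) :=
  X.core_scale ((X.pb_F0.deriv k).deriv i) (by norm_num) (fun p x _ h => h.ddF i k) K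

lemma dn1_bd (i : Fin N) (K : ℕ) : UB X.W X.U K X.m (fun p => D V i (X.n1 p)) :=
  X.core_scale (X.pb_n1.deriv i) (by norm_num) (fun p x _ h => h.dn1 i) K

lemma dn2_bd (i : Fin N) (K : ℕ) : UB X.W X.U K X.m (fun p => D V i (X.n2 p)) := by
  obtain ⟨B, hB, hb⟩ := X.νbd 1
  refine X.core_scale (X.pb_n2.deriv i) (by norm_num) (d := |X.C₀| + B) (fun p x hx h => ?_) K
  have hO := (X.data p).nd.smooth_O
  have hν := (X.loc p).smooth
  show ‖D V i (fun y => (ContinuousLinearMap.id ℝ (R3 →L[ℝ] R4)) ((X.data p).nd.O y) (X.ν p y)) x‖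
    ≤ _
  rw [D_bilin (ContinuousLinearMap.id ℝ (R3 →L[ℝ] R4)) (mdiffAt_of_smoothAt (hO x))
    (mdiffAt_of_smoothAt (hν x))]
  refine (norm_add_le _ _).trans (add_le_add ?_ ?_)
  · refine (ContinuousLinearMap.le_opNorm _ _).trans ?_
    rw [((X.loc p).spec x hx).1, mul_one]
    exact (h.dO i).trans (le_abs_self _)
  · show ‖(X.data p).nd.O x (D V i (X.ν p) x)‖ ≤ B
    rw [(X.data p).nd.iso_O]
    refine (Submodule.norm_starProjection_apply_le _ _).trans ?_
    simpa [DW_cons] using hb p [i] le_rfl x hx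

lemma ddn1_bd (i k : Fin N) (K : ℕ) :
    UB X.W X.U K (fun p _ => X.Lam p) (fun p => D V i (D V k (X.n1 p))) :=
  scale0 ((X.pb_n1.deriv k).deriv i) zero_le_one (fun p _ _ => (X.Lam_pos p).le)
    (fun p _ _ => by rw [one_mul]; exact X.Q_le p _ (by norm_num)) K

lemma ddn2_bd (i k : Fin N) (K : ℕ) :
    UB X.W X.U K (fun p _ => X.Lam p) (fun p => D V i (D V k (X.n2 p))) :=
  scale0 ((X.pb_n2.deriv k).deriv i) zero_le_one (fun p _ _ => (X.Lam_pos p).le)
    (fun p _ _ => by rw [one_mul]; exact X.Q_le p _ (by norm_num)) K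

lemma R8_le_Lam_u (p : ι) (x : M) : X.R p ^ 8 ≤ X.Lam p ^ 2 * X.u p x := by
  have := X.u_ge p x
  rw [div_le_iff₀ (pow_pos (X.Lam_pos p) 2)] at this
  linarith

lemma one_le_Lam_u (p : ι) (x : M) : 1 ≤ X.Lam p ^ 2 * X.u p x :=
  (one_le_pow₀ (X.one_le_R p)).trans (X.R8_le_Lam_u p x)

lemma ddpsi_bd (i k : Fin N) (K : ℕ) :
    UB X.W X.U K (fun p x => X.Lam p ^ 2 * X.u p x) (fun p => D V i (X.psiD p k)) :=
  scale1 ((X.pb_psiD k).deriv i) (by norm_num) (abs_nonneg X.C₀) zero_le_one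
    (fun p x _ => mul_nonneg (sq_nonneg _) (X.u_pos p x).le)
    (fun p x _ => by rw [one_mul]; exact X.one_le_Lam_u p x)
    (fun p x hx => (X.abs_DpsiD_le hx i k).trans
      (mul_le_mul_of_nonneg_left (X.R8_le_Lam_u p x) (abs_nonneg _))) K

lemma tau_sqrt_qS (p : ι) (x : M) :
    X.Lam p ^ 2 * (Real.sqrt (qS X.G V (X.S p) x) * X.tau p x) ≤ 1 := by
  have := X.tau_pos p x
  have := X.Lam_pos p
  calc X.Lam p ^ 2 * (Real.sqrt (qS X.G V (X.S p) x) * X.tau p x)
      ≤ X.Lam p ^ 2 * (Real.sqrt (X.u p x) * X.tau p x) := by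
        gcongr; exact X.qS_le_u p x
    _ = X.tau p x * (X.Lam p ^ 2 * Real.sqrt (X.u p x)) := by ring
    _ = 1 := X.tau_mul_sqrt p x

lemma of_Lam {p : ι} {r μ : ℝ} (hr : X.Lam p ^ 2 * r ≤ 1) (hμ : 1 ≤ X.Lam p ^ 2 * μ) : r ≤ μ :=
  le_of_mul_le_mul_left (hr.trans hμ) (pow_pos (X.Lam_pos p) 2)

lemma sig_bd (K : ℕ) : UB X.W X.U K X.sig X.sig := by
  have hp : X.PB 1 X.sig :=
    ((PB.of_const X (r := X.s0) zero_le_one fun p => by
        rw [abs_of_pos (X.s0_pos p)]; linarith [X.s0_le p]).mono (Nat.zero_le 1)).add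
      ((PB.mul (PB.of_const X (r := fun p => 1 - X.s0 p) zero_le_one fun p => by
        rw [abs_of_nonneg (by linarith [X.s0_le p])]; linarith [X.s0_pos p]) X.pb_sq).mono le_rfl)
  have hd : ∀ p j x, D V j (X.sig p) x = (1 - X.s0 p) • D V j (X.sq p) x := fun p j x => by
    have hs : ContMDiffAt (𝓡 2) 𝓘(ℝ, ℝ) ∞ (X.sq p) x := (X.data p).smooth_sq x
    show D V j (fun y => X.s0 p + (1 - X.s0 p) • X.sq p y) x = _
    have hm : MDifferentiableAt (𝓡 2) 𝓘(ℝ, ℝ) (fun y => (1 - X.s0 p) • X.sq p y) x :=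
      mdiffAt_of_smoothAt (ContMDiffAt.smul (contMDiffAt_const : ContMDiffAt (𝓡 2) 𝓘(ℝ, ℝ) ∞
        (fun _ : M => 1 - X.s0 p) x) hs)
    rw [D_add mdifferentiableAt_const hm,
      D_const, zero_add, D_const_smul _ (mdiffAt_of_smoothAt hs)]
  have h1s : ∀ p, |1 - X.s0 p| ≤ 1 := fun p => by
    rw [abs_of_nonneg (by linarith [X.s0_le p])]; linarith [X.s0_pos p]
  refine scale3 hp (by norm_num) (c := |X.C₀| + 1) (by positivity)
    (fun p x _ => (X.sig_pos p x).le) (fun p x _ => X.one_le_Lam_sig p x) ?_ ?_ ?_ K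
  · intro p x _
    rw [Real.norm_eq_abs, abs_of_pos (X.sig_pos p x)]
    exact le_mul_of_one_le_left (X.sig_pos p x).le (le_add_of_nonneg_left (abs_nonneg _))
  · intro p j x _
    have hds : |D V j (X.sq p) x| ≤ |X.C₀| * Real.sqrt (qS X.G V (X.S p) x) :=
      ((X.data p).bd_dsq j x).trans
        (mul_le_mul_of_nonneg_right (le_abs_self _) (Real.sqrt_nonneg _))
    rw [hd, norm_smul, Real.norm_eq_abs, Real.norm_eq_abs]
    calc |1 - X.s0 p| * |D V j (X.sq p) x| * X.tau p x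
        ≤ 1 * (|X.C₀| * Real.sqrt (qS X.G V (X.S p) x)) * X.tau p x :=
          mul_le_mul_of_nonneg_right (mul_le_mul (h1s p) hds (abs_nonneg _) zero_le_one)
            (X.tau_pos p x).le
      _ = |X.C₀| * (Real.sqrt (qS X.G V (X.S p) x) * X.tau p x) := by ring
      _ ≤ |X.C₀| * X.sig p x := mul_le_mul_of_nonneg_left
          (X.of_Lam (X.tau_sqrt_qS p x) (X.one_le_Lam_sig p x)) (abs_nonneg _)
      _ ≤ _ := mul_le_mul_of_nonneg_right (le_add_of_nonneg_right zero_le_one)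
          (X.sig_pos p x).le
  · intro p j l x _
    have hdd : D V j (D V l (X.sig p)) x = (1 - X.s0 p) • D V j (D V l (X.sq p)) x := by
      rw [funext (hd p l), D_const_smul _
        (mdiffAt_of_smoothAt (contMDiff_D X.frame l
          (show ContMDiff (𝓡 2) 𝓘(ℝ, ℝ) ∞ (X.sq p) from (X.data p).smooth_sq) x))]
    have hds : |D V j (D V l (X.sq p)) x| ≤ |X.C₀| :=
      ((X.data p).bd_ddsq j l x).trans (le_abs_self _)
    rw [hdd, norm_smul, Real.norm_eq_abs, Real.norm_eq_abs]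
    calc |1 - X.s0 p| * |D V j (D V l (X.sq p)) x| * X.tau p x ^ 2
        ≤ 1 * |X.C₀| * X.tau p x ^ 2 :=
          mul_le_mul_of_nonneg_right (mul_le_mul (h1s p) hds (abs_nonneg _) zero_le_one)
            (sq_nonneg _)
      _ ≤ |X.C₀| * X.sig p x := by
          rw [one_mul]
          exact mul_le_mul_of_nonneg_left (X.of_Lam
            (by rw [mul_comm]; exact X.tau_sq_le p x) (X.one_le_Lam_sig p x)) (abs_nonneg _)
      _ ≤ _ := mul_le_mul_of_nonneg_right (le_add_of_nonneg_right zero_le_one)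
          (X.sig_pos p x).le

lemma pb_res (i k : Fin N) : X.PB 4 (fun p => X.res p i k) := by
  have hg : X.PB 1 (fun p y => gV g V i k y * (1 - X.sq p y)) :=
    (PB.mul (X.pb_gV i k) (((PB.of_const X (r := fun _ => (1 : ℝ)) zero_le_one
      fun _ => by simp).mono (Nat.zero_le 1)).sub X.pb_sq)).mono le_rfl
  have h2 : X.PB 4 (fun p y => X.psiD p i y * X.psiD p k y) :=
    PB.mul (X.pb_psiD i) (X.pb_psiD k)
  have h3 : X.PB 4 (fun p y => ⟪D V i (X.F0 p) y, D V k (X.F0 p) y⟫) :=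
    PB.inner (X.pb_F0.deriv i) (X.pb_F0.deriv k)
  intro K
  refine ((((hg.mono (by norm_num : 1 ≤ 4)).sub h2).sub h3) K).congr (fun p => ?_) fun p x hx => ?_
  · have h : ∀ j, ContMDiff (𝓡 2) 𝓘(ℝ, R3) ∞ (dSec X.G V (X.S p) j) := fun j x =>
      contMDiffAt_bilin (ContinuousLinearMap.id ℝ (R3 →L[ℝ] R3)) (Sect.contMDiff_nLine X.imm x)
        (contMDiff_D X.frame j (X.data p).sec_S.1 x)
    exact (((contMDiff_gV g X.frame i k).mul (contMDiff_const.sub (X.data p).smooth_sq)).sub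
      (fun x => contMDiffAt_inner_fun (h i x) (h k x))).sub
      (contMDiff_pullV X.frame (X.data p).smooth_F i k)
  · filter_upwards [(X.loc p).isOpen.mem_nhds hx] with y hy
    simp only [res, baseRes, psiD, psi, S, dSecSq_eq (X.data p).sec_S (X.loc p) hy]
    rfl

lemma res_bd (i k : Fin N) (K : ℕ) :
    UB X.W X.U K (fun p x => X.η p * X.sig p x) (fun p => X.res p i k) := by
  obtain ⟨c, hc, hb⟩ := (X.pb_res i k).point 2
  have hes : ∀ p x, 0 ≤ X.η p * X.sig p x :=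
    fun p x => mul_nonneg (X.η_pos p).le (X.sig_pos p x).le
  refine scale3 (X.pb_res i k) le_rfl (c := 2 * |X.C₀| + 2 * c) (by positivity)
    (fun p x _ => hes p x) (fun p x _ => X.one_le_Lam_eta_sig p x) ?_ ?_ ?_ K
  · intro p x _
    refine ((X.data p).res_le i k x).trans ?_
    calc X.C₀ * X.η p * X.sq p x ≤ |X.C₀| * X.η p * (2 * X.sig p x) := by
          have := X.η_pos p
          exact mul_le_mul (mul_le_mul_of_nonneg_right (le_abs_self _) this.le) (X.sq_le_sig p x)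
            (X.sq_nonneg' p x) (by positivity)
      _ ≤ _ := by nlinarith [mul_nonneg hc (hes p x)]
  · intro p j x hx
    have h1 := hb p [j] (by simp) x hx
    simp only [DW_cons, DW_nil, List.length_cons, List.length_nil, zero_add, Nat.reduceAdd] at h1
    have ht := (X.tau_pos p x).le
    rcases (X.data p).region x with h | h
    · refine (mul_le_mul_of_nonneg_right h1 ht).trans ?_
      have := X.outer_small (x := x) (e := 5) (j := 1) (by norm_num) le_rfl h.2
      rw [pow_one] at this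
      nlinarith [mul_le_mul_of_nonneg_left this hc, mul_nonneg (abs_nonneg X.C₀) (hes p x)]
    · rw [Real.norm_eq_abs]
      refine (mul_le_mul_of_nonneg_right (h.dres i j k) ht).trans ?_
      have := X.of_Lam (X.tau_sqrt_qS p x) (X.one_le_Lam_eta_sig p x)
      calc X.C₀ * Real.sqrt (qS X.G V (X.S p) x) * X.tau p x
          ≤ |X.C₀| * (Real.sqrt (qS X.G V (X.S p) x) * X.tau p x) := by
            rw [mul_assoc]
            exact mul_le_mul_of_nonneg_right (le_abs_self _)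
              (mul_nonneg (Real.sqrt_nonneg _) ht)
        _ ≤ _ := by
            nlinarith [mul_le_mul_of_nonneg_left this (abs_nonneg X.C₀), mul_nonneg hc (hes p x),
              mul_nonneg (abs_nonneg X.C₀) (hes p x)]
  · intro p j l x hx
    have h1 := hb p [j, l] (by simp) x hx
    simp only [DW_cons, DW_nil, List.length_cons, List.length_nil, zero_add, Nat.reduceAdd] at h1
    rcases (X.data p).region x with h | h
    · refine (mul_le_mul_of_nonneg_right h1 (sq_nonneg _)).trans ?_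
      have := X.outer_small (x := x) (e := 6) (j := 2) (by norm_num) one_le_two h.2
      nlinarith [mul_le_mul_of_nonneg_left this hc, mul_nonneg (abs_nonneg X.C₀) (hes p x)]
    · rw [Real.norm_eq_abs]
      refine (mul_le_mul_of_nonneg_right ((h.ddres i j l k).trans (le_abs_self _))
        (sq_nonneg _)).trans ?_
      have : X.tau p x ^ 2 ≤ X.η p * X.sig p x :=
        X.of_Lam (by rw [mul_comm]; exact X.tau_sq_le p x) (X.one_le_Lam_eta_sig p x)
      nlinarith [mul_le_mul_of_nonneg_left this (abs_nonneg X.C₀), mul_nonneg hc (hes p x),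
        mul_nonneg (abs_nonneg X.C₀) (hes p x)]

end Ctx

end Vale.Agent.P205.Full.Start
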