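import Vale.Agent.P205.Full.Start.Interface

/-!
# P205 full, START A6: definitions for the last spiral (helper36)

Near a point the section is `ψ • ν` for a unit normal `ν` of the base immersion in `ℝ³`; the two
rotating unit fields are `eFld = cos Φ n1 + sin Φ n2` and `uFld = -sin Φ n1 + cos Φ n2`, with
`Φ = Lam ψ`.
-/

open scoped Manifold ContDiff RealInnerProductSpace
open Bundle

namespace Vale.Agent.P205.Full.Start

variable {M : Type} [TopologicalSpace M] [ChartedSpace R2 M] [IsManifold (𝓡 2) ∞ M]
variable {N : ℕ} {G : M → R3} {F : M → R4}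

/-- A local unit normal, extended smoothly to the whole surface. -/
structure LocNormal (G : M → R3) (U : Set M) (ν : M → R3) : Prop where
  isOpen : IsOpen U
  smooth : ContMDiff (𝓡 2) 𝓘(ℝ, R3) ∞ ν
  spec : ∀ y ∈ U, ‖ν y‖ = 1 ∧ ∀ v, nLine G y v = ⟪ν y, v⟫ • ν y

/-- Local expression of a section. -/
noncomputable def lpsi (S ν : M → R3) : M → ℝ := fun y => ⟪ν y, S y⟫

/-- Local expression of the odd normal. -/
noncomputable def oddN (nd : NormalData G F) (ν : M → R3) : M → R4 := fun y => nd.O y (ν y)

/-- The map after the last spiral, scaled by `α`. -/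
noncomputable def spiralMap (nd : NormalData G F) (S : M → R3) (α Lam : ℝ) : M → R4 :=
  fun x => α • (F x + Lam⁻¹ • spin nd (fun y => Lam • S y) x)

/-- The rotating unit normal. -/
noncomputable def eFld (nd : NormalData G F) (S ν : M → R3) (Lam : ℝ) : M → R4 :=
  fun y => Real.cos (Lam * lpsi S ν y) • nd.n1 y + Real.sin (Lam * lpsi S ν y) • oddN nd ν y

/-- The derivative of `eFld` in the phase. -/
noncomputable def uFld (nd : NormalData G F) (S ν : M → R3) (Lam : ℝ) : M → R4 :=
  fun y => -Real.sin (Lam * lpsi S ν y) • nd.n1 y + Real.cos (Lam * lpsi S ν y) • oddN nd ν y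

/-- The part of the derivative of `eFld` coming from the normal data. -/
noncomputable def omFld (V : Frame M N) (nd : NormalData G F) (S ν : M → R3) (Lam : ℝ)
    (i : Fin N) : M → R4 :=
  fun y => Real.cos (Lam * lpsi S ν y) • D V i nd.n1 y
    + Real.sin (Lam * lpsi S ν y) • D V i (oddN nd ν) y

end Vale.Agent.P205.Full.Start
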