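import Vale.Agent.P205.Full.Start.UB
import Vale.Agent.P205.Full.Start.Data
import Vale.Agent.P205.Full.Start.SpiralDefs
import Vale.Agent.P205.Full.Start.NormalSmooth
import Vale.Agent.P205.Full.Stage.Calculus

/-!
# P205 full, START A6: the parameters of the last spiral (helper36)

A family of `BaseData` indexed by `ι` with one normal chart for each index; all the scalar
parameters are monomials in `η`: `R = 1/η`, `Q = R^(a+1)`, `Λ = R^b`, frequency `Λ²`.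
-/

open scoped Manifold ContDiff RealInnerProductSpace Topology
open Bundle Filter

set_option linter.unusedSectionVars false

namespace Vale.Agent.P205.Full.Start

variable {M : Type} [TopologicalSpace M] [ChartedSpace R2 M] [IsManifold (𝓡 2) ∞ M]
variable {N : ℕ} {ι : Type} {g : Metric M} {V : Frame M N}

/-- The setting of the last spiral. -/
structure Ctx (g : Metric M) (V : Frame M N) (ι : Type) where
  G : M → R3
  a : ℕ
  c : ℕ
  C₀ : ℝ
  C : ℕ → ℝ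
  η : ι → ℝ
  η_pos : ∀ p, 0 < η p
  η_le : ∀ p, η p ≤ 1 / 2
  U : ι → Set M
  ν : ι → M → R3
  loc : ∀ p, LocNormal G (U p) (ν p)
  νbd : ∀ K, ∃ B : ℝ, 0 ≤ B ∧ ∀ p, BdOn V (U p) K B (fun _ => 1) (ν p)
  imm : IsImm3 G
  frame : FrameSmooth V
  gbd : ∀ K, ∃ B : ℝ, 0 ≤ B ∧ ∀ i k, Bd V K B (fun _ => 1) (gV g V i k)
  data : ∀ p, BaseData g G V (η p) a c C₀ C

namespace Ctx

variable (X : Ctx g V ι) (p : ι)

noncomputable def R : ℝ := (X.η p)⁻¹
noncomputable def Q : ℝ := X.R p ^ (X.a + 1)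
/-- The exponent of the square root of the frequency. -/
def b : ℕ := 7 * (X.a + 1) + X.c + 12
noncomputable def Lam : ℝ := X.R p ^ X.b
noncomputable def F0 : M → R4 := (X.data p).F
noncomputable def S : M → R3 := (X.data p).S
noncomputable def sq : M → ℝ := (X.data p).sq
noncomputable def n1 : M → R4 := (X.data p).nd.n1
noncomputable def n2 : M → R4 := oddN (X.data p).nd (X.ν p)
noncomputable def psi : M → ℝ := lpsi (X.S p) (X.ν p)
noncomputable def psiD (i : Fin N) : M → ℝ := D V i (X.psi p)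
noncomputable def u : M → ℝ := fun x => qS X.G V (X.S p) x + X.R p ^ 8 / X.Lam p ^ 2
noncomputable def tau : M → ℝ := fun x => (X.Lam p ^ 2 * Real.sqrt (X.u p x))⁻¹
noncomputable def s0 : ℝ := X.R p ^ 2 / X.Lam p ^ 2
noncomputable def sig : M → ℝ := fun x => X.s0 p + (1 - X.s0 p) * X.sq p x
/-- The weight of the quantities that are bounded in the core. -/
noncomputable def m : M → ℝ := fun x => X.η p * X.sig p x * X.Lam p ^ 2
noncomputable def res (i k : Fin N) : M → ℝ := baseRes g X.G V (X.F0 p) (X.S p) (X.sq p) i k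

/-- The frame for monomial bounds. -/
noncomputable def Vq : Frame M N := scaled (fun _ => (X.Q p)⁻¹) V
/-- The frame of the spiral. -/
noncomputable def W : Frame M N := scaled (X.tau p) V

lemma two_le_R : 2 ≤ X.R p := by
  rw [R, le_inv_comm₀ two_pos (X.η_pos p)]
  simpa [one_div] using X.η_le p

lemma one_le_R : 1 ≤ X.R p := one_le_two.trans (X.two_le_R p)
lemma R_pos : 0 < X.R p := two_pos.trans_le (X.two_le_R p)
lemma eta_R : X.η p * X.R p = 1 := mul_inv_cancel₀ (X.η_pos p).ne'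
lemma eta_pow_R (n : ℕ) : X.η p ^ n * X.R p ^ n = 1 := by rw [← mul_pow, X.eta_R, one_pow]
lemma one_le_Q : 1 ≤ X.Q p := one_le_pow₀ (X.one_le_R p)
lemma Q_pos : 0 < X.Q p := one_pos.trans_le (X.one_le_Q p)
lemma one_le_Lam : 1 ≤ X.Lam p := one_le_pow₀ (X.one_le_R p)
lemma Lam_pos : 0 < X.Lam p := one_pos.trans_le (X.one_le_Lam p)

lemma Lam_eq : X.Lam p = X.Q p ^ 7 * X.R p ^ (X.c + 12) := by
  rw [Lam, Q, b, ← pow_mul, ← pow_add]; ring_nf

lemma Qpow_le {e f : ℕ} (he : e ≤ 7) (hf : f ≤ X.c + 12) :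
    X.Q p ^ e * X.R p ^ f ≤ X.Lam p := by
  rw [X.Lam_eq]
  exact mul_le_mul (pow_le_pow_right₀ (X.one_le_Q p) he) (pow_le_pow_right₀ (X.one_le_R p) hf)
    (pow_nonneg (X.R_pos p).le _) (pow_nonneg (X.Q_pos p).le _)

lemma Rpow_le {f : ℕ} (hf : f ≤ X.c + 12) : X.R p ^ f ≤ X.Lam p := by
  simpa using X.Qpow_le p (e := 0) (by norm_num) hf

lemma Q_le (e : ℕ) (he : e ≤ 7) : X.Q p ^ e ≤ X.Lam p := by
  simpa using X.Qpow_le p he (f := 0) (Nat.zero_le _)

variable (x : M)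

lemma qS_nonneg : 0 ≤ qS X.G V (X.S p) x :=
  Finset.sum_nonneg fun _ _ => real_inner_self_nonneg

lemma u_ge : X.R p ^ 8 / X.Lam p ^ 2 ≤ X.u p x := le_add_of_nonneg_left (X.qS_nonneg p x)

lemma u_pos : 0 < X.u p x :=
  (div_pos (pow_pos (X.R_pos p) 8) (pow_pos (X.Lam_pos p) 2)).trans_le (X.u_ge p x)

lemma qS_le_u : qS X.G V (X.S p) x ≤ X.u p x :=
  le_add_of_nonneg_right (div_nonneg (pow_nonneg (X.R_pos p).le 8) (sq_nonneg _))

lemma sqrt_u_pos : 0 < Real.sqrt (X.u p x) := Real.sqrt_pos.2 (X.u_pos p x)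

lemma sqrt_u_ge : X.R p ^ 4 / X.Lam p ≤ Real.sqrt (X.u p x) := by
  refine (Real.le_sqrt (div_nonneg (pow_nonneg (X.R_pos p).le 4) (X.Lam_pos p).le)
    (X.u_pos p x).le).2 ((le_of_eq ?_).trans (X.u_ge p x))
  rw [div_pow, ← pow_mul]

lemma tau_pos : 0 < X.tau p x :=
  inv_pos.2 (mul_pos (pow_pos (X.Lam_pos p) 2) (X.sqrt_u_pos p x))

lemma tau_mul_sqrt : X.tau p x * (X.Lam p ^ 2 * Real.sqrt (X.u p x)) = 1 :=
  inv_mul_cancel₀ (mul_pos (pow_pos (X.Lam_pos p) 2) (X.sqrt_u_pos p x)).ne'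

lemma tau_le : X.tau p x * (X.Lam p * X.R p ^ 4) ≤ 1 := by
  calc X.tau p x * (X.Lam p * X.R p ^ 4)
      = X.tau p x * (X.Lam p ^ 2 * (X.R p ^ 4 / X.Lam p)) := by
        field_simp [(X.Lam_pos p).ne']
    _ ≤ X.tau p x * (X.Lam p ^ 2 * Real.sqrt (X.u p x)) := by
        have := X.sqrt_u_ge p x
        have := (X.tau_pos p x).le
        gcongr
    _ = 1 := X.tau_mul_sqrt p x

lemma tau_Lam_le : X.tau p x * X.Lam p ≤ 1 :=
  le_trans (mul_le_mul_of_nonneg_left (le_mul_of_one_le_right (X.Lam_pos p).le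
    (one_le_pow₀ (X.one_le_R p))) (X.tau_pos p x).le) (X.tau_le p x)

lemma tau_sq_le : X.tau p x ^ 2 * X.Lam p ^ 2 ≤ 1 := by
  rw [← mul_pow]
  exact pow_le_one₀ (mul_nonneg (X.tau_pos p x).le (X.Lam_pos p).le) (X.tau_Lam_le p x)

lemma tau_QR_le {e f : ℕ} (he : e ≤ 7) (hf : f ≤ X.c + 12) :
    X.tau p x * (X.Q p ^ e * X.R p ^ f) ≤ 1 :=
  (mul_le_mul_of_nonneg_left (X.Qpow_le p he hf) (X.tau_pos p x).le).trans (X.tau_Lam_le p x)

lemma tau_Q_le {e : ℕ} (he : e ≤ 7) : X.tau p x * X.Q p ^ e ≤ 1 := by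
  simpa using X.tau_QR_le p x he (f := 0) (Nat.zero_le _)

lemma Q_tau_le : X.Q p * X.tau p x ≤ 1 := by
  have := X.tau_Q_le p x (e := 1) (by norm_num)
  rwa [pow_one, mul_comm] at this

lemma s0_pos : 0 < X.s0 p := div_pos (pow_pos (X.R_pos p) 2) (pow_pos (X.Lam_pos p) 2)

lemma s0_le : X.s0 p ≤ 1 / 2 := by
  rw [s0, div_le_iff₀ (pow_pos (X.Lam_pos p) 2)]
  have h := X.Rpow_le p (f := 2) (by omega)
  have h2 := (mul_le_mul (X.two_le_R p) (X.one_le_R p) zero_le_one (X.R_pos p).le)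
  nlinarith [mul_le_mul h h (pow_nonneg (X.R_pos p).le 2) (X.Lam_pos p).le, X.one_le_R p]

lemma sq_nonneg' : 0 ≤ X.sq p x := (X.data p).sq_nonneg x

lemma s0_le_sig : X.s0 p ≤ X.sig p x :=
  le_add_of_nonneg_right (mul_nonneg (by linarith [X.s0_le p]) (X.sq_nonneg' p x))

lemma sq_le_sig : X.sq p x ≤ 2 * X.sig p x := by
  have := X.s0_le p
  have := X.s0_pos p
  have := X.sq_nonneg' p x
  simp only [sig]
  nlinarith

lemma sig_pos : 0 < X.sig p x := (X.s0_pos p).trans_le (X.s0_le_sig p x)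

lemma R_le_m : X.R p ≤ X.m p x := by
  calc X.R p = X.η p * X.R p * X.R p := by rw [X.eta_R, one_mul]
    _ = X.η p * (X.R p ^ 2 / X.Lam p ^ 2) * X.Lam p ^ 2 := by
        field_simp [(X.Lam_pos p).ne']
    _ ≤ X.m p x := by
        have := X.η_pos p
        have := X.s0_le_sig p x
        rw [s0] at this
        simp only [m]
        gcongr

lemma one_le_m : 1 ≤ X.m p x := (X.one_le_R p).trans (X.R_le_m p x)
lemma m_nonneg : 0 ≤ X.m p x := zero_le_one.trans (X.one_le_m p x)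

/-- Outside the core the weight `m` dominates the monomials. -/
lemma outer_m {e : ℕ} (he : e ≤ 7) (h : X.η p ^ X.c ≤ X.sq p x) :
    X.Q p ^ e ≤ 2 * X.m p x := by
  have hη := X.η_pos p
  have h1 : X.Q p ^ e * X.R p ^ (X.c + 1) ≤ X.Lam p ^ 2 :=
    (X.Qpow_le p he (by omega)).trans
      (le_self_pow₀ (X.one_le_Lam p) two_ne_zero)
  calc X.Q p ^ e = X.η p ^ (X.c + 1) * (X.Q p ^ e * X.R p ^ (X.c + 1)) := by
        linear_combination (-(X.Q p ^ e)) * X.eta_pow_R p (X.c + 1)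
    _ ≤ X.η p ^ (X.c + 1) * X.Lam p ^ 2 := mul_le_mul_of_nonneg_left h1 (by positivity)
    _ = X.η p * X.η p ^ X.c * X.Lam p ^ 2 := by rw [pow_succ']
    _ ≤ X.η p * (2 * X.sig p x) * X.Lam p ^ 2 := by
        have := h.trans (X.sq_le_sig p x)
        gcongr
    _ = 2 * X.m p x := by simp only [m]; ring

/-! ## Monomial bounds -/

lemma frameSmooth_Vq : FrameSmooth (X.Vq p) := frameSmooth_scaled X.frame contMDiff_const

/-- Bounds by `Q ^ e` in the monomial frame, to every order. -/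
def PB {E : Type} [NormedAddCommGroup E] [NormedSpace ℝ E] (e : ℕ) (f : ι → M → E) : Prop :=
  ∀ K, UB X.Vq X.U K (fun q _ => X.Q q ^ e) f

variable {X p x}
variable {E F : Type} [NormedAddCommGroup E] [NormedSpace ℝ E]
  [NormedAddCommGroup F] [NormedSpace ℝ F]
variable {e e' : ℕ} {f h : ι → M → E}

lemma PB.smooth (hf : X.PB e f) (p : ι) : ContMDiff (𝓡 2) 𝓘(ℝ, E) ∞ (f p) := (hf 0).smooth p

lemma PB.mono (hf : X.PB e f) (he : e ≤ e') : X.PB e' f := fun K =>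
  (hf K).mono zero_le_one fun q _ _ => by
    rw [one_mul]; exact pow_le_pow_right₀ (X.one_le_Q q) he

lemma PB.add (hf : X.PB e f) (hh : X.PB e h) : X.PB e (fun p y => f p y + h p y) :=
  fun K => (hf K).add X.frameSmooth_Vq (hh K)

lemma PB.sub (hf : X.PB e f) (hh : X.PB e h) : X.PB e (fun p y => f p y - h p y) :=
  fun K => (hf K).sub X.frameSmooth_Vq (hh K)

lemma PB.mul {a b : ι → M → ℝ} (ha : X.PB e a) (hb : X.PB e' b) :
    X.PB (e + e') (fun p y => a p y * b p y) :=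
  fun K => (UB.mul X.frameSmooth_Vq (ha K) (hb K)).mono zero_le_one fun q _ _ => by
    rw [one_mul, pow_add]

lemma PB.inner {H : Type} [NormedAddCommGroup H] [InnerProductSpace ℝ H] {u v : ι → M → H}
    (hu : X.PB e u) (hv : X.PB e' v) : X.PB (e + e') (fun p y => ⟪u p y, v p y⟫) :=
  fun K => (UB.inner X.frameSmooth_Vq (hu K) (hv K)).mono zero_le_one fun q _ _ => by
    rw [one_mul, pow_add]

lemma PB.deriv (hf : X.PB e f) (i : Fin N) : X.PB (e + 1) (fun p => D V i (f p)) := by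
  intro K
  refine (((hf (K + 1)).deriv X.frameSmooth_Vq i).const_smul X.frameSmooth_Vq
    (fun q => X.Q q)).mono zero_le_one (fun q _ _ => ?_) |>.congr
    (fun q => contMDiff_D X.frame i (hf.smooth q)) fun q x _ => ?_
  · rw [one_mul, abs_of_pos (X.Q_pos q), pow_succ']
  · refine Eventually.of_forall fun y => ?_
    show X.Q q • D (scaled (fun _ => (X.Q q)⁻¹) V) i (f q) y = D V i (f q) y
    rw [D_scaled, smul_smul, mul_inv_cancel₀ (X.Q_pos q).ne', one_smul]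

/-- Pointwise form. -/
lemma PB.point (hf : X.PB e f) (n : ℕ) : ∃ c : ℝ, 0 ≤ c ∧ ∀ p, ∀ w : List (Fin N),
    w.length ≤ n → ∀ x ∈ X.U p, ‖DW V w (f p) x‖ ≤ c * X.Q p ^ (w.length + e) := by
  obtain ⟨hs, c, hc, hb⟩ := hf n
  refine ⟨c, hc, fun p w hw x hx => ?_⟩
  have h1 := hb p w hw x hx
  rw [Vq, DW_scaled_const X.frame _ (hs p) w, norm_smul, Real.norm_eq_abs,
    abs_of_nonneg (pow_nonneg (inv_nonneg.2 (X.Q_pos p).le) _), inv_pow,
    inv_mul_le_iff₀ (pow_pos (X.Q_pos p) _)] at h1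
  exact h1.trans_eq (by rw [pow_add]; ring)

variable (X)

lemma PB.of_poly {f : ι → M → E} (hs : ∀ p, ContMDiff (𝓡 2) 𝓘(ℝ, E) ∞ (f p))
    (h : ∀ p, PolyBd V (X.η p) X.a X.C (f p)) : X.PB 1 f := by
  intro K
  refine ⟨hs, ∑ n ∈ Finset.range (K + 1), |X.C n|, Finset.sum_nonneg fun n _ => abs_nonneg _,
    fun p w hw x _ => ?_⟩
  have hR := X.R_pos p
  rw [Vq, DW_scaled_const X.frame _ (hs p) w, norm_smul, Real.norm_eq_abs,
    abs_of_nonneg (pow_nonneg (inv_nonneg.2 (X.Q_pos p).le) _), inv_pow,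
    inv_mul_le_iff₀ (pow_pos (X.Q_pos p) _)]
  refine (h p w x).trans ?_
  show X.C w.length * X.R p ^ (X.a * (w.length + 1)) ≤ _
  have hle : X.R p ^ (X.a * (w.length + 1)) ≤ X.Q p ^ w.length * X.Q p ^ 1 := by
    rw [← pow_add, Q, ← pow_mul]
    exact pow_le_pow_right₀ (X.one_le_R p) (Nat.mul_le_mul_right _ (Nat.le_succ _))
  calc X.C w.length * X.R p ^ (X.a * (w.length + 1))
      ≤ (∑ n ∈ Finset.range (K + 1), |X.C n|) * (X.Q p ^ w.length * X.Q p ^ 1) :=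
        mul_le_mul ((le_abs_self _).trans (Finset.single_le_sum
          (f := fun n => |X.C n|) (fun n _ => abs_nonneg _) (Finset.mem_range.2 (by omega))))
          hle (by positivity) (Finset.sum_nonneg fun n _ => abs_nonneg _)
    _ = _ := by ring

lemma PB.of_fixed {f : ι → M → E} (hs : ∀ p, ContMDiff (𝓡 2) 𝓘(ℝ, E) ∞ (f p))
    (h : ∀ K, ∃ B : ℝ, 0 ≤ B ∧ ∀ p, BdOn V (X.U p) K B (fun _ => 1) (f p)) : X.PB 0 f := by
  intro K
  obtain ⟨B, hB, hb⟩ := h K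
  refine ⟨hs, B, hB, fun p w hw x hx => ?_⟩
  rw [Vq, DW_scaled_const X.frame _ (hs p) w, norm_smul, Real.norm_eq_abs,
    abs_of_nonneg (pow_nonneg (inv_nonneg.2 (X.Q_pos p).le) _)]
  simp only [pow_zero]
  exact (mul_le_of_le_one_left (norm_nonneg _) (pow_le_one₀ (inv_nonneg.2 (X.Q_pos p).le)
    (inv_le_one_of_one_le₀ (X.one_le_Q p)))).trans (hb p w hw x hx)

lemma PB.of_const {r : ι → ℝ} {B : ℝ} (hB : 0 ≤ B) (hr : ∀ p, |r p| ≤ B) :
    X.PB 0 (fun p (_ : M) => r p) :=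
  fun _ => (UB.const X.frameSmooth_Vq r).mono hB fun q _ _ => by simpa using hr q

lemma pb_F0 : X.PB 1 X.F0 :=
  PB.of_poly X (fun p => (X.data p).smooth_F) fun p => (X.data p).poly_F
lemma pb_n1 : X.PB 1 X.n1 :=
  PB.of_poly X (fun p => (X.data p).nd.smooth_n1) fun p => (X.data p).poly_n1
lemma pb_O : X.PB 1 (fun p => (X.data p).nd.O) :=
  PB.of_poly X (fun p => (X.data p).nd.smooth_O) fun p => (X.data p).poly_O
lemma pb_S : X.PB 1 X.S := PB.of_poly X (fun p => (X.data p).sec_S.1) fun p => (X.data p).poly_S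
lemma pb_sq : X.PB 1 X.sq :=
  PB.of_poly X (fun p => (X.data p).smooth_sq) fun p => (X.data p).poly_sq
lemma pb_nu : X.PB 0 X.ν := PB.of_fixed X (fun p => (X.loc p).smooth) X.νbd

lemma pb_gV (i k : Fin N) : X.PB 0 (fun _ => gV g V i k) :=
  PB.of_fixed X (fun _ => contMDiff_gV g X.frame i k) fun K =>
    (X.gbd K).imp fun _ hB => ⟨hB.1, fun p => (hB.2 i k).bdOn _⟩

lemma pb_n2 : X.PB 1 X.n2 := fun K =>
  (UB.bilin X.frameSmooth_Vq (ContinuousLinearMap.id ℝ (R3 →L[ℝ] R4)) (X.pb_O K)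
    (X.pb_nu K)).mono zero_le_one fun q _ _ => by simp

lemma pb_psi : X.PB 1 X.psi := (PB.inner X.pb_nu X.pb_S).mono le_rfl

lemma pb_psiD (i : Fin N) : X.PB 2 (fun p => X.psiD p i) := X.pb_psi.deriv i

lemma contMDiff_qS : ContMDiff (𝓡 2) 𝓘(ℝ, ℝ) ∞ (qS X.G V (X.S p)) := by
  have h : ∀ i, ContMDiff (𝓡 2) 𝓘(ℝ, R3) ∞ (dSec X.G V (X.S p) i) := fun i x =>
    contMDiffAt_bilin (ContinuousLinearMap.id ℝ (R3 →L[ℝ] R3)) (Sect.contMDiff_nLine X.imm x)
      (contMDiff_D X.frame i (X.data p).sec_S.1 x)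
  exact fun x => contMDiffAt_finsetSum fun i _ => contMDiffAt_inner_fun (h i x) (h i x)

lemma contMDiff_u : ContMDiff (𝓡 2) 𝓘(ℝ, ℝ) ∞ (X.u p) :=
  X.contMDiff_qS.add contMDiff_const

lemma contMDiff_tau : ContMDiff (𝓡 2) 𝓘(ℝ, ℝ) ∞ (X.tau p) := fun x => by
  refine (contDiffAt_inv ℝ ?_).comp_contMDiffAt
    (contMDiffAt_const.mul ((Real.contDiffAt_sqrt (X.u_pos p x).ne').comp_contMDiffAt
      (X.contMDiff_u x)))
  exact (mul_pos (pow_pos (X.Lam_pos p) 2) (X.sqrt_u_pos p x)).ne'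

lemma frameSmooth_W : FrameSmooth (X.W p) := frameSmooth_scaled X.frame X.contMDiff_tau

lemma contMDiff_sig : ContMDiff (𝓡 2) 𝓘(ℝ, ℝ) ∞ (X.sig p) :=
  contMDiff_const.add (contMDiff_const.mul (X.data p).smooth_sq)

end Ctx

end Vale.Agent.P205.Full.Start
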