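import Vale.Agent.P205.Full.Start.Interface

/-!
# Module START, hand-over from A6 to A7

A6 proves `SpiralProp`. A7 (`Start/Finish.lean`) adds phases and cutoffs, applies `StageProp` with
`ε = η`, and returns to the fixed frame.
-/

open scoped Manifold ContDiff RealInnerProductSpace
open Bundle

namespace Vale.Agent.P205.Full.Start

section
variable {M : Type} [TopologicalSpace M] [ChartedSpace R2 M] [IsManifold (𝓡 2) ∞ M]
variable {N : ℕ}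

/-- The frame at length scale `ℓ`. -/
noncomputable def scaled (ℓ : M → ℝ) (V : Frame M N) : Frame M N := fun i x => ℓ x • V i x

/-- The approximate map after the last spiral, in the scaled frame. `η` is the only parameter:
`ℓ`, `H` are at least `η ^ L`, and the slack is at most `η ^ 3 H ^ 2`. -/
structure SpiralData (g : Metric M) (V : Frame M N) (F : M → R4) (ℓ H σ : M → ℝ)
    (L K : ℕ) (B δ η : ℝ) : Prop where
  smooth_F : ContMDiff (𝓡 2) 𝓘(ℝ, R4) ∞ F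
  smooth_ℓ : ContMDiff (𝓡 2) 𝓘(ℝ, ℝ) ∞ ℓ
  smooth_H : ContMDiff (𝓡 2) 𝓘(ℝ, ℝ) ∞ H
  smooth_σ : ContMDiff (𝓡 2) 𝓘(ℝ, ℝ) ∞ σ
  ℓ_ge : ∀ x, η ^ L ≤ ℓ x
  ℓ_le : ∀ x, ℓ x ≤ 1
  H_ge : ∀ x, η ^ L ≤ H x
  le_H : ∀ x, H x ≤ B
  pos_σ : ∀ x, 0 < σ x
  σ_le : ∀ x, σ x ≤ η ^ 3 * H x ^ 2
  sup_F : ∀ x, ‖F x‖ ≤ B
  bd_ℓ : Bd (scaled ℓ V) K B ℓ ℓ
  bd_H : Bd (scaled ℓ V) K B H H
  bd_σ : Bd (scaled ℓ V) K B σ σ
  bd_dF : ∀ i, Bd (scaled ℓ V) K B ℓ (D (scaled ℓ V) i F)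
  bd_sff : ∀ i k, Bd (scaled ℓ V) K B (fun x => ℓ x * H x) (sff F (scaled ℓ V) i k)
  sff_lower : ∀ x, ℓ x * H x ≤ B * sffSize F (scaled ℓ V) x
  bd_res : ∀ i k, Bd (scaled ℓ V) K δ (fun x => σ x * ℓ x ^ 2)
    (fun x => gV g (scaled ℓ V) i k x - pullV F (scaled ℓ V) i k x -
      σ x * gV g (scaled ℓ V) i k x)

end

/-- Module A1–A6: the start map. The exponent `L` is fixed before the order `K`, and `B` does not
depend on `η`. -/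
def SpiralProp : Prop :=
  ∀ (M : Type) [TopologicalSpace M] [T2Space M] [CompactSpace M] [ChartedSpace R2 M]
    [IsManifold (𝓡 2) ∞ M], ImmersesInR3 M →
    ∀ (g : Metric M) (N : ℕ) (V : Frame M N), FrameSmooth V → FrameSpans V →
    ∃ L : ℕ, ∀ K : ℕ, ∃ B : ℝ, ∀ δ : ℝ, 0 < δ → ∃ η₀ : ℝ, 0 < η₀ ∧
      ∀ η : ℝ, 0 < η → η ≤ η₀ →
        ∃ (F : M → R4) (ℓ H σ : M → ℝ), SpiralData g V F ℓ H σ L K B δ η

end Vale.Agent.P205.Full.Start
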