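import Vale.Agent.P205.Full.Start.Interface
import Vale.Agent.P205.Full.Start.FrameBounds
import Vale.Agent.P205.Full.Stage.Plane
import Vale.Agent.P205.Full.Stage.Calculus

/-!
# P205 full, START A6: the normal projector as a rational function of the derivatives (helper4)

For `u : Fin N → ℝ⁴` spanning a plane, `normOp u` is the projection on its orthogonal complement.
It is smooth where the second invariant `gram2 u` does not vanish.
-/

open scoped Manifold ContDiff RealInnerProductSpace Matrix Topology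
open Bundle Filter Set

noncomputable section

namespace Vale.Agent.P205.Full.Start

variable {M : Type} [TopologicalSpace M] [ChartedSpace R2 M] [IsManifold (𝓡 2) ∞ M]
variable {N : ℕ}

/-- Second invariant of the Gram matrix of `u`. -/
def gram2 (u : Fin N → R4) : ℝ :=
  ((∑ i, ⟪u i, u i⟫) ^ 2 - ∑ i, ∑ k, ⟪u i, u k⟫ ^ 2) / 2

/-- `∑ i, uᵢ uᵢᵀ` as an operator. -/
def outerOp (u : Fin N → R4) : R4 →L[ℝ] R4 :=
  ∑ i, (innerSL ℝ (u i)).smulRight (u i)

/-- The projection on the orthogonal complement of a spanned plane. -/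
def normOp (u : Fin N → R4) : R4 →L[ℝ] R4 :=
  ContinuousLinearMap.id ℝ R4 -
    (gram2 u)⁻¹ • ((∑ i, ⟪u i, u i⟫) • outerOp u - (outerOp u).comp (outerOp u))

theorem outerOp_apply (u : Fin N → R4) (z : R4) : outerOp u z = ∑ i, ⟪u i, z⟫ • u i := by
  simp [outerOp, sum_apply]

/-! ## Smoothness -/

theorem contDiff_coord (i : Fin N) : ContDiff ℝ ∞ fun u : Fin N → R4 => u i :=
  (ContinuousLinearMap.proj (R := ℝ) (φ := fun _ : Fin N => R4) i).contDiff

theorem contDiff_tr : ContDiff ℝ ∞ fun u : Fin N → R4 => ∑ i, ⟪u i, u i⟫ :=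
  ContDiff.sum fun i _ => (contDiff_coord i).inner ℝ (contDiff_coord i)

theorem contDiff_gram2 : ContDiff ℝ ∞ (gram2 : (Fin N → R4) → ℝ) :=
  ((contDiff_tr.pow 2).sub (ContDiff.sum fun i _ => ContDiff.sum fun k _ =>
    ((contDiff_coord i).inner ℝ (contDiff_coord k)).pow 2)).div_const 2

theorem contDiff_outerOp : ContDiff ℝ ∞ (outerOp : (Fin N → R4) → R4 →L[ℝ] R4) :=
  ContDiff.sum fun i _ =>
    ((innerSL ℝ (E := R4)).contDiff.comp (contDiff_coord i)).smulRight (contDiff_coord i)

theorem isOpen_gram2_ne_zero : IsOpen {u : Fin N → R4 | gram2 u ≠ 0} :=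
  isOpen_ne_fun (contDiff_gram2 (N := N)).continuous continuous_const

theorem contDiffOn_normOp :
    ContDiffOn ℝ ∞ (normOp : (Fin N → R4) → R4 →L[ℝ] R4) {u | gram2 u ≠ 0} :=
  contDiffOn_const.sub (((contDiff_gram2.contDiffOn).inv fun _ hu => hu).smul
    ((contDiff_tr.smul contDiff_outerOp).sub
      (contDiff_outerOp.clm_comp contDiff_outerOp)).contDiffOn)

/-! ## The projector -/

theorem gram2_eq_tr2 (u : Fin N → R4) : Plane.tr2 (Plane.outer u) = gram2 u := by
  rw [(Plane.outer_invariants u).2]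
  simp only [Plane.tr2, Plane.inner', gram2, Matrix.trace, Matrix.diag, Matrix.of_apply,
    Matrix.mul_apply]
  congr 2
  exact Finset.sum_congr rfl fun i _ => Finset.sum_congr rfl fun k _ => by
    rw [real_inner_comm (u k) (u i), sq]

theorem ofLp_outerOp (u : Fin N → R4) (z : R4) :
    (outerOp u z).ofLp = Plane.outer u *ᵥ z.ofLp := by
  funext p
  simp only [outerOp_apply, WithLp.ofLp_sum, WithLp.ofLp_smul, Finset.sum_apply, Pi.smul_apply,
    smul_eq_mul, Plane.outer, Matrix.mulVec, dotProduct, Matrix.of_apply, Finset.sum_mul,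
    PiLp.inner_apply, RCLike.inner_apply, conj_trivial]
  rw [Finset.sum_comm]
  exact Finset.sum_congr rfl fun q _ => Finset.sum_congr rfl fun i _ => by ring

theorem ofLp_normOp (u : Fin N → R4) (z : R4) :
    (normOp u z).ofLp = ((1 : Matrix (Fin 4) (Fin 4) ℝ) - Plane.proj (Plane.outer u)) *ᵥ z.ofLp := by
  have htr : (Plane.outer u).trace = ∑ i, ⟪u i, u i⟫ := by
    rw [(Plane.outer_invariants u).1]
    rfl
  simp only [normOp, sub_apply, smul_apply, ContinuousLinearMap.id_apply,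
    ContinuousLinearMap.comp_apply, WithLp.ofLp_sub, WithLp.ofLp_smul, ofLp_outerOp,
    Plane.proj, Matrix.sub_mulVec, Matrix.one_mulVec, Matrix.smul_mulVec, gram2_eq_tr2, htr,
    ← Matrix.mulVec_mulVec]

theorem span_derivs {V : Frame M N} (hs : FrameSpans V) (F : M → R4) (x : M) :
    Submodule.span ℝ (Set.range fun i => D V i F x) = tanPlane F x := by
  refine le_antisymm (Submodule.span_le.2 ?_) ?_
  · rintro _ ⟨i, rfl⟩
    exact ⟨V i x, rfl⟩
  · rintro _ ⟨v, rfl⟩
    set T : TangentSpace (𝓡 2) x →ₗ[ℝ] R4 :=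
      (mfderiv (𝓡 2) 𝓘(ℝ, R4) F x).toLinearMap
    have hv : v ∈ Submodule.span ℝ (Set.range fun i => V i x) := by
      rw [hs x]; exact Submodule.mem_top
    have := Submodule.apply_mem_span_image_of_mem_span T hv
    rw [← Set.range_comp] at this
    exact this

theorem finrank_tanPlane_of_gram2 {V : Frame M N} {F : M → R4} {x : M}
    (h : gram2 (fun i => D V i F x) ≠ 0) : Module.finrank ℝ (tanPlane F x) = 2 := by
  refine le_antisymm ?_ ?_
  · have : FiniteDimensional ℝ (TangentSpace (𝓡 2) x) :=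
      Module.finite_of_finrank_eq_succ (n := 1) (finrank_tangent x)
    exact (LinearMap.finrank_range_le _).trans (finrank_tangent x).le
  · by_contra hlt
    push Not at hlt
    obtain ⟨e, he⟩ := finrank_le_one_iff.1 (Nat.lt_succ_iff.1 hlt)
    choose a ha using fun i => he ⟨D V i F x, V i x, rfl⟩
    have hu : ∀ i, D V i F x = a i • (e : R4) := fun i =>
      (congrArg Subtype.val (ha i)).symm
    refine h ?_
    simp only [gram2, hu, real_inner_smul_left, real_inner_smul_right]
    rw [sq (∑ i, a i * (a i * ⟪(e : R4), (e : R4)⟫)), Finset.sum_mul_sum, ← Finset.sum_sub_distrib]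
    simp only [← Finset.sum_sub_distrib]
    rw [Finset.sum_eq_zero fun i _ => Finset.sum_eq_zero fun k _ => ?_, zero_div]
    ring

/-- `normOp` of the derivatives is the normal projection. -/
theorem normOp_eq {V : Frame M N} (hs : FrameSpans V) {F : M → R4} {x : M}
    (h : gram2 (fun i => D V i F x) ≠ 0) (z : R4) :
    normOp (fun i => D V i F x) z = (tanPlane F x)ᗮ.starProjection z := by
  have := (Plane.one_sub_proj_outer (fun i => D V i F x) (tanPlane F x)
    (finrank_tanPlane_of_gram2 h) (span_derivs hs F x) z).2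
  exact (WithLp.equiv 2 (Fin 4 → ℝ)).injective ((ofLp_normOp _ z).trans this)

theorem normOp_D {V : Frame M N} (hs : FrameSpans V) {F : M → R4} {x : M}
    (h : gram2 (fun i => D V i F x) ≠ 0) (i : Fin N) :
    normOp (fun i => D V i F x) (D V i F x) = 0 := by
  rw [normOp_eq hs h, Submodule.starProjection_apply_eq_zero_iff,
    Submodule.orthogonal_orthogonal]
  exact D_mem_tanPlane F i x

/-- The tangential part is controlled by the inner products with the family. -/
theorem norm_tan_le {c B : ℝ} (hc : 0 < c) :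
    ∃ C : ℝ, 0 ≤ C ∧ ∀ u : Fin N → R4, ‖u‖ ≤ B → c ≤ gram2 u → ∀ n : R4,
      ‖n - normOp u n‖ ≤ C * ∑ i, |⟪u i, n⟫| := by
  refine ⟨c⁻¹ * (2 * ((N : ℝ) * B ^ 2) * |B|), by positivity, fun u hu hg n => ?_⟩
  have hB : 0 ≤ B := (norm_nonneg u).trans hu
  have hui : ∀ i, ‖u i‖ ≤ B := fun i => (norm_le_pi_norm u i).trans hu
  have hS0 : 0 ≤ ∑ i, |⟪u i, n⟫| := Finset.sum_nonneg fun i _ => abs_nonneg _
  have hLz : ∀ z, ‖outerOp u z‖ ≤ B * ∑ i, |⟪u i, z⟫| := fun z => by
    rw [outerOp_apply, Finset.mul_sum]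
    refine (norm_sum_le _ _).trans (Finset.sum_le_sum fun i _ => ?_)
    rw [norm_smul, Real.norm_eq_abs, mul_comm]
    exact mul_le_mul_of_nonneg_right (hui i) (abs_nonneg _)
  have hL : ∀ z, ‖outerOp u z‖ ≤ (N : ℝ) * B ^ 2 * ‖z‖ := fun z => by
    refine (hLz z).trans ?_
    calc B * ∑ i, |⟪u i, z⟫| ≤ B * ∑ _i : Fin N, B * ‖z‖ :=
          mul_le_mul_of_nonneg_left (Finset.sum_le_sum fun i _ =>
            (abs_real_inner_le_norm _ _).trans
              (mul_le_mul_of_nonneg_right (hui i) (norm_nonneg _))) hB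
      _ = (N : ℝ) * B ^ 2 * ‖z‖ := by simp; ring
  have htr : |∑ i, ⟪u i, u i⟫| ≤ (N : ℝ) * B ^ 2 := by
    refine (Finset.abs_sum_le_sum_abs _ _).trans ?_
    calc ∑ i, |⟪u i, u i⟫| ≤ ∑ _i : Fin N, B ^ 2 := Finset.sum_le_sum fun i _ => by
          rw [real_inner_self_eq_norm_sq, abs_of_nonneg (sq_nonneg _)]
          exact pow_le_pow_left₀ (norm_nonneg _) (hui i) 2
      _ = _ := by simp
  have he : n - normOp u n =
      (gram2 u)⁻¹ • ((∑ i, ⟪u i, u i⟫) • outerOp u n - outerOp u (outerOp u n)) := by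
    simp [normOp]
  rw [he, norm_smul, norm_inv, Real.norm_eq_abs, abs_of_pos (hc.trans_le hg)]
  calc (gram2 u)⁻¹ * ‖(∑ i, ⟪u i, u i⟫) • outerOp u n - outerOp u (outerOp u n)‖
      ≤ c⁻¹ * (2 * ((N : ℝ) * B ^ 2) * (|B| * ∑ i, |⟪u i, n⟫|)) := by
        refine mul_le_mul (inv_anti₀ hc hg) ?_ (norm_nonneg _) (by positivity)
        refine (norm_sub_le _ _).trans ?_
        rw [norm_smul, Real.norm_eq_abs, two_mul, add_mul, abs_of_nonneg hB]
        exact add_le_add (mul_le_mul htr (hLz n) (norm_nonneg _) (by positivity))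
          ((hL _).trans (mul_le_mul_of_nonneg_left (hLz n) (by positivity)))
    _ = _ := by ring

/-! ## Lower bound near the metric -/

theorem gram2_metric_pos {V : Frame M N} (hs : FrameSpans V) (g : Metric M) (x : M) :
    0 < ((∑ i, gV g V i i x) ^ 2 - ∑ i, ∑ k, gV g V i k x ^ 2) / 2 := by
  obtain ⟨i₀, k₀, h₀⟩ := exists_det_pos hs (g.inner x) (g.symm x) (g.pos x)
  have hnn : ∀ i k, 0 ≤ gV g V i i x * gV g V k k x - gV g V i k x ^ 2 := by
    intro i k
    show 0 ≤ g.inner x (V i x) (V i x) * g.inner x (V k x) (V k x) -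
      g.inner x (V i x) (V k x) ^ 2
    by_cases h : V i x = 0
    · simp [h]
    · set a := g.inner x (V i x) (V i x)
      set b := g.inner x (V i x) (V k x)
      have hw : ∀ w, 0 ≤ g.inner x w w := fun w => by
        by_cases hw : w = 0
        · simp [hw]
        · exact (g.pos x w hw).le
      have h1 := hw ((-b) • V i x + a • V k x)
      rw [bilin_comb (g.inner x) (g.symm x)] at h1
      nlinarith [g.pos x _ h]
  refine div_pos ?_ two_pos
  rw [sq, Finset.sum_mul_sum, ← Finset.sum_sub_distrib]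
  simp only [← Finset.sum_sub_distrib]
  exact Finset.sum_pos' (fun i _ => Finset.sum_nonneg fun k _ => hnn i k)
    ⟨i₀, Finset.mem_univ _, Finset.sum_pos' (fun k _ => hnn i₀ k) ⟨k₀, Finset.mem_univ _, h₀⟩⟩

/-- Families whose Gram matrix is close to the metric are uniformly nondegenerate and bounded. -/
theorem exists_gram2_lower [CompactSpace M] {V : Frame M N} (hV : FrameSmooth V)
    (hs : FrameSpans V) (g : Metric M) :
    ∃ c δ B : ℝ, 0 < c ∧ 0 < δ ∧ ∀ (x : M) (u : Fin N → R4),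
      (∀ i k, |⟪u i, u k⟫ - gV g V i k x| ≤ δ) → c ≤ gram2 u ∧ ‖u‖ ≤ B := by
  rcases isEmpty_or_nonempty M with hM | hM
  · exact ⟨1, 1, 0, one_pos, one_pos, fun x => hM.elim x⟩
  set g2 : (Fin N → Fin N → ℝ) → ℝ :=
    fun m => ((∑ i, m i i) ^ 2 - ∑ i, ∑ k, m i k ^ 2) / 2 with hg2
  have hg2c : Continuous g2 := by rw [hg2]; fun_prop
  have hGc : Continuous fun x => fun i k => gV g V i k x :=
    continuous_pi fun i => continuous_pi fun k => (contMDiff_gV g hV i k).continuous
  set K := Set.range fun x => fun i k => gV g V i k x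
  have hK : IsCompact K := isCompact_range hGc
  obtain ⟨m₀, ⟨x₀, hx₀⟩, hmin⟩ := hK.exists_isMinOn (range_nonempty _) hg2c.continuousOn
  have hc0 : 0 < g2 m₀ := by rw [← hx₀]; exact gram2_metric_pos hs g x₀
  obtain ⟨δ, hδ, hsub⟩ := hK.exists_cthickening_subset_open
    (isOpen_lt (continuous_const (y := g2 m₀ / 2)) hg2c)
    fun m hm => lt_of_lt_of_le (half_lt_self hc0) (hmin hm)
  obtain ⟨R, hR⟩ := isBounded_iff_forall_norm_le.1 hK.isBounded
  refine ⟨g2 m₀ / 2, δ, R + δ + 1, half_pos hc0, hδ, fun x u hu => ⟨?_, ?_⟩⟩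
  · have hd : dist (fun i k => ⟪u i, u k⟫) (fun i k => gV g V i k x) ≤ δ :=
      (dist_pi_le_iff hδ.le).2 fun i => (dist_pi_le_iff hδ.le).2 fun k => hu i k
    exact (hsub (Metric.mem_cthickening_of_dist_le _ _ δ K ⟨x, rfl⟩ hd)).le
  · have hR0 : 0 ≤ R := (norm_nonneg _).trans (hR _ ⟨x, rfl⟩)
    refine (pi_norm_le_iff_of_nonneg (by linarith)).2 fun i => ?_
    have h1 : |gV g V i i x| ≤ R := by
      have := hR _ ⟨x, rfl⟩
      exact ((norm_le_pi_norm (fun k => gV g V i k x) i).trans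
        (norm_le_pi_norm (fun i k => gV g V i k x) i)).trans this
    have h2 := abs_le.1 (hu i i)
    rw [real_inner_self_eq_norm_sq] at h2
    nlinarith [norm_nonneg (u i), (abs_le.1 h1).2, sq_nonneg (‖u i‖ - 1)]

end Vale.Agent.P205.Full.Start
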