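import Vale.Agent.P205.Full.Start.SpiralBounds
import Vale.Agent.P205.Full.Start.SpiralProj

/-!
# P205 full, START A6: the metric and the second fundamental form of the last spiral (helper36)
-/

open scoped Manifold ContDiff RealInnerProductSpace Topology
open Bundle Filter

set_option linter.unusedSectionVars false

namespace Vale.Agent.P205.Full.Start

variable {M : Type} [TopologicalSpace M] [ChartedSpace R2 M] [IsManifold (𝓡 2) ∞ M]
variable {N : ℕ} {ι : Type} {g : Metric M} {V : Frame M N}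

theorem UB.norm_le {E : Type} [NormedAddCommGroup E] [NormedSpace ℝ E] {W : ι → Frame M N}
    {s : ι → Set M} {K : ℕ} {μ : ι → M → ℝ} {f : ι → M → E} (h : UB W s K μ f) :
    ∃ c : ℝ, 0 ≤ c ∧ ∀ p, ∀ x ∈ s p, ‖f p x‖ ≤ c * μ p x :=
  h.2.imp fun _ hc => ⟨hc.1, fun p _ hx => (hc.2 p).norm_le hx⟩

theorem UB.pi {E : Type} [NormedAddCommGroup E] [NormedSpace ℝ E] {κ : Type} [Fintype κ]
    {W : ι → Frame M N} (hW : ∀ p, FrameSmooth (W p)) {s : ι → Set M} {K : ℕ}
    {μ : ι → M → ℝ} {f : κ → ι → M → E} (hμ : ∀ p, ∀ x ∈ s p, 0 ≤ μ p x)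
    (h : ∀ k, UB W s K μ (f k)) : UB W s K μ (fun p y k => f k p y) := by
  choose hs c hc hb using h
  exact ⟨fun p => contMDiff_pi_space.2 fun k => hs k p, ∑ k, c k,
    Finset.sum_nonneg fun k _ => hc k, fun p => bdOn_pi (hW p) (fun k x _ => hs k p x)
      (fun x hx => mul_nonneg (Finset.sum_nonneg fun k _ => hc k) (hμ p x hx))
      (fun k => (hb k p).mono_const (Finset.single_le_sum (fun j _ => hc j) (Finset.mem_univ k))
        (hμ p))⟩

namespace Ctx

variable (X : Ctx g V ι)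

/-- The restriction to a subfamily. -/
def restrict {ι' : Type} (q : ι' → ι) : Ctx g V ι' where
  G := X.G
  a := X.a
  c := X.c
  C₀ := X.C₀
  C := X.C
  η := fun p => X.η (q p)
  η_pos := fun p => X.η_pos (q p)
  η_le := fun p => X.η_le (q p)
  U := fun p => X.U (q p)
  ν := fun p => X.ν (q p)
  loc := fun p => X.loc (q p)
  νbd := fun K => (X.νbd K).imp fun _ h => ⟨h.1, fun p => h.2 (q p)⟩
  imm := X.imm
  frame := X.frame
  gbd := X.gbd
  data := fun p => X.data (q p)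

variable (p : ι)

/-- The frequency. -/
noncomputable def freq : ℝ := X.Lam p ^ 2
noncomputable def al : ℝ := Real.sqrt (1 - X.s0 p)
noncomputable def Fs : M → R4 := spiralMap (X.data p).nd (X.S p) (X.al p) (X.freq p)
noncomputable def csn : M → ℝ := fun y => Real.cos (X.freq p * X.psi p y)
noncomputable def sn : M → ℝ := fun y => Real.sin (X.freq p * X.psi p y)
noncomputable def eF : M → R4 := eFld (X.data p).nd (X.S p) (X.ν p) (X.freq p)
noncomputable def uF : M → R4 := uFld (X.data p).nd (X.S p) (X.ν p) (X.freq p)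
noncomputable def om (i : Fin N) : M → R4 :=
  omFld V (X.data p).nd (X.S p) (X.ν p) (X.freq p) i
noncomputable def om2 (i : Fin N) : M → R4 :=
  fun y => -X.sn p y • D V i (X.n1 p) y + X.csn p y • D V i (X.n2 p) y
noncomputable def om3 (i k : Fin N) : M → R4 :=
  fun y => X.csn p y • D V i (D V k (X.n1 p)) y + X.sn p y • D V i (D V k (X.n2 p)) y
/-- The error of the spiral in the pull-back. -/
noncomputable def Xi (i k : Fin N) : M → ℝ := fun y =>
  ⟪D V i (X.F0 p) y, X.om p k y⟫ + ⟪X.om p i y, D V k (X.F0 p) y⟫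
    + X.psiD p i y * ⟪X.uF p y, X.om p k y⟫ + X.psiD p k y * ⟪X.om p i y, X.uF p y⟫
    + (X.freq p)⁻¹ * ⟪X.om p i y, X.om p k y⟫
/-- The residual in the fixed frame. -/
noncomputable def r0 (i k : Fin N) : M → ℝ := fun y =>
  gV g V i k y - pullV (X.Fs p) V i k y - X.sig p y * gV g V i k y

lemma freq_pos : 0 < X.freq p := pow_pos (X.Lam_pos p) 2

lemma one_sub_s0 : 1 / 2 ≤ 1 - X.s0 p ∧ 1 - X.s0 p ≤ 1 :=
  ⟨by linarith [X.s0_le p], by linarith [X.s0_pos p]⟩

lemma al_sq : X.al p ^ 2 = 1 - X.s0 p := Real.sq_sqrt (by linarith [(X.one_sub_s0 p).1])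

lemma al_bounds : 1 / 2 ≤ X.al p ∧ X.al p ≤ 1 := by
  have h0 : 0 ≤ X.al p := Real.sqrt_nonneg _
  have := X.al_sq p
  have := X.one_sub_s0 p
  constructor <;> nlinarith

variable {p}

lemma contMDiff_Fs [T2Space M] [CompactSpace M] : ContMDiff (𝓡 2) 𝓘(ℝ, R4) ∞ (X.Fs p) :=
  contMDiff_spiralMap (X.data p).nd _ X.imm (X.data p).smooth_F (X.data p).sec_S _

lemma psiD_sm (i : Fin N) : ContMDiff (𝓡 2) 𝓘(ℝ, ℝ) ∞ (X.psiD p i) := (X.pb_psiD i).smooth p

lemma u_le (p : ι) (x : M) : X.u p x ≤ (N : ℝ) * X.C₀ ^ 2 + 1 := by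
  refine add_le_add ?_ ?_
  · refine (Finset.sum_le_card_nsmul Finset.univ _ (X.C₀ ^ 2) fun i _ => ?_).trans (by simp)
    show ⟪dSec X.G V (X.S p) i x, dSec X.G V (X.S p) i x⟫ ≤ _
    rw [real_inner_self_eq_norm_sq]
    exact pow_le_pow_left₀ (norm_nonneg _) ((X.data p).bd_dS i x) 2
  · rw [div_le_one (pow_pos (X.Lam_pos p) 2)]
    exact (X.Rpow_le p (by omega)).trans (le_self_pow₀ (X.one_le_Lam p) two_ne_zero)

lemma eta_le_one (p : ι) : X.η p ≤ 1 := (X.η_le p).trans (by norm_num)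

lemma sig_le (p : ι) (x : M) : X.sig p x ≤ (|X.C₀| + 1) * X.η p ^ 6 * X.u p x := by
  have hη := X.η_pos p
  have hs : X.s0 p ≤ X.η p ^ 6 * X.u p x := by
    calc X.s0 p = X.η p ^ 6 * (X.R p ^ 8 / X.Lam p ^ 2) := by
          rw [s0, mul_div_assoc']
          congr 1
          linear_combination (-(X.R p ^ 2)) * X.eta_pow_R p 6
      _ ≤ _ := mul_le_mul_of_nonneg_left (X.u_ge p x) (by positivity)
  have hq : (1 - X.s0 p) * X.sq p x ≤ |X.C₀| * X.η p ^ 6 * X.u p x := by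
    refine (mul_le_of_le_one_left (X.sq_nonneg' p x) (X.one_sub_s0 p).2).trans
      (((X.data p).sq_le x).trans ?_)
    exact mul_le_mul (mul_le_mul_of_nonneg_right (le_abs_self _) (by positivity))
      (X.qS_le_u p x) (X.qS_nonneg p x) (by positivity)
  simp only [sig]
  linarith

/-- The bound of `σ` by a constant times a power of `η`. -/
noncomputable def cσ : ℝ := (|X.C₀| + 1) * ((N : ℝ) * X.C₀ ^ 2 + 1)

lemma cσ_nonneg : 0 ≤ X.cσ := by unfold cσ; positivity

lemma sig_le_eta (p : ι) (x : M) : X.sig p x ≤ X.cσ * X.η p := by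
  have hη := X.η_pos p
  calc X.sig p x ≤ (|X.C₀| + 1) * X.η p ^ 6 * X.u p x := X.sig_le p x
    _ ≤ (|X.C₀| + 1) * X.η p * ((N : ℝ) * X.C₀ ^ 2 + 1) :=
        mul_le_mul (mul_le_mul_of_nonneg_left
          (pow_le_of_le_one hη.le (X.eta_le_one p) (by norm_num)) (by positivity))
          (X.u_le p x) (X.u_pos p x).le (by positivity)
    _ = _ := by rw [cσ]; ring

lemma inv_freq_m (p : ι) (x : M) : (X.freq p)⁻¹ * X.m p x = X.η p * X.sig p x := by
  simp only [m, freq]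
  field_simp [(X.Lam_pos p).ne']

lemma eta_sig_le (p : ι) (x : M) : X.η p * X.sig p x ≤ X.cσ * X.η p := by
  refine (mul_le_of_le_one_left (X.sig_pos p x).le (X.eta_le_one p)).trans (X.sig_le_eta p x)

lemma m_le (p : ι) (x : M) : X.m p x ≤ (|X.C₀| + 1) * X.η p * (X.Lam p ^ 2 * X.u p x) := by
  have hη := X.η_pos p
  calc X.m p x ≤ X.η p * ((|X.C₀| + 1) * 1 * X.u p x) * X.Lam p ^ 2 := by
        simp only [m]
        refine mul_le_mul_of_nonneg_right (mul_le_mul_of_nonneg_left ((X.sig_le p x).trans ?_)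
          hη.le) (sq_nonneg _)
        exact mul_le_mul_of_nonneg_right (mul_le_mul_of_nonneg_left
          (pow_le_one₀ hη.le (X.eta_le_one p)) (by positivity)) (X.u_pos p x).le
    _ = _ := by ring

lemma hW : ∀ p, FrameSmooth (X.W p) := fun _ => X.frameSmooth_W

lemma phase_bd (K : ℕ) (i : Fin N) :
    UB X.W X.U K (fun _ _ => (1 : ℝ)) (fun p => D (X.W p) i (fun y => X.freq p * X.psi p y)) := by
  have hf := UB.mul X.hW (X.tau_UB K) ((X.psiD_bd K i).const_smul X.hW X.freq)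
  refine (hf.mono zero_le_one fun p x _ => le_of_eq ?_).congr
    (fun p => contMDiff_D X.frameSmooth_W i
      (contMDiff_const.mul (X.pb_psi.smooth p))) fun p x _ => ?_
  · rw [abs_of_pos (X.freq_pos p), freq, one_mul, X.tau_mul_sqrt]
  · refine Eventually.of_forall fun y => ?_
    show X.tau p y * (X.freq p • X.psiD p i y) = D (scaled (X.tau p) V) i _ y
    rw [D_scaled, show (fun z => X.freq p * X.psi p z) = fun z => X.freq p • X.psi p z from rfl,
      D_const_smul _ (mdiffAt_of_smoothAt (X.pb_psi.smooth p y))]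
    rfl

lemma csn_bd (K : ℕ) : UB X.W X.U K (fun _ _ => (1 : ℝ)) X.csn :=
  (UB.trig X.hW (fun p => contMDiff_const.mul (X.pb_psi.smooth p)) (X.phase_bd K) 1 0).congr
    (fun p => contMDiff_cos_phase (X.pb_psi.smooth p) (X.freq p))
    fun p x _ => Eventually.of_forall fun y => by simp [csn]

lemma sn_bd (K : ℕ) : UB X.W X.U K (fun _ _ => (1 : ℝ)) X.sn :=
  (UB.trig X.hW (fun p => contMDiff_const.mul (X.pb_psi.smooth p)) (X.phase_bd K) 0 1).congr
    (fun p => contMDiff_sin_phase (X.pb_psi.smooth p) (X.freq p))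
    fun p x _ => Eventually.of_forall fun y => by simp [sn]

lemma rot_bd {K : ℕ} {μ : ι → M → ℝ} {a b : ι → M → ℝ} {f f' : ι → M → R4}
    (ha : UB X.W X.U K (fun _ _ => (1 : ℝ)) a) (hb : UB X.W X.U K (fun _ _ => (1 : ℝ)) b)
    (hf : UB X.W X.U K μ f) (hf' : UB X.W X.U K μ f') :
    UB X.W X.U K μ (fun p y => a p y • f p y + b p y • f' p y) :=
  ((UB.smul X.hW ha hf).mono zero_le_one fun p x _ => le_rfl).add X.hW
    ((UB.smul X.hW hb hf').mono zero_le_one fun p x _ => le_rfl)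

lemma eF_bd (K : ℕ) : UB X.W X.U K (fun _ _ => (1 : ℝ)) X.eF :=
  X.rot_bd (X.csn_bd K) (X.sn_bd K) (X.n1_bd K) (X.n2_bd K)

lemma uF_bd (K : ℕ) : UB X.W X.U K (fun _ _ => (1 : ℝ)) X.uF :=
  X.rot_bd ((X.sn_bd K).neg X.hW) (X.csn_bd K) (X.n1_bd K) (X.n2_bd K)

lemma om_bd (i : Fin N) (K : ℕ) : UB X.W X.U K X.m (fun p => X.om p i) :=
  X.rot_bd (X.csn_bd K) (X.sn_bd K) (X.dn1_bd i K) (X.dn2_bd i K)

lemma om2_bd (i : Fin N) (K : ℕ) : UB X.W X.U K X.m (fun p => X.om2 p i) :=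
  X.rot_bd ((X.sn_bd K).neg X.hW) (X.csn_bd K) (X.dn1_bd i K) (X.dn2_bd i K)

lemma om3_bd (i k : Fin N) (K : ℕ) :
    UB X.W X.U K (fun p _ => X.Lam p) (fun p => X.om3 p i k) :=
  X.rot_bd (X.csn_bd K) (X.sn_bd K) (X.ddn1_bd i k K) (X.ddn2_bd i k K)

/-- The bound of `√u`. -/
noncomputable def cu : ℝ := Real.sqrt ((N : ℝ) * X.C₀ ^ 2 + 1)

lemma sqrt_u_le (p : ι) (x : M) : Real.sqrt (X.u p x) ≤ X.cu := Real.sqrt_le_sqrt (X.u_le p x)

lemma DFs_eq [T2Space M] [CompactSpace M] {x : M} (hx : x ∈ X.U p) (i : Fin N) :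
    D V i (X.Fs p) =ᶠ[𝓝 x] fun y => X.al p • (D V i (X.F0 p) y
      + X.psiD p i y • X.uF p y + (X.freq p)⁻¹ • X.om p i y) :=
  D_spiralMap_eventuallyEq (X.data p).smooth_F (X.data p).sec_S (X.loc p) hx
    (X.freq_pos p).ne' _ i

variable [T2Space M] [CompactSpace M]

lemma DFs_bd (i : Fin N) (K : ℕ) :
    UB X.W X.U K (fun _ _ => (1 : ℝ)) (fun p => D V i (X.Fs p)) := by
  have h1 : UB X.W X.U K (fun _ _ => (1 : ℝ)) (fun p y => X.psiD p i y • X.uF p y) :=
    (UB.smul X.hW (X.psiD_bd K i) (X.uF_bd K)).mono (Real.sqrt_nonneg _ : 0 ≤ X.cu)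
      fun p x _ => by rw [mul_one, mul_one]; exact X.sqrt_u_le p x
  have h2 : UB X.W X.U K (fun _ _ => (1 : ℝ)) (fun p y => (X.freq p)⁻¹ • X.om p i y) :=
    ((X.om_bd i K).const_smul X.hW fun p => (X.freq p)⁻¹).mono X.cσ_nonneg fun p x _ => by
      rw [abs_of_pos (inv_pos.2 (X.freq_pos p)), X.inv_freq_m, mul_one]
      exact (X.eta_sig_le p x).trans (mul_le_of_le_one_right X.cσ_nonneg (X.eta_le_one p))
  refine (((((X.DF0_bd i K).add X.hW h1).add X.hW h2).const_smul X.hW X.al).mono zero_le_one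
    fun p x _ => ?_).congr (fun p => contMDiff_D X.frame i X.contMDiff_Fs)
    fun p x hx => (X.DFs_eq hx i).symm
  rw [one_mul, mul_one, abs_of_nonneg (show 0 ≤ X.al p from Real.sqrt_nonneg _)]
  exact (X.al_bounds p).2

lemma dF_bd (i : Fin N) (K : ℕ) :
    UB X.W X.U K X.tau (fun p => D (X.W p) i (X.Fs p)) :=
  ((UB.smul X.hW (X.tau_UB K) (X.DFs_bd i K)).mono zero_le_one fun p x _ => by simp).congr
    (fun p => contMDiff_D X.frameSmooth_W i X.contMDiff_Fs)
    fun p x _ => Eventually.of_forall fun y => (D_scaled (X.tau p) V i (X.Fs p) y).symm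

lemma Xi_bd (i k : Fin N) (K : ℕ) : UB X.W X.U K X.m (fun p => X.Xi p i k) := by
  have hcu : 0 ≤ X.cu := Real.sqrt_nonneg _
  have t1 := (UB.inner X.hW (X.DF0_bd i K) (X.om_bd k K)).mono (μ₂ := X.m) zero_le_one
    fun p x _ => le_rfl
  have t2 := (UB.inner X.hW (X.om_bd i K) (X.DF0_bd k K)).mono (μ₂ := X.m) zero_le_one
    fun p x _ => le_of_eq (by ring)
  have t3 := (UB.mul X.hW (X.psiD_bd K i) (UB.inner X.hW (X.uF_bd K) (X.om_bd k K))).mono
    (μ₂ := X.m) hcu fun p x _ => by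
      rw [one_mul]
      exact mul_le_mul_of_nonneg_right (X.sqrt_u_le p x) (X.m_nonneg p x)
  have t4 := (UB.mul X.hW (X.psiD_bd K k) (UB.inner X.hW (X.om_bd i K) (X.uF_bd K))).mono
    (μ₂ := X.m) hcu fun p x _ => by
      rw [mul_one]
      exact mul_le_mul_of_nonneg_right (X.sqrt_u_le p x) (X.m_nonneg p x)
  have t5 := ((UB.inner X.hW (X.om_bd i K) (X.om_bd k K)).const_smul X.hW
    fun p => (X.freq p)⁻¹).mono (μ₂ := X.m) X.cσ_nonneg fun p x _ => by
      rw [abs_of_pos (inv_pos.2 (X.freq_pos p)), ← mul_assoc, X.inv_freq_m]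
      exact mul_le_mul_of_nonneg_right ((X.eta_sig_le p x).trans
        (mul_le_of_le_one_right X.cσ_nonneg (X.eta_le_one p))) (X.m_nonneg p x)
  exact (((t1.add X.hW t2).add X.hW t3).add X.hW t4).add X.hW t5

lemma r0_eq {x : M} (hx : x ∈ X.U p) (i k : Fin N) :
    X.r0 p i k x = (1 - X.s0 p) * (X.res p i k x - (X.freq p)⁻¹ * X.Xi p i k x) := by
  have hi := (X.DFs_eq hx i).self_of_nhds
  have hk := (X.DFs_eq hx k).self_of_nhds
  have hd := dSecSq_eq (V := V) (X.data p).sec_S (X.loc p) hx i k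
  have hu : ⟪X.uF p x, X.uF p x⟫ = 1 := by
    rw [real_inner_self_eq_norm_sq]
    simp only [uF]
    rw [norm_uFld (X.data p).nd (X.freq p) (X.loc p) hx, one_pow]
  have hFu : ∀ j, ⟪D V j (X.F0 p) x, X.uF p x⟫ = 0 := fun j =>
    inner_DF_uFld (X.data p).nd (X.freq p) j
  have hFu' : ∀ j, ⟪X.uF p x, D V j (X.F0 p) x⟫ = 0 := fun j => by
    rw [real_inner_comm]; exact hFu j
  simp only [r0, pullV, res, baseRes, hi, hk, Xi, sig, ← X.al_sq p]
  simp only [psiD, psi, S] at hd ⊢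
  rw [hd]
  simp only [F0, inner_add_left, inner_add_right, real_inner_smul_left, real_inner_smul_right] at *
  simp only [hu, hFu, hFu', sq]
  linear_combination -(gV g V i k x) * X.al_sq p

lemma r0_bd (i k : Fin N) (K : ℕ) :
    UB X.W X.U K (fun p x => X.η p * X.sig p x) (fun p => X.r0 p i k) := by
  have h2 : UB X.W X.U K (fun p x => X.η p * X.sig p x)
      (fun p y => (X.freq p)⁻¹ • X.Xi p i k y) :=
    ((X.Xi_bd i k K).const_smul X.hW fun p => (X.freq p)⁻¹).mono zero_le_one fun p x _ => by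
      rw [abs_of_pos (inv_pos.2 (X.freq_pos p)), X.inv_freq_m, one_mul]
  refine ((((X.res_bd i k K).sub X.hW h2).const_smul X.hW fun p => 1 - X.s0 p).mono zero_le_one
    fun p x _ => ?_).congr (fun p => ((contMDiff_gV g X.frame i k).sub
      (contMDiff_pullV X.frame X.contMDiff_Fs i k)).sub
      (X.contMDiff_sig.mul (contMDiff_gV g X.frame i k))) fun p x hx => ?_
  · rw [one_mul, abs_of_nonneg (le_trans (by norm_num) (X.one_sub_s0 p).1)]
    exact mul_le_of_le_one_left (mul_nonneg (X.η_pos p).le (X.sig_pos p x).le)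
      (X.one_sub_s0 p).2
  · filter_upwards [(X.loc p).isOpen.mem_nhds hx] with y hy
    exact (X.r0_eq hy i k).symm

lemma resW_bd (i k : Fin N) (K : ℕ) :
    UB X.W X.U K (fun p x => X.η p * (X.sig p x * X.tau p x ^ 2))
      (fun p x => gV g (X.W p) i k x - pullV (X.Fs p) (X.W p) i k x
        - X.sig p x * gV g (X.W p) i k x) := by
  refine ((UB.mul X.hW (UB.mul X.hW (X.tau_UB K) (X.tau_UB K)) (X.r0_bd i k K)).mono zero_le_one
    fun p x _ => le_of_eq (by ring)).congr (fun p => ((contMDiff_gV g X.frameSmooth_W i k).sub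
      (contMDiff_pullV X.frameSmooth_W X.contMDiff_Fs i k)).sub
      (X.contMDiff_sig.mul (contMDiff_gV g X.frameSmooth_W i k)))
    fun p x _ => Eventually.of_forall fun y => ?_
  simp only [W, gV_scaled, pullV_scaled, r0]
  ring

lemma DDFs_eq {x : M} (hx : x ∈ X.U p) (i k : Fin N) :
    D V i (D V k (X.Fs p)) x = X.al p • (D V i (D V k (X.F0 p)) x
      + D V i (X.psiD p k) x • X.uF p x
      + X.psiD p k x • (-(X.freq p * X.psiD p i x) • X.eF p x + X.om2 p i x)
      + (X.freq p)⁻¹ • ((X.freq p * X.psiD p i x) • X.om2 p k x + X.om3 p i k x)) := by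
  have h := DD_spiralMap (nd := (X.data p).nd) (α := X.al p) X.frame (X.data p).smooth_F (X.data p).sec_S (X.loc p) hx
    (X.freq_pos p).ne' i k
  rw [D_uFld (X.data p).sec_S (X.loc p).smooth, D_omFld X.frame (X.data p).sec_S (X.loc p).smooth]
    at h
  exact h

lemma DDFs_bd (i k : Fin N) (K : ℕ) :
    UB X.W X.U K (fun p x => X.Lam p ^ 2 * X.u p x) (fun p => D V i (D V k (X.Fs p))) := by
  have hm : ∀ {f : ι → M → R4}, UB X.W X.U K X.m f →
      UB X.W X.U K (fun p x => X.Lam p ^ 2 * X.u p x) f := fun h =>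
    h.mono (by positivity : (0 : ℝ) ≤ |X.C₀| + 1) fun p x _ => (X.m_le p x).trans
      (mul_le_mul_of_nonneg_right (mul_le_of_le_one_right (by positivity) (X.eta_le_one p))
        (mul_nonneg (sq_nonneg _) (X.u_pos p x).le))
  have hLu : ∀ p x, 0 ≤ X.Lam p ^ 2 * X.u p x :=
    fun p x => mul_nonneg (sq_nonneg _) (X.u_pos p x).le
  have hsm : ∀ p x, Real.sqrt (X.u p x) * X.m p x ≤ X.cu * X.m p x :=
    fun p x => mul_le_mul_of_nonneg_right (X.sqrt_u_le p x) (X.m_nonneg p x)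
  have t1 := hm (X.ddF0_bd i k K)
  have t2 := (UB.smul X.hW (X.ddpsi_bd i k K) (X.uF_bd K)).mono
    (μ₂ := fun p x => X.Lam p ^ 2 * X.u p x) zero_le_one fun p x _ => le_of_eq (by ring)
  have hfe : UB X.W X.U K (fun p x => X.freq p * Real.sqrt (X.u p x))
      (fun p y => X.freq p * X.psiD p i y) :=
    ((X.psiD_bd K i).const_smul X.hW X.freq).mono zero_le_one fun p x _ => by
      rw [one_mul, abs_of_pos (X.freq_pos p)]
  have t3 := (UB.smul X.hW (X.psiD_bd K k) ((UB.smul X.hW (hfe.neg X.hW) (X.eF_bd K)))).mono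
    (μ₂ := fun p x => X.Lam p ^ 2 * X.u p x) zero_le_one fun p x _ => le_of_eq (by
      rw [freq]
      linear_combination (X.Lam p ^ 2) * Real.mul_self_sqrt (X.u_pos p x).le)
  have t4 := hm ((UB.smul X.hW (X.psiD_bd K k) (X.om2_bd i K)).mono (μ₂ := X.m)
    (Real.sqrt_nonneg _ : 0 ≤ X.cu) fun p x _ => hsm p x)
  have t5 := hm ((UB.smul X.hW (X.psiD_bd K i) (X.om2_bd k K)).mono (μ₂ := X.m)
    (Real.sqrt_nonneg _ : 0 ≤ X.cu) fun p x _ => hsm p x)
  have t6 := ((X.om3_bd i k K).const_smul X.hW fun p => (X.freq p)⁻¹).mono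
    (μ₂ := fun p x => X.Lam p ^ 2 * X.u p x) zero_le_one fun p x _ => by
      rw [abs_of_pos (inv_pos.2 (X.freq_pos p)), one_mul]
      refine le_trans ?_ (X.one_le_Lam_u p x)
      rw [inv_mul_le_iff₀ (X.freq_pos p), mul_one, freq]
      exact le_self_pow₀ (X.one_le_Lam p) two_ne_zero
  refine (((((((t1.add X.hW t2).add X.hW t3).add X.hW t4).add X.hW t5).add X.hW t6).const_smul
    X.hW X.al).mono zero_le_one fun p x _ => ?_).congr
    (fun p => contMDiff_D X.frame i (contMDiff_D X.frame k X.contMDiff_Fs)) fun p x hx => ?_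
  · rw [one_mul, abs_of_nonneg (show 0 ≤ X.al p from Real.sqrt_nonneg _)]
    exact mul_le_of_le_one_left (hLu p x) (X.al_bounds p).2
  · filter_upwards [(X.loc p).isOpen.mem_nhds hx] with y hy
    rw [X.DDFs_eq hy i k]
    congr 1
    have hf := (X.freq_pos p).ne'
    match_scalars <;> field_simp

end Ctx

end Vale.Agent.P205.Full.Start
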