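import Vale.Agent.P205.Full.Start.SpiralMain

/-!
# P205 full, START A6: second fundamental form of the last spiral, upper and lower bounds (helper36)
-/

open scoped Manifold ContDiff RealInnerProductSpace Topology
open Bundle Filter

set_option linter.unusedSectionVars false

namespace Vale.Agent.P205.Full.Start

variable {M : Type} [TopologicalSpace M] [ChartedSpace R2 M] [IsManifold (𝓡 2) ∞ M]
variable [T2Space M] [CompactSpace M]
variable {N : ℕ} {ι : Type} {g : Metric M} {V : Frame M N}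

namespace Ctx

variable (X : Ctx g V ι)

/-- The derivatives of the spiral map, as a family of vectors. -/
noncomputable def vec (p : ι) (x : M) : Fin N → R4 := fun i => D V i (X.Fs p) x

/-- The derivatives of the spiral map are close to an isometric family for small `η`. -/
lemma gram_close : ∃ c : ℝ, 0 ≤ c ∧ ∀ p, ∀ x ∈ X.U p, ∀ i k,
    |⟪X.vec p x i, X.vec p x k⟫ - gV g V i k x| ≤ c * X.η p := by
  choose c hc hb using fun q : Fin N × Fin N => (X.r0_bd q.1 q.2 0).norm_le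
  obtain ⟨G, hG, hg⟩ := X.gbd 0
  have hs : ∀ q, c q ≤ ∑ j, c j :=
    fun q => Finset.single_le_sum (fun j _ => hc j) (Finset.mem_univ q)
  have hS : 0 ≤ ∑ j, c j := Finset.sum_nonneg fun j _ => hc j
  refine ⟨((∑ j, c j) + G) * X.cσ, mul_nonneg (add_nonneg hS hG) X.cσ_nonneg,
    fun p x hx i k => ?_⟩
  have h1 : |X.r0 p i k x| ≤ (∑ j, c j) * (X.cσ * X.η p) :=
    (hb (i, k) p x hx).trans (mul_le_mul (hs _) (X.eta_sig_le p x)
      (mul_nonneg (X.η_pos p).le (X.sig_pos p x).le) hS)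
  have h2 : |gV g V i k x| ≤ G := by
    simpa using BdOn.norm_le (hg i k) (Set.mem_univ x)
  have h3 : |X.sig p x * gV g V i k x| ≤ X.cσ * X.η p * G := by
    rw [abs_mul, abs_of_pos (X.sig_pos p x)]
    exact mul_le_mul (X.sig_le_eta p x) h2 (abs_nonneg _)
      (mul_nonneg X.cσ_nonneg (X.η_pos p).le)
  have he : ⟪X.vec p x i, X.vec p x k⟫ - gV g V i k x
      = -(X.r0 p i k x) - X.sig p x * gV g V i k x := by
    simp only [vec, r0, pullV]; ring
  rw [he]
  calc |-(X.r0 p i k x) - X.sig p x * gV g V i k x|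
      ≤ |X.r0 p i k x| + |X.sig p x * gV g V i k x| := (abs_sub _ _).trans (by rw [abs_neg])
    _ ≤ _ := by linarith

variable {X}

/-- For small `η` the derivatives span and the normal projector is uniformly bounded. -/
def Nondeg (X : Ctx g V ι) (c B : ℝ) : Prop :=
  0 < c ∧ ∀ p, ∀ x ∈ X.U p, c ≤ gram2 (X.vec p x) ∧ ‖X.vec p x‖ ≤ B

lemma Nondeg.gram_ne {c B : ℝ} (h : X.Nondeg c B) {p : ι} {x : M} (hx : x ∈ X.U p) :
    gram2 (X.vec p x) ≠ 0 := (h.1.trans_le (h.2 p x hx).1).ne'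

/-- The normal projector has bounded derivatives at the scale of the spiral. -/
lemma sff_bd {c B : ℝ} (h : X.Nondeg c B) (hcov : ∀ p, ∀ x, gram2 (X.vec p x) ≠ 0)
    (hs : FrameSpans V) (i k : Fin N) (K : ℕ) :
    UB X.W X.U K (fun p x => X.tau p x * Real.sqrt (X.u p x))
      (fun p => sff (X.Fs p) (X.W p) i k) := by
  have hW := X.hW
  have hvec : UB X.W X.U K (fun _ _ => (1 : ℝ)) X.vec :=
    UB.pi hW (fun _ _ _ => zero_le_one) fun j => X.DFs_bd j K
  have hS : IsCompact (Metric.closedBall (0 : Fin N → R4) B ∩ {u | c ≤ gram2 u}) :=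
    (isCompact_closedBall _ _).inter_right (isClosed_le continuous_const contDiff_gram2.continuous)
  have hP : UB X.W X.U K (fun _ _ => (1 : ℝ)) (fun p y => normOp (X.vec p y)) :=
    UB.comp hW isOpen_gram2_ne_zero contDiffOn_normOp hS
      (fun u hu => (h.1.trans_le hu.2).ne')
      (fun p x hx => ⟨mem_closedBall_zero_iff.2 (h.2 p x hx).2, (h.2 p x hx).1⟩)
      (fun p x => (contDiffOn_normOp.contDiffAt
        (isOpen_gram2_ne_zero.mem_nhds (hcov p x))).comp_contMDiffAt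
        (hvec.smooth p x))
      (fun p x _ => Filter.EventuallyEq.rfl) hvec
  have hA := UB.bilin hW (ContinuousLinearMap.id ℝ (R4 →L[ℝ] R4)) hP (X.DDFs_bd i k K)
  have hB := UB.smul hW (UB.mul hW (X.tau_UB K) (X.tau_UB K)) hA
  refine (hB.mono zero_le_one fun p x _ => le_of_eq ?_).congr (fun p x => ?_) fun p x hx => ?_
  · rw [one_mul, one_mul]
    have := X.tau_mul_sqrt p x
    linear_combination (X.tau p x * Real.sqrt (X.u p x)) * this
      - (X.tau p x ^ 2 * X.Lam p ^ 2) * Real.mul_self_sqrt (X.u_pos p x).le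
  · have he : sff (X.Fs p) (X.W p) i k = fun y =>
        (X.tau p y * X.tau p y) • (normOp (X.vec p y)) (D V i (D V k (X.Fs p)) y) := by
      funext y
      rw [W, sff_scaled X.frame X.contMDiff_tau X.contMDiff_Fs, pow_two]
      congr 1
      exact (normOp_eq hs (hcov p y) _).symm
    rw [he]
    exact hB.smooth p x
  · refine Eventually.of_forall fun y => ?_
    rw [W, sff_scaled X.frame X.contMDiff_tau X.contMDiff_Fs, pow_two]
    show (X.tau p y * X.tau p y) • normOp (X.vec p y) (D V i (D V k (X.Fs p)) y) = _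
    exact congrArg _ (normOp_eq hs (hcov p y) _)

/-- A normal-like unit vector detects the second fundamental form. -/
lemma abs_inner_le_sff {p : ι} {x : M} (hs : FrameSpans V) (hg : gram2 (X.vec p x) ≠ 0)
    (a n : R4) (hn : ‖n‖ = 1) :
    |⟪a, n⟫| ≤ ‖(tanPlane (X.Fs p) x)ᗮ.starProjection a‖
      + ‖a‖ * ‖n - normOp (X.vec p x) n‖ := by
  have h1 : normOp (X.vec p x) n = (tanPlane (X.Fs p) x)ᗮ.starProjection n := normOp_eq hs hg n
  have h2 : ⟪a, n⟫ = ⟪(tanPlane (X.Fs p) x)ᗮ.starProjection a, n⟫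
      + ⟪a, n - normOp (X.vec p x) n⟫ := by
    rw [h1, Submodule.inner_starProjection_left_eq_right, inner_sub_right]
    ring
  rw [h2]
  refine (abs_add_le _ _).trans (add_le_add ?_ (abs_real_inner_le_norm _ _))
  exact (abs_real_inner_le_norm _ _).trans_eq (by rw [hn, mul_one])

/-- The terms of `⟪D_i D_k F, n⟫` that are small. -/
noncomputable def rem (X : Ctx g V ι) (p : ι) (x : M) (n : R4) (i k : Fin N) : ℝ :=
  ⟪D V i (D V k (X.F0 p)) x, n⟫ + X.psiD p k x * ⟪X.om2 p i x, n⟫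
    + X.psiD p i x * ⟪X.om2 p k x, n⟫ + (X.freq p)⁻¹ * ⟪X.om3 p i k x, n⟫

variable (X)

lemma exists_rem_le : ∃ C : ℝ, 0 ≤ C ∧ ∀ p, ∀ x ∈ X.U p, ∀ (n : R4) (i k : Fin N), ‖n‖ = 1 →
    |X.rem p x n i k| ≤ C * (X.η p * (X.Lam p ^ 2 * X.u p x)) := by
  choose cF hcF hF using fun q : Fin N × Fin N => (X.ddF0_bd q.1 q.2 0).norm_le
  choose cP hcP hP using fun i => (X.om2_bd i 0).norm_le
  choose cQ hcQ hQ using fun q : Fin N × Fin N => (X.om3_bd q.1 q.2 0).norm_le
  set A := ∑ q, cF q with hAdef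
  set B := ∑ q, cP q with hBdef
  set C := ∑ q, cQ q with hCdef
  have nA : 0 ≤ A := Finset.sum_nonneg fun q _ => hcF q
  have nB : 0 ≤ B := Finset.sum_nonneg fun q _ => hcP q
  have nC : 0 ≤ C := Finset.sum_nonneg fun q _ => hcQ q
  have hcu : 0 ≤ X.cu := Real.sqrt_nonneg _
  refine ⟨(A + 2 * X.cu * B + C) * (|X.C₀| + 1), mul_nonneg (by positivity) (by positivity),
    fun p x hx n i k hn => ?_⟩
  have hm0 := X.m_nonneg p x
  have hf := X.freq_pos p
  have hψ := fun l => (X.abs_psiD_le_u hx l).trans (X.sqrt_u_le p x)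
  have hin : ∀ (z : R4) (r : ℝ), ‖z‖ ≤ r → |⟪z, n⟫| ≤ r := fun z r hz =>
    ((abs_real_inner_le_norm _ _).trans_eq (by rw [hn, mul_one])).trans hz
  have a1 := hin _ _ ((hF (i, k) p x hx).trans (mul_le_mul_of_nonneg_right
    (Finset.single_le_sum (fun j _ => hcF j) (Finset.mem_univ (i, k))) hm0))
  have aP : ∀ l, |⟪X.om2 p l x, n⟫| ≤ B * X.m p x := fun l =>
    hin _ _ ((hP l p x hx).trans (mul_le_mul_of_nonneg_right
      (Finset.single_le_sum (fun j _ => hcP j) (Finset.mem_univ l)) hm0))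
  have a2 : |X.psiD p k x * ⟪X.om2 p i x, n⟫| ≤ X.cu * (B * X.m p x) := by
    rw [abs_mul]; exact mul_le_mul (hψ k) (aP i) (abs_nonneg _) hcu
  have a3 : |X.psiD p i x * ⟪X.om2 p k x, n⟫| ≤ X.cu * (B * X.m p x) := by
    rw [abs_mul]; exact mul_le_mul (hψ i) (aP k) (abs_nonneg _) hcu
  have a4 : |(X.freq p)⁻¹ * ⟪X.om3 p i k x, n⟫| ≤ C * X.m p x := by
    rw [abs_mul, abs_of_pos (inv_pos.2 hf), inv_mul_le_iff₀ hf]
    refine (hin _ _ ((hQ (i, k) p x hx).trans (mul_le_mul_of_nonneg_right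
      (Finset.single_le_sum (fun j _ => hcQ j) (Finset.mem_univ (i, k))) (X.Lam_pos p).le))).trans ?_
    calc C * X.Lam p ≤ C * (X.Lam p ^ 2 * 1) := by
          rw [mul_one]
          exact mul_le_mul_of_nonneg_left (le_self_pow₀ (X.one_le_Lam p) two_ne_zero) nC
      _ ≤ C * (X.Lam p ^ 2 * X.m p x) := mul_le_mul_of_nonneg_left
          (mul_le_mul_of_nonneg_left (X.one_le_m p x) (sq_nonneg _)) nC
      _ = X.freq p * (C * X.m p x) := by rw [freq]; ring
  calc |X.rem p x n i k| ≤ A * X.m p x + X.cu * (B * X.m p x) + X.cu * (B * X.m p x)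
        + C * X.m p x :=
        (abs_add_le _ _).trans (add_le_add ((abs_add_le _ _).trans
          (add_le_add ((abs_add_le _ _).trans (add_le_add a1 a2)) a3)) a4)
    _ = (A + 2 * X.cu * B + C) * X.m p x := by ring
    _ ≤ (A + 2 * X.cu * B + C) * ((|X.C₀| + 1) * X.η p * (X.Lam p ^ 2 * X.u p x)) :=
        mul_le_mul_of_nonneg_left (X.m_le p x) (by positivity)
    _ = _ := by ring

lemma exists_om_le : ∃ C : ℝ, 0 ≤ C ∧ ∀ p, ∀ x ∈ X.U p, ∀ (n : R4) (l : Fin N), ‖n‖ = 1 →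
    |(X.freq p)⁻¹ * ⟪X.om p l x, n⟫| ≤ C * X.η p := by
  choose cO hcO hO using fun i => (X.om_bd i 0).norm_le
  have hS : 0 ≤ ∑ i, cO i := Finset.sum_nonneg fun q _ => hcO q
  refine ⟨(∑ i, cO i) * X.cσ, mul_nonneg hS X.cσ_nonneg, fun p x hx n l hn => ?_⟩
  have hf := X.freq_pos p
  rw [abs_mul, abs_of_pos (inv_pos.2 hf)]
  calc (X.freq p)⁻¹ * |⟪X.om p l x, n⟫| ≤ (X.freq p)⁻¹ * ((∑ i, cO i) * X.m p x) := by
        refine mul_le_mul_of_nonneg_left ((abs_real_inner_le_norm _ _).trans ?_) (inv_pos.2 hf).le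
        rw [hn, mul_one]
        exact (hO l p x hx).trans (mul_le_mul_of_nonneg_right
          (Finset.single_le_sum (fun j _ => hcO j) (Finset.mem_univ l)) (X.m_nonneg p x))
    _ = (∑ i, cO i) * (X.η p * X.sig p x) := by rw [← X.inv_freq_m]; ring
    _ ≤ _ := by
        rw [mul_assoc]
        exact mul_le_mul_of_nonneg_left (X.eta_sig_le p x) hS

lemma exists_test {c B : ℝ} (h : X.Nondeg c B) (hs : FrameSpans V) (C' : ℝ) :
    ∃ E : ℝ, 0 ≤ E ∧ ∀ p, ∀ x ∈ X.U p, ∀ (n : R4) (i k : Fin N) (T : ℝ), ‖n‖ = 1 →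
      (∀ l, |⟪X.vec p x l, n⟫| ≤ C' * X.η p) →
      ⟪D V i (D V k (X.Fs p)) x, n⟫ = X.al p * (T + X.rem p x n i k) →
      |T| / 2 ≤ ‖sff (X.Fs p) V i k x‖ + E * X.η p * (X.Lam p ^ 2 * X.u p x) := by
  obtain ⟨Ct, hCt, htan⟩ := norm_tan_le (N := N) (B := B) h.1
  obtain ⟨Cr, hCr, hrem⟩ := X.exists_rem_le
  choose cA hcA hA using fun q : Fin N × Fin N => (X.DDFs_bd q.1 q.2 0).norm_le
  have nA : 0 ≤ ∑ q, cA q := Finset.sum_nonneg fun q _ => hcA q
  refine ⟨Cr + (∑ q, cA q) * (Ct * ((N : ℝ) * max C' 0)), by positivity,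
    fun p x hx n i k T hn hsmall he => ?_⟩
  set U := X.Lam p ^ 2 * X.u p x with hUdef
  have hη := X.η_pos p
  have hU : 0 ≤ U := mul_nonneg (sq_nonneg _) (X.u_pos p x).le
  have hal := X.al_bounds p
  have h1 := abs_inner_le_sff hs (h.gram_ne hx) (D V i (D V k (X.Fs p)) x) n hn
  have hA' : ‖D V i (D V k (X.Fs p)) x‖ ≤ (∑ q, cA q) * U :=
    (hA (i, k) p x hx).trans (mul_le_mul_of_nonneg_right
      (Finset.single_le_sum (fun j _ => hcA j) (Finset.mem_univ (i, k))) hU)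
  have hpn : ‖n - normOp (X.vec p x) n‖ ≤ Ct * ((N : ℝ) * max C' 0 * X.η p) := by
    refine (htan _ (h.2 p x hx).2 (h.2 p x hx).1 n).trans (mul_le_mul_of_nonneg_left ?_ hCt)
    refine (Finset.sum_le_sum fun l _ => (hsmall l).trans
      (mul_le_mul_of_nonneg_right (le_max_left C' 0) hη.le)).trans (le_of_eq ?_)
    simp [mul_assoc]
  rw [he, abs_mul, abs_of_nonneg (le_trans (by norm_num) hal.1)] at h1
  have h4 := mul_le_mul hA' hpn (norm_nonneg _) (mul_nonneg nA hU)
  have h5 := hrem p x hx n i k hn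
  have h2 : |T| ≤ |T + X.rem p x n i k| + |X.rem p x n i k| := by
    have := abs_sub (T + X.rem p x n i k) (X.rem p x n i k)
    rwa [add_sub_cancel_right] at this
  have h3 : |T + X.rem p x n i k| / 2 ≤ X.al p * |T + X.rem p x n i k| := by
    rw [div_eq_inv_mul]
    exact mul_le_mul_of_nonneg_right (by linarith [hal.1]) (abs_nonneg _)
  have h6 : 0 ≤ Cr * (X.η p * U) := by positivity
  show |T| / 2 ≤ ‖(tanPlane (X.Fs p) x)ᗮ.starProjection (D V i (D V k (X.Fs p)) x)‖ + _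
  linarith

variable {X}

lemma tests {c B : ℝ} (h : X.Nondeg c B) (hs : FrameSpans V) :
    ∃ E : ℝ, 0 ≤ E ∧ ∀ p, ∀ x ∈ X.U p,
      (∀ i, X.freq p * X.psiD p i x ^ 2 / 2
        ≤ ‖sff (X.Fs p) V i i x‖ + E * X.η p * (X.Lam p ^ 2 * X.u p x)) ∧
      (Real.sqrt (X.u p x) ≤ 2 * X.η p → ∀ i k, |D V i (X.psiD p k) x| / 2
        ≤ ‖sff (X.Fs p) V i k x‖ + E * X.η p * (X.Lam p ^ 2 * X.u p x)) := by
  obtain ⟨Co, hCo, hom⟩ := X.exists_om_le
  obtain ⟨E, hE, test⟩ := X.exists_test h hs (2 + Co)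
  refine ⟨E, hE, fun p x hx => ?_⟩
  have hη := X.η_pos p
  have hf := (X.freq_pos p).ne'
  have hal := X.al_bounds p
  have hal1 : |X.al p| ≤ 1 := by rw [abs_of_nonneg (le_trans (by norm_num) hal.1)]; exact hal.2
  have he1 : ‖X.eF p x‖ = 1 := norm_eFld (X.data p).nd _ (X.loc p) hx
  have hu1 : ‖X.uF p x‖ = 1 := norm_uFld (X.data p).nd _ (X.loc p) hx
  have heu : ⟪X.eF p x, X.uF p x⟫ = 0 := inner_eFld_uFld (X.data p).nd _ (X.loc p) hx
  have hue : ⟪X.uF p x, X.eF p x⟫ = 0 := by rw [real_inner_comm]; exact heu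
  have hee : ⟪X.eF p x, X.eF p x⟫ = 1 := by rw [real_inner_self_eq_norm_sq, he1, one_pow]
  have huu : ⟪X.uF p x, X.uF p x⟫ = 1 := by rw [real_inner_self_eq_norm_sq, hu1, one_pow]
  have hFe : ∀ l, ⟪D V l (X.F0 p) x, X.eF p x⟫ = 0 :=
    fun l => inner_DF_eFld (X.data p).nd (X.freq p) l
  have hFu : ∀ l, ⟪D V l (X.F0 p) x, X.uF p x⟫ = 0 :=
    fun l => inner_DF_uFld (X.data p).nd (X.freq p) l
  refine ⟨fun i => ?_, fun hsq i k => ?_⟩
  · refine le_trans (le_of_eq ?_) (test p x hx (X.eF p x) i i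
      (-(X.freq p * X.psiD p i x ^ 2)) he1 (fun l => ?_) ?_)
    · rw [abs_neg, abs_of_nonneg (mul_nonneg (X.freq_pos p).le (sq_nonneg _))]
    · rw [vec, (X.DFs_eq hx l).self_of_nhds]
      simp only [inner_add_left, real_inner_smul_left, hFe, hue, mul_zero, zero_add]
      rw [abs_mul]
      refine (mul_le_of_le_one_left (abs_nonneg _) hal1).trans ((hom p x hx _ l he1).trans ?_)
      exact mul_le_mul_of_nonneg_right (le_add_of_nonneg_left two_pos.le) hη.le
    · rw [X.DDFs_eq hx i i]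
      simp only [inner_add_left, real_inner_smul_left, hue, hee, mul_zero, mul_one, neg_smul,
        inner_neg_left, rem]
      field_simp
      ring
  · refine test p x hx (X.uF p x) i k _ hu1 (fun l => ?_) ?_
    · rw [vec, (X.DFs_eq hx l).self_of_nhds]
      simp only [inner_add_left, real_inner_smul_left, hFu, huu, mul_one, zero_add]
      rw [abs_mul, add_mul]
      exact (mul_le_of_le_one_left (abs_nonneg _) hal1).trans ((abs_add_le _ _).trans
        (add_le_add ((X.abs_psiD_le_u hx l).trans hsq) (hom p x hx _ l hu1)))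
    · rw [X.DDFs_eq hx i k]
      simp only [inner_add_left, real_inner_smul_left, huu, heu, mul_zero, mul_one, neg_smul,
        inner_neg_left, rem]
      field_simp
      ring

/-- Lower bound of the second fundamental form. -/
lemma sff_lower {c B : ℝ} (h : X.Nondeg c B) (hs : FrameSpans V) :
    ∃ B' η₁ : ℝ, 0 < η₁ ∧ ∀ p, X.η p ≤ η₁ → ∀ x ∈ X.U p,
      X.Lam p ^ 2 * X.u p x ≤ B' * sffSize (X.Fs p) V x := by
  obtain ⟨E, hE, htest⟩ := tests h hs
  set K0 := 4 * (|X.C₀| + 1) with hK0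
  have hK0pos : 0 < K0 := by positivity
  set Z := 2 * K0 * (((N : ℝ) ^ 2 + (N : ℝ)) * E) with hZ
  have hZ0 : 0 ≤ Z := by positivity
  refine ⟨2 * K0, 1 / (Z + 1), by positivity, fun p hp x hx => ?_⟩
  have hη := X.η_pos p
  have hL := X.Lam_pos p
  set U := X.Lam p ^ 2 * X.u p x with hUdef
  have hU : 0 ≤ U := mul_nonneg (sq_nonneg _) (X.u_pos p x).le
  obtain ⟨ht1, ht2⟩ := htest p x hx
  have he : 0 ≤ E * X.η p * U := by positivity
  -- it is enough to bound the size up to the error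
  suffices hk : U ≤ K0 * (sffSize (X.Fs p) V x + ((N : ℝ) ^ 2 + N) * (E * X.η p * U)) by
    have h1 : (Z + 1) * X.η p ≤ 1 := by
      rw [le_div_iff₀ (by positivity)] at hp
      linarith
    have h2 : Z * X.η p * U ≤ 1 * U :=
      mul_le_mul_of_nonneg_right (le_trans (by nlinarith) h1) hU
    have h3 : Z * X.η p * U = 2 * (K0 * (((N : ℝ) ^ 2 + N) * (E * X.η p * U))) := by
      rw [hZ]; ring
    linarith
  have hsize : ∀ i, ‖sff (X.Fs p) V i i x‖ ≤ ∑ k, ‖sff (X.Fs p) V i k x‖ := fun i =>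
    Finset.single_le_sum (f := fun k => ‖sff (X.Fs p) V i k x‖) (fun k _ => norm_nonneg _)
      (Finset.mem_univ i)
  by_cases hcase : X.R p ^ 8 / X.Lam p ^ 2 ≤ qS X.G V (X.S p) x
  · have h1 : X.freq p * qS X.G V (X.S p) x / 2
        ≤ sffSize (X.Fs p) V x + (N : ℝ) * (E * X.η p * U) := by
      rw [X.psiD_sq_sum hx, Finset.mul_sum, Finset.sum_div]
      refine (Finset.sum_le_sum fun i _ => (ht1 i).trans (add_le_add (hsize i) le_rfl)).trans ?_
      rw [Finset.sum_add_distrib, Finset.sum_const, Finset.card_univ, Fintype.card_fin,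
        nsmul_eq_mul]
      exact le_of_eq rfl
    have h2 : U ≤ 4 * (X.freq p * qS X.G V (X.S p) x / 2) := by
      have : X.u p x ≤ 2 * qS X.G V (X.S p) x := by simp only [u]; linarith
      have := mul_le_mul_of_nonneg_left this (sq_nonneg (X.Lam p))
      rw [hUdef, freq]
      linarith
    have h3 : (N : ℝ) * (E * X.η p * U) ≤ ((N : ℝ) ^ 2 + N) * (E * X.η p * U) :=
      mul_le_mul_of_nonneg_right (le_add_of_nonneg_left (by positivity)) he
    have h4 : (4 : ℝ) ≤ K0 := by rw [hK0]; linarith [abs_nonneg X.C₀]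
    have h5 : 0 ≤ X.freq p * qS X.G V (X.S p) x / 2 :=
      div_nonneg (mul_nonneg (X.freq_pos p).le (X.qS_nonneg p x)) two_pos.le
    exact h2.trans (mul_le_mul h4 (by linarith) h5 hK0pos.le)
  · push Not at hcase
    have hu2 : X.u p x ≤ 2 * (X.R p ^ 8 / X.Lam p ^ 2) := by simp only [u]; linarith
    have hcore : InCore g X.G V (X.F0 p) (X.data p).nd (X.S p) (X.sq p) (X.η p) X.C₀ x := by
      refine ((X.data p).region x).resolve_left fun hh => ?_
      have h1 : X.η p ^ X.c < X.R p ^ 8 / X.Lam p ^ 2 := lt_of_le_of_lt hh.1 hcase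
      rw [lt_div_iff₀ (pow_pos hL 2)] at h1
      have h2 : X.R p ^ (X.c + 8) ≤ X.Lam p ^ 2 :=
        (X.Rpow_le p (by omega)).trans (le_self_pow₀ (X.one_le_Lam p) two_ne_zero)
      have h3 : X.η p ^ X.c * X.R p ^ (X.c + 8) = X.R p ^ 8 := by
        rw [pow_add, ← mul_assoc, X.eta_pow_R, one_mul]
      have := mul_le_mul_of_nonneg_left h2 (pow_nonneg hη.le X.c)
      linarith
    have hsq : Real.sqrt (X.u p x) ≤ 2 * X.η p := by
      rw [Real.sqrt_le_iff]
      refine ⟨by positivity, hu2.trans ?_⟩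
      have h2 : X.R p ^ 10 ≤ X.Lam p ^ 2 :=
        (X.Rpow_le p (by omega)).trans (le_self_pow₀ (X.one_le_Lam p) two_ne_zero)
      have h3 : X.R p ^ 8 / X.Lam p ^ 2 ≤ X.η p ^ 2 := by
        rw [div_le_iff₀ (pow_pos hL 2)]
        calc X.R p ^ 8 = X.η p ^ 2 * X.R p ^ 10 := by
              linear_combination (-(X.R p ^ 8)) * X.eta_pow_R p 2
          _ ≤ _ := mul_le_mul_of_nonneg_left h2 (by positivity)
      linarith [sq_nonneg (X.η p)]
    have hh := hcore.hess
    have hsame : ∑ i, ∑ k, ‖nLine X.G x (D V i (dSec X.G V (X.S p) k) x)‖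
        = ∑ i, ∑ k, |D V i (X.psiD p k) x| :=
      Finset.sum_congr rfl fun i _ => Finset.sum_congr rfl fun k _ =>
        (abs_DD_lpsi_eq X.frame (X.data p).sec_S (X.loc p) hx i k).symm
    rw [hsame] at hh
    change X.R p ^ 8 ≤ _ at hh
    set H := ∑ i, ∑ k, |D V i (X.psiD p k) x| with hH
    have hH0 : 0 ≤ H := Finset.sum_nonneg fun i _ => Finset.sum_nonneg fun k _ => abs_nonneg _
    have h1 : H / 2 ≤ sffSize (X.Fs p) V x + (N : ℝ) ^ 2 * (E * X.η p * U) := by
      rw [hH, Finset.sum_div]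
      simp only [Finset.sum_div]
      refine (Finset.sum_le_sum fun i _ => Finset.sum_le_sum fun k _ => ht2 hsq i k).trans ?_
      simp only [Finset.sum_add_distrib, Finset.sum_const, Finset.card_univ, Fintype.card_fin,
        nsmul_eq_mul, sffSize]
      exact le_of_eq (by ring)
    have h2 : U ≤ 2 * X.R p ^ 8 := by
      rw [hUdef]
      calc X.Lam p ^ 2 * X.u p x ≤ X.Lam p ^ 2 * (2 * (X.R p ^ 8 / X.Lam p ^ 2)) :=
            mul_le_mul_of_nonneg_left hu2 (sq_nonneg _)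
        _ = _ := by field_simp
    have h3 := mul_le_mul_of_nonneg_right (le_abs_self X.C₀) hH0
    have h4 : U ≤ K0 * (H / 2) := by
      rw [hK0]
      linarith
    refine h4.trans (mul_le_mul_of_nonneg_left (h1.trans (add_le_add le_rfl
      (mul_le_mul_of_nonneg_right (le_add_of_nonneg_right (Nat.cast_nonneg N)) he))) hK0pos.le)

end Ctx

end Vale.Agent.P205.Full.Start
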