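import Mathlib

/-!
# P205 full, START A7: a periodic cutoff and a staircase

`bump` has period 5 and is one near the multiples of 5. `stair` increases by 5 on each period and
is locally constant where `bump` does not vanish. They give phases of geometric size in zones.
-/

open Set Filter
open scoped ContDiff Topology Real

noncomputable section

namespace Vale.Agent.P205.Full.Start

/-- The angular frequency of the period 5. -/
def om : ℝ := 2 * π / 5

/-- The periodic cutoff. -/
def bump (t : ℝ) : ℝ := Real.smoothTransition (2 * Real.cos (om * t))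

/-- The rate of the staircase. -/
def wgt (t : ℝ) : ℝ := Real.smoothTransition (-2 * Real.cos (om * t) - 1)

/-- The staircase. -/
def stair (t : ℝ) : ℝ := 5 / (∫ u in (0 : ℝ)..5, wgt u) * ∫ u in (0 : ℝ)..t, wgt u

theorem wgt_smooth : ContDiff ℝ ∞ wgt :=
  Real.smoothTransition.contDiff.comp
    ((contDiff_const.mul (Real.contDiff_cos.comp (contDiff_const.mul contDiff_id))).sub
      contDiff_const)

theorem cos_om_periodic : Function.Periodic (fun t => Real.cos (om * t)) 5 := fun t => by
  show Real.cos (om * (t + 5)) = Real.cos (om * t)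
  rw [show om * (t + 5) = om * t + 2 * π by rw [om]; ring, Real.cos_add_two_pi]

theorem wgt_periodic : Function.Periodic wgt 5 := fun t => by
  show Real.smoothTransition (-2 * (fun t => Real.cos (om * t)) (t + 5) - 1) = _
  rw [cos_om_periodic t]
  rfl

theorem wgt_eq_zero {t : ℝ} (h : -1 / 2 ≤ Real.cos (om * t)) : wgt t = 0 :=
  Real.smoothTransition.zero_of_nonpos (by linarith)

theorem wgt_integrable (a b : ℝ) : IntervalIntegrable wgt MeasureTheory.volume a b :=
  wgt_smooth.continuous.intervalIntegrable a b

theorem wgt_integral_pos : 0 < ∫ u in (0 : ℝ)..5, wgt u := by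
  refine intervalIntegral.integral_pos (by norm_num) wgt_smooth.continuous.continuousOn
    (fun u _ => Real.smoothTransition.nonneg _) ⟨5 / 2, by norm_num, ?_⟩
  refine Real.smoothTransition.pos_of_pos ?_
  rw [show om * (5 / 2) = π by rw [om]; ring, Real.cos_pi]
  norm_num

theorem hasDerivAt_stair (t : ℝ) :
    HasDerivAt stair (5 / (∫ u in (0 : ℝ)..5, wgt u) * wgt t) t :=
  ((wgt_smooth.continuous.integral_hasStrictDerivAt 0 t).hasDerivAt).const_mul _

theorem stair_smooth : ContDiff ℝ ∞ stair := by
  rw [contDiff_infty_iff_deriv]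
  refine ⟨fun t => (hasDerivAt_stair t).differentiableAt, ?_⟩
  rw [funext fun t => (hasDerivAt_stair t).deriv]
  exact contDiff_const.mul wgt_smooth

/-- Periodic part of the staircase. -/
theorem stair_sub_periodic : Function.Periodic (fun t => stair t - t) 5 := fun t => by
  have h : ∫ u in (0 : ℝ)..(t + 5), wgt u =
      (∫ u in (0 : ℝ)..t, wgt u) + ∫ u in (0 : ℝ)..5, wgt u := by
    rw [← intervalIntegral.integral_add_adjacent_intervals (wgt_integrable 0 t)
      (wgt_integrable t (t + 5)), wgt_periodic.intervalIntegral_add_eq t 0, zero_add]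
  show stair (t + 5) - (t + 5) = stair t - t
  rw [stair, stair, h, mul_add, div_mul_cancel₀ _ wgt_integral_pos.ne']
  ring

theorem exists_stair_bound : ∃ R : ℝ, ∀ t, |stair t - t| ≤ R := by
  obtain ⟨R, hR⟩ := (isCompact_Icc (a := (0 : ℝ)) (b := 5)).exists_bound_of_continuousOn
    (f := fun t => stair t - t) (stair_smooth.continuous.sub continuous_id).continuousOn
  refine ⟨R, fun t => ?_⟩
  obtain ⟨u, hu, e⟩ := stair_sub_periodic.exists_mem_Ico₀ (by norm_num) t
  have e' : stair t - t = stair u - u := e
  rw [e']
  exact hR u (Ico_subset_Icc_self hu)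

theorem cos_om_of_abs_le {r : ℝ} (hr : |r| ≤ 1 / 2) : 1 / 2 ≤ Real.cos (om * r) := by
  rw [← Real.cos_pi_div_three, ← Real.cos_abs (om * r)]
  refine Real.cos_le_cos_of_nonneg_of_le_pi (abs_nonneg _) (by linarith [Real.pi_pos]) ?_
  rw [abs_mul, abs_of_pos (by rw [om]; positivity : 0 < om), om]
  nlinarith [Real.pi_pos, abs_nonneg r]

theorem cos_om_int (n : ℤ) (r : ℝ) : Real.cos (om * ((n : ℝ) * 5 + r)) = Real.cos (om * r) := by
  have := cos_om_periodic.int_mul n r
  rwa [add_comm] at this

theorem bump_eq_one {n : ℤ} {r : ℝ} (hr : |r| ≤ 1 / 2) : bump ((n : ℝ) * 5 + r) = 1 := by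
  refine Real.smoothTransition.one_of_one_le ?_
  rw [cos_om_int]
  linarith [cos_om_of_abs_le hr]

theorem stair_eq {n : ℤ} {r : ℝ} (hr : |r| ≤ 1 / 2) : stair ((n : ℝ) * 5 + r) = (n : ℝ) * 5 := by
  have h0 : stair r = 0 := by
    rw [stair, intervalIntegral.integral_congr (a := 0) (b := r) (g := fun _ => (0 : ℝ)) fun u hu => ?_]
    · simp
    · refine wgt_eq_zero ?_
      have hu' : |u| ≤ 1 / 2 := by
        have h1 : |u - 0| ≤ |r - 0| := abs_sub_left_of_mem_uIcc hu
        rw [sub_zero, sub_zero] at h1
        exact h1.trans hr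
      linarith [cos_om_of_abs_le hu']
  have h := stair_sub_periodic.int_mul n r
  simp only [h0, add_comm r] at h
  linarith

/-- The staircase is locally constant where the cutoff lives. -/
theorem stair_eventually_const {t : ℝ} (ht : 0 ≤ Real.cos (om * t)) :
    ∀ᶠ y in 𝓝 t, stair y = stair t := by
  have hop : IsOpen {y : ℝ | -1 / 2 < Real.cos (om * y)} :=
    isOpen_lt continuous_const (Real.continuous_cos.comp (continuous_const.mul continuous_id))
  obtain ⟨ε, hε, hsub⟩ := Metric.isOpen_iff.1 hop t (show -1 / 2 < Real.cos (om * t) by linarith)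
  filter_upwards [Metric.ball_mem_nhds t hε] with y hy
  rw [stair, stair, ← intervalIntegral.integral_add_adjacent_intervals (wgt_integrable 0 t)
    (wgt_integrable t y), intervalIntegral.integral_congr (a := t) (b := y)
      (g := fun _ => (0 : ℝ)) fun u hu => ?_]
  · simp
  · exact wgt_eq_zero (hsub ((convex_ball t ε).ordConnected.uIcc_subset
      (Metric.mem_ball_self hε) hy hu)).le

theorem tsupport_bump_comp {X : Type*} [TopologicalSpace X] {s : X → ℝ} (hs : Continuous s) :
    tsupport (fun x => bump (s x)) ⊆ {x | 0 ≤ Real.cos (om * s x)} := by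
  refine closure_minimal (fun x hx => ?_) (isClosed_le continuous_const
    (Real.continuous_cos.comp (continuous_const.mul hs)))
  show 0 ≤ Real.cos (om * s x)
  by_contra h
  exact hx (Real.smoothTransition.zero_of_nonpos (by linarith [not_le.1 h]))

end Vale.Agent.P205.Full.Start
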