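import Vale.Agent.P205.Full.Start.Data
import Vale.Agent.P205.Full.Stage.Calculus

/-!
# P205 full, START: monomial bounds on a set

All constants are independent of `η`, of the surface and of the functions.
-/

open scoped Manifold ContDiff RealInnerProductSpace Topology
open Bundle Filter Set

set_option linter.unusedSectionVars false

namespace Vale.Agent.P205.Full.Start

/-- Running sum of absolute values of constants. -/
noncomputable def csum (C : ℕ → ℝ) (n : ℕ) : ℝ := ∑ p ∈ Finset.range (n + 1), |C p|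

theorem csum_nonneg (C : ℕ → ℝ) (n : ℕ) : 0 ≤ csum C n :=
  Finset.sum_nonneg fun p _ => abs_nonneg (C p)

theorem le_csum (C : ℕ → ℝ) {p n : ℕ} (h : p ≤ n) : C p ≤ csum C n :=
  (le_abs_self (C p)).trans (Finset.single_le_sum (f := fun q => |C q|)
    (fun q _ => abs_nonneg (C q)) (Finset.mem_range.2 (Nat.lt_succ_of_le h)))

theorem one_le_inv_eta {η : ℝ} (h0 : 0 < η) (h1 : η ≤ 1) : (1 : ℝ) ≤ η⁻¹ :=
  (one_le_inv₀ h0).2 h1

theorem eta_pow_mul_inv_pow_le {η : ℝ} (h0 : 0 < η) (h1 : η ≤ 1) {p q r : ℕ} (h : q + r ≤ p) :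
    η ^ p * η⁻¹ ^ q ≤ η ^ r := by
  calc η ^ p * η⁻¹ ^ q ≤ η ^ (q + r) * η⁻¹ ^ q := mul_le_mul_of_nonneg_right
        (pow_le_pow_of_le_one h0.le h1 h) (by positivity)
    _ = η ^ r * (η * η⁻¹) ^ q := by rw [mul_pow, pow_add]; ring
    _ = η ^ r := by rw [mul_inv_cancel₀ h0.ne', one_pow, mul_one]

/-- All word derivatives on `s` are bounded by monomials in `η`, linearly in the order. -/
def PolyBdOn {M : Type} [TopologicalSpace M] [ChartedSpace R2 M] [IsManifold (𝓡 2) ∞ M]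
    {E : Type} [NormedAddCommGroup E] [NormedSpace ℝ E] {N : ℕ}
    (V : Frame M N) (η : ℝ) (a : ℕ) (C : ℕ → ℝ) (s : Set M) (f : M → E) : Prop :=
  ∀ (w : List (Fin N)), ∀ x ∈ s, ‖DW V w f x‖ ≤ C w.length * η⁻¹ ^ (a * (w.length + 1))

section

variable {M : Type} [TopologicalSpace M] [ChartedSpace R2 M] [IsManifold (𝓡 2) ∞ M]
variable {E F G : Type} [NormedAddCommGroup E] [NormedSpace ℝ E]
  [NormedAddCommGroup F] [NormedSpace ℝ F] [NormedAddCommGroup G] [NormedSpace ℝ G]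
variable {N : ℕ} {V : Frame M N} {η : ℝ} {a a₁ a₂ : ℕ} {C C₁ C₂ : ℕ → ℝ} {f g : M → E}
  {s t : Set M}

theorem polyBdOn_univ : PolyBdOn V η a C univ f ↔ PolyBd V η a C f :=
  ⟨fun h w x => h w x (mem_univ x), fun h w x _ => h w x⟩

theorem PolyBd.polyBdOn (h : PolyBd V η a C f) (s : Set M) : PolyBdOn V η a C s f :=
  fun w x _ => h w x

theorem PolyBdOn.sup_le (h : PolyBdOn V η a C s f) {x : M} (hx : x ∈ s) :
    ‖f x‖ ≤ C 0 * η⁻¹ ^ a := by
  have h' := h [] x hx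
  simpa only [List.length_nil, Nat.zero_add, mul_one, DW_nil] using h'

theorem PolyBdOn.mono_set (h : PolyBdOn V η a C s f) (hts : t ⊆ s) : PolyBdOn V η a C t f :=
  fun w x hx => h w x (hts hx)

theorem PolyBdOn.union (h₁ : PolyBdOn V η a C s f) (h₂ : PolyBdOn V η a C t f) :
    PolyBdOn V η a C (s ∪ t) f :=
  fun w x hx => hx.elim (h₁ w x) (h₂ w x)

theorem PolyBdOn.mono (h : PolyBdOn V η a₁ C₁ s f) (h0 : 0 < η) (h1 : η ≤ 1) (ha : a₁ ≤ a₂)
    (hC : ∀ n, C₁ n ≤ C₂ n) (hC₂ : ∀ n, 0 ≤ C₂ n) : PolyBdOn V η a₂ C₂ s f := fun w x hx =>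
  (h w x hx).trans <| (mul_le_mul_of_nonneg_right (hC _) (by positivity)).trans <|
    mul_le_mul_of_nonneg_left
      (pow_le_pow_right₀ (one_le_inv_eta h0 h1) (Nat.mul_le_mul_right _ ha)) (hC₂ _)

theorem PolyBdOn.bdOn (h : PolyBdOn V η a C s f) (h0 : 0 < η) (h1 : η ≤ 1) (n : ℕ) :
    BdOn V s n (csum C n) (fun _ => η⁻¹ ^ (a * (n + 1))) f := fun w hw x hx =>
  (h w x hx).trans <| mul_le_mul (le_csum C hw)
    (pow_le_pow_right₀ (one_le_inv_eta h0 h1) (Nat.mul_le_mul_left a (by omega))) (by positivity)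
    (csum_nonneg C n)

theorem polyBdOn_of_bdOn (h : ∀ n, BdOn V s n (C n) (fun _ => η⁻¹ ^ (a * (n + 1))) f) :
    PolyBdOn V η a C s f :=
  fun w x hx => h w.length w le_rfl x hx

theorem PolyBdOn.congr (h : PolyBdOn V η a C s f) (hfg : ∀ x ∈ s, f =ᶠ[𝓝 x] g) :
    PolyBdOn V η a C s g := fun w x hx => by
  rw [← DW_congr (hfg x hx) w]
  exact h w x hx

theorem PolyBdOn.polyBd_of_tsupport (h : PolyBdOn V η a C (tsupport f) f) (h0 : 0 < η)
    (hC : ∀ n, 0 ≤ C n) : PolyBd V η a C f := fun w x => by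
  by_cases hx : x ∈ tsupport f
  · exact h w x hx
  · rw [DW_eq_zero_of_notMem_tsupport w hx, norm_zero]
    exact mul_nonneg (hC _) (by positivity)

theorem PolyBdOn.add (hV : FrameSmooth V) (hf : ∀ x ∈ s, ContMDiffAt (𝓡 2) 𝓘(ℝ, E) ∞ f x)
    (hg : ∀ x ∈ s, ContMDiffAt (𝓡 2) 𝓘(ℝ, E) ∞ g x)
    (h₁ : PolyBdOn V η a C₁ s f) (h₂ : PolyBdOn V η a C₂ s g) :
    PolyBdOn V η a (fun n => C₁ n + C₂ n) s (fun y => f y + g y) := fun w x hx => by
  rw [DW_add hV w (hf x hx) (hg x hx), add_mul]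
  exact norm_add_le_of_le (h₁ w x hx) (h₂ w x hx)

theorem PolyBdOn.sub (hV : FrameSmooth V) (hf : ∀ x ∈ s, ContMDiffAt (𝓡 2) 𝓘(ℝ, E) ∞ f x)
    (hg : ∀ x ∈ s, ContMDiffAt (𝓡 2) 𝓘(ℝ, E) ∞ g x)
    (h₁ : PolyBdOn V η a C₁ s f) (h₂ : PolyBdOn V η a C₂ s g) :
    PolyBdOn V η a (fun n => C₁ n + C₂ n) s (fun y => f y - g y) := fun w x hx => by
  rw [DW_sub hV w (hf x hx) (hg x hx), add_mul]
  exact (norm_sub_le _ _).trans (add_le_add (h₁ w x hx) (h₂ w x hx))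

theorem PolyBdOn.neg (hV : FrameSmooth V) (hf : ∀ x ∈ s, ContMDiffAt (𝓡 2) 𝓘(ℝ, E) ∞ f x)
    (h : PolyBdOn V η a C s f) : PolyBdOn V η a C s (fun y => -f y) := fun w x hx => by
  rw [DW_neg hV w (hf x hx), norm_neg]
  exact h w x hx

theorem PolyBdOn.sum (hV : FrameSmooth V) {ι : Type*} (T : Finset ι) {u : ι → M → E}
    {c : ι → ℕ → ℝ} (hu : ∀ k ∈ T, ∀ x ∈ s, ContMDiffAt (𝓡 2) 𝓘(ℝ, E) ∞ (u k) x)
    (h : ∀ k ∈ T, PolyBdOn V η a (c k) s (u k)) :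
    PolyBdOn V η a (fun n => ∑ k ∈ T, c k n) s (fun y => ∑ k ∈ T, u k y) := fun w x hx => by
  rw [DW_sum hV T w (fun k hk => hu k hk x hx), Finset.sum_mul]
  exact (norm_sum_le _ _).trans (Finset.sum_le_sum fun k hk => h k hk w x hx)

theorem PolyBdOn.clm (hV : FrameSmooth V) (T : E →L[ℝ] F)
    (hf : ∀ x ∈ s, ContMDiffAt (𝓡 2) 𝓘(ℝ, E) ∞ f x) (h : PolyBdOn V η a C s f) :
    PolyBdOn V η a (fun n => ‖T‖ * C n) s (fun y => T (f y)) := fun w x hx => by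
  rw [DW_clm hV T w (hf x hx), mul_assoc]
  exact (T.le_opNorm _).trans (mul_le_mul_of_nonneg_left (h w x hx) (norm_nonneg T))

theorem PolyBdOn.deriv (h : PolyBdOn V η a C s f) (h0 : 0 < η) (h1 : η ≤ 1) (i : Fin N) :
    PolyBdOn V η (2 * a) (fun n => |C (n + 1)|) s (D V i f) := fun w x hx => by
  have h' := h (w ++ [i]) x hx
  rw [DW_snoc, List.length_append, List.length_singleton] at h'
  refine h'.trans (mul_le_mul (le_abs_self _) ?_ (by positivity) (abs_nonneg _))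
  refine pow_le_pow_right₀ (one_le_inv_eta h0 h1) ?_
  calc a * (w.length + 1 + 1) ≤ a * (2 * (w.length + 1)) := Nat.mul_le_mul_left a (by omega)
    _ = 2 * a * (w.length + 1) := by ring

theorem PolyBdOn.prodMk (hV : FrameSmooth V) {g : M → F}
    (hf : ∀ x ∈ s, ContMDiffAt (𝓡 2) 𝓘(ℝ, E) ∞ f x)
    (hg : ∀ x ∈ s, ContMDiffAt (𝓡 2) 𝓘(ℝ, F) ∞ g x) (h0 : 0 < η)
    (h₁ : PolyBdOn V η a C₁ s f) (h₂ : PolyBdOn V η a C₂ s g) :
    PolyBdOn V η a (fun n => max (C₁ n) (C₂ n)) s (fun y => (f y, g y)) := fun w x hx => by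
  have hp := (hf x hx).prodMk_space (hg x hx)
  have e1 : DW V w f x = (DW V w (fun y => (f y, g y)) x).1 :=
    DW_clm hV (ContinuousLinearMap.fst ℝ E F) w hp
  have e2 : DW V w g x = (DW V w (fun y => (f y, g y)) x).2 :=
    DW_clm hV (ContinuousLinearMap.snd ℝ E F) w hp
  rw [Prod.norm_def, ← e1, ← e2]
  exact max_le ((h₁ w x hx).trans (mul_le_mul_of_nonneg_right (le_max_left _ _) (by positivity)))
    ((h₂ w x hx).trans (mul_le_mul_of_nonneg_right (le_max_right _ _) (by positivity)))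

/-- Products: exponents add. -/
theorem PolyBdOn.bilin (hV : FrameSmooth V) (h0 : 0 < η) (h1 : η ≤ 1) (T : E →L[ℝ] F →L[ℝ] G)
    {b : ℝ} (hT : ∀ u v, ‖T u v‖ ≤ b * ‖u‖ * ‖v‖) (hb : 0 ≤ b) {f : M → E} {g : M → F}
    (hf : ∀ x ∈ s, ContMDiffAt (𝓡 2) 𝓘(ℝ, E) ∞ f x)
    (hg : ∀ x ∈ s, ContMDiffAt (𝓡 2) 𝓘(ℝ, F) ∞ g x)
    (h₁ : PolyBdOn V η a₁ C₁ s f) (h₂ : PolyBdOn V η a₂ C₂ s g) :
    PolyBdOn V η (a₁ + a₂) (fun n => 2 ^ n * b * csum C₁ n * csum C₂ n) s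
      (fun y => T (f y) (g y)) :=
  polyBdOn_of_bdOn fun n => by
    refine (BdOn.bilin hV T hT hb hf hg (h₁.bdOn h0 h1 n) (h₂.bdOn h0 h1 n)).mono_bound
      fun x _ => le_of_eq ?_
    rw [Nat.add_mul, pow_add]

theorem PolyBdOn.smul (hV : FrameSmooth V) (h0 : 0 < η) (h1 : η ≤ 1) {c : M → ℝ}
    (hc : ∀ x ∈ s, ContMDiffAt (𝓡 2) 𝓘(ℝ, ℝ) ∞ c x)
    (hf : ∀ x ∈ s, ContMDiffAt (𝓡 2) 𝓘(ℝ, E) ∞ f x)
    (h₁ : PolyBdOn V η a₁ C₁ s c) (h₂ : PolyBdOn V η a₂ C₂ s f) :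
    PolyBdOn V η (a₁ + a₂) (fun n => 2 ^ n * 1 * csum C₁ n * csum C₂ n) s
      (fun y => c y • f y) :=
  PolyBdOn.bilin hV h0 h1 (ContinuousLinearMap.lsmul ℝ ℝ : ℝ →L[ℝ] E →L[ℝ] E)
    (fun u v => by rw [ContinuousLinearMap.lsmul_apply, norm_smul, one_mul]) zero_le_one
    hc hf h₁ h₂

theorem PolyBdOn.mul (hV : FrameSmooth V) (h0 : 0 < η) (h1 : η ≤ 1) {c d : M → ℝ}
    (hc : ∀ x ∈ s, ContMDiffAt (𝓡 2) 𝓘(ℝ, ℝ) ∞ c x)
    (hd : ∀ x ∈ s, ContMDiffAt (𝓡 2) 𝓘(ℝ, ℝ) ∞ d x)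
    (h₁ : PolyBdOn V η a₁ C₁ s c) (h₂ : PolyBdOn V η a₂ C₂ s d) :
    PolyBdOn V η (a₁ + a₂) (fun n => 2 ^ n * 1 * csum C₁ n * csum C₂ n) s
      (fun y => c y * d y) :=
  PolyBdOn.smul hV h0 h1 hc hd h₁ h₂

theorem PolyBdOn.inner {H : Type} [NormedAddCommGroup H] [InnerProductSpace ℝ H]
    (hV : FrameSmooth V) (h0 : 0 < η) (h1 : η ≤ 1) {u v : M → H}
    (hu : ∀ x ∈ s, ContMDiffAt (𝓡 2) 𝓘(ℝ, H) ∞ u x)
    (hv : ∀ x ∈ s, ContMDiffAt (𝓡 2) 𝓘(ℝ, H) ∞ v x)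
    (h₁ : PolyBdOn V η a₁ C₁ s u) (h₂ : PolyBdOn V η a₂ C₂ s v) :
    PolyBdOn V η (a₁ + a₂) (fun n => 2 ^ n * 1 * csum C₁ n * csum C₂ n) s
      (fun y => ⟪u y, v y⟫) :=
  PolyBdOn.bilin hV h0 h1 (innerSL ℝ : H →L[ℝ] H →L[ℝ] ℝ)
    (fun p q => by
      rw [one_mul]
      exact (Real.norm_eq_abs _).trans_le (abs_real_inner_le_norm p q))
    zero_le_one hu hv h₁ h₂

end

/-! ## Composition -/

private theorem comp_bound_aux (N K : ℕ) :
    ∀ (B : ℝ) (Cφ : ℕ → ℝ), ∃ C : ℝ, 0 ≤ C ∧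
      ∀ {E E' : Type} [NormedAddCommGroup E] [NormedSpace ℝ E] [NormedAddCommGroup E']
        [NormedSpace ℝ E'] (φ : E → E') (M : Type) [TopologicalSpace M] [ChartedSpace R2 M]
        [IsManifold (𝓡 2) ∞ M] (V : Frame M N) (s : Set M) (f : M → E), FrameSmooth V →
        (∀ x ∈ s, ContMDiffAt (𝓡 2) 𝓘(ℝ, E) ∞ f x) → (∀ x ∈ s, ContDiffAt ℝ ∞ φ (f x)) →
        (∀ k ≤ K, ∀ x ∈ s, ‖iteratedFDeriv ℝ k φ (f x)‖ ≤ Cφ k) →
        (∀ w : List (Fin N), 1 ≤ w.length → w.length ≤ K → ∀ x ∈ s, ‖DW V w f x‖ ≤ B) →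
        BdOn V s K C (fun _ => 1) (fun y => φ (f y)) := by
  induction K with
  | zero =>
    intro B Cφ
    refine ⟨max (Cφ 0) 0, le_max_right _ _, fun {E E'} _ _ _ _ φ M _ _ _ V s f _ _ _ hb _ =>
      bdOn_zero_iff.2 fun x hx => ?_⟩
    rw [mul_one, ← norm_iteratedFDeriv_zero (𝕜 := ℝ)]
    exact (hb 0 le_rfl x hx).trans (le_max_left _ _)
  | succ K ih =>
    intro B Cφ
    obtain ⟨C, hC0, hC⟩ := ih B fun k => Cφ (k + 1)
    refine ⟨max (Cφ 0) (2 ^ K * C * max B 0), le_max_of_le_right (by positivity),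
      fun {E E'} _ _ _ _ φ M _ _ _ V s f hV hf hφ hb hd => bdOn_succ_iff.2 ⟨fun x hx => ?_,
        fun i => ?_⟩⟩
    · rw [mul_one, ← norm_iteratedFDeriv_zero (𝕜 := ℝ)]
      exact (hb 0 (Nat.zero_le _) x hx).trans (le_max_left _ _)
    have hφ' : ∀ x ∈ s, ContDiffAt ℝ ∞ (fderiv ℝ φ) (f x) :=
      fun x hx => (hφ x hx).fderiv_right le_rfl
    have h1 := hC (fderiv ℝ φ) M V s f hV hf hφ'
      (fun k hk x hx => by
        rw [norm_iteratedFDeriv_fderiv]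
        exact hb (k + 1) (by omega) x hx)
      (fun w hw1 hw2 x hx => hd w hw1 (by omega) x hx)
    have hDi : BdOn V s K (max B 0) (fun _ => 1) (D V i f) := fun w hw x hx => by
      rw [mul_one, ← DW_snoc]
      exact (hd (w ++ [i]) (by simp)
        (by simp only [List.length_append, List.length_singleton]; omega) x hx).trans
        (le_max_left _ _)
    have h2 := BdOn.bilin hV (ContinuousLinearMap.id ℝ (E →L[ℝ] E')) (b := 1)
      (fun T v => by rw [one_mul]; exact T.le_opNorm v) zero_le_one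
      (fun x hx => (hφ' x hx).comp_contMDiffAt (hf x hx))
      (fun x hx => contMDiffAt_D hV i (hf x hx)) h1 hDi
    refine (h2.mono_bound fun x _ => ?_).congr fun x hx => ?_
    · simp only [mul_one]
      exact le_max_right _ _
    · have he : ∀ᶠ z in 𝓝 (f x), DifferentiableAt ℝ φ z := by
        filter_upwards [(contDiffAt_infty.1 (hφ x hx) 1).eventually (by simp)] with z hz
        exact hz.differentiableAt (by simp)
      filter_upwards [eventually_mdiffAt (hf x hx), (hf x hx).continuousAt.eventually he]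
        with y hy hy'
      exact (D_comp hy' hy).symm

/-- Composition at points where all derivatives of the outer map are bounded; the constant
depends only on the bounds. -/
theorem exists_bdOn_comp_bound (N K : ℕ) (B : ℝ) (Cφ : ℕ → ℝ) : ∃ C : ℝ, 0 ≤ C ∧
    ∀ {E E' : Type} [NormedAddCommGroup E] [NormedSpace ℝ E] [NormedAddCommGroup E']
      [NormedSpace ℝ E'] (φ : E → E') (M : Type) [TopologicalSpace M] [ChartedSpace R2 M]
      [IsManifold (𝓡 2) ∞ M] (V : Frame M N) (s : Set M) (f : M → E), FrameSmooth V →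
      (∀ x ∈ s, ContMDiffAt (𝓡 2) 𝓘(ℝ, E) ∞ f x) → (∀ x ∈ s, ContDiffAt ℝ ∞ φ (f x)) →
      (∀ k ≤ K, ∀ x ∈ s, ‖iteratedFDeriv ℝ k φ (f x)‖ ≤ Cφ k) →
      (∀ w : List (Fin N), 1 ≤ w.length → w.length ≤ K → ∀ x ∈ s, ‖DW V w f x‖ ≤ B) →
      BdOn V s K C (fun _ => 1) (fun y => φ (f y)) :=
  comp_bound_aux N K B Cφ

/-- Composition with a map whose derivatives are bounded at the values of the inner map. -/
theorem exists_polyBdOn_comp (N a : ℕ) (C Cφ : ℕ → ℝ) : ∃ C' : ℕ → ℝ, (∀ n, 0 ≤ C' n) ∧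
    ∀ {E E' : Type} [NormedAddCommGroup E] [NormedSpace ℝ E] [NormedAddCommGroup E']
      [NormedSpace ℝ E'] (φ : E → E') (M : Type) [TopologicalSpace M] [ChartedSpace R2 M]
      [IsManifold (𝓡 2) ∞ M] (V : Frame M N) (η : ℝ) (s : Set M) (f : M → E), FrameSmooth V → 0 < η → η ≤ 1 →
      (∀ x ∈ s, ContMDiffAt (𝓡 2) 𝓘(ℝ, E) ∞ f x) → (∀ x ∈ s, ContDiffAt ℝ ∞ φ (f x)) →
      (∀ k, ∀ x ∈ s, ‖iteratedFDeriv ℝ k φ (f x)‖ ≤ Cφ k) →
      PolyBdOn V η a C s f → PolyBdOn V η (2 * a) C' s (fun y => φ (f y)) := by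
  choose C' hC0 hC using fun n => exists_bdOn_comp_bound N n (csum C n) Cφ
  refine ⟨C', hC0, fun {E E'} _ _ _ _ φ M _ _ _ V η s f hV h0 h1 hf hφ hb h w x hx => ?_⟩
  set n := w.length with hn
  set t : ℝ := η ^ (2 * a) with ht
  have hW := frameSmooth_const_smul hV t
  have h' := hC n φ M (fun i y => t • V i y) {x} f hW
    (fun y hy => by rw [mem_singleton_iff.1 hy]; exact hf x hx)
    (fun y hy => by rw [mem_singleton_iff.1 hy]; exact hφ x hx)
    (fun k _ y hy => by rw [mem_singleton_iff.1 hy]; exact hb k x hx) (fun v hv1 hv2 y hy => by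
      obtain rfl := mem_singleton_iff.1 hy
      rw [DW_smul_frame hV t v (hf y hx), norm_smul, norm_pow, ht,
        Real.norm_of_nonneg (by positivity), ← pow_mul]
      refine (mul_le_mul_of_nonneg_left (h v y hx) (by positivity)).trans ?_
      rw [mul_left_comm]
      have e : η ^ (2 * a * v.length) * η⁻¹ ^ (a * (v.length + 1)) ≤ 1 := by
        have := eta_pow_mul_inv_pow_le h0 h1 (p := 2 * a * v.length) (q := a * (v.length + 1))
          (r := 0) (by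
            calc a * (v.length + 1) + 0 ≤ a * (2 * v.length) := Nat.mul_le_mul_left a (by omega)
              _ = 2 * a * v.length := by ring)
        rwa [pow_zero] at this
      exact (mul_le_of_le_one_right (csum_nonneg C n)
        e).trans' (mul_le_mul_of_nonneg_right (le_csum C hv2) (by positivity))) w le_rfl x rfl
  have hsm : ContMDiffAt (𝓡 2) 𝓘(ℝ, E') ∞ (fun y => φ (f y)) x :=
    (hφ x hx).comp_contMDiffAt (hf x hx)
  rw [DW_smul_frame hV t w hsm, norm_smul, norm_pow,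
    Real.norm_of_nonneg (by positivity), mul_one, ← hn, ht, ← pow_mul] at h'
  calc ‖DW V w (fun y => φ (f y)) x‖
      = η⁻¹ ^ (2 * a * n) * (η ^ (2 * a * n) * ‖DW V w (fun y => φ (f y)) x‖) := by
        rw [← mul_assoc, ← mul_pow, inv_mul_cancel₀ h0.ne', one_pow, one_mul]
    _ ≤ η⁻¹ ^ (2 * a * n) * C' n := mul_le_mul_of_nonneg_left h' (by positivity)
    _ ≤ η⁻¹ ^ (2 * a * (n + 1)) * C' n := mul_le_mul_of_nonneg_right
        (pow_le_pow_right₀ (one_le_inv_eta h0 h1) (Nat.mul_le_mul_left _ n.le_succ)) (hC0 n)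
    _ = C' n * η⁻¹ ^ (2 * a * (n + 1)) := mul_comm _ _

/-- Composition with a map smooth near a compact set of values. -/
theorem exists_polyBdOn_comp_compact (N a : ℕ) (C : ℕ → ℝ) {E E' : Type} [NormedAddCommGroup E]
    [NormedSpace ℝ E] [NormedAddCommGroup E'] [NormedSpace ℝ E'] {φ : E → E'} {U S : Set E}
    (hU : IsOpen U) (hφ : ContDiffOn ℝ ∞ φ U) (hS : IsCompact S) (hSU : S ⊆ U) :
    ∃ C' : ℕ → ℝ, (∀ n, 0 ≤ C' n) ∧
      ∀ (M : Type) [TopologicalSpace M] [ChartedSpace R2 M] [IsManifold (𝓡 2) ∞ M]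
        (V : Frame M N) (η : ℝ) (s : Set M) (f : M → E), FrameSmooth V → 0 < η → η ≤ 1 →
        (∀ x ∈ s, ContMDiffAt (𝓡 2) 𝓘(ℝ, E) ∞ f x) → (∀ x ∈ s, f x ∈ S) → PolyBdOn V η a C s f →
        PolyBdOn V η (2 * a) C' s (fun y => φ (f y)) := by
  have h : ∀ k : ℕ, ∃ c, ∀ y ∈ S, ‖iteratedFDeriv ℝ k φ y‖ ≤ c := fun k => by
    refine hS.exists_bound_of_continuousOn ?_
    exact ((hφ.continuousOn_iteratedFDerivWithin (by exact_mod_cast le_top) hU.uniqueDiffOn).congr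
      fun y hy => (iteratedFDerivWithin_of_isOpen k hU hy).symm).mono hSU
  choose c hc using h
  obtain ⟨C', hC0, hC⟩ := exists_polyBdOn_comp N a C c
  exact ⟨C', hC0, fun M _ _ _ V η s f hV h0 h1 hf hfS h => hC φ M V η s f hV h0 h1 hf
    (fun x hx => hφ.contDiffAt (hU.mem_nhds (hSU (hfS x hx))))
    (fun k x hx => hc k _ (hfS x hx)) h⟩

/-- Composition with a map smooth on the whole space, at values in a fixed ball. -/
theorem exists_polyBdOn_comp_ball (N a : ℕ) (C : ℕ → ℝ) (R : ℝ) {E E' : Type}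
    [NormedAddCommGroup E] [NormedSpace ℝ E] [ProperSpace E] [NormedAddCommGroup E']
    [NormedSpace ℝ E'] {φ : E → E'} (hφ : ContDiff ℝ ∞ φ) :
    ∃ C' : ℕ → ℝ, (∀ n, 0 ≤ C' n) ∧
      ∀ (M : Type) [TopologicalSpace M] [ChartedSpace R2 M] [IsManifold (𝓡 2) ∞ M]
        (V : Frame M N) (η : ℝ) (s : Set M) (f : M → E), FrameSmooth V → 0 < η → η ≤ 1 →
        (∀ x ∈ s, ContMDiffAt (𝓡 2) 𝓘(ℝ, E) ∞ f x) → (∀ x ∈ s, ‖f x‖ ≤ R) → PolyBdOn V η a C s f →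
        PolyBdOn V η (2 * a) C' s (fun y => φ (f y)) := by
  obtain ⟨C', hC0, hC⟩ := exists_polyBdOn_comp_compact N a C isOpen_univ hφ.contDiffOn
    (isCompact_closedBall (0 : E) R) (subset_univ _)
  exact ⟨C', hC0, fun M _ _ _ V η s f hV h0 h1 hf hR h => hC M V η s f hV h0 h1 hf
    (fun x hx => mem_closedBall_zero_iff.2 (hR x hx)) h⟩

/-- Cosine and sine of an arbitrary phase. -/
theorem exists_polyBdOn_cos_sin (N a : ℕ) (C : ℕ → ℝ) : ∃ C' : ℕ → ℝ, (∀ n, 0 ≤ C' n) ∧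
    ∀ (M : Type) [TopologicalSpace M] [ChartedSpace R2 M] [IsManifold (𝓡 2) ∞ M]
      (V : Frame M N) (η : ℝ) (s : Set M) (f : M → ℝ), FrameSmooth V → 0 < η → η ≤ 1 →
      (∀ x ∈ s, ContMDiffAt (𝓡 2) 𝓘(ℝ, ℝ) ∞ f x) → PolyBdOn V η a C s f →
      PolyBdOn V η (2 * a) C' s (fun y => Real.cos (f y)) ∧
        PolyBdOn V η (2 * a) C' s (fun y => Real.sin (f y)) := by
  obtain ⟨C', hC0, hC⟩ := exists_polyBdOn_comp N a C fun _ => 1
  refine ⟨C', hC0, fun M _ _ _ V η s f hV h0 h1 hf h => ⟨?_, ?_⟩⟩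
  · exact hC Real.cos M V η s f hV h0 h1 hf (fun x _ => Real.contDiff_cos.contDiffAt) (fun k x _ => by
      rw [norm_iteratedFDeriv_eq_norm_iteratedDeriv, Real.norm_eq_abs]
      exact Real.abs_iteratedDeriv_cos_le_one k _) h
  · exact hC Real.sin M V η s f hV h0 h1 hf (fun x _ => Real.contDiff_sin.contDiffAt) (fun k x _ => by
      rw [norm_iteratedFDeriv_eq_norm_iteratedDeriv, Real.norm_eq_abs]
      exact Real.abs_iteratedDeriv_sin_le_one k _) h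

/-- Real powers of a function bounded below by a monomial. -/
theorem exists_polyBdOn_rpow (N a b : ℕ) (C : ℕ → ℝ) (r : ℝ) : ∃ C' : ℕ → ℝ, (∀ n, 0 ≤ C' n) ∧
    ∀ (M : Type) [TopologicalSpace M] [ChartedSpace R2 M] [IsManifold (𝓡 2) ∞ M]
      (V : Frame M N) (η : ℝ) (s : Set M) (f : M → ℝ), FrameSmooth V → 0 < η → η ≤ 1 →
      (∀ x ∈ s, ContMDiffAt (𝓡 2) 𝓘(ℝ, ℝ) ∞ f x) → (∀ x ∈ s, η ^ b ≤ f x) → PolyBdOn V η a C s f →
      PolyBdOn V η ((a + b) * (2 + ⌈|r|⌉₊)) C' s (fun y => f y ^ r) := by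
  choose c hc1 hc using fun n => exists_bdOn_rpow N n (max 1 (csum C n)) r
  have hc0 : ∀ n, 0 ≤ c n := fun n => zero_le_one.trans (hc1 n)
  set R := ⌈|r|⌉₊ with hR
  refine ⟨fun n => c n * max 1 |C 0| ^ R, fun n => mul_nonneg (hc0 n) (by positivity),
    fun M _ _ _ V η s f hV h0 h1 hf hlow h w x hx => ?_⟩
  set n := w.length with hn
  set t : ℝ := η ^ (2 * (a + b)) with ht
  have hpos : 0 < f x := lt_of_lt_of_le (pow_pos h0 b) (hlow x hx)
  have hbd : BdOn (fun i y => t • V i y) {x} n (max 1 (csum C n)) f f := fun v hv y hy => by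
    obtain rfl := mem_singleton_iff.1 hy
    rcases eq_or_ne v [] with rfl | hv0
    · rw [DW_nil, Real.norm_eq_abs, abs_of_pos hpos]
      exact le_mul_of_one_le_left hpos.le (le_max_left _ _)
    rw [DW_smul_frame hV t v (hf y hx), norm_smul, norm_pow, ht,
      Real.norm_of_nonneg (by positivity), ← pow_mul]
    refine (mul_le_mul_of_nonneg_left (h v y hx) (by positivity)).trans ?_
    rw [mul_left_comm]
    refine mul_le_mul ((le_csum C hv).trans (le_max_right _ _)) ?_ (by positivity)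
      (zero_le_one.trans (le_max_left _ _))
    refine (eta_pow_mul_inv_pow_le h0 h1 (r := b) ?_).trans (hlow y hx)
    have : 1 ≤ v.length := List.length_pos_of_ne_nil hv0
    nlinarith
  have h' := hc n M (fun i y => t • V i y) {x} f (frameSmooth_const_smul hV t) (fun y hy => by rw [mem_singleton_iff.1 hy]; exact hf x hx)
    (fun y hy => by rw [mem_singleton_iff.1 hy]; exact hpos) hbd w le_rfl x rfl
  have hsm : ContMDiffAt (𝓡 2) 𝓘(ℝ, ℝ) ∞ (fun y => f y ^ r) x :=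
    ContDiffAt.comp_contMDiffAt (Real.contDiffAt_rpow_const_of_ne hpos.ne') (hf x hx)
  rw [DW_smul_frame hV t w hsm, norm_smul, norm_pow, Real.norm_of_nonneg (by positivity), ← hn, ht,
    ← pow_mul] at h'
  set L : ℝ := max 1 |C 0| * η⁻¹ ^ (a + b) with hL
  have he := one_le_inv_eta h0 h1
  have hL1 : 1 ≤ L := one_le_mul_of_one_le_of_one_le (le_max_left _ _) (one_le_pow₀ he)
  have hpow : f x ^ r ≤ L ^ R := by
    rw [← Real.rpow_natCast L R]
    refine le_trans ?_ (Real.rpow_le_rpow_of_exponent_le hL1 (Nat.le_ceil |r|))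
    rcases le_total 0 r with hr | hr
    · rw [abs_of_nonneg hr]
      refine Real.rpow_le_rpow hpos.le ?_ hr
      calc f x ≤ ‖f x‖ := le_abs_self _
        _ ≤ C 0 * η⁻¹ ^ a := h.sup_le hx
        _ ≤ L := mul_le_mul ((le_abs_self _).trans (le_max_right _ _))
              (pow_le_pow_right₀ he (Nat.le_add_right a b)) (by positivity) (by positivity)
    · rw [abs_of_nonpos hr]
      have hinv : (f x)⁻¹ ≤ L := by
        refine (inv_anti₀ (pow_pos h0 b) (hlow x hx)).trans ?_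
        rw [← inv_pow]
        exact (pow_le_pow_right₀ he (Nat.le_add_left b a)).trans
          (le_mul_of_one_le_left (by positivity) (le_max_left _ _))
      calc f x ^ r = (f x)⁻¹ ^ (-r) := by
            rw [Real.inv_rpow hpos.le, Real.rpow_neg hpos.le, inv_inv]
        _ ≤ L ^ (-r) := Real.rpow_le_rpow (inv_nonneg.2 hpos.le) hinv (by linarith)
  calc ‖DW V w (fun y => f y ^ r) x‖
      = η⁻¹ ^ (2 * (a + b) * n) * (η ^ (2 * (a + b) * n) * ‖DW V w (fun y => f y ^ r) x‖) := by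
        rw [← mul_assoc, ← mul_pow, inv_mul_cancel₀ h0.ne', one_pow, one_mul]
    _ ≤ η⁻¹ ^ (2 * (a + b) * n) * (c n * L ^ R) :=
        mul_le_mul_of_nonneg_left (h'.trans (mul_le_mul_of_nonneg_left hpow (hc0 n)))
          (by positivity)
    _ = c n * max 1 |C 0| ^ R * η⁻¹ ^ (2 * (a + b) * n + (a + b) * R) := by
        rw [hL, mul_pow, ← pow_mul, pow_add]; ring
    _ ≤ _ := by
        refine mul_le_mul_of_nonneg_left (pow_le_pow_right₀ he ?_)
          (mul_nonneg (hc0 n) (by positivity))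
        nlinarith [Nat.zero_le ((a + b) * R * n)]

/-- The inverse of a function bounded below by a monomial. -/
theorem exists_polyBdOn_inv (N a b : ℕ) (C : ℕ → ℝ) : ∃ C' : ℕ → ℝ, (∀ n, 0 ≤ C' n) ∧
    ∀ (M : Type) [TopologicalSpace M] [ChartedSpace R2 M] [IsManifold (𝓡 2) ∞ M]
      (V : Frame M N) (η : ℝ) (s : Set M) (f : M → ℝ), FrameSmooth V → 0 < η → η ≤ 1 →
      (∀ x ∈ s, ContMDiffAt (𝓡 2) 𝓘(ℝ, ℝ) ∞ f x) → (∀ x ∈ s, η ^ b ≤ f x) → PolyBdOn V η a C s f →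
      PolyBdOn V η ((a + b) * 3) C' s (fun y => (f y)⁻¹) := by
  obtain ⟨C', hC0, hC⟩ := exists_polyBdOn_rpow N a b C (-1)
  refine ⟨C', hC0, fun M _ _ _ V η s f hV h0 h1 hf hlow h => ?_⟩
  have h' := hC M V η s f hV h0 h1 hf hlow h
  simp only [abs_neg, abs_one, Nat.ceil_one] at h'
  simpa only [Real.rpow_neg_one] using h'

/-- The square root of a function bounded below by a monomial. -/
theorem exists_polyBdOn_sqrt (N a b : ℕ) (C : ℕ → ℝ) : ∃ C' : ℕ → ℝ, (∀ n, 0 ≤ C' n) ∧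
    ∀ (M : Type) [TopologicalSpace M] [ChartedSpace R2 M] [IsManifold (𝓡 2) ∞ M]
      (V : Frame M N) (η : ℝ) (s : Set M) (f : M → ℝ), FrameSmooth V → 0 < η → η ≤ 1 →
      (∀ x ∈ s, ContMDiffAt (𝓡 2) 𝓘(ℝ, ℝ) ∞ f x) → (∀ x ∈ s, η ^ b ≤ f x) → PolyBdOn V η a C s f →
      PolyBdOn V η ((a + b) * 3) C' s (fun y => Real.sqrt (f y)) := by
  obtain ⟨C', hC0, hC⟩ := exists_polyBdOn_rpow N a b C (1 / 2)
  refine ⟨C', hC0, fun M _ _ _ V η s f hV h0 h1 hf hlow h => ?_⟩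
  have h' := hC M V η s f hV h0 h1 hf hlow h
  have e : ⌈|(1 / 2 : ℝ)|⌉₊ = 1 := by norm_num [Nat.ceil_eq_iff]
  simp only [e] at h'
  simpa only [Real.sqrt_eq_rpow] using h'

end Vale.Agent.P205.Full.Start
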