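import Vale.Agent.P205.Full.Start.TwistBasic

/-!
# START A5: the spiral identity

`F + (a/ν) spin(νS)` has differential `dF + a Z + E/ν` with `Z` normal, `⟪Z,Z⟫ = dψ ⊗ dψ` and
`E` bounded independently of `ν`.
-/

open scoped Manifold ContDiff RealInnerProductSpace Topology
open Bundle

namespace Vale.Agent.P205.Full.Start.Twist

noncomputable section

variable {M : Type} [TopologicalSpace M] [ChartedSpace R2 M] [IsManifold (𝓡 2) ∞ M]
variable {N : ℕ} {G : M → R3} {F : M → R4} {V : Frame M N}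

/-- Local unit sections of the line of `G` and of its image. -/
structure Chart (nd : NormalData G F) (U : Set M) (N3 : M → R3) (N4 : M → R4) : Prop where
  open_U : IsOpen U
  smooth3 : ContMDiffOn (𝓡 2) 𝓘(ℝ, R3) ∞ N3 U
  smooth4 : ContMDiffOn (𝓡 2) 𝓘(ℝ, R4) ∞ N4 U
  unit3 : ∀ x ∈ U, ‖N3 x‖ = 1
  line3 : ∀ x ∈ U, ∀ v, nLine G x v = ⟪N3 x, v⟫ • N3 x
  unit4 : ∀ x ∈ U, ‖N4 x‖ = 1
  normal4 : ∀ x ∈ U, N4 x ∈ (tanPlane F x)ᗮ
  orth4 : ∀ x ∈ U, ⟪nd.n1 x, N4 x⟫ = 0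
  O_eq : ∀ x ∈ U, ∀ v, nd.O x v = ⟪N3 x, v⟫ • N4 x

lemma nLine_ne_zero (hG : IsImm3 G) (x : M) : ∃ w : R3, nLine G x w ≠ 0 := by
  by_contra h
  push Not at h
  haveI := finiteDimensional_tangent x
  let L : TangentSpace (𝓡 2) x →ₗ[ℝ] R3 :=
    { toFun := dv G x
      map_add' := dv_add_vec G x
      map_smul' := dv_smul_vec G x }
  have htop : (LinearMap.range L)ᗮ = ⊥ := by
    rw [Submodule.eq_bot_iff]
    intro w hw
    rw [← Submodule.starProjection_eq_self_iff.2 hw]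
    exact h w
  have h2 := (LinearMap.range L).finrank_add_finrank_orthogonal
  rw [htop, finrank_bot, add_zero, finrank_euclideanSpace_fin,
    LinearMap.finrank_range_of_inj (f := L) (hG.2 x), finrank_tangent] at h2
  omega

lemma exists_chart (hG : IsImm3 G) (hF : IsImm4 F) (nd : NormalData G F) (x₀ : M) :
    ∃ U N3 N4, x₀ ∈ U ∧ Chart nd U N3 N4 := by
  obtain ⟨w, hw⟩ := nLine_ne_zero hG x₀
  have hsm : ∀ v, ContMDiff (𝓡 2) 𝓘(ℝ, R4) ∞ fun x => nd.O x v :=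
    fun v => nd.smooth_O.clm_apply contMDiff_const
  set U : Set M := {x | nd.O x w ≠ 0} with hU
  have hUo : IsOpen U := isOpen_ne_fun (hsm w).continuous continuous_const
  set N4 : M → R4 := fun x => ‖nd.O x w‖⁻¹ • nd.O x w with hN4
  set b := EuclideanSpace.basisFun (Fin 3) ℝ with hb
  set N3 : M → R3 := fun x => ∑ c, ⟪N4 x, nd.O x (b c)⟫ • b c with hN3
  have h4s : ContMDiffOn (𝓡 2) 𝓘(ℝ, R4) ∞ N4 U := fun x hx => by
    have hn : SmAt (fun y => ‖nd.O y w‖) x :=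
      ContDiffAt.comp_contMDiffAt (g := fun z : R4 => ‖z‖) (contDiffAt_norm ℝ hx) (hsm w x)
    exact ((hn.inv₀ (norm_ne_zero_iff.2 hx)).smul (hsm w x)).contMDiffWithinAt
  have h4u : ∀ x ∈ U, ‖N4 x‖ = 1 := fun x hx => norm_smul_inv_norm hx
  have h4n : ∀ x, N4 x ∈ (tanPlane F x)ᗮ := fun x =>
    Submodule.smul_mem _ _ (nd.normal_O x w).1
  have h4o : ∀ x, ⟪nd.n1 x, N4 x⟫ = 0 := fun x => by
    simp [hN4, real_inner_smul_right, (nd.normal_O x w).2]
  have h4e : ∀ x ∈ U, ∀ v, nd.O x v = ⟪N4 x, nd.O x v⟫ • N4 x := fun x hx v => by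
    have h := normal_expand hF (nd.normal_n1 x) (h4n x) (nd.normal_O x v).1 (nd.unit_n1 x)
      (h4u x hx) (h4o x)
    rwa [(nd.normal_O x v).2, zero_smul, zero_add] at h
  have h3i : ∀ x v, ⟪N3 x, v⟫ = ⟪N4 x, nd.O x v⟫ := fun x v => by
    conv_rhs => rw [← b.sum_repr v]
    simp only [hN3, sum_inner, map_sum, map_smul, inner_sum, real_inner_smul_left,
      real_inner_smul_right, OrthonormalBasis.repr_apply_apply]
    exact Finset.sum_congr rfl fun c _ => mul_comm _ _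
  have hO : ∀ x ∈ U, ∀ v, nd.O x v = ⟪N3 x, v⟫ • N4 x := fun x hx v => by
    rw [h3i]; exact h4e x hx v
  have hlen : ∀ x ∈ U, ∀ v, ‖nLine G x v‖ = |⟪N3 x, v⟫| := fun x hx v => by
    rw [← nd.iso_O, hO x hx, norm_smul, h4u x hx, mul_one, Real.norm_eq_abs]
  have hred : ∀ x ∈ U, ∀ v, ⟪N3 x, nLine G x v⟫ = ⟪N3 x, v⟫ := fun x _ v => by
    rw [h3i, h3i, nd.O_line]
  have hfix : ∀ x ∈ U, nLine G x (N3 x) = N3 x := fun x hx => ext_inner_right ℝ fun v => by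
    rw [nLine, Submodule.inner_starProjection_left_eq_right, ← nLine, hred x hx]
  have h3u : ∀ x ∈ U, ‖N3 x‖ = 1 := fun x hx => by
    have h := hlen x hx (N3 x)
    rw [hfix x hx, real_inner_self_eq_norm_sq, abs_of_nonneg (sq_nonneg _)] at h
    have hne : N3 x ≠ 0 := fun h0 => hx (by rw [hO x hx, h0, inner_zero_left, zero_smul])
    have hp : 0 < ‖N3 x‖ := norm_pos_iff.2 hne
    nlinarith
  refine ⟨U, N3, N4, fun h0 => hw (norm_eq_zero.1 ((nd.iso_O x₀ w).symm.trans (by simp [h0]))),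
    hUo, ?_, h4s, h3u, fun x hx v => ?_, h4u, fun x _ => h4n x, fun x _ => h4o x, hO⟩
  · intro x hx
    have h4a : SmAt N4 x := (h4s x hx).contMDiffAt (hUo.mem_nhds hx)
    exact (contMDiffAt_finsetSum fun c _ =>
      (smAt_inner h4a (hsm (b c) x)).smul contMDiffAt_const).contMDiffWithinAt
  · set z := nLine G x v - ⟪N3 x, v⟫ • N3 x with hz
    have hz1 : nLine G x z = z := by
      rw [hz, map_sub, map_smul, hfix x hx]
      congr 1
      exact Submodule.starProjection_eq_self_iff.2 (Submodule.starProjection_apply_mem _ v)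
    have h := hlen x hx z
    rw [hz1, hz, inner_sub_right, real_inner_smul_right, hred x hx, real_inner_self_eq_norm_sq,
      h3u x hx, one_pow, mul_one, sub_self, abs_zero, norm_eq_zero] at h
    exact sub_eq_zero.1 h

lemma sinc_mul_self (t : ℝ) : Real.sinc t * t = Real.sin t := by
  by_cases h : t = 0
  · simp [h]
  · rw [Real.sinc_of_ne_zero h, div_mul_cancel₀ _ h]

lemma sinc_abs (t : ℝ) : Real.sinc |t| = Real.sinc t := by
  rcases abs_choice t with h | h <;> simp [h]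

/-- The phase `ν S`. -/
def phS (ν : ℝ) (S : M → R3) : M → R3 := fun y => ν • S y

/-- The normal part of the differential of the spiral. -/
def zMap (nd : NormalData G F) (ν : ℝ) (S : M → R3) (x : M) (v : TangentSpace (𝓡 2) x) : R4 :=
  (-(Real.sinc ‖ν • S x‖ * (ν * ⟪S x, dv S x v⟫))) • nd.n1 x +
    Real.cos ‖ν • S x‖ • nd.O x (dv S x v)

variable {nd : NormalData G F} {U : Set M} {N3 : M → R3} {N4 : M → R4} {S : M → R3}

lemma section_eq (c : Chart nd U N3 N4) (hS : IsSection G S) {x : M} (hx : x ∈ U) :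
    S x = ⟪N3 x, S x⟫ • N3 x := (hS.2 x).symm.trans (c.line3 x hx (S x))

lemma norm_phase (c : Chart nd U N3 N4) (hS : IsSection G S) (ν : ℝ) {x : M} (hx : x ∈ U) :
    ‖ν • S x‖ = |ν * ⟪N3 x, S x⟫| := by
  conv_lhs => rw [section_eq c hS hx]
  rw [smul_smul, norm_smul, c.unit3 x hx, mul_one, Real.norm_eq_abs]

lemma spin_eq (c : Chart nd U N3 N4) (hS : IsSection G S) (ν : ℝ) {x : M} (hx : x ∈ U) :
    spin nd (phS ν S) x = Real.cos (ν * ⟪N3 x, S x⟫) • nd.n1 x +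
      Real.sin (ν * ⟪N3 x, S x⟫) • N4 x := by
  simp only [spin, phS, norm_phase c hS ν hx, Real.cos_abs, sinc_abs, real_inner_smul_right,
    c.O_eq x hx, smul_smul]
  rw [sinc_mul_self]

lemma dv_unit {f : M → R4} {x : M} (hf : SmAt f x) (h : ∀ᶠ y in 𝓝 x, ‖f y‖ = 1)
    (v : TangentSpace (𝓡 2) x) : ⟪f x, dv f x v⟫ = 0 := by
  have h1 := dv_inner hf hf v
  have h2 : dv (fun y => ⟪f y, f y⟫) x v = 0 := by
    rw [dv_congr (h.mono fun y hy => by
      show ⟪f y, f y⟫ = (1 : ℝ)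
      rw [real_inner_self_eq_norm_sq, hy, one_pow] :
      (fun y => ⟪f y, f y⟫) =ᶠ[𝓝 x] fun _ => (1 : ℝ)), dv_const]
  rw [h2, real_inner_comm (f x)] at h1
  linarith

/-- The scalar phase and its differential. -/
lemma section_dv (c : Chart nd U N3 N4) (hS : IsSection G S) {x : M} (hx : x ∈ U)
    (v : TangentSpace (𝓡 2) x) :
    ⟪N3 x, dv S x v⟫ = dv (fun y => ⟪N3 y, S y⟫) x v ∧
      ⟪S x, dv S x v⟫ = ⟪N3 x, S x⟫ * dv (fun y => ⟪N3 y, S y⟫) x v := by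
  have hU := c.open_U.mem_nhds hx
  have h3 : SmAt N3 x := (c.smooth3 x hx).contMDiffAt hU
  have hb : dv (fun y => ⟪N3 y, S y⟫) x v = ⟪N3 x, dv S x v⟫ + ⟪dv N3 x v, S x⟫ :=
    dv_bilin (innerSL ℝ) h3 (hS.1 x) v
  have hu : ⟪N3 x, dv N3 x v⟫ = 0 := by
    have h1 : dv (fun y => ⟪N3 y, N3 y⟫) x v = ⟪N3 x, dv N3 x v⟫ + ⟪dv N3 x v, N3 x⟫ :=
      dv_bilin (innerSL ℝ) h3 h3 v
    have h2 : dv (fun y => ⟪N3 y, N3 y⟫) x v = 0 := by
      rw [dv_congr ((Filter.eventually_of_mem hU fun y hy => by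
        show ⟪N3 y, N3 y⟫ = (1 : ℝ)
        rw [real_inner_self_eq_norm_sq, c.unit3 y hy, one_pow]) :
          (fun y => ⟪N3 y, N3 y⟫) =ᶠ[𝓝 x] fun _ => (1 : ℝ)), dv_const]
    rw [h2, real_inner_comm (N3 x)] at h1
    linarith
  have hz : ⟪dv N3 x v, S x⟫ = 0 := by
    have e := congrArg (fun z => ⟪dv N3 x v, z⟫) (section_eq c hS hx)
    simp only [real_inner_smul_right] at e
    rw [e, real_inner_comm (N3 x) (dv N3 x v), hu, mul_zero]
  rw [hz, add_zero] at hb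
  refine ⟨hb.symm, ?_⟩
  rw [hb]
  have e := congrArg (fun z => ⟪z, dv S x v⟫) (section_eq c hS hx)
  simpa only [real_inner_smul_left] using e

lemma zMap_eq (c : Chart nd U N3 N4) (hS : IsSection G S) (ν : ℝ) {x : M} (hx : x ∈ U)
    (v : TangentSpace (𝓡 2) x) :
    zMap nd ν S x v = ⟪N3 x, dv S x v⟫ •
      ((-Real.sin (ν * ⟪N3 x, S x⟫)) • nd.n1 x + Real.cos (ν * ⟪N3 x, S x⟫) • N4 x) := by
  have h := section_dv c hS hx v
  simp only [zMap, norm_phase c hS ν hx, Real.cos_abs, sinc_abs, c.O_eq x hx, h.2, ← h.1,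
    smul_add, smul_smul]
  rw [show Real.sinc (ν * ⟪N3 x, S x⟫) * (ν * (⟪N3 x, S x⟫ * ⟪N3 x, dv S x v⟫)) =
    Real.sinc (ν * ⟪N3 x, S x⟫) * (ν * ⟪N3 x, S x⟫) * ⟪N3 x, dv S x v⟫ by ring, sinc_mul_self]
  congr 1 <;> congr 1 <;> ring

lemma spin_smAt (hG : IsImm3 G) (hF : IsImm4 F) (nd : NormalData G F) (hS : IsSection G S) (ν : ℝ)
    (x : M) : SmAt (spin nd (phS ν S)) x := by
  obtain ⟨U, N3, N4, hx, c⟩ := exists_chart hG hF nd x
  have hU := c.open_U.mem_nhds hx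
  have h3 : SmAt N3 x := (c.smooth3 x hx).contMDiffAt hU
  have h4 : SmAt N4 x := (c.smooth4 x hx).contMDiffAt hU
  have hps : SmAt (fun y => ν * ⟪N3 y, S y⟫) x :=
    contMDiffAt_const.mul ((contDiff_inner.contDiffAt).comp_contMDiffAt (h3.prodMk_space (hS.1 x)))
  refine ContMDiffAt.congr_of_eventuallyEq ?_
    (Filter.eventually_of_mem hU fun y hy => spin_eq c hS ν hy)
  exact ((Real.contDiff_cos.contDiffAt.comp_contMDiffAt hps).smul (nd.smooth_n1 x)).add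
    ((Real.contDiff_sin.contDiffAt.comp_contMDiffAt hps).smul h4)

lemma dv_spin (c : Chart nd U N3 N4) (hS : IsSection G S) (ν : ℝ) {x : M} (hx : x ∈ U)
    (v : TangentSpace (𝓡 2) x) :
    dv (spin nd (phS ν S)) x v = ν • zMap nd ν S x v +
      (Real.cos (ν * ⟪N3 x, S x⟫) • dv nd.n1 x v + Real.sin (ν * ⟪N3 x, S x⟫) • dv N4 x v) := by
  have hU := c.open_U.mem_nhds hx
  have h3 : SmAt N3 x := (c.smooth3 x hx).contMDiffAt hU
  have h4 : SmAt N4 x := (c.smooth4 x hx).contMDiffAt hU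
  have hp : SmAt (fun y => ⟪N3 y, S y⟫) x :=
    (contDiff_inner.contDiffAt).comp_contMDiffAt (h3.prodMk_space (hS.1 x))
  have hps : SmAt (fun y => ν * ⟪N3 y, S y⟫) x := contMDiffAt_const.mul hp
  have hc : SmAt (fun y => Real.cos (ν * ⟪N3 y, S y⟫)) x :=
    Real.contDiff_cos.contDiffAt.comp_contMDiffAt hps
  have hs : SmAt (fun y => Real.sin (ν * ⟪N3 y, S y⟫)) x :=
    Real.contDiff_sin.contDiffAt.comp_contMDiffAt hps
  have hd : dv (fun y => ν * ⟪N3 y, S y⟫) x v = ν * ⟪N3 x, dv S x v⟫ := by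
    rw [(section_dv c hS hx v).1]
    exact (dv_bilin (ContinuousLinearMap.mul ℝ ℝ) (contMDiffAt_const (c := ν)) hp v).trans
      (by simp [dv_const])
  have hdc : dv (fun y => Real.cos (ν * ⟪N3 y, S y⟫)) x v =
      -Real.sin (ν * ⟪N3 x, S x⟫) * (ν * ⟪N3 x, dv S x v⟫) := by
    rw [dv_comp Real.contDiff_cos.contDiffAt hps, hd, (Real.hasDerivAt_cos _).hasFDerivAt.fderiv]
    simp [mul_comm]
  have hds : dv (fun y => Real.sin (ν * ⟪N3 y, S y⟫)) x v =
      Real.cos (ν * ⟪N3 x, S x⟫) * (ν * ⟪N3 x, dv S x v⟫) := by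
    rw [dv_comp Real.contDiff_sin.contDiffAt hps, hd, (Real.hasDerivAt_sin _).hasFDerivAt.fderiv]
    simp [mul_comm]
  have t1 : SmAt (fun y => Real.cos (ν * ⟪N3 y, S y⟫) • nd.n1 y) x := hc.smul (nd.smooth_n1 x)
  have t2 : SmAt (fun y => Real.sin (ν * ⟪N3 y, S y⟫) • N4 y) x := hs.smul h4
  rw [dv_congr (Filter.eventually_of_mem hU fun y hy => spin_eq c hS ν hy), dv_add t1 t2, dv_smul hc (nd.smooth_n1 x), dv_smul hs h4,
    hdc, hds, zMap_eq c hS ν hx v]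
  module

lemma norm_spin (c : Chart nd U N3 N4) (hS : IsSection G S) (ν : ℝ) {x : M} (hx : x ∈ U) :
    ‖spin nd (phS ν S) x‖ = 1 := by
  rw [spin_eq c hS ν hx, norm_eq_sqrt_real_inner]
  have n1 : ⟪nd.n1 x, nd.n1 x⟫ = 1 := by rw [real_inner_self_eq_norm_sq, nd.unit_n1 x, one_pow]
  have n2 : ⟪N4 x, N4 x⟫ = 1 := by rw [real_inner_self_eq_norm_sq, c.unit4 x hx, one_pow]
  simp only [inner_add_left, inner_add_right, real_inner_smul_left, real_inner_smul_right,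
    n1, n2, c.orth4 x hx, real_inner_comm (nd.n1 x) (N4 x)]
  rw [Real.sqrt_eq_one]
  linear_combination Real.cos_sq_add_sin_sq (ν * ⟪N3 x, S x⟫)

lemma zMap_props (hG : IsImm3 G) (hF : IsImm4 F) (nd : NormalData G F) (hS : IsSection G S)
    (ν : ℝ) (x : M) (v w : TangentSpace (𝓡 2) x) :
    ⟪dv F x v, zMap nd ν S x w⟫ = 0 ∧
      ⟪zMap nd ν S x v, zMap nd ν S x w⟫ =
        ⟪nLine G x (dv S x v), nLine G x (dv S x w)⟫ ∧
      ‖zMap nd ν S x v‖ ≤ ‖dv S x v‖ := by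
  obtain ⟨U, N3, N4, hx, c⟩ := exists_chart hG hF nd x
  set s := Real.sin (ν * ⟪N3 x, S x⟫)
  set q := Real.cos (ν * ⟪N3 x, S x⟫)
  have hq : q * q + s * s = 1 := by
    have := Real.cos_sq_add_sin_sq (ν * ⟪N3 x, S x⟫)
    linarith
  have e : ⟪(-s) • nd.n1 x + q • N4 x, (-s) • nd.n1 x + q • N4 x⟫ = (1 : ℝ) := by
    have n1 : ⟪nd.n1 x, nd.n1 x⟫ = 1 := by rw [real_inner_self_eq_norm_sq, nd.unit_n1 x, one_pow]
    have n2 : ⟪N4 x, N4 x⟫ = 1 := by rw [real_inner_self_eq_norm_sq, c.unit4 x hx, one_pow]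
    simp only [inner_add_left, inner_add_right, real_inner_smul_left, real_inner_smul_right,
      n1, n2, c.orth4 x hx, real_inner_comm (nd.n1 x) (N4 x)]
    linarith
  refine ⟨?_, ?_, ?_⟩
  · rw [zMap_eq c hS ν hx, real_inner_smul_right, inner_add_right, real_inner_smul_right,
      real_inner_smul_right, mem_normal.1 (nd.normal_n1 x), mem_normal.1 (c.normal4 x hx)]
    ring
  · rw [zMap_eq c hS ν hx, zMap_eq c hS ν hx, c.line3 x hx, c.line3 x hx, real_inner_smul_left,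
      real_inner_smul_right, e, real_inner_smul_left, real_inner_smul_right,
      real_inner_self_eq_norm_sq, c.unit3 x hx]
    ring
  · have hn : ‖(-s) • nd.n1 x + q • N4 x‖ = 1 := by
      rw [norm_eq_sqrt_real_inner, e, Real.sqrt_one]
    rw [zMap_eq c hS ν hx, norm_smul, hn, mul_one, Real.norm_eq_abs]
    simpa [c.unit3 x hx] using abs_real_inner_le_norm (N3 x) (dv S x v)

/-- The spiral with amplitude `a` and frequency `ν`. -/
def spiral (nd : NormalData G F) (ν : ℝ) (a : M → ℝ) (S : M → R3) : M → R4 :=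
  fun x => F x + (ν⁻¹ * a x) • spin nd (phS ν S) x

lemma spiral_smooth (hG : IsImm3 G) (hF : IsImm4 F) (nd : NormalData G F) {a : M → ℝ}
    (ha : ContMDiff (𝓡 2) 𝓘(ℝ, ℝ) ∞ a) (hS : IsSection G S) (ν : ℝ) :
    ContMDiff (𝓡 2) 𝓘(ℝ, R4) ∞ (spiral nd ν a S) := fun x =>
  (hF.1 x).add (((contMDiffAt_const (c := ν⁻¹)).mul (ha x)).smul (spin_smAt hG hF nd hS ν x))

/-- The derivative of the image of a unit section only sees the derivative of `O`. -/
lemma norm_dv_N4_le (c : Chart nd U N3 N4) {x : M} (hx : x ∈ U) (v : TangentSpace (𝓡 2) x) :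
    ‖dv N4 x v‖ ≤ ‖dv nd.O x v‖ := by
  have hU := c.open_U.mem_nhds hx
  have h3 : SmAt N3 x := (c.smooth3 x hx).contMDiffAt hU
  have e : N4 =ᶠ[𝓝 x] fun y => nd.O y (N3 y) := Filter.eventually_of_mem hU fun y hy => by
    show N4 y = nd.O y (N3 y)
    rw [c.O_eq y hy, real_inner_self_eq_norm_sq, c.unit3 y hy, one_pow, one_smul]
  have h : dv (fun y => nd.O y (N3 y)) x v = nd.O x (dv N3 x v) + dv nd.O x v (N3 x) :=
    dv_bilin (ContinuousLinearMap.id ℝ (R3 →L[ℝ] R4)) (nd.smooth_O x) h3 v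
  have hu : ⟪N3 x, dv N3 x v⟫ = 0 := by
    have h1 : dv (fun y => ⟪N3 y, N3 y⟫) x v = ⟪N3 x, dv N3 x v⟫ + ⟪dv N3 x v, N3 x⟫ :=
      dv_bilin (innerSL ℝ) h3 h3 v
    have h2 : dv (fun y => ⟪N3 y, N3 y⟫) x v = 0 := by
      rw [dv_congr ((Filter.eventually_of_mem hU fun y hy => by
        show ⟪N3 y, N3 y⟫ = (1 : ℝ)
        rw [real_inner_self_eq_norm_sq, c.unit3 y hy, one_pow]) :
          (fun y => ⟪N3 y, N3 y⟫) =ᶠ[𝓝 x] fun _ => (1 : ℝ)), dv_const]
    rw [h2, real_inner_comm (N3 x)] at h1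
    linarith
  rw [dv_congr e, h, c.O_eq x hx (dv N3 x v), hu, zero_smul, zero_add]
  exact ((dv nd.O x v).le_opNorm _).trans (by rw [c.unit3 x hx, mul_one])

/-- **The spiral identity.** -/
theorem spiral_dv (hG : IsImm3 G) (hF : IsImm4 F) (nd : NormalData G F) {a : M → ℝ}
    (ha : ContMDiff (𝓡 2) 𝓘(ℝ, ℝ) ∞ a) (hS : IsSection G S) {ν : ℝ} (hν : 0 < ν) (x : M)
    (v : TangentSpace (𝓡 2) x) :
    ‖a x • zMap nd ν S x v‖ ≤ |a x| * ‖dv S x v‖ ∧
      ‖dv (spiral nd ν a S) x v - (dv F x v + a x • zMap nd ν S x v)‖ ≤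
        (‖dv a x v‖ + |a x| * (‖dv nd.n1 x v‖ + ‖dv nd.O x v‖)) / ν := by
  obtain ⟨U, N3, N4, hx, c⟩ := exists_chart hG hF nd x
  refine ⟨?_, ?_⟩
  · rw [norm_smul, Real.norm_eq_abs]
    exact mul_le_mul_of_nonneg_left (zMap_props hG hF nd hS ν x v v).2.2 (abs_nonneg _)
  · have hu := spin_smAt hG hF nd hS ν x
    have hν' : SmAt (fun y => ν⁻¹ * a y) x := contMDiffAt_const.mul (ha x)
    have hda : dv (fun y => ν⁻¹ * a y) x v = ν⁻¹ * dv a x v := by
      exact (dv_bilin (ContinuousLinearMap.mul ℝ ℝ) (contMDiffAt_const (c := ν⁻¹)) (ha x) v).trans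
        (by simp [dv_const])
    have key : dv (spiral nd ν a S) x v - (dv F x v + a x • zMap nd ν S x v) =
        ν⁻¹ • (dv a x v • spin nd (phS ν S) x +
          a x • (Real.cos (ν * ⟪N3 x, S x⟫) • dv nd.n1 x v +
            Real.sin (ν * ⟪N3 x, S x⟫) • dv N4 x v)) := by
      unfold spiral
      have t : SmAt (fun y => (ν⁻¹ * a y) • spin nd (phS ν S) y) x := hν'.smul hu
      rw [dv_add (hF.1 x) t, dv_smul hν' hu, hda, dv_spin c hS ν hx v]
      match_scalars <;> field_simp <;> ring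
    rw [key, norm_smul, norm_inv, Real.norm_of_nonneg hν.le, inv_mul_eq_div]
    gcongr
    refine (norm_add_le _ _).trans ?_
    rw [norm_smul, norm_smul, norm_spin c hS ν hx, mul_one, Real.norm_eq_abs (a x)]
    refine add_le_add le_rfl (mul_le_mul_of_nonneg_left ((norm_add_le _ _).trans ?_) (abs_nonneg _))
    rw [norm_smul, norm_smul, Real.norm_eq_abs, Real.norm_eq_abs]
    exact add_le_add (mul_le_of_le_one_left (norm_nonneg _) (Real.abs_cos_le_one _))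
      ((mul_le_of_le_one_left (norm_nonneg _) (Real.abs_sin_le_one _)).trans (norm_dv_N4_le c hx v))

end

end Vale.Agent.P205.Full.Start.Twist
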