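import Vale.Agent.P205.Full.Start.TwistSpiral

/-!
# START A5: one twist

For `ν` large the spiral is an immersion, carries new normal data, and its metric is
`pullV F + a² dψ ⊗ dψ` up to any prescribed error.
-/

open scoped Manifold ContDiff RealInnerProductSpace Topology
open Bundle

namespace Vale.Agent.P205.Full.Start.Twist

noncomputable section

variable {M : Type} [TopologicalSpace M] [ChartedSpace R2 M] [IsManifold (𝓡 2) ∞ M]
variable {N : ℕ} {G : M → R3} {F F' : M → R4} {V : Frame M N}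

lemma smAt_apply {L : M → R4 →L[ℝ] R4} {u : M → R4} {x : M} (hL : SmAt L x) (hu : SmAt u x) :
    SmAt (fun y => L y (u y)) x := by
  have h : ContDiff ℝ ∞ fun p : (R4 →L[ℝ] R4) × R4 => p.1 p.2 :=
    isBoundedBilinearMap_apply.contDiff
  have h1 : ContMDiffAt (𝓡 2) 𝓘(ℝ, (R4 →L[ℝ] R4) × R4) ∞ (fun y => (L y, u y)) x :=
    hL.prodMk_space hu
  exact ContDiffAt.comp_contMDiffAt (g := fun p : (R4 →L[ℝ] R4) × R4 => p.1 p.2)
    (f := fun y => (L y, u y)) (x := x) h.contDiffAt h1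

/-- Projection of the old even normal on the new normal plane, normalised. -/
def newN (nd : NormalData G F) (F' : M → R4) (x : M) : R4 :=
  ‖nProj F' x (nd.n1 x)‖⁻¹ • nProj F' x (nd.n1 x)

/-- Projection on the new odd line, after the old `O`. -/
def preO (nd : NormalData G F) (F' : M → R4) (x : M) : R3 →L[ℝ] R4 :=
  (nProj F' x - rankOne' (newN nd F' x) (newN nd F' x)).comp (nd.O x)

/-- The size of `preO` on the unit vector of the line. -/
def sizeO (nd : NormalData G F) (F' : M → R4) (x : M) : ℝ :=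
  Real.sqrt (∑ c, ‖preO nd F' x (EuclideanSpace.basisFun (Fin 3) ℝ c)‖ ^ 2)

/-- The new odd normal. -/
def newO (nd : NormalData G F) (F' : M → R4) (x : M) : R3 →L[ℝ] R4 :=
  (sizeO nd F' x)⁻¹ • preO nd F' x

lemma nProj_self {x : M} {w : R4} (hw : w ∈ (tanPlane F x)ᗮ) : nProj F x w = w :=
  Submodule.starProjection_eq_self_iff.2 hw

/-- The derivative of `F'` never turns to the other side of that of `F`. -/
def Forward (F F' : M → R4) : Prop :=
  ∀ x v, dv F x v ≠ 0 → 0 < ⟪dv F x v, dv F' x v⟫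

lemma normal_ne_tan (hF : IsImm4 F) (hfw : Forward F F') {x : M} {w : R4}
    (hw : w ∈ (tanPlane F x)ᗮ) (h : w ∈ tanPlane F' x) : w = 0 := by
  obtain ⟨v, rfl⟩ := h
  show dv F' x v = 0
  by_cases h0 : dv F x v = 0
  · rw [eq_zero_of_dv hF h0]
    exact map_zero _
  · exact absurd (mem_normal.1 hw v) (hfw x v h0).ne'

lemma forward_inj (hF : IsImm4 F) (hfw : Forward F F') (x : M) :
    Function.Injective (mfderiv (𝓡 2) 𝓘(ℝ, R4) F' x) := by
  rw [injective_iff_map_eq_zero]
  intro v hv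
  by_contra hv0
  have h := hfw x v fun h => hv0 (eq_zero_of_dv hF h)
  rw [show dv F' x v = 0 from hv, inner_zero_right] at h
  exact lt_irrefl _ h

lemma mem_tan_of_nProj_zero {x : M} {w : R4} (h : nProj F' x w = 0) : w ∈ tanPlane F' x := by
  rw [nProj, Submodule.starProjection_orthogonal_val, sub_eq_zero] at h
  exact Submodule.starProjection_eq_self_iff.1 h.symm

/-- The new normal data. -/
lemma newData_exists (hV : FrameSmooth V) (hs : FrameSpans V) (hG : IsImm3 G) (hF : IsImm4 F)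
    (hF' : IsImm4 F') (nd : NormalData G F) (hfw : Forward F F') :
    ∃ nd' : NormalData G F', nd'.n1 = newN nd F' ∧ nd'.O = newO nd F' ∧
      ∀ x, F' =ᶠ[𝓝 x] F → nd'.n1 x = nd.n1 x ∧ nd'.O x = nd.O x := by
  have hp0 : ∀ x, nProj F' x (nd.n1 x) ≠ 0 := fun x h => by
    have h2 := normal_ne_tan hF hfw (nd.normal_n1 x) (mem_tan_of_nProj_zero h)
    simpa [h2] using nd.unit_n1 x
  have hunit : ∀ x, ‖newN nd F' x‖ = 1 := fun x => norm_smul_inv_norm (hp0 x)
  have hnorm : ∀ x, newN nd F' x ∈ (tanPlane F' x)ᗮ := fun x =>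
    Submodule.smul_mem _ _ (Submodule.starProjection_apply_mem _ _)
  have hpre : ∀ x v, preO nd F' x v =
      nProj F' x (nd.O x v) - ⟪newN nd F' x, nd.O x v⟫ • newN nd F' x := fun x v => by
    simp [preO, rankOne'_apply]
  have hperp : ∀ x v, preO nd F' x v ∈ (tanPlane F' x)ᗮ ∧ ⟪newN nd F' x, preO nd F' x v⟫ = 0 := by
    intro x v
    rw [hpre]
    refine ⟨sub_mem (Submodule.starProjection_apply_mem _ _) (Submodule.smul_mem _ _ (hnorm x)), ?_⟩
    rw [inner_sub_right, real_inner_smul_right, real_inner_self_eq_norm_sq, hunit x, one_pow,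
      mul_one, nProj, ← Submodule.inner_starProjection_left_eq_right, ← nProj,
      nProj_self (hnorm x), sub_self]
  have hline : ∀ x, ∃ (n3 : R3) (Q : R4), ‖n3‖ = 1 ∧ Q ≠ 0 ∧
      (∀ v, nLine G x v = ⟪n3, v⟫ • n3) ∧ (∀ v, preO nd F' x v = ⟪n3, v⟫ • Q) ∧
      sizeO nd F' x = ‖Q‖ ∧ (∀ v, nd.O x v = ⟪n3, v⟫ • nd.O x n3) ∧
      (F' =ᶠ[𝓝 x] F → preO nd F' x = nd.O x ∧ ‖Q‖ = 1) := by
    intro x
    obtain ⟨U, N3, N4, hx, c⟩ := exists_chart hG hF nd x
    have h33 : ⟪N3 x, N3 x⟫ = 1 := by rw [real_inner_self_eq_norm_sq, c.unit3 x hx, one_pow]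
    set Q := preO nd F' x (N3 x) with hQdef
    have hON : nd.O x (N3 x) = N4 x := by rw [c.O_eq x hx, h33, one_smul]
    have hQ : ∀ v, preO nd F' x v = ⟪N3 x, v⟫ • Q := fun v => by
      rw [hQdef, hpre, hpre, hON, c.O_eq x hx, map_smul, real_inner_smul_right, smul_sub, mul_smul]
    have hQ0 : Q ≠ 0 := fun h => by
      rw [hQdef, hpre, hON, sub_eq_zero] at h
      set k := ⟪newN nd F' x, N4 x⟫ * ‖nProj F' x (nd.n1 x)‖⁻¹ with hk
      have h2 : nProj F' x (N4 x - k • nd.n1 x) = 0 := by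
        rw [map_sub, map_smul, h, hk, newN, smul_smul, sub_self]
      have h3 := normal_ne_tan hF hfw
        (sub_mem (c.normal4 x hx) (Submodule.smul_mem _ _ (nd.normal_n1 x)))
        (mem_tan_of_nProj_zero h2)
      have h4 := congrArg (fun z => ⟪N4 x, z⟫) h3
      simp only [inner_sub_right, real_inner_smul_right, real_inner_self_eq_norm_sq,
        c.unit4 x hx, real_inner_comm (nd.n1 x) (N4 x), c.orth4 x hx, inner_zero_right] at h4
      norm_num at h4
    refine ⟨N3 x, Q, c.unit3 x hx, hQ0, c.line3 x hx, hQ, ?_, fun v => by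
      rw [hON, c.O_eq x hx], fun heq => ?_⟩
    · have e := (EuclideanSpace.basisFun (Fin 3) ℝ).sum_sq_norm_inner_right (N3 x)
      simp only [sizeO, hQ, norm_smul, mul_pow, ← Finset.sum_mul]
      rw [show (∑ i, ‖⟪N3 x, EuclideanSpace.basisFun (Fin 3) ℝ i⟫‖ ^ 2) = 1 by
        simp only [real_inner_comm (N3 x)] at e ⊢
        rw [e, c.unit3 x hx, one_pow], one_mul, Real.sqrt_sq (norm_nonneg _)]
    · have htan : tanPlane F' x = tanPlane F x := by
        simp only [tanPlane]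
        rw [heq.mfderiv_eq]
      have hnp : nProj F' x = nProj F x := by simp only [nProj, htan]
      have hnn : newN nd F' x = nd.n1 x := by
        rw [newN, hnp, nProj_self (nd.normal_n1 x), nd.unit_n1 x, inv_one, one_smul]
      have hsame : preO nd F' x = nd.O x := ContinuousLinearMap.ext fun v => by
        rw [hpre, hnp, hnn, nProj_self (nd.normal_O x v).1, (nd.normal_O x v).2, zero_smul,
          sub_zero]
      exact ⟨hsame, by rw [hQdef, hsame, hON]; exact c.unit4 x hx⟩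
  have hn1s : ContMDiff (𝓡 2) 𝓘(ℝ, R4) ∞ (newN nd F') := fun x => by
    have hp := smAt_apply (smAt_nProj hV hs hF' x) (nd.smooth_n1 x)
    have hn : SmAt (fun y => ‖nProj F' y (nd.n1 y)‖) x :=
      ContDiffAt.comp_contMDiffAt (g := fun z : R4 => ‖z‖) (contDiffAt_norm ℝ (hp0 x)) hp
    exact (hn.inv₀ (norm_ne_zero_iff.2 (hp0 x))).smul hp
  have hpres : ContMDiff (𝓡 2) 𝓘(ℝ, R3 →L[ℝ] R4) ∞ (preO nd F') := fun x => by
    have hL : SmAt (fun y => nProj F' y - rankOne' (newN nd F' y) (newN nd F' y)) x :=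
      (smAt_nProj hV hs hF' x).sub (smAt_rankOne' (hn1s x) (hn1s x))
    exact hL.clm_comp (nd.smooth_O x)
  have hsz : ∀ x, 0 < sizeO nd F' x := fun x => by
    obtain ⟨n3, Q, -, hQ0, -, -, hsq, -⟩ := hline x
    rw [hsq]; exact norm_pos_iff.2 hQ0
  have hszs : ContMDiff (𝓡 2) 𝓘(ℝ, ℝ) ∞ (sizeO nd F') := fun x => by
    have hsum : SmAt (fun y => ∑ c, ‖preO nd F' y (EuclideanSpace.basisFun (Fin 3) ℝ c)‖ ^ 2) x :=
      contMDiffAt_finsetSum fun c _ => (contDiff_norm_sq ℝ).contDiffAt.comp_contMDiffAt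
        ((hpres x).clm_apply contMDiffAt_const)
    exact ContDiffAt.comp_contMDiffAt (g := Real.sqrt)
      (Real.contDiffAt_sqrt (fun h => (hsz x).ne' (by rw [sizeO, h, Real.sqrt_zero]))) hsum
  refine ⟨{
    n1 := newN nd F'
    O := newO nd F'
    smooth_n1 := hn1s
    smooth_O := fun x => ((hszs x).inv₀ (hsz x).ne').smul (hpres x)
    unit_n1 := hunit
    normal_n1 := hnorm
    normal_O := fun x v => ⟨by
        simp only [newO, ContinuousLinearMap.smul_apply]
        exact Submodule.smul_mem _ _ (hperp x v).1,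
      by simp [newO, real_inner_smul_right, (hperp x v).2]⟩
    O_line := fun x v => by
      simp only [newO, preO, ContinuousLinearMap.smul_apply, ContinuousLinearMap.comp_apply,
        nd.O_line]
    iso_O := fun x v => ?_ }, rfl, rfl, fun x heq => ?_⟩
  · obtain ⟨n3, Q, h3, hQ0, hl, hQ, hsq, -⟩ := hline x
    rw [newO, ContinuousLinearMap.smul_apply, hQ, hl, hsq, norm_smul, norm_smul, norm_smul, h3,
      norm_inv, norm_norm]
    field_simp [norm_ne_zero_iff.2 hQ0]
  · obtain ⟨n3, Q, -, -, -, -, hsq, -, hloc⟩ := hline x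
    obtain ⟨hsame, hQ1⟩ := hloc heq
    refine ⟨?_, ?_⟩
    · show newN nd F' x = nd.n1 x
      have hnp : nProj F' x = nProj F x := by
        simp only [nProj, tanPlane, heq.mfderiv_eq]
      rw [newN, hnp, nProj_self (nd.normal_n1 x), nd.unit_n1 x, inv_one, one_smul]
    · show newO nd F' x = nd.O x
      rw [newO, hsq, hQ1, inv_one, one_smul, hsame]

/-- **One twist**, with explicit constants: `L₁` bounds the main term and `L ≥ L₁` all
derivatives of the data against that of `F`. -/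
theorem step_bounds (hG : IsImm3 G) (hF : IsImm4 F) (nd : NormalData G F) {a : M → ℝ}
    (ha : ContMDiff (𝓡 2) 𝓘(ℝ, ℝ) ∞ a) {S : M → R3} (hS : IsSection G S) {ν L₁ L B : ℝ}
    (hν : 1 ≤ ν) (hL0 : 0 ≤ L) (hL : L < ν) (hB : ∀ i x, ‖D V i F x‖ ≤ B)
    (hL₁ : L₁ ≤ L) (hd : ∀ x v, |a x| * ‖dv S x v‖ ≤ L₁ * ‖dv F x v‖ ∧
      ‖dv a x v‖ + |a x| * (‖dv nd.n1 x v‖ + ‖dv nd.O x v‖) ≤ L * ‖dv F x v‖) :
    IsImm4 (spiral nd ν a S) ∧ Forward F (spiral nd ν a S) ∧
      (∀ x v, (1 - L / ν) * ‖dv F x v‖ ^ 2 ≤ ⟪dv F x v, dv (spiral nd ν a S) x v⟫) ∧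
      (∀ x v, (1 - L / ν) * ‖dv F x v‖ ≤ ‖dv (spiral nd ν a S) x v‖) ∧
      (∀ x v, ‖dv (spiral nd ν a S) x v‖ ≤ (1 + L₁ + L / ν) * ‖dv F x v‖) ∧
      (∀ x, ‖spiral nd ν a S x - F x‖ ≤ |a x| / ν) ∧
      (∀ i k x, |pullV (spiral nd ν a S) V i k x -
          (pullV F V i k x + a x ^ 2 * dSecSq G V S i k x)| ≤
        (2 * (1 + L) + L) * L * B * B / ν) ∧
      ∀ x ∉ tsupport a, spiral nd ν a S =ᶠ[𝓝 x] F := by
  have hν0 : 0 < ν := by linarith
  have hC : ∀ x v, ‖a x • zMap nd ν S x v‖ ≤ L * ‖dv F x v‖ ∧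
      ‖dv (spiral nd ν a S) x v - (dv F x v + a x • zMap nd ν S x v)‖ ≤ L / ν * ‖dv F x v‖ := by
    intro x v
    obtain ⟨h1, h2⟩ := spiral_dv hG hF nd ha hS hν0 x v
    exact ⟨h1.trans ((hd x v).1.trans (mul_le_mul_of_nonneg_right hL₁ (norm_nonneg _))),
      h2.trans ((div_le_div_of_nonneg_right (hd x v).2 hν0.le).trans (le_of_eq (by ring)))⟩
  have hLν : L / ν < 1 := (div_lt_one hν0).2 hL
  have hinner : ∀ x v, (1 - L / ν) * ‖dv F x v‖ ^ 2 ≤
      ⟪dv F x v, dv (spiral nd ν a S) x v⟫ := fun x v => by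
    obtain ⟨-, h2⟩ := hC x v
    set e := dv (spiral nd ν a S) x v - (dv F x v + a x • zMap nd ν S x v) with he
    have hsplit : dv (spiral nd ν a S) x v = dv F x v + a x • zMap nd ν S x v + e := by rw [he]; abel
    rw [hsplit, inner_add_right, inner_add_right, real_inner_smul_right,
      (zMap_props hG hF nd hS ν x v v).1, real_inner_self_eq_norm_sq]
    have h3 := neg_abs_le ⟪dv F x v, e⟫
    have h4 := abs_real_inner_le_norm (dv F x v) e
    nlinarith [mul_le_mul_of_nonneg_left h2 (norm_nonneg (dv F x v))]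
  have hfw : Forward F (spiral nd ν a S) := fun x v hv =>
    lt_of_lt_of_le (mul_pos (by linarith) (pow_pos (norm_pos_iff.2 hv) 2)) (hinner x v)
  have hlow : ∀ x v, (1 - L / ν) * ‖dv F x v‖ ≤ ‖dv (spiral nd ν a S) x v‖ := fun x v => by
    rcases eq_or_ne (dv F x v) 0 with h | h
    · rw [h, norm_zero, mul_zero]; exact norm_nonneg _
    · have hp := norm_pos_iff.2 h
      refine le_of_mul_le_mul_left ?_ hp
      calc ‖dv F x v‖ * ((1 - L / ν) * ‖dv F x v‖) = (1 - L / ν) * ‖dv F x v‖ ^ 2 := by ring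
        _ ≤ _ := (hinner x v).trans (real_inner_le_norm _ _)
  refine ⟨⟨spiral_smooth hG hF nd ha hS ν, forward_inj hF hfw⟩, hfw, hinner, hlow, fun x v => ?_,
    fun x => ?_, fun i k x => ?_, fun x hx => ?_⟩
  · obtain ⟨z1, -⟩ := spiral_dv hG hF nd ha hS hν0 x v
    have z2 := (hC x v).2
    have hsplit : dv (spiral nd ν a S) x v = (dv F x v + a x • zMap nd ν S x v) +
        (dv (spiral nd ν a S) x v - (dv F x v + a x • zMap nd ν S x v)) := by abel
    rw [hsplit]
    refine (norm_add_le _ _).trans ((add_le_add (norm_add_le _ _) le_rfl).trans ?_)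
    linarith [(hd x v).1]
  · obtain ⟨U, N3, N4, hx, c⟩ := exists_chart hG hF nd x
    simp only [spiral, add_sub_cancel_left, norm_smul, norm_mul, norm_inv,
      Real.norm_of_nonneg hν0.le, norm_spin c hS ν hx, Real.norm_eq_abs, mul_one]
    rw [inv_mul_eq_div]
  · set A : TangentSpace (𝓡 2) x → R4 := fun v => dv F x v + a x • zMap nd ν S x v with hA
    set Ev : TangentSpace (𝓡 2) x → R4 := fun v => dv (spiral nd ν a S) x v - A v with hEv
    have hsplit : ∀ v, dv (spiral nd ν a S) x v = A v + Ev v := fun v => by simp [hEv]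
    have main : pullV F V i k x + a x ^ 2 * dSecSq G V S i k x = ⟪A (V i x), A (V k x)⟫ := by
      obtain ⟨p1, p2, -⟩ := zMap_props hG hF nd hS ν x (V i x) (V k x)
      obtain ⟨p3, -, -⟩ := zMap_props hG hF nd hS ν x (V k x) (V i x)
      rw [real_inner_comm] at p3
      simp only [hA, inner_add_left, inner_add_right, real_inner_smul_left, real_inner_smul_right,
        p1, p2, p3]
      show ⟪dv F x (V i x), dv F x (V k x)⟫ +
        a x ^ 2 * ⟪nLine G x (dv S x (V i x)), nLine G x (dv S x (V k x))⟫ = _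
      ring
    rw [main]
    show |⟪dv (spiral nd ν a S) x (V i x), dv (spiral nd ν a S) x (V k x)⟫ -
      ⟪A (V i x), A (V k x)⟫| ≤ _
    rw [hsplit, hsplit, inner_add_left, inner_add_right (A (V i x)) (A (V k x)),
      inner_add_right (Ev (V i x)) (A (V k x))]
    set p := ‖dv F x (V i x)‖
    set q := ‖dv F x (V k x)‖
    have hp : p ≤ B := hB i x
    have hq : q ≤ B := hB k x
    have hp0 : 0 ≤ p := norm_nonneg _
    have hq0 : 0 ≤ q := norm_nonneg _
    have bA : ∀ l, ‖A (V l x)‖ ≤ (1 + L) * ‖dv F x (V l x)‖ := fun l =>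
      ((norm_add_le _ _).trans (add_le_add le_rfl (hC x (V l x)).1)).trans (le_of_eq (by ring))
    have bE : ∀ l, ‖Ev (V l x)‖ ≤ L / ν * ‖dv F x (V l x)‖ := fun l => (hC x (V l x)).2
    have t1 := (abs_real_inner_le_norm (A (V i x)) (Ev (V k x))).trans
      (mul_le_mul (bA i) (bE k) (norm_nonneg _) ((norm_nonneg _).trans (bA i)))
    have t2 := (abs_real_inner_le_norm (Ev (V i x)) (A (V k x))).trans
      (mul_le_mul (bE i) (bA k) (norm_nonneg _) ((norm_nonneg _).trans (bE i)))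
    have t3 := (abs_real_inner_le_norm (Ev (V i x)) (Ev (V k x))).trans
      (mul_le_mul (bE i) (bE k) (norm_nonneg _) ((norm_nonneg _).trans (bE i)))
    obtain ⟨u1, v1⟩ := abs_le.1 t1
    obtain ⟨u2, v2⟩ := abs_le.1 t2
    obtain ⟨u3, v3⟩ := abs_le.1 t3
    have hpq : (2 * (1 + L) + L / ν) * (L / ν) * (p * q) ≤
        (2 * (1 + L) + L) * L * B * B / ν := by
      have h5 : L / ν ≤ L := div_le_self hL0 hν
      have hLn : 0 ≤ L / ν := div_nonneg hL0 hν0.le
      calc (2 * (1 + L) + L / ν) * (L / ν) * (p * q)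
          ≤ (2 * (1 + L) + L) * (L / ν) * (B * B) :=
            mul_le_mul (mul_le_mul_of_nonneg_right (by linarith) hLn)
              (mul_le_mul hp hq hq0 (hp0.trans hp)) (mul_nonneg hp0 hq0) (by positivity)
        _ = _ := by ring
    have e1 : (1 + L) * p * (L / ν * q) + L / ν * p * ((1 + L) * q) + L / ν * p * (L / ν * q) =
        (2 * (1 + L) + L / ν) * (L / ν) * (p * q) := by ring
    rw [abs_le]
    constructor <;> linarith
  · exact (notMem_tsupport_iff_eventuallyEq.1 hx).mono fun y hy => by simp [spiral, hy]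

end

end Vale.Agent.P205.Full.Start.Twist
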