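import Vale.Agent.P205.Full.Stage.CalculusBd
import Vale.Agent.P205.Full.Start.Scaled

/-!
# P205 full, START A6: uniform bounds for parametrised families (helper36)

`UB W s K μ f` : the maps `f p` are smooth and `DW`-bounded to order `K` by `μ p` on `s p` in the
frame `W p`, with one constant for all parameters `p`.
-/

open scoped Manifold ContDiff RealInnerProductSpace Topology
open Bundle Filter

set_option linter.unusedSectionVars false

namespace Vale.Agent.P205.Full.Start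

variable {M : Type} [TopologicalSpace M] [ChartedSpace R2 M] [IsManifold (𝓡 2) ∞ M]
variable {E F G : Type} [NormedAddCommGroup E] [NormedSpace ℝ E]
  [NormedAddCommGroup F] [NormedSpace ℝ F] [NormedAddCommGroup G] [NormedSpace ℝ G]
variable {ι : Type} {N K L : ℕ} {W : ι → Frame M N} {s : ι → Set M}
variable {μ μ₁ μ₂ : ι → M → ℝ} {f g : ι → M → E}

/-- Uniform bounds for a family. -/
def UB (W : ι → Frame M N) (s : ι → Set M) (K : ℕ) (μ : ι → M → ℝ) (f : ι → M → E) : Prop :=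
  (∀ p, ContMDiff (𝓡 2) 𝓘(ℝ, E) ∞ (f p)) ∧
    ∃ C : ℝ, 0 ≤ C ∧ ∀ p, BdOn (W p) (s p) K C (μ p) (f p)

theorem UB.smooth (h : UB W s K μ f) (p : ι) : ContMDiff (𝓡 2) 𝓘(ℝ, E) ∞ (f p) := h.1 p

theorem UB.mono_order (h : UB W s K μ f) (hL : L ≤ K) : UB W s L μ f :=
  ⟨h.1, h.2.imp fun _ hC => ⟨hC.1, fun p => (hC.2 p).mono_order hL⟩⟩

theorem UB.mono (h : UB W s K μ₁ f) {c : ℝ} (hc : 0 ≤ c)
    (hμ : ∀ p, ∀ x ∈ s p, μ₁ p x ≤ c * μ₂ p x) : UB W s K μ₂ f := by
  obtain ⟨hs, C, hC, hb⟩ := h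
  exact ⟨hs, C * c, mul_nonneg hC hc, fun p => (hb p).mono_weight hC (hμ p)⟩

theorem UB.congr (h : UB W s K μ f) (hg : ∀ p, ContMDiff (𝓡 2) 𝓘(ℝ, E) ∞ (g p))
    (hfg : ∀ p, ∀ x ∈ s p, f p =ᶠ[𝓝 x] g p) : UB W s K μ g :=
  ⟨hg, h.2.imp fun _ hC => ⟨hC.1, fun p => (hC.2 p).congr (hfg p)⟩⟩

variable (hW : ∀ p, FrameSmooth (W p))
include hW

theorem UB.add (h₁ : UB W s K μ f) (h₂ : UB W s K μ g) :
    UB W s K μ (fun p y => f p y + g p y) := by
  obtain ⟨hf, C₁, hC₁, hb₁⟩ := h₁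
  obtain ⟨hg, C₂, hC₂, hb₂⟩ := h₂
  exact ⟨fun p => (hf p).add (hg p), C₁ + C₂, add_nonneg hC₁ hC₂,
    fun p => BdOn.add (hW p) (fun x _ => hf p x) (fun x _ => hg p x) (hb₁ p) (hb₂ p)⟩

theorem UB.sub (h₁ : UB W s K μ f) (h₂ : UB W s K μ g) :
    UB W s K μ (fun p y => f p y - g p y) := by
  obtain ⟨hf, C₁, hC₁, hb₁⟩ := h₁
  obtain ⟨hg, C₂, hC₂, hb₂⟩ := h₂
  exact ⟨fun p => (hf p).sub (hg p), C₁ + C₂, add_nonneg hC₁ hC₂,
    fun p => BdOn.sub (hW p) (fun x _ => hf p x) (fun x _ => hg p x) (hb₁ p) (hb₂ p)⟩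

theorem UB.neg (h : UB W s K μ f) : UB W s K μ (fun p y => -f p y) := by
  obtain ⟨hf, C, hC, hb⟩ := h
  exact ⟨fun p x => contMDiffAt_neg_fun (hf p x), C, hC,
    fun p => BdOn.neg (hW p) (fun x _ => hf p x) (hb p)⟩

theorem UB.const_smul (r : ι → ℝ) (h : UB W s K μ f) :
    UB W s K (fun p x => |r p| * μ p x) (fun p y => r p • f p y) := by
  obtain ⟨hf, C, hC, hb⟩ := h
  refine ⟨fun p x => (r p • ContinuousLinearMap.id ℝ E).contDiff.contDiffAt.comp_contMDiffAt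
    (hf p x), C, hC, fun p => ?_⟩
  exact (BdOn.const_smul (hW p) (r p) (fun x _ => hf p x) (hb p)).mono_bound
    fun x _ => le_of_eq (by ring)

theorem UB.clm (T : E →L[ℝ] F) (h : UB W s K μ f) : UB W s K μ (fun p y => T (f p y)) := by
  obtain ⟨hf, C, hC, hb⟩ := h
  exact ⟨fun p x => T.contDiff.contDiffAt.comp_contMDiffAt (hf p x), ‖T‖ * C,
    mul_nonneg (norm_nonneg T) hC, fun p => BdOn.clm (hW p) T (fun x _ => hf p x) (hb p)⟩

theorem UB.bilin (T : E →L[ℝ] F →L[ℝ] G) {g : ι → M → F} (h₁ : UB W s K μ₁ f)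
    (h₂ : UB W s K μ₂ g) :
    UB W s K (fun p x => μ₁ p x * μ₂ p x) (fun p y => T (f p y) (g p y)) := by
  obtain ⟨hf, C₁, hC₁, hb₁⟩ := h₁
  obtain ⟨hg, C₂, hC₂, hb₂⟩ := h₂
  exact ⟨fun p x => contMDiffAt_bilin T (hf p x) (hg p x), 2 ^ K * ‖T‖ * C₁ * C₂,
    by positivity, fun p => BdOn.bilin (hW p) T (fun u v => T.le_opNorm₂ u v) (norm_nonneg T)
      (fun x _ => hf p x) (fun x _ => hg p x) (hb₁ p) (hb₂ p)⟩

theorem UB.smul {a : ι → M → ℝ} (h₁ : UB W s K μ₁ a) (h₂ : UB W s K μ₂ f) :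
    UB W s K (fun p x => μ₁ p x * μ₂ p x) (fun p y => a p y • f p y) :=
  UB.bilin hW (ContinuousLinearMap.lsmul ℝ ℝ) h₁ h₂

theorem UB.mul {a b : ι → M → ℝ} (h₁ : UB W s K μ₁ a) (h₂ : UB W s K μ₂ b) :
    UB W s K (fun p x => μ₁ p x * μ₂ p x) (fun p y => a p y * b p y) :=
  UB.bilin hW (ContinuousLinearMap.mul ℝ ℝ) h₁ h₂

theorem UB.inner {H : Type} [NormedAddCommGroup H] [InnerProductSpace ℝ H] {u v : ι → M → H}
    (h₁ : UB W s K μ₁ u) (h₂ : UB W s K μ₂ v) :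
    UB W s K (fun p x => μ₁ p x * μ₂ p x) (fun p y => ⟪u p y, v p y⟫) :=
  UB.bilin hW (innerSL ℝ : H →L[ℝ] H →L[ℝ] ℝ) h₁ h₂

theorem UB.deriv (h : UB W s (K + 1) μ f) (i : Fin N) :
    UB W s K μ (fun p => D (W p) i (f p)) := by
  obtain ⟨hf, C, hC, hb⟩ := h
  exact ⟨fun p => contMDiff_D (hW p) i (hf p), C, hC, fun p => (hb p).deriv i⟩

theorem UB.succ (hf : ∀ p, ContMDiff (𝓡 2) 𝓘(ℝ, E) ∞ (f p)) {C : ℝ}
    (hμ : ∀ p, ∀ x ∈ s p, 0 ≤ μ p x) (h₀ : ∀ p, ∀ x ∈ s p, ‖f p x‖ ≤ C * μ p x)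
    (h₁ : ∀ i, UB W s K μ (fun p => D (W p) i (f p))) : UB W s (K + 1) μ f := by
  choose hs c hc hb using h₁
  have hsum : ∀ i, c i ≤ ∑ j, c j :=
    fun i => Finset.single_le_sum (fun j _ => hc j) (Finset.mem_univ i)
  refine ⟨hf, max C 0 + ∑ j, c j, add_nonneg (le_max_right _ _) (Finset.sum_nonneg fun j _ => hc j),
    fun p => bdOn_succ_iff.2 ⟨fun x hx => (h₀ p x hx).trans ?_, fun i => (hb i p).mono_const
      ((hsum i).trans (le_add_of_nonneg_left (le_max_right _ _))) (hμ p)⟩⟩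
  exact mul_le_mul_of_nonneg_right ((le_max_left _ _).trans
    (le_add_of_nonneg_right (Finset.sum_nonneg fun j _ => hc j))) (hμ p x hx)

theorem UB.sum {κ : Type} [Fintype κ] {u : κ → ι → M → E} (h : ∀ k, UB W s K μ (u k)) :
    UB W s K μ (fun p y => ∑ k, u k p y) := by
  choose hs c hc hb using h
  exact ⟨fun p x => contMDiffAt_finsetSum fun k _ => hs k p x, ∑ k, c k,
    Finset.sum_nonneg fun k _ => hc k, fun p => BdOn.sum (hW p) Finset.univ
      (fun k _ x _ => hs k p x) (fun k _ => hb k p)⟩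

theorem UB.comp {φ : E → F} {O : Set E} (hO : IsOpen O) (hφ : ContDiffOn ℝ ∞ φ O) {S : Set E}
    (hS : IsCompact S) (hSO : S ⊆ O) (hfS : ∀ p, ∀ x ∈ s p, f p x ∈ S)
    {g : ι → M → F} (hg : ∀ p, ContMDiff (𝓡 2) 𝓘(ℝ, F) ∞ (g p))
    (hgf : ∀ p, ∀ x ∈ s p, (fun y => φ (f p y)) =ᶠ[𝓝 x] g p)
    (h : UB W s K (fun _ _ => 1) f) : UB W s K (fun _ _ => 1) g := by
  obtain ⟨hf, C, hC, hb⟩ := h
  obtain ⟨C', hC', hc⟩ := exists_bdOn_comp N K C hO hφ hS hSO
  exact ⟨hg, C', hC', fun p => (hc M (W p) (s p) (f p) (hW p) (fun x _ => hf p x) (hfS p)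
    (hb p)).congr (hgf p)⟩

theorem UB.const (c : ι → E) : UB W s K (fun p _ => ‖c p‖) (fun p _ => c p) :=
  ⟨fun _ => contMDiff_const, 1, zero_le_one, fun p => bdOn_const (c p) fun _ _ =>
    (le_of_eq (one_mul _).symm)⟩

/-- Cosine and sine of a phase with bounded derivatives. -/
theorem UB.trig {φ : ι → M → ℝ} (hφ : ∀ p, ContMDiff (𝓡 2) 𝓘(ℝ, ℝ) ∞ (φ p))
    (h : ∀ i, UB W s K (fun _ _ => (1 : ℝ)) (fun p => D (W p) i (φ p))) (a b : ℝ) :
    UB W s K (fun _ _ => (1 : ℝ)) (fun p y => a * Real.cos (φ p y) + b * Real.sin (φ p y)) := by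
  have hd : ContDiff ℝ ∞ fun t => a * Real.cos t + b * Real.sin t :=
    (contDiff_const.mul Real.contDiff_cos).add (contDiff_const.mul Real.contDiff_sin)
  have hs : ∀ p, ContMDiff (𝓡 2) 𝓘(ℝ, ℝ) ∞
      (fun y => a * Real.cos (φ p y) + b * Real.sin (φ p y)) :=
    fun p => hd.contMDiff.comp (hφ p)
  have h0 : ∀ p, ∀ x ∈ s p, ‖a * Real.cos (φ p x) + b * Real.sin (φ p x)‖ ≤
      (|a| + |b|) * (1 : ℝ) := fun p x _ => by
    rw [mul_one, Real.norm_eq_abs]
    refine (abs_add_le _ _).trans (add_le_add ?_ ?_) <;> rw [abs_mul]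
    · exact mul_le_of_le_one_right (abs_nonneg a) (Real.abs_cos_le_one _)
    · exact mul_le_of_le_one_right (abs_nonneg b) (Real.abs_sin_le_one _)
  induction K generalizing a b with
  | zero => exact ⟨hs, |a| + |b|, by positivity, fun p => bdOn_zero_iff.2 (h0 p)⟩
  | succ K ih =>
    refine UB.succ hW hs (fun _ _ _ => zero_le_one) h0 fun i => ?_
    have hd' : ContDiff ℝ ∞ fun t => b * Real.cos t + -a * Real.sin t :=
      (contDiff_const.mul Real.contDiff_cos).add (contDiff_const.mul Real.contDiff_sin)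
    have hi := ih (fun j => (h j).mono_order K.le_succ) b (-a) hd'
      (fun p => hd'.contMDiff.comp (hφ p)) (fun p x _ => by
        rw [mul_one, Real.norm_eq_abs]
        refine (abs_add_le _ _).trans (add_le_add ?_ ?_) <;> rw [abs_mul]
        · exact mul_le_of_le_one_right (abs_nonneg b) (Real.abs_cos_le_one _)
        · exact mul_le_of_le_one_right (abs_nonneg _) (Real.abs_sin_le_one _))
    refine ((UB.mul hW hi ((h i).mono_order K.le_succ)).mono zero_le_one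
      fun p x _ => by simp).congr (fun p => contMDiff_D (hW p) i (hs p)) fun p x _ => ?_
    filter_upwards [eventually_mdiffAt (hφ p x)] with y hy
    have hda : HasDerivAt (fun t => a * Real.cos t + b * Real.sin t)
        (b * Real.cos (φ p y) + -a * Real.sin (φ p y)) (φ p y) := by
      refine ((((Real.hasDerivAt_cos _).const_mul a)).add
        ((Real.hasDerivAt_sin _).const_mul b)).congr_deriv ?_
      ring
    rw [D_comp hda.differentiableAt hy, hda.hasFDerivAt.fderiv]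
    simp [mul_comm]

omit hW

theorem DW_scaled_const {V : Frame M N} (hV : FrameSmooth V) (r : ℝ) {u : M → E}
    (hu : ContMDiff (𝓡 2) 𝓘(ℝ, E) ∞ u) (w : List (Fin N)) :
    DW (scaled (fun _ => r) V) w u = fun x => r ^ w.length • DW V w u x := by
  induction w with
  | nil => funext x; simp
  | cons i w ih =>
    funext x
    rw [DW_cons, D_scaled, ih,
      D_const_smul _ ((contMDiff_DW hV w hu).mdifferentiableAt (by simp)), smul_smul,
      List.length_cons, pow_succ', ← DW_cons]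

/-- From bounds in the fixed frame to bounds in the frame scaled by `τ`. -/
theorem UB.of_fixed {V : Frame M N} (hV : FrameSmooth V) {τ : ι → M → ℝ}
    (hτ0 : ∀ p, ∀ x ∈ s p, 0 < τ p x) (hτs : ∀ p, ContMDiff (𝓡 2) 𝓘(ℝ, ℝ) ∞ (τ p))
    (hτ : ∀ k, k + 1 ≤ K → UB (fun p => scaled (τ p) V) s k τ τ)
    (hf : ∀ p, ContMDiff (𝓡 2) 𝓘(ℝ, E) ∞ (f p)) {C : ℝ} (hC : 0 ≤ C)
    (hμ0 : ∀ p, ∀ x ∈ s p, 0 ≤ μ p x)
    (h : ∀ p, ∀ w : List (Fin N), w.length ≤ K → ∀ x ∈ s p,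
      ‖DW V w (f p) x‖ * τ p x ^ w.length ≤ C * μ p x) :
    UB (fun p => scaled (τ p) V) s K μ f := by
  induction K generalizing f μ C with
  | zero => exact ⟨hf, C, hC, fun p => bdOn_zero_iff.2 fun x hx => by
      simpa using h p [] le_rfl x hx⟩
  | succ K ih =>
    have hW : ∀ p, FrameSmooth (scaled (τ p) V) := fun p => frameSmooth_scaled hV (hτs p)
    have h0 : ∀ p, ∀ x ∈ s p, ‖f p x‖ ≤ C * μ p x := fun p x hx => by
      simpa using h p [] (Nat.zero_le _) x hx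
    have hτK := hτ K le_rfl
    have hD : ∀ i, UB (fun p => scaled (τ p) V) s K μ
        (fun p => D (scaled (τ p) V) i (f p)) := fun i => by
      have hg : UB (fun p => scaled (τ p) V) s K (fun p x => μ p x / τ p x)
          (fun p => D V i (f p)) := by
        refine ih (fun k hk => hτ k (hk.trans K.le_succ)) (fun p => contMDiff_D hV i (hf p)) hC
          (fun p x hx => div_nonneg (hμ0 p x hx) (hτ0 p x hx).le) fun p w hw x hx => ?_
        have hh := h p (w ++ [i]) (by simp only [List.length_append, List.length_singleton]; omega)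
          x hx
        rw [DW_snoc, List.length_append, List.length_singleton, pow_succ] at hh
        rw [mul_div_assoc', le_div_iff₀ (hτ0 p x hx), mul_assoc]
        exact hh
      refine ((UB.smul hW hτK hg).mono zero_le_one fun p x hx => le_of_eq ?_).congr
        (fun p => contMDiff_D (hW p) i (hf p)) fun p x _ => ?_
      · rw [one_mul, mul_div_cancel₀ _ (hτ0 p x hx).ne']
      · exact Eventually.of_forall fun y => (D_scaled (τ p) V i (f p) y).symm
    exact UB.succ hW hf hμ0 h0 hD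

/-- Bounds by powers of `Q` together with the first few orders give bounds at scale `τ`. -/
theorem UB.low {V : Frame M N} (hV : FrameSmooth V) {τ : ι → M → ℝ} {Q : ι → ℝ}
    (hQ : ∀ p, 1 ≤ Q p) (hτ0 : ∀ p, ∀ x ∈ s p, 0 < τ p x)
    (hQτ : ∀ p, ∀ x ∈ s p, Q p * τ p x ≤ 1)
    (hτs : ∀ p, ContMDiff (𝓡 2) 𝓘(ℝ, ℝ) ∞ (τ p))
    (hτ : ∀ k, k + 1 ≤ K → UB (fun p => scaled (τ p) V) s k τ τ) {e n : ℕ}
    (hf : UB (fun p => scaled (fun _ => (Q p)⁻¹) V) s K (fun p _ => Q p ^ e) f)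
    (hμ : ∀ p, ∀ x ∈ s p, 0 ≤ μ p x) {c : ℝ}
    (hn : ∀ p, ∀ x ∈ s p, (Q p * τ p x) ^ n * Q p ^ e ≤ c * μ p x)
    (h0 : ∀ p, ∀ w : List (Fin N), w.length < n → ∀ x ∈ s p,
      ‖DW V w (f p) x‖ * τ p x ^ w.length ≤ c * μ p x) :
    UB (fun p => scaled (τ p) V) s K μ f := by
  obtain ⟨hfs, C, hC, hb⟩ := hf
  refine UB.of_fixed hV hτ0 hτs hτ hfs
    (mul_nonneg (add_nonneg hC zero_le_one) (le_max_right c 0)) hμ fun p w hw x hx => ?_
  have hQ0 := zero_lt_one.trans_le (hQ p)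
  have hc : ∀ r ≤ c * μ p x, r ≤ max c 0 * μ p x := fun r hr =>
    hr.trans (mul_le_mul_of_nonneg_right (le_max_left c 0) (hμ p x hx))
  have hmm : 0 ≤ max c 0 * μ p x := mul_nonneg (le_max_right c 0) (hμ p x hx)
  rcases lt_or_ge w.length n with hlt | hge
  · refine (hc _ (h0 p w hlt x hx)).trans ?_
    rw [mul_assoc]
    exact le_mul_of_one_le_left hmm (le_add_of_nonneg_left hC)
  · have h1 := hb p w hw x hx
    rw [DW_scaled_const hV _ (hfs p) w, norm_smul, Real.norm_eq_abs,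
      abs_of_nonneg (by positivity), inv_pow, inv_mul_le_iff₀ (by positivity)] at h1
    have hQτ0 : 0 ≤ Q p * τ p x := mul_nonneg hQ0.le (hτ0 p x hx).le
    calc ‖DW V w (f p) x‖ * τ p x ^ w.length
        ≤ Q p ^ w.length * (C * Q p ^ e) * τ p x ^ w.length :=
          mul_le_mul_of_nonneg_right h1 (pow_nonneg (hτ0 p x hx).le _)
      _ = C * ((Q p * τ p x) ^ w.length * Q p ^ e) := by ring
      _ ≤ C * ((Q p * τ p x) ^ n * Q p ^ e) := by
          refine mul_le_mul_of_nonneg_left (mul_le_mul_of_nonneg_right ?_ (by positivity)) hC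
          exact pow_le_pow_of_le_one hQτ0 (hQτ p x hx) hge
      _ ≤ C * (max c 0 * μ p x) := mul_le_mul_of_nonneg_left (hc _ (hn p x hx)) hC
      _ ≤ (C + 1) * max c 0 * μ p x := by
          rw [mul_assoc]
          exact mul_le_mul_of_nonneg_right (le_add_of_nonneg_right zero_le_one) hmm

end Vale.Agent.P205.Full.Start
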